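import Vale.Agent.P237.Petty.Cor.Grid.N18.HighCert

/-!
# P237: a cell in dimension 18, subdivisions
-/

namespace Vale.Agent.P237.Petty.Cor.Grid.N18.High

def covers0 : cell.Covers table row0.1 :=
  ⟨(.cut .d 0 (.cut .v 16777216 (.cut .v 8388608 (.cut .v 4194304 (.cut .v 2097152 (.void 6 ⟨0, 0, 100000, 0, 0, 0, 0, 0, 0, ⟨0, 0⟩, 0⟩ 0 0) (.pos 7 .mm ⟨0, 0, 155766, 0, 6291013, 0, 0, 0, 0, ⟨0, 0⟩, 0⟩ 0 0)) (.pos 5 .mm ⟨0, 0, 0, 0, 0, 0, 0, 0, 0, ⟨0, 0⟩, 0⟩ 0 0)) (.cut .d (-8388608) (.pos 3 .mm ⟨0, 0, 0, 0, 0, 0, 0, 0, 0, ⟨0, 0⟩, 0⟩ 0 0) (.pos 3 .mm ⟨0, 0, 0, 0, 0, 0, 0, 0, 0, ⟨0, 0⟩, 0⟩ 0 0))) (.cut .v 67108864 (.cut .v 33554432 (.cut .v 25165824 (.cut .v 20971520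 (.cut .v 18874368 (.pos 19 .mp ⟨0, 0, 0, 0, 0, 0, 0, 0, 0, ⟨0, 0⟩, 0⟩ 0 0) (.pos 20 .mp ⟨0, 0, 0, 0, 0, 0, 0, 0, 0, ⟨0, 0⟩, 0⟩ 0 0)) (.pos 18 .mp ⟨0, 0, 0, 0, 0, 0, 0, 0, 0, ⟨0, 0⟩, 0⟩ 0 0)) (.pos 16 .mp ⟨0, 0, 0, 0, 0, 0, 0, 0, 0, ⟨0, 0⟩, 0⟩ 0 0)) (.pos 14 .mp ⟨3761591, 0, 0, 0, 0, 0, 0, 0, 0, ⟨0, 0⟩, 0⟩ 0 0)) (.pos 12 .mp ⟨9245809, 3381880, 0, 0, 0, 0, 0, 0, 0, ⟨0, 0⟩, 0⟩ 0 0))) (.cut .v 16777216 (.cut .v 8388608 (.cut .v 4194304 (.cut .v 2097152 (.void 6 ⟨0, 0, 52513, 0, 47487, 0, 0, 0, 0, ⟨0, 0⟩, 0⟩ 0 0) (.pos 7 .pm ⟨0, 0, 0, 0, 3380171, 0, 0, 0, 0, ⟨0, 0⟩, 0⟩ 0 0)) (.pos 5 .pm ⟨0, 0, 0, 0, 3719562, 0, 0, 0, 0, ⟨0, 0⟩, 0⟩ 0 0)) (.pos 3 .pm ⟨0, 0, 0, 0,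 283918, 0, 0, 0, 387774, ⟨0, 0⟩, 14107901⟩ 0 0)) (.cut .v 67108864 (.cut .d 138195100 (.cut .d 69097550 (.cut .d 34548775 (.cut .v 33554432 (.cut .d 17274387 (.cut .v 25165824 (.cut .d 8637193 (.cut .v 20971520 (.cut .v 18874368 (.cut .d 4318596 (.pos 19 .pp ⟨0, 0, 0, 0, 2886385, 0, 0, 0, 0, ⟨0, 0⟩, 0⟩ 0 0) (.pos 19 .pp ⟨0, 0, 0, 0, 1798734, 0, 0, 0, 0, ⟨0, 0⟩, 0⟩ 0 0)) (.pos 20 .pp ⟨0, 0, 0, 0, 0, 0, 0, 0, 0, ⟨0, 0⟩, 0⟩ 0 0)) (.pos 18 .pp ⟨0, 0, 0, 0, 0, 0, 0, 0, 0, ⟨0, 0⟩, 0⟩ 0 0)) (.pos 15 .pp ⟨0, 0, 0, 0, 2308964, 0, 0, 0, 0, ⟨0, 0⟩, 0⟩ 0 0)) (.pos 16 .pp ⟨0, 0, 0, 0, 0, 0, 0, 0, 0, ⟨0, 0⟩, 0⟩ 0 0)) (.pos 13 .pp ⟨0, 0, 0, 0, 2709146, 0, 0, 0, 1088015,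 ⟨0, 0⟩, 19951585⟩ 0 0)) (.cut .v 50331648 (.pos 23 .pp ⟨3761591, 0, 0, 0, 0, 0, 0, 0, 0, ⟨0, 0⟩, 0⟩ 0 0) (.cut .v 58720256 (.cut .v 54525952 (.pos 27 .pp ⟨0, 0, 0, 0, 0, 0, 0, 0, 1143444, ⟨0, 0⟩, 29646338⟩ 0 0) (.pos 28 .pp ⟨0, 57579538, 0, 0, 0, 0, 757602, 0, 0, ⟨0, 0⟩, 0⟩ 0 0)) (.pos 26 .pp ⟨7963985, 146217524, 0, 0, 0, 0, 0, 0, 0, ⟨0, 0⟩, 0⟩ 0 0)))) (.cut .v 33554432 (.pos 13 .pp ⟨0, 0, 0, 0, 6143894, 0, 0, 0, 1088015, ⟨0, 0⟩, 19951585⟩ 0 0) (.cut .v 50331648 (.pos 23 .pp ⟨0, 0, 0, 0, 23483968, 0, 0, 0, 1234260, ⟨0, 0⟩, 26257762⟩ 0 0) (.cut .d 51823162 (.cut .v 58720256 (.cut .d 43185968 (.cut .v 54525952 (.pos 27 .pp ⟨0, 43444609, 0, 0, 0, 0, 0, 0, 1143444,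 ⟨0, 0⟩, 29646338⟩ 0 0) (.cut .d 38867371 (.cut .v 56623104 (.pos 29 .pp ⟨0, 58775440, 0, 0, 0, 0, 730545, 0, 0, ⟨0, 0⟩, 0⟩ 0 0) (.pos 30 .pp ⟨7646770, 77381362, 0, 0, 0, 0, 0, 0, 0, ⟨0, 0⟩, 0⟩ 0 0)) (.pos 28 .pp ⟨0, 68035073, 0, 0, 0, 0, 920331, 0, 0, ⟨0, 0⟩, 0⟩ 0 0))) (.pos 25 .pp ⟨0, 66458426, 0, 0, 0, 0, 760470, 0, 0, ⟨0, 0⟩, 0⟩ 0 0)) (.void 26 ⟨0, 100000, 0, 0, 0, 0, 0, 0, 0, ⟨0, 0⟩, 0⟩ 0 0)) (.pos 24 .pp ⟨6157855, 107896912, 0, 0, 0, 0, 0, 0, 126835, ⟨0, 0⟩, 31225917⟩ 0 0))))) (.pos 11 .pp ⟨0, 51396654, 0, 0, 0, 0, 984882, 0, 53759708, ⟨0, 0⟩, 23726566⟩ 0 0)) (.pos 11 .pp ⟨0, 0, 0, 0, 0, 0, 0, 0, 7085243, ⟨0, 0⟩, 23726566⟩ 0 0)) (.cut .d 138195100 (.cut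 .v 134217728 (.pos 31 .pp ⟨8162381, 1084256784, 0, 0, 0, 0, 0, 0, 0, ⟨0, 0⟩, 0⟩ 0 0) (.void 32 ⟨0, 100000, 0, 0, 0, 0, 0, 0, 0, ⟨0, 0⟩, 0⟩ 0 0)) (.void 12 ⟨0, 100000, 0, 0, 0, 0, 0, 0, 0, ⟨0, 0⟩, 0⟩ 0 0))))),
    by decide +kernel⟩

def covers1 : cell.Covers table row1.1 :=
  ⟨(.cut .d 0 (.cut .v 16777216 (.cut .v 8388608 (.cut .v 4194304 (.void 4 ⟨0, 0, 50000, 0, 50000, 0, 0, 0, 0, ⟨0, 0⟩, 0⟩ 0 0) (.pos 5 .mm ⟨0, 0, 0, 0, 0, 0, 0, 0, 0, ⟨0, 0⟩, 0⟩ 0 0)) (.cut .v 12582912 (.pos 8 .mm ⟨0, 0, 0, 0, 0, 0, 0, 0, 0, ⟨0, 0⟩, 0⟩ 0 0) (.pos 9 .mm ⟨0, 0, 0, 0, 0, 0, 0, 0, 0, ⟨0, 0⟩, 0⟩ 0 0))) (.cut .v 67108864 (.cut .v 33554432 (.cut .v 25165824 (.cut .v 20971520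 (.pos 17 .mp ⟨0, 0, 0, 0, 0, 0, 0, 0, 0, ⟨0, 0⟩, 0⟩ 0 0) (.pos 18 .mp ⟨0, 0, 0, 0, 0, 0, 0, 0, 0, ⟨0, 0⟩, 0⟩ 0 0)) (.pos 16 .mp ⟨0, 0, 0, 0, 0, 0, 0, 0, 0, ⟨0, 0⟩, 0⟩ 0 0)) (.pos 14 .mp ⟨3166503, 0, 0, 0, 0, 0, 0, 0, 0, ⟨0, 0⟩, 0⟩ 0 0)) (.pos 12 .mp ⟨6871082, 0, 0, 0, 0, 0, 0, 0, 0, ⟨0, 0⟩, 0⟩ 0 0))) (.cut .v 16777216 (.cut .v 8388608 (.void 2 ⟨0, 0, 0, 0, 100000, 0, 0, 0, 0, ⟨0, 0⟩, 0⟩ 0 0) (.pos 3 .pm ⟨0, 0, 0, 0, 1016799, 0, 0, 0, 0, ⟨0, 0⟩, 0⟩ 0 0)) (.cut .d 74206918 (.cut .v 67108864 (.cut .d 37103459 (.cut .v 33554432 (.cut .d 18551729 (.cut .v 25165824 (.cut .v 20971520 (.cut .d 9275864 (.cut .v 18874368 (.pos 19 .pp ⟨0, 0, 0, 0, 2544023, 0, 0, 0,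 0, ⟨0, 0⟩, 0⟩ 0 0) (.pos 20 .pp ⟨0, 0, 0, 0, 4470982, 0, 0, 0, 0, ⟨0, 0⟩, 0⟩ 0 0)) (.void 17 ⟨0, 0, 0, 0, 100000, 0, 0, 0, 0, ⟨0, 0⟩, 0⟩ 0 0)) (.pos 18 .pp ⟨0, 0, 0, 0, 9435487, 0, 0, 0, 0, ⟨0, 0⟩, 0⟩ 0 0)) (.pos 16 .pp ⟨0, 0, 0, 0, 0, 0, 0, 0, 0, ⟨0, 0⟩, 0⟩ 0 0)) (.pos 13 .pp ⟨0, 0, 0, 0, 30593331, 0, 0, 0, 593848, ⟨0, 0⟩, 19951585⟩ 0 0)) (.cut .d 18551729 (.pos 14 .pp ⟨0, 0, 0, 0, 0, 0, 0, 0, 506881, ⟨0, 0⟩, 28215802⟩ 0 0) (.cut .v 50331648 (.cut .v 41943040 (.pos 33 .pp ⟨0, 0, 0, 0, 11455809, 0, 0, 0, 645958, ⟨0, 0⟩, 25087789⟩ 0 0) (.cut .d 27827594 (.pos 34 .pp ⟨0, 0, 0, 0, 0, 0, 0, 0, 639729, ⟨0, 0⟩, 27764203⟩ 0 0) (.cut .v 46137344 (.pos 35 .pp ⟨0,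 30524359, 0, 0, 0, 0, 0, 0, 626436, ⟨0, 0⟩, 27166774⟩ 0 0) (.cut .v 48234496 (.pos 37 .pp ⟨0, 40898800, 0, 0, 0, 0, 0, 0, 618659, ⟨0, 0⟩, 28132772⟩ 0 0) (.cut .s 2359296 (.pos 38 .pp ⟨0, 31491258, 0, 0, 0, 0, 0, 0, 800624, ⟨0, 0⟩, 28751445⟩ 0 0) (.pos 38 .pp ⟨0, 51410679, 0, 0, 0, 0, 0, 0, 783767, ⟨0, 0⟩, 28751445⟩ 0 0)))))) (.cut .v 58720256 (.cut .d 27827594 (.pos 25 .pp ⟨0, 28617351, 0, 0, 0, 0, 0, 0, 588292, ⟨0, 0⟩, 30200715⟩ 0 0) (.cut .v 54525952 (.cut .s 2359296 (.pos 27 .pp ⟨0, 50918623, 0, 0, 0, 0, 0, 0, 808046, ⟨0, 0⟩, 29646338⟩ 0 0) (.pos 27 .pp ⟨0, 63930085, 0, 0, 0, 0, 0, 0, 776346, ⟨0, 0⟩, 29646338⟩ 0 0)) (.pos 28 .pp ⟨0, 76688126, 0, 0, 0,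 0, 0, 0, 1100996, ⟨0, 0⟩, 30811139⟩ 0 0))) (.pos 26 .pp ⟨0, 236125807, 0, 0, 0, 0, 756425, 0, 0, ⟨0, 0⟩, 0⟩ 0 0))))) (.cut .v 33554432 (.void 13 ⟨0, 0, 0, 0, 100000, 0, 0, 0, 0, ⟨0, 0⟩, 0⟩ 0 0) (.cut .d 55655188 (.cut .d 46379323 (.cut .l 16315842 (.void 14 ⟨0, 49493, 0, 0, 0, 0, 0, 0, 50507, ⟨0, 0⟩, 28215802⟩ 0 0) (.cut .v 50331648 (.cut .v 41943040 (.void 33 ⟨0, 0, 0, 0, 100000, 0, 0, 0, 0, ⟨0, 0⟩, 0⟩ 0 0) (.pos 34 .pp ⟨0, 53511391, 0, 0, 1342329, 0, 0, 0, 639729, ⟨0, 0⟩, 27764203⟩ 0 0)) (.cut .v 58720256 (.pos 25 .pp ⟨0, 83562943, 0, 0, 0, 0, 0, 0, 1078568, ⟨0, 0⟩, 30200715⟩ 0 0) (.void 26 ⟨0, 100000, 0, 0, 0, 0, 0, 0, 0, ⟨0, 0⟩, 0⟩ 0 0)))) (.void 14 ⟨0,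 39842, 0, 0, 60158, 0, 0, 0, 0, ⟨0, 0⟩, 0⟩ 0 0)) (.void 14 ⟨0, 50979, 0, 0, 0, 0, 0, 0, 49021, ⟨0, 0⟩, 28215802⟩ 0 0)))) (.cut .v 134217728 (.cut .d 37103459 (.pos 31 .pp ⟨6816368, 334873164, 0, 0, 0, 0, 0, 0, 0, ⟨0, 0⟩, 0⟩ 0 0) (.void 31 ⟨0, 100000, 0, 0, 0, 0, 0, 0, 0, ⟨0, 0⟩, 0⟩ 0 0)) (.void 32 ⟨0, 100000, 0, 0, 0, 0, 0, 0, 0, ⟨0, 0⟩, 0⟩ 0 0))) (.void 10 ⟨0, 64330, 0, 0, 0, 0, 0, 0, 35670, ⟨0, 0⟩, 33554432⟩ 0 0)))),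
    by decide +kernel⟩

def covers2 : cell.Covers table row2.1 :=
  ⟨(.cut .d 0 (.cut .v 16777216 (.cut .v 8388608 (.cut .v 4194304 (.void 4 ⟨0, 0, 50000, 0, 50000, 0, 0, 0, 0, ⟨0, 0⟩, 0⟩ 0 0) (.pos 5 .mm ⟨0, 0, 0, 0, 0, 675935, 0, 0, 0, ⟨0, 0⟩, 0⟩ 0 0)) (.cut .v 12582912 (.pos 8 .mm ⟨0, 0, 0, 0, 0, 619219, 0, 0, 0, ⟨0, 0⟩, 0⟩ 0 0) (.cut .v 14680064 (.pos 45 .mm ⟨0, 0, 0, 0, 0, 551091, 0, 0, 0, ⟨0, 0⟩, 0⟩ 0 0) (.pos 46 .mm ⟨0, 0, 0, 0, 0, 513660, 0, 0, 0, ⟨0, 0⟩, 0⟩ 0 0)))) (.cut .v 67108864 (.cut .v 33554432 (.cut .v 25165824 (.cut .v 20971520 (.pos 17 .mp ⟨0, 0, 0, 0, 0, 0, 0, 0, 0, ⟨0, 0⟩, 0⟩ 0 0) (.pos 18 .mp ⟨0, 0, 0, 0, 0, 0, 0, 0, 0, ⟨0, 0⟩, 0⟩ 0 0))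 (.pos 16 .mp ⟨0, 0, 0, 0, 0, 0, 0, 0, 0, ⟨0, 0⟩, 0⟩ 0 0)) (.pos 14 .mp ⟨3255994, 0, 0, 0, 0, 0, 0, 0, 0, ⟨0, 0⟩, 0⟩ 0 0)) (.pos 12 .mp ⟨7065270, 0, 0, 0, 0, 0, 0, 0, 0, ⟨0, 0⟩, 0⟩ 0 0))) (.cut .v 16777216 (.cut .v 8388608 (.void 2 ⟨0, 0, 0, 0, 100000, 0, 0, 0, 0, ⟨0, 0⟩, 0⟩ 0 0) (.cut .v 12582912 (.pos 8 .pm ⟨0, 0, 0, 0, 0, 0, 0, 0, 0, ⟨0, 0⟩, 0⟩ 0 0) (.pos 9 .pm ⟨0, 0, 0, 0, 554868, 0, 0, 0, 0, ⟨0, 0⟩, 0⟩ 0 0))) (.cut .v 67108864 (.cut .d 38295820 (.cut .v 33554432 (.cut .d 19147910 (.cut .v 25165824 (.cut .v 20971520 (.cut .d 9573955 (.cut .d 4786977 (.pos 17 .pp ⟨0, 0, 0, 0, 0, 0, 0, 0, 0, ⟨0, 0⟩, 0⟩ 0 0) (.pos 17 .pp ⟨0, 0, 0, 0, 0, 0, 0, 0, 0, ⟨0, 0⟩,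 0⟩ 0 0)) (.pos 17 .pp ⟨0, 0, 0, 0, 6301534, 0, 0, 0, 1389800, ⟨0, 0⟩, 17739746⟩ 0 0)) (.pos 18 .pp ⟨0, 0, 0, 0, 4232735, 0, 0, 0, 588225, ⟨0, 0⟩, 19632256⟩ 0 0)) (.pos 16 .pp ⟨0, 0, 0, 0, 0, 0, 0, 0, 0, ⟨0, 0⟩, 0⟩ 0 0)) (.pos 13 .pp ⟨0, 0, 0, 0, 20245091, 0, 0, 0, 1320774, ⟨0, 0⟩, 19951585⟩ 0 0)) (.cut .d 19147910 (.pos 14 .pp ⟨0, 0, 0, 0, 0, 0, 0, 0, 1019616, ⟨0, 0⟩, 28215802⟩ 0 0) (.cut .v 50331648 (.cut .d 28721865 (.pos 23 .pp ⟨0, 13129947, 0, 0, 0, 0, 0, 0, 1498305, ⟨0, 0⟩, 26257762⟩ 0 0) (.cut .v 41943040 (.cut .d 33508842 (.cut .d 31115353 (.pos 33 .pp ⟨0, 18948378, 0, 0, 0, 0, 0, 0, 1436670, ⟨0, 0⟩, 25087789⟩ 0 0) (.cut .v 37748736 (.pos 47 .pp ⟨0,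 20687365, 0, 0, 0, 0, 0, 0, 1400892, ⟨0, 0⟩, 24435601⟩ 0 0) (.pos 48 .pp ⟨0, 29030269, 0, 0, 0, 0, 0, 0, 1396669, ⟨0, 0⟩, 25837502⟩ 0 0))) (.pos 33 .pp ⟨0, 34657967, 0, 0, 2557367, 0, 0, 0, 1436670, ⟨0, 0⟩, 25087789⟩ 0 0)) (.cut .v 46137344 (.cut .d 33508842 (.cut .v 44040192 (.cut .s 3407872 (.pos 49 .pp ⟨0, 31973326, 0, 0, 0, 0, 0, 0, 1030490, ⟨0, 0⟩, 26852655⟩ 0 0) (.pos 49 .pp ⟨0, 38818170, 0, 0, 0, 0, 0, 0, 1005655, ⟨0, 0⟩, 26852655⟩ 0 0)) (.pos 50 .pp ⟨0, 43776510, 0, 0, 0, 0, 0, 0, 609129, ⟨0, 0⟩, 27500171⟩ 0 0)) (.pos 35 .pp ⟨0, 49785577, 0, 0, 0, 0, 0, 0, 601614, ⟨0, 0⟩, 27166774⟩ 0 0)) (.cut .d 33508842 (.pos 36 .pp ⟨0, 52237610, 0, 0, 0, 0, 0,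 0, 602892, ⟨0, 0⟩, 28433700⟩ 0 0) (.pos 36 .pp ⟨0, 62655158, 0, 0, 0, 0, 0, 0, 602892, ⟨0, 0⟩, 28433700⟩ 0 0))))) (.cut .d 28721865 (.pos 24 .pp ⟨0, 50692499, 0, 0, 0, 0, 0, 0, 572048, ⟨0, 0⟩, 31225917⟩ 0 0) (.pos 24 .pp ⟨0, 104161924, 0, 0, 0, 0, 0, 0, 572048, ⟨0, 0⟩, 31225917⟩ 0 0))))) (.void 11 ⟨0, 59996, 0, 0, 40004, 0, 0, 0, 0, ⟨0, 0⟩, 0⟩ 0 0)) (.cut .v 134217728 (.cut .d 38295820 (.pos 31 .pp ⟨20764904, 316653358, 0, 0, 0, 0, 0, 0, 0, ⟨0, 0⟩, 0⟩ 0 0) (.void 31 ⟨0, 100000, 0, 0, 0, 0, 0, 0, 0, ⟨0, 0⟩, 0⟩ 0 0)) (.void 32 ⟨0, 100000, 0, 0, 0, 0, 0, 0, 0, ⟨0, 0⟩, 0⟩ 0 0))))),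
    by decide +kernel⟩

def covers3 : cell.Covers table row3.1 :=
  ⟨(.cut .d 0 (.cut .v 16777216 (.cut .v 8388608 (.cut .v 4194304 (.void 4 ⟨0, 0, 50000, 0, 50000, 0, 0, 0, 0, ⟨0, 0⟩, 0⟩ 0 0) (.pos 5 .mm ⟨0, 0, 0, 0, 0, 494087, 0, 0, 0, ⟨0, 0⟩, 0⟩ 0 0)) (.cut .v 12582912 (.pos 8 .mm ⟨0, 0, 0, 0, 0, 741130, 0, 0, 0, ⟨0, 0⟩, 0⟩ 0 0) (.cut .v 14680064 (.pos 45 .mm ⟨0, 0, 0, 0, 0, 866124, 0, 0, 0, ⟨0, 0⟩, 0⟩ 0 0) (.pos 46 .mm ⟨0, 0, 0, 0, 0, 605066, 0, 0, 0, ⟨0, 0⟩, 0⟩ 0 0)))) (.cut .v 67108864 (.cut .v 33554432 (.cut .v 25165824 (.cut .v 20971520 (.pos 17 .mp ⟨0, 0, 0, 0, 0, 0, 0, 0, 0, ⟨0, 0⟩, 0⟩ 0 0) (.pos 18 .mp ⟨0, 0, 0, 0, 0, 0, 0, 0, 0, ⟨0, 0⟩, 0⟩ 0 0))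 (.pos 16 .mp ⟨0, 0, 0, 0, 0, 0, 0, 0, 0, ⟨0, 0⟩, 0⟩ 0 0)) (.pos 14 .mp ⟨9569219, 0, 0, 0, 0, 0, 0, 0, 0, ⟨0, 0⟩, 0⟩ 0 0)) (.pos 12 .mp ⟨20764510, 0, 0, 0, 0, 0, 0, 0, 0, ⟨0, 0⟩, 0⟩ 0 0))) (.cut .v 16777216 (.cut .v 8388608 (.void 2 ⟨0, 0, 0, 0, 100000, 0, 0, 0, 0, ⟨0, 0⟩, 0⟩ 0 0) (.cut .v 12582912 (.pos 8 .pm ⟨0, 0, 0, 0, 0, 0, 0, 0, 0, ⟨0, 0⟩, 0⟩ 0 0) (.cut .v 14680064 (.pos 45 .pm ⟨0, 0, 0, 0, 0, 0, 0, 0, 0, ⟨0, 0⟩, 0⟩ 0 0) (.pos 46 .pm ⟨0, 0, 0, 0, 0, 0, 0, 0, 220687, ⟨0, 0⟩, 16226390⟩ 0 0)))) (.cut .v 67108864 (.cut .d 28636973 (.cut .v 33554432 (.cut .v 25165824 (.cut .v 20971520 (.cut .d 14318486 (.cut .d 7159243 (.pos 17 .pp ⟨0, 0, 0, 0, 0, 0, 0, 0,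 0, ⟨0, 0⟩, 0⟩ 0 0) (.pos 17 .pp ⟨0, 0, 0, 0, 0, 0, 0, 0, 449464, ⟨0, 0⟩, 17739746⟩ 0 0)) (.pos 17 .pp ⟨0, 0, 0, 0, 4904505, 0, 0, 0, 728893, ⟨0, 0⟩, 17739746⟩ 0 0)) (.pos 18 .pp ⟨0, 0, 0, 0, 2694603, 0, 0, 0, 903817, ⟨0, 0⟩, 19632256⟩ 0 0)) (.pos 16 .pp ⟨0, 0, 0, 0, 0, 0, 0, 0, 764942, ⟨0, 0⟩, 22080058⟩ 0 0)) (.cut .v 50331648 (.cut .v 41943040 (.pos 33 .pp ⟨0, 13024513, 0, 0, 0, 0, 0, 0, 1000981, ⟨0, 0⟩, 25087789⟩ 0 0) (.pos 34 .pp ⟨0, 27764767, 0, 0, 0, 0, 0, 0, 904956, ⟨0, 0⟩, 27764203⟩ 0 0)) (.pos 24 .pp ⟨0, 82309700, 0, 0, 0, 0, 0, 0, 1263143, ⟨0, 0⟩, 31225917⟩ 0 0))) (.cut .d 42955460 (.cut .d 35796216 (.cut .v 33554432 (.cut .v 25165824 (.void 15 ⟨0,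 0, 0, 0, 100000, 0, 0, 0, 0, ⟨0, 0⟩, 0⟩ 0 0) (.pos 16 .pp ⟨0, 15928212, 0, 0, 2656693, 0, 0, 0, 929903, ⟨0, 0⟩, 22080058⟩ 0 0)) (.cut .v 50331648 (.cut .v 41943040 (.cut .d 32216594 (.cut .v 37748736 (.cut .s 4161536 (.pos 47 .pp ⟨0, 20935613, 0, 0, 0, 0, 0, 0, 1004099, ⟨0, 0⟩, 24435601⟩ 0 0) (.pos 47 .pp ⟨0, 23435794, 0, 0, 0, 0, 0, 0, 946673, ⟨0, 0⟩, 24435601⟩ 0 0)) (.cut .d 30426783 (.pos 48 .pp ⟨0, 27787651, 0, 0, 0, 0, 0, 0, 960084, ⟨0, 0⟩, 25837502⟩ 0 0) (.pos 48 .pp ⟨0, 35948881, 0, 0, 0, 0, 0, 0, 1214698, ⟨0, 0⟩, 25837502⟩ 0 0))) (.pos 33 .pp ⟨0, 41468109, 0, 0, 2258905, 0, 0, 0, 1285010, ⟨0, 0⟩, 25087789⟩ 0 0)) (.pos 34 .pp ⟨0, 57975962, 0, 0, 0,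 0, 0, 0, 1298862, ⟨0, 0⟩, 27764203⟩ 0 0)) (.void 24 ⟨0, 100000, 0, 0, 0, 0, 0, 0, 0, ⟨0, 0⟩, 0⟩ 0 0))) (.void 11 ⟨0, 70840, 0, 0, 29160, 0, 0, 0, 0, ⟨0, 0⟩, 0⟩ 0 0)) (.void 11 ⟨0, 78082, 0, 0, 0, 0, 0, 0, 21918, ⟨0, 0⟩, 23726566⟩ 0 0))) (.cut .v 134217728 (.cut .d 28636973 (.pos 31 .pp ⟨13949491, 215511774, 0, 0, 0, 0, 530646, 0, 0, ⟨0, 0⟩, 0⟩ 0 0) (.void 31 ⟨0, 100000, 0, 0, 0, 0, 0, 0, 0, ⟨0, 0⟩, 0⟩ 0 0)) (.void 32 ⟨0, 100000, 0, 0, 0, 0, 0, 0, 0, ⟨0, 0⟩, 0⟩ 0 0))))),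
    by decide +kernel⟩

def covers4 : cell.Covers table row4.1 :=
  ⟨(.cut .d 0 (.cut .v 16777216 (.cut .v 8388608 (.cut .v 4194304 (.void 4 ⟨0, 0, 50000, 0, 50000, 0, 0, 0, 0, ⟨0, 0⟩, 0⟩ 0 0) (.pos 5 .mm ⟨0, 0, 0, 0, 0, 341137, 0, 0, 0, ⟨0, 0⟩, 0⟩ 0 0)) (.cut .v 12582912 (.pos 8 .mm ⟨0, 0, 0, 0, 0, 511706, 0, 0, 0, ⟨0, 0⟩, 0⟩ 0 0) (.cut .v 14680064 (.pos 45 .mm ⟨0, 0, 0, 0, 0, 626139, 0, 0, 0, ⟨0, 0⟩, 0⟩ 0 0) (.pos 46 .mm ⟨0, 0, 0, 0, 0, 596228, 0, 0, 0, ⟨0, 0⟩, 0⟩ 0 0)))) (.cut .v 268435456 (.cut .v 67108864 (.cut .v 33554432 (.cut .v 25165824 (.pos 15 .mp ⟨0, 0, 0, 0, 0, 0, 0, 0, 0, ⟨0, 0⟩, 0⟩ 0 0) (.pos 16 .mp ⟨0, 0, 0, 0, 0, 0, 0, 0, 0, ⟨0, 0⟩, 0⟩ 0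 0)) (.pos 14 .mp ⟨6369291, 0, 0, 0, 0, 0, 0, 0, 0, ⟨0, 0⟩, 0⟩ 0 0)) (.pos 12 .mp ⟨13820898, 0, 0, 0, 0, 0, 0, 0, 0, ⟨0, 0⟩, 0⟩ 0 0)) (.void 59 ⟨0, 100000, 0, 0, 0, 0, 0, 0, 0, ⟨0, 0⟩, 0⟩ 0 0))) (.cut .v 16777216 (.cut .v 8388608 (.void 2 ⟨0, 0, 0, 0, 100000, 0, 0, 0, 0, ⟨0, 0⟩, 0⟩ 0 0) (.cut .v 12582912 (.pos 8 .pm ⟨0, 0, 0, 0, 0, 0, 0, 0, 0, ⟨0, 0⟩, 0⟩ 0 0) (.cut .v 14680064 (.pos 45 .pm ⟨0, 0, 0, 0, 0, 0, 0, 0, 0, ⟨0, 0⟩, 0⟩ 0 0) (.pos 46 .pm ⟨0, 0, 0, 0, 0, 0, 0, 0, 120385, ⟨0, 0⟩, 16226390⟩ 0 0)))) (.cut .v 268435456 (.cut .v 67108864 (.cut .v 33554432 (.cut .v 25165824 (.cut .d 22734344 (.cut .v 20971520 (.cut .d 11367172 (.pos 17 .pp ⟨0, 0, 0, 0, 0,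 0, 0, 0, 0, ⟨0, 0⟩, 0⟩ 0 0) (.pos 17 .pp ⟨0, 0, 0, 0, 0, 0, 0, 0, 434548, ⟨0, 0⟩, 17739746⟩ 0 0)) (.pos 18 .pp ⟨0, 0, 0, 0, 0, 0, 0, 0, 593399, ⟨0, 0⟩, 19632256⟩ 0 0)) (.pos 15 .pp ⟨0, 0, 0, 0, 4017852, 0, 0, 0, 486109, ⟨0, 0⟩, 18567042⟩ 0 0)) (.cut .d 22734344 (.pos 16 .pp ⟨0, 0, 0, 0, 0, 0, 0, 0, 409809, ⟨0, 0⟩, 22080058⟩ 0 0) (.cut .d 34101516 (.cut .d 28417930 (.pos 16 .pp ⟨0, 5074750, 0, 0, 0, 0, 0, 0, 433014, ⟨0, 0⟩, 22080058⟩ 0 0) (.pos 16 .pp ⟨0, 16786556, 0, 0, 0, 0, 0, 0, 699550, ⟨0, 0⟩, 22080058⟩ 0 0)) (.void 16 ⟨0, 76279, 0, 0, 23721, 0, 0, 0, 0, ⟨0, 0⟩, 0⟩ 0 0)))) (.cut .d 22734344 (.pos 14 .pp ⟨0, 0, 0, 0, 0, 0, 0, 0, 378724, ⟨0, 0⟩, 28215802⟩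 0 0) (.cut .v 50331648 (.cut .v 41943040 (.cut .d 34101516 (.cut .d 28417930 (.pos 33 .pp ⟨0, 14651858, 0, 0, 0, 0, 0, 0, 673522, ⟨0, 0⟩, 25087789⟩ 0 0) (.pos 33 .pp ⟨0, 33678651, 0, 0, 0, 0, 0, 0, 673522, ⟨0, 0⟩, 25087789⟩ 0 0)) (.void 33 ⟨0, 100000, 0, 0, 0, 0, 0, 0, 0, ⟨0, 0⟩, 0⟩ 0 0)) (.pos 34 .pp ⟨0, 69263196, 0, 0, 0, 0, 0, 0, 680783, ⟨0, 0⟩, 27764203⟩ 0 0)) (.void 24 ⟨0, 100000, 0, 0, 0, 0, 0, 0, 0, ⟨0, 0⟩, 0⟩ 0 0)))) (.cut .d 22734344 (.pos 12 .pp ⟨8752415, 338600973, 0, 0, 0, 0, 0, 0, 0, ⟨0, 0⟩, 0⟩ 0 0) (.void 12 ⟨0, 100000, 0, 0, 0, 0, 0, 0, 0, ⟨0, 0⟩, 0⟩ 0 0))) (.void 59 ⟨0, 69463, 0, 30537, 0, 0, 0, 0, 0, ⟨0, 0⟩, 0⟩ 0 0)))),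
    by decide +kernel⟩

def covers5 : cell.Covers table row5.1 :=
  ⟨(.cut .d 0 (.cut .v 16777216 (.cut .v 8388608 (.cut .v 4194304 (.void 4 ⟨0, 0, 55126, 0, 44874, 0, 0, 0, 0, ⟨0, 0⟩, 0⟩ 0 0) (.pos 5 .mm ⟨0, 0, 0, 0, 0, 232287, 0, 0, 0, ⟨0, 0⟩, 0⟩ 0 0)) (.cut .v 12582912 (.pos 8 .mm ⟨0, 0, 0, 0, 0, 370410, 0, 0, 0, ⟨0, 0⟩, 0⟩ 0 0) (.cut .v 14680064 (.pos 45 .mm ⟨0, 0, 0, 0, 0, 338483, 0, 0, 0, ⟨0, 0⟩, 0⟩ 0 0) (.pos 46 .mm ⟨0, 0, 0, 0, 0, 168948, 0, 0, 0, ⟨0, 0⟩, 0⟩ 0 0)))) (.cut .v 268435456 (.cut .v 67108864 (.cut .v 33554432 (.cut .v 25165824 (.pos 15 .mp ⟨0, 0, 0, 0, 0, 0, 0, 0, 0, ⟨0, 0⟩, 0⟩ 0 0) (.pos 16 .mp ⟨0, 0, 0, 0, 0, 0, 0, 0, 0, ⟨0, 0⟩, 0⟩ 0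 0)) (.pos 14 .mp ⟨4023039, 0, 0, 0, 0, 0, 0, 0, 0, ⟨0, 0⟩, 0⟩ 0 0)) (.pos 12 .mp ⟨8729703, 0, 0, 0, 0, 0, 0, 0, 0, ⟨0, 0⟩, 0⟩ 0 0)) (.void 59 ⟨0, 100000, 0, 0, 0, 0, 0, 0, 0, ⟨0, 0⟩, 0⟩ 0 0))) (.cut .v 16777216 (.cut .v 8388608 (.cut .v 4194304 (.void 4 ⟨0, 0, 50000, 0, 50000, 0, 0, 0, 0, ⟨0, 0⟩, 0⟩ 0 0) (.pos 5 .pm ⟨0, 0, 0, 0, 0, 0, 0, 0, 0, ⟨0, 0⟩, 0⟩ 0 0)) (.cut .v 12582912 (.pos 8 .pm ⟨0, 0, 0, 0, 0, 0, 0, 0, 0, ⟨0, 0⟩, 0⟩ 0 0) (.cut .v 14680064 (.pos 45 .pm ⟨0, 0, 0, 0, 0, 0, 0, 0, 94364, ⟨0, 0⟩, 15100357⟩ 0 0) (.cut .d 18454939 (.cut .d 9227469 (.pos 46 .pm ⟨0, 0, 0, 0, 0, 0, 0, 0, 0, ⟨0, 0⟩, 0⟩ 0 0) (.pos 46 .pm ⟨0, 0, 0, 0, 0, 0, 0, 0, 222315, ⟨0,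 0⟩, 16226390⟩ 0 0)) (.pos 46 .pm ⟨0, 0, 0, 0, 4498454, 0, 0, 0, 226986, ⟨0, 0⟩, 16226390⟩ 0 0))))) (.cut .v 268435456 (.cut .v 67108864 (.cut .v 33554432 (.cut .v 25165824 (.cut .d 18454939 (.cut .d 9227469 (.pos 15 .pp ⟨0, 0, 0, 0, 0, 0, 0, 0, 0, ⟨0, 0⟩, 0⟩ 0 0) (.pos 15 .pp ⟨0, 0, 0, 0, 0, 0, 0, 0, 0, ⟨0, 0⟩, 0⟩ 0 0)) (.pos 15 .pp ⟨0, 0, 0, 0, 0, 0, 0, 0, 348947, ⟨0, 0⟩, 18567042⟩ 0 0)) (.cut .v 29360128 (.pos 60 .pp ⟨0, 4853820, 0, 0, 0, 0, 0, 0, 343857, ⟨0, 0⟩, 21355130⟩ 0 0) (.pos 61 .pp ⟨0, 14003947, 0, 0, 0, 0, 0, 0, 345699, ⟨0, 0⟩, 22947581⟩ 0 0))) (.cut .v 50331648 (.cut .v 41943040 (.pos 33 .pp ⟨0, 25562797, 0, 0, 0, 0, 0, 0, 337703, ⟨0, 0⟩, 25087789⟩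 0 0) (.pos 34 .pp ⟨0, 50411686, 0, 0, 0, 0, 0, 0, 0, ⟨0, 0⟩, 0⟩ 0 0)) (.pos 24 .pp ⟨0, 87232992, 0, 0, 0, 0, 0, 0, 0, ⟨0, 0⟩, 0⟩ 0 0))) (.cut .d 18454939 (.pos 12 .pp ⟨9944074, 194426292, 0, 0, 0, 0, 0, 0, 0, ⟨0, 0⟩, 0⟩ 0 0) (.void 12 ⟨0, 100000, 0, 0, 0, 0, 0, 0, 0, ⟨0, 0⟩, 0⟩ 0 0))) (.void 59 ⟨0, 0, 0, 100000, 0, 0, 0, 0, 0, ⟨0, 0⟩, 0⟩ 0 0)))),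
    by decide +kernel⟩

def covers6 : cell.Covers table row6.1 :=
  ⟨(.cut .d 0 (.cut .v 16777216 (.cut .v 8388608 (.cut .v 4194304 (.void 4 ⟨0, 0, 100000, 0, 0, 0, 0, 0, 0, ⟨0, 0⟩, 0⟩ 0 0) (.pos 5 .mm ⟨0, 0, 0, 0, 0, 0, 0, 0, 0, ⟨0, 0⟩, 0⟩ 0 0)) (.cut .v 12582912 (.pos 8 .mm ⟨0, 0, 0, 0, 0, 0, 0, 0, 0, ⟨0, 0⟩, 0⟩ 0 0) (.cut .v 14680064 (.pos 45 .mm ⟨0, 0, 0, 0, 0, 0, 0, 0, 0, ⟨0, 0⟩, 0⟩ 0 0) (.pos 46 .mm ⟨0, 0, 0, 0, 0, 0, 0, 0, 0, ⟨0, 0⟩, 0⟩ 0 0)))) (.cut .v 268435456 (.cut .v 67108864 (.cut .v 33554432 (.pos 13 .mp ⟨0, 0, 0, 0, 0, 0, 0, 0, 0, ⟨0, 0⟩, 0⟩ 0 0) (.pos 14 .mp ⟨4573667, 0, 0, 0, 0, 0, 0, 0, 0, ⟨0, 0⟩, 0⟩ 0 0)) (.pos 12 .mp ⟨10895760, 0, 0, 0,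 0, 0, 0, 0, 0, ⟨0, 0⟩, 0⟩ 0 0)) (.void 59 ⟨0, 100000, 0, 0, 0, 0, 0, 0, 0, ⟨0, 0⟩, 0⟩ 0 0))) (.cut .v 16777216 (.cut .v 8388608 (.cut .v 4194304 (.void 4 ⟨0, 0, 50000, 0, 50000, 0, 0, 0, 0, ⟨0, 0⟩, 0⟩ 0 0) (.pos 5 .pm ⟨0, 0, 0, 0, 840622, 0, 0, 0, 310548, ⟨0, 0⟩, 9975792⟩ 0 0)) (.cut .v 12582912 (.pos 8 .pm ⟨0, 0, 0, 0, 0, 0, 0, 0, 291846, ⟨0, 0⟩, 13128881⟩ 0 0) (.cut .d 14953607 (.cut .d 7476803 (.cut .v 14680064 (.cut .d 3738401 (.pos 45 .pm ⟨0, 0, 0, 0, 0, 0, 0, 0, 0, ⟨0, 0⟩, 0⟩ 0 0) (.pos 45 .pm ⟨0, 0, 0, 0, 0, 0, 0, 0, 0, ⟨0, 0⟩, 0⟩ 0 0)) (.cut .d 3738401 (.pos 46 .pm ⟨0, 0, 0, 0, 0, 0, 0, 0, 0, ⟨0, 0⟩, 0⟩ 0 0) (.pos 46 .pm ⟨0, 0, 0, 0, 0, 0, 0, 0, 0,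 ⟨0, 0⟩, 0⟩ 0 0))) (.pos 9 .pm ⟨0, 0, 0, 0, 0, 0, 0, 0, 0, ⟨0, 0⟩, 0⟩ 0 0)) (.pos 9 .pm ⟨0, 0, 0, 0, 0, 0, 0, 0, 324268, ⟨0, 0⟩, 15612959⟩ 0 0)))) (.cut .v 268435456 (.cut .v 67108864 (.cut .v 33554432 (.cut .v 25165824 (.cut .d 14953607 (.pos 15 .pp ⟨0, 0, 0, 0, 0, 0, 0, 0, 0, ⟨0, 0⟩, 0⟩ 0 0) (.pos 15 .pp ⟨0, 0, 0, 0, 0, 0, 0, 0, 307653, ⟨0, 0⟩, 18567042⟩ 0 0)) (.pos 16 .pp ⟨0, 0, 0, 0, 0, 0, 0, 0, 0, ⟨0, 0⟩, 0⟩ 0 0)) (.pos 14 .pp ⟨0, 11181857, 0, 0, 0, 0, 0, 0, 0, ⟨0, 0⟩, 0⟩ 0 0)) (.cut .d 14953607 (.pos 12 .pp ⟨0, 92455592, 0, 0, 0, 0, 0, 0, 0, ⟨0, 0⟩, 0⟩ 0 0) (.void 12 ⟨0, 100000, 0, 0, 0, 0, 0, 0, 0, ⟨0, 0⟩, 0⟩ 0 0))) (.void 59 ⟨0, 0, 0, 100000, 0, 0,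 0, 0, 0, ⟨0, 0⟩, 0⟩ 0 0)))),
    by decide +kernel⟩

def covers7 : cell.Covers table row7.1 :=
  ⟨(.cut .d 0 (.cut .v 16777216 (.cut .v 8388608 (.cut .v 4194304 (.void 4 ⟨0, 0, 100000, 0, 0, 0, 0, 0, 0, ⟨0, 0⟩, 0⟩ 0 0) (.pos 5 .mm ⟨0, 0, 0, 0, 0, 0, 0, 0, 0, ⟨0, 0⟩, 0⟩ 0 0)) (.cut .v 12582912 (.pos 8 .mm ⟨0, 0, 0, 0, 0, 0, 0, 0, 0, ⟨0, 0⟩, 0⟩ 0 0) (.cut .v 14680064 (.cut .s 7176192 (.pos 45 .mm ⟨0, 0, 0, 0, 0, 0, 0, 0, 0, ⟨0, 0⟩, 0⟩ 0 0) (.pos 45 .mm ⟨0, 0, 0, 0, 0, 443636, 0, 0, 0, ⟨0, 0⟩, 0⟩ 0 0)) (.pos 46 .mm ⟨420507, 0, 0, 0, 0, 234523, 0, 0, 0, ⟨0, 0⟩, 0⟩ 0 0)))) (.cut .v 268435456 (.cut .v 67108864 (.cut .v 33554432 (.pos 13 .mp ⟨1665384, 0, 0, 0, 0,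 0, 0, 0, 0, ⟨0, 0⟩, 0⟩ 0 0) (.pos 14 .mp ⟨26751491, 0, 0, 0, 0, 0, 0, 0, 0, ⟨0, 0⟩, 0⟩ 0 0)) (.pos 12 .mp ⟨703775617, 0, 0, 0, 0, 0, 0, 0, 0, ⟨0, 0⟩, 0⟩ 0 0)) (.void 59 ⟨69003, 30997, 0, 0, 0, 0, 0, 0, 0, ⟨0, 0⟩, 0⟩ 0 0))) (.cut .v 16777216 (.cut .v 8388608 (.cut .v 4194304 (.void 4 ⟨0, 0, 50000, 0, 50000, 0, 0, 0, 0, ⟨0, 0⟩, 0⟩ 0 0) (.pos 5 .pm ⟨0, 0, 0, 0, 0, 0, 0, 0, 256493, ⟨0, 0⟩, 9975792⟩ 0 0)) (.cut .d 12260274 (.cut .v 12582912 (.pos 8 .pm ⟨0, 0, 0, 0, 0, 0, 0, 0, 0, ⟨0, 0⟩, 0⟩ 0 0) (.cut .d 6130137 (.cut .v 14680064 (.cut .s 7176192 (.cut .d 3065068 (.pos 45 .pm ⟨0, 0, 0, 0, 0, 0, 0, 0, 0, ⟨0, 0⟩, 0⟩ 0 0) (.pos 45 .pm ⟨0, 0, 0, 0, 0, 0, 0, 0, 0,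 ⟨0, 0⟩, 0⟩ 0 0)) (.pos 45 .pm ⟨0, 0, 0, 0, 0, 0, 0, 0, 0, ⟨0, 0⟩, 0⟩ 0 0)) (.pos 46 .pm ⟨0, 0, 0, 0, 0, 0, 0, 0, 0, ⟨0, 0⟩, 0⟩ 0 0)) (.pos 9 .pm ⟨0, 0, 0, 0, 0, 0, 0, 0, 0, ⟨0, 0⟩, 0⟩ 0 0))) (.pos 3 .pm ⟨0, 0, 0, 0, 0, 0, 0, 0, 106451, ⟨0, 0⟩, 14107901⟩ 0 0))) (.cut .v 268435456 (.cut .v 67108864 (.cut .v 33554432 (.pos 13 .pp ⟨0, 0, 0, 0, 0, 0, 0, 0, 0, ⟨0, 0⟩, 0⟩ 0 0) (.pos 14 .pp ⟨0, 0, 0, 0, 0, 0, 0, 0, 0, ⟨0, 0⟩, 0⟩ 0 0)) (.pos 12 .pp ⟨0, 19729242, 0, 0, 0, 0, 0, 0, 0, ⟨0, 0⟩, 0⟩ 0 0)) (.void 59 ⟨0, 0, 0, 100000, 0, 0, 0, 0, 0, ⟨0, 0⟩, 0⟩ 0 0)))),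
    by decide +kernel⟩

def covers8 : cell.Covers table row8.1 :=
  ⟨(.cut .d 0 (.cut .v 16777216 (.cut .v 8388608 (.cut .v 4194304 (.void 4 ⟨0, 0, 100000, 0, 0, 0, 0, 0, 0, ⟨0, 0⟩, 0⟩ 0 0) (.pos 5 .mm ⟨0, 0, 0, 0, 0, 0, 0, 0, 0, ⟨0, 0⟩, 0⟩ 0 0)) (.cut .v 12582912 (.pos 8 .mm ⟨2038250, 0, 0, 0, 0, 0, 0, 0, 0, ⟨0, 0⟩, 0⟩ 0 0) (.cut .d (-8388608) (.pos 9 .mm ⟨19881628, 0, 0, 0, 0, 0, 0, 0, 0, ⟨0, 0⟩, 0⟩ 0 0) (.cut .d (-4194304) (.cut .v 14680064 (.pos 45 .mm ⟨4543086, 0, 0, 0, 0, 0, 0, 0, 0, ⟨0, 0⟩, 0⟩ 0 0) (.pos 46 .mm ⟨5333812, 0, 0, 0, 0, 0, 0, 0, 0, ⟨0, 0⟩, 0⟩ 0 0)) (.cut .l 16315842 (.cut .v 14680064 (.cut .d (-2097152) (.cut .l 11886191 (.pos 45 .mm ⟨0,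 0, 0, 0, 0, 2454494, 0, 0, 0, ⟨0, 0⟩, 0⟩ 0 0) (.pos 45 .mm ⟨653143, 0, 0, 0, 0, 1046824, 0, 0, 0, ⟨0, 0⟩, 0⟩ 0 0)) (.pos 45 .mm ⟨0, 0, 0, 0, 0, 1028034, 0, 0, 0, ⟨0, 0⟩, 0⟩ 0 0)) (.cut .s 7798784 (.pos 46 .mm ⟨0, 0, 0, 0, 0, 1122720, 0, 0, 0, ⟨0, 0⟩, 0⟩ 0 0) (.pos 46 .mm ⟨0, 0, 0, 0, 0, 2464969, 0, 0, 0, ⟨0, 0⟩, 0⟩ 0 0))) (.pos 9 .mm ⟨0, 0, 0, 0, 0, 0, 0, 0, 0, ⟨0, 0⟩, 0⟩ 0 0)))))) (.cut .v 268435456 (.cut .v 67108864 (.cut .v 33554432 (.cut .d (-8388608) (.pos 13 .mp ⟨51318425, 0, 0, 0, 0, 0, 0, 0, 0, ⟨0, 0⟩, 0⟩ 0 0) (.cut .v 25165824 (.cut .d (-4194304) (.pos 15 .mp ⟨8466750, 0, 0, 0, 0, 0, 0, 0, 0, ⟨0, 0⟩, 0⟩ 0 0) (.pos 15 .mp ⟨3949004, 0, 0, 0, 0, 0,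 0, 0, 0, ⟨0, 0⟩, 0⟩ 0 0)) (.pos 16 .mp ⟨23891874, 0, 0, 0, 0, 0, 0, 0, 0, ⟨0, 0⟩, 0⟩ 0 0))) (.pos 14 .mp ⟨141375105, 0, 0, 0, 0, 0, 0, 0, 0, ⟨0, 0⟩, 0⟩ 0 0)) (.pos 12 .mp ⟨3923768322, 0, 0, 0, 0, 0, 0, 0, 0, ⟨0, 0⟩, 0⟩ 0 0)) (.void 59 ⟨67546, 32454, 0, 0, 0, 0, 0, 0, 0, ⟨0, 0⟩, 0⟩ 0 0))) (.cut .v 16777216 (.cut .v 8388608 (.cut .v 4194304 (.void 4 ⟨0, 0, 50000, 0, 50000, 0, 0, 0, 0, ⟨0, 0⟩, 0⟩ 0 0) (.pos 5 .pm ⟨0, 0, 0, 0, 0, 0, 0, 0, 364016, ⟨0, 0⟩, 9975792⟩ 0 0)) (.cut .v 12582912 (.pos 8 .pm ⟨0, 0, 0, 0, 0, 0, 0, 0, 0, ⟨0, 0⟩, 0⟩ 0 0) (.cut .v 14680064 (.pos 45 .pm ⟨0, 0, 0, 0, 0, 0, 0, 0, 0, ⟨0, 0⟩, 0⟩ 0 0) (.pos 46 .pm ⟨0, 0, 0, 0, 0, 0, 0, 0, 0, ⟨0,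 0⟩, 0⟩ 0 0)))) (.cut .v 268435456 (.cut .v 67108864 (.cut .v 33554432 (.pos 13 .pp ⟨0, 0, 0, 0, 0, 0, 0, 0, 0, ⟨0, 0⟩, 0⟩ 0 0) (.pos 14 .pp ⟨7375015, 0, 0, 0, 0, 0, 0, 0, 0, ⟨0, 0⟩, 0⟩ 0 0)) (.pos 12 .pp ⟨34308936, 0, 0, 0, 0, 0, 0, 0, 0, ⟨0, 0⟩, 0⟩ 0 0)) (.void 59 ⟨0, 0, 0, 100000, 0, 0, 0, 0, 0, ⟨0, 0⟩, 0⟩ 0 0)))),
    by decide +kernel⟩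

def covers9 : cell.Covers table row9.1 :=
  ⟨(.cut .d 0 (.cut .v 16777216 (.cut .v 8388608 (.cut .v 4194304 (.void 4 ⟨0, 0, 100000, 0, 0, 0, 0, 0, 0, ⟨0, 0⟩, 0⟩ 0 0) (.pos 5 .mm ⟨0, 0, 0, 0, 0, 1566828, 0, 0, 0, ⟨0, 0⟩, 0⟩ 0 0)) (.cut .d (-8388608) (.cut .v 12582912 (.pos 8 .mm ⟨14501238, 0, 0, 0, 0, 10499978, 0, 0, 0, ⟨0, 0⟩, 0⟩ 0 0) (.pos 9 .mm ⟨80971091, 0, 0, 0, 0, 0, 0, 0, 0, ⟨0, 0⟩, 0⟩ 0 0)) (.cut .v 12582912 (.cut .v 10485760 (.pos 66 .mm ⟨0, 0, 0, 0, 0, 3699709, 0, 0, 0, ⟨0, 0⟩, 0⟩ 0 0) (.cut .s 8323072 (.cut .s 8192000 (.pos 67 .mm ⟨0, 0, 0, 0, 0, 2812541, 0, 0, 0, ⟨0, 0⟩, 0⟩ 0 0) (.pos 67 .mm ⟨0, 0, 0, 0, 0, 4276507, 0, 0, 0, ⟨0, 0⟩, 0⟩ 0 0)) (.cut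 .v 11534336 (.pos 68 .mm ⟨0, 0, 0, 0, 0, 6500607, 0, 0, 0, ⟨0, 0⟩, 0⟩ 0 0) (.cut .d (-4194304) (.cut .s 8454144 (.pos 69 .mm ⟨3115943, 0, 0, 0, 0, 5376809, 0, 0, 0, ⟨0, 0⟩, 0⟩ 0 0) (.pos 69 .mm ⟨17285716, 0, 0, 0, 0, 0, 0, 0, 0, ⟨0, 0⟩, 0⟩ 0 0)) (.cut .s 8454144 (.pos 69 .mm ⟨0, 0, 0, 0, 0, 6066307, 0, 0, 0, ⟨0, 0⟩, 0⟩ 0 0) (.pos 69 .mm ⟨0, 0, 0, 0, 0, 8162998, 0, 0, 0, ⟨0, 0⟩, 0⟩ 0 0)))))) (.cut .d (-4194304) (.cut .s 8323072 (.cut .d (-6291456) (.cut .v 14680064 (.pos 45 .mm ⟨12472329, 0, 0, 0, 0, 0, 0, 0, 0, ⟨0, 0⟩, 0⟩ 0 0) (.pos 46 .mm ⟨15067499, 0, 0, 0, 0, 0, 0, 0, 0, ⟨0, 0⟩, 0⟩ 0 0)) (.cut .l 16315842 (.cut .v 14680064 (.pos 45 .mm ⟨11235202, 0, 0,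 0, 0, 0, 0, 0, 0, ⟨0, 0⟩, 0⟩ 0 0) (.pos 46 .mm ⟨12936613, 0, 0, 0, 0, 0, 0, 0, 0, ⟨0, 0⟩, 0⟩ 0 0)) (.cut .l 20745493 (.cut .v 14680064 (.pos 45 .mm ⟨7891281, 0, 0, 0, 0, 0, 0, 0, 0, ⟨0, 0⟩, 0⟩ 0 0) (.pos 46 .mm ⟨9428911, 0, 0, 0, 0, 0, 0, 0, 0, ⟨0, 0⟩, 0⟩ 0 0)) (.pos 9 .mm ⟨4530210, 0, 0, 0, 0, 0, 0, 0, 0, ⟨0, 0⟩, 0⟩ 0 0)))) (.cut .d (-6291456) (.cut .v 14680064 (.pos 45 .mm ⟨25835799, 0, 0, 0, 0, 0, 0, 0, 0, ⟨0, 0⟩, 0⟩ 0 0) (.pos 46 .mm ⟨32212662, 0, 0, 0, 0, 0, 0, 0, 0, ⟨0, 0⟩, 0⟩ 0 0)) (.cut .l 16315842 (.cut .v 14680064 (.pos 45 .mm ⟨21218868, 0, 0, 0, 0, 0, 0, 0, 0, ⟨0, 0⟩, 0⟩ 0 0) (.void 46 ⟨100000, 0, 0, 0, 0, 0, 0, 0, 0, ⟨0, 0⟩, 0⟩ 0 0)) (.cut .s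 8454144 (.cut .v 14680064 (.pos 45 .mm ⟨13844777, 0, 0, 0, 0, 0, 0, 0, 0, ⟨0, 0⟩, 0⟩ 0 0) (.pos 46 .mm ⟨16022877, 0, 0, 0, 0, 0, 0, 0, 0, ⟨0, 0⟩, 0⟩ 0 0)) (.cut .v 14680064 (.pos 45 .mm ⟨18675329, 0, 0, 0, 0, 0, 0, 0, 0, ⟨0, 0⟩, 0⟩ 0 0) (.pos 46 .mm ⟨21642613, 0, 0, 0, 0, 0, 0, 0, 0, ⟨0, 0⟩, 0⟩ 0 0)))))) (.cut .l 16315842 (.cut .s 8323072 (.cut .s 8192000 (.cut .v 14680064 (.cut .s 8126464 (.pos 45 .mm ⟨0, 0, 0, 0, 0, 3112724, 0, 0, 0, ⟨0, 0⟩, 0⟩ 0 0) (.cut .d (-2097152) (.pos 45 .mm ⟨0, 0, 0, 0, 0, 4272307, 0, 0, 0, ⟨0, 0⟩, 0⟩ 0 0) (.pos 45 .mm ⟨0, 0, 0, 0, 0, 3693294, 0, 0, 0, ⟨0, 0⟩, 0⟩ 0 0))) (.cut .s 8126464 (.pos 46 .mm ⟨2591213, 0, 0, 0, 0, 2087298,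 0, 0, 0, ⟨0, 0⟩, 0⟩ 0 0) (.pos 46 .mm ⟨1463656, 0, 0, 0, 0, 3851752, 0, 0, 0, ⟨0, 0⟩, 0⟩ 0 0))) (.cut .v 14680064 (.cut .d (-2097152) (.cut .v 13631488 (.pos 64 .mm ⟨0, 0, 0, 0, 0, 5447737, 0, 0, 0, ⟨0, 0⟩, 0⟩ 0 0) (.cut .l 11886191 (.pos 65 .mm ⟨0, 0, 0, 0, 0, 6714321, 0, 0, 0, ⟨0, 0⟩, 0⟩ 0 0) (.pos 65 .mm ⟨4604106, 0, 0, 0, 0, 2306461, 0, 0, 0, ⟨0, 0⟩, 0⟩ 0 0))) (.pos 45 .mm ⟨0, 0, 0, 0, 0, 4667446, 0, 0, 0, ⟨0, 0⟩, 0⟩ 0 0)) (.cut .d (-2097152) (.cut .s 8257536 (.pos 46 .mm ⟨6156964, 0, 0, 0, 0, 2055115, 0, 0, 0, ⟨0, 0⟩, 0⟩ 0 0) (.pos 46 .mm ⟨7477026, 0, 0, 0, 0, 2406362, 0, 0, 0, ⟨0, 0⟩, 0⟩ 0 0)) (.pos 46 .mm ⟨0, 0, 0, 0, 0, 5433938, 0, 0, 0, ⟨0, 0⟩, 0⟩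 0 0)))) (.cut .d (-2097152) (.cut .v 14680064 (.cut .l 11886191 (.cut .d (-3145728) (.void 45 ⟨0, 0, 0, 0, 0, 100000, 0, 0, 0, ⟨0, 0⟩, 0⟩ 0 0) (.cut .s 8454144 (.pos 45 .mm ⟨0, 0, 0, 0, 0, 8607170, 0, 0, 0, ⟨0, 0⟩, 0⟩ 0 0) (.cut .s 8519680 (.pos 45 .mm ⟨0, 0, 0, 0, 0, 10450616, 0, 0, 0, ⟨0, 0⟩, 0⟩ 0 0) (.pos 45 .mm ⟨0, 0, 0, 0, 0, 11973324, 0, 0, 0, ⟨0, 0⟩, 0⟩ 0 0)))) (.cut .d (-3145728) (.cut .s 8454144 (.pos 45 .mm ⟨11414188, 0, 0, 0, 0, 523816, 0, 0, 0, ⟨0, 0⟩, 0⟩ 0 0) (.pos 45 .mm ⟨15150380, 0, 0, 0, 0, 719077, 0, 0, 0, ⟨0, 0⟩, 0⟩ 0 0)) (.cut .s 8454144 (.pos 45 .mm ⟨0, 0, 0, 0, 0, 6896681, 0, 0, 0, ⟨0, 0⟩, 0⟩ 0 0) (.pos 45 .mm ⟨4477712, 0, 0, 0, 0, 6195755,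 0, 0, 0, ⟨0, 0⟩, 0⟩ 0 0)))) (.cut .d (-3145728) (.pos 46 .mm ⟨19055818, 0, 0, 0, 0, 0, 0, 0, 0, ⟨0, 0⟩, 0⟩ 0 0) (.cut .l 11886191 (.cut .s 8454144 (.pos 46 .mm ⟨0, 0, 0, 0, 0, 9529454, 0, 0, 0, ⟨0, 0⟩, 0⟩ 0 0) (.pos 46 .mm ⟨421459, 0, 0, 0, 0, 12369513, 0, 0, 0, ⟨0, 0⟩, 0⟩ 0 0)) (.pos 46 .mm ⟨11899482, 0, 0, 0, 0, 0, 0, 0, 0, ⟨0, 0⟩, 0⟩ 0 0)))) (.cut .l 11886191 (.cut .v 14680064 (.cut .s 8454144 (.pos 45 .mm ⟨0, 0, 0, 0, 0, 6646103, 0, 0, 0, ⟨0, 0⟩, 0⟩ 0 0) (.cut .s 8519680 (.pos 45 .mm ⟨0, 0, 0, 0, 0, 8576334, 0, 0, 0, ⟨0, 0⟩, 0⟩ 0 0) (.pos 45 .mm ⟨0, 0, 0, 0, 0, 9772686, 0, 0, 0, ⟨0, 0⟩, 0⟩ 0 0))) (.pos 46 .mm ⟨0, 0, 0, 0, 0, 8660685, 0, 0, 0, ⟨0, 0⟩,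 0⟩ 0 0)) (.pos 9 .mm ⟨0, 0, 0, 0, 0, 0, 0, 0, 0, ⟨0, 0⟩, 0⟩ 0 0)))) (.cut .v 14680064 (.pos 45 .mm ⟨3409176, 0, 0, 0, 0, 0, 0, 0, 0, ⟨0, 0⟩, 0⟩ 0 0) (.pos 46 .mm ⟨5231665, 0, 0, 0, 0, 0, 0, 0, 0, ⟨0, 0⟩, 0⟩ 0 0))))))) (.cut .v 268435456 (.cut .d (-8388608) (.void 10 ⟨100000, 0, 0, 0, 0, 0, 0, 0, 0, ⟨0, 0⟩, 0⟩ 0 0) (.cut .v 67108864 (.cut .v 33554432 (.cut .v 25165824 (.cut .d (-4194304) (.cut .d (-6291456) (.pos 15 .mp ⟨39983219, 0, 0, 0, 0, 0, 0, 0, 0, ⟨0, 0⟩, 0⟩ 0 0) (.cut .s 8323072 (.pos 15 .mp ⟨14434160, 0, 0, 0, 0, 0, 0, 0, 0, ⟨0, 0⟩, 0⟩ 0 0) (.pos 15 .mp ⟨27856972, 0, 0, 0, 0, 0, 0, 0, 0, ⟨0, 0⟩, 0⟩ 0 0))) (.cut .s 8323072 (.pos 15 .mp ⟨9684052, 0,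 0, 0, 0, 0, 0, 0, 0, ⟨0, 0⟩, 0⟩ 0 0) (.pos 15 .mp ⟨17998750, 0, 0, 0, 0, 0, 0, 0, 0, ⟨0, 0⟩, 0⟩ 0 0))) (.pos 16 .mp ⟨51976375, 0, 0, 0, 0, 0, 0, 0, 0, ⟨0, 0⟩, 0⟩ 0 0)) (.pos 14 .mp ⟨167065369, 0, 0, 0, 0, 0, 0, 0, 0, ⟨0, 0⟩, 0⟩ 0 0)) (.pos 12 .mp ⟨5162781629, 0, 0, 0, 0, 0, 0, 0, 0, ⟨0, 0⟩, 0⟩ 0 0))) (.void 59 ⟨66150, 33850, 0, 0, 0, 0, 0, 0, 0, ⟨0, 0⟩, 0⟩ 0 0))) (.cut .v 16777216 (.cut .v 8388608 (.cut .v 4194304 (.cut .v 2097152 (.void 6 ⟨0, 0, 50000, 0, 50000, 0, 0, 0, 0, ⟨0, 0⟩, 0⟩ 0 0) (.pos 7 .pm ⟨0, 0, 0, 0, 0, 0, 0, 0, 1549767, ⟨0, 0⟩, 7053950⟩ 0 0)) (.pos 5 .pm ⟨0, 0, 0, 0, 0, 0, 0, 0, 0, ⟨0, 0⟩, 0⟩ 0 0)) (.cut .v 12582912 (.pos 8 .pm ⟨0, 0, 0, 0,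 0, 0, 0, 0, 0, ⟨0, 0⟩, 0⟩ 0 0) (.pos 9 .pm ⟨0, 0, 0, 0, 0, 0, 0, 0, 0, ⟨0, 0⟩, 0⟩ 0 0))) (.cut .v 268435456 (.cut .v 67108864 (.cut .v 33554432 (.pos 13 .pp ⟨0, 0, 0, 0, 0, 0, 0, 0, 0, ⟨0, 0⟩, 0⟩ 0 0) (.pos 14 .pp ⟨19693309, 0, 0, 0, 0, 0, 0, 0, 0, ⟨0, 0⟩, 0⟩ 0 0)) (.pos 12 .pp ⟨276645940, 257534398, 0, 0, 0, 0, 0, 0, 0, ⟨0, 0⟩, 0⟩ 0 0)) (.void 59 ⟨0, 0, 0, 100000, 0, 0, 0, 0, 0, ⟨0, 0⟩, 0⟩ 0 0)))),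
    by decide +kernel⟩

def covers10 : cell.Covers table row10.1 :=
  ⟨(.cut .d 0 (.cut .v 16777216 (.cut .d (-8388608) (.void 1 ⟨0, 0, 0, 0, 0, 100000, 0, 0, 0, ⟨0, 0⟩, 0⟩ 0 0) (.cut .v 8388608 (.cut .v 4194304 (.void 4 ⟨0, 0, 100000, 0, 0, 0, 0, 0, 0, ⟨0, 0⟩, 0⟩ 0 0) (.pos 5 .mm ⟨0, 0, 3616069, 0, 0, 6867309, 0, 0, 0, ⟨0, 0⟩, 0⟩ 0 0)) (.cut .d (-4194304) (.cut .v 12582912 (.cut .v 10485760 (.pos 66 .mm ⟨0, 0, 0, 0, 0, 17048002, 0, 0, 0, ⟨0, 0⟩, 0⟩ 0 0) (.cut .l 16315842 (.pos 67 .mm ⟨26399306, 0, 0, 0, 0, 12979154, 0, 0, 0, ⟨0, 0⟩, 0⟩ 0 0) (.cut .d (-6291456) (.cut .s 8814592 (.pos 67 .mm ⟨32740107, 0, 0, 0, 0, 0, 0, 0, 0, ⟨0, 0⟩, 0⟩ 0 0) (.pos 67 .mm ⟨52990509,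 0, 0, 0, 0, 0, 0, 0, 0, ⟨0, 0⟩, 0⟩ 0 0)) (.cut .s 8814592 (.pos 67 .mm ⟨21891898, 0, 0, 0, 0, 0, 0, 0, 0, ⟨0, 0⟩, 0⟩ 0 0) (.cut .d (-5242880) (.pos 67 .mm ⟨36863504, 0, 0, 0, 0, 0, 0, 0, 0, ⟨0, 0⟩, 0⟩ 0 0) (.pos 67 .mm ⟨30593905, 0, 0, 0, 0, 0, 0, 0, 0, ⟨0, 0⟩, 0⟩ 0 0)))))) (.cut .l 16315842 (.pos 9 .mm ⟨64012122, 0, 0, 0, 0, 0, 0, 0, 0, ⟨0, 0⟩, 0⟩ 0 0) (.cut .d (-6291456) (.cut .s 8814592 (.pos 9 .mm ⟨48281155, 0, 0, 0, 0, 0, 0, 0, 0, ⟨0, 0⟩, 0⟩ 0 0) (.pos 9 .mm ⟨74298061, 0, 0, 0, 0, 0, 0, 0, 0, ⟨0, 0⟩, 0⟩ 0 0)) (.cut .s 8814592 (.cut .d (-5242880) (.cut .s 8699904 (.cut .v 14680064 (.pos 45 .mm ⟨25373151, 0, 0, 0, 0, 0, 0, 0, 0, ⟨0, 0⟩, 0⟩ 0 0) (.pos 46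 .mm ⟨28832446, 0, 0, 0, 0, 0, 0, 0, 0, ⟨0, 0⟩, 0⟩ 0 0)) (.pos 9 .mm ⟨33512997, 0, 0, 0, 0, 0, 0, 0, 0, ⟨0, 0⟩, 0⟩ 0 0)) (.cut .s 8699904 (.pos 9 .mm ⟨22321747, 0, 0, 0, 0, 0, 0, 0, 0, ⟨0, 0⟩, 0⟩ 0 0) (.pos 9 .mm ⟨27821805, 0, 0, 0, 0, 0, 0, 0, 0, ⟨0, 0⟩, 0⟩ 0 0))) (.cut .d (-5242880) (.cut .s 8929280 (.pos 9 .mm ⟨41586706, 0, 0, 0, 0, 0, 0, 0, 0, ⟨0, 0⟩, 0⟩ 0 0) (.pos 9 .mm ⟨50045932, 0, 0, 0, 0, 0, 0, 0, 0, ⟨0, 0⟩, 0⟩ 0 0)) (.cut .s 8929280 (.pos 9 .mm ⟨33483654, 0, 0, 0, 0, 0, 0, 0, 0, ⟨0, 0⟩, 0⟩ 0 0) (.cut .l 20745493 (.pos 9 .mm ⟨42194651, 0, 0, 0, 0, 0, 0, 0, 0, ⟨0, 0⟩, 0⟩ 0 0) (.pos 9 .mm ⟨37906326, 0, 0, 0, 0, 0, 0, 0, 0, ⟨0, 0⟩, 0⟩ 0 0)))))))) (.cut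 .v 12582912 (.cut .v 10485760 (.pos 66 .mm ⟨0, 0, 0, 0, 0, 10446067, 0, 0, 0, ⟨0, 0⟩, 0⟩ 0 0) (.cut .l 16315842 (.cut .d (-2097152) (.cut .s 8814592 (.cut .s 8699904 (.pos 67 .mm ⟨0, 0, 0, 0, 0, 11605839, 0, 0, 0, ⟨0, 0⟩, 0⟩ 0 0) (.pos 67 .mm ⟨0, 0, 0, 0, 0, 14605264, 0, 0, 0, ⟨0, 0⟩, 0⟩ 0 0)) (.cut .s 8929280 (.pos 67 .mm ⟨0, 0, 0, 0, 0, 17967337, 0, 0, 0, ⟨0, 0⟩, 0⟩ 0 0) (.cut .d (-3145728) (.pos 67 .mm ⟨9145174, 0, 0, 0, 0, 16411869, 0, 0, 0, ⟨0, 0⟩, 0⟩ 0 0) (.pos 67 .mm ⟨0, 0, 0, 0, 0, 20554525, 0, 0, 0, ⟨0, 0⟩, 0⟩ 0 0)))) (.cut .s 8814592 (.pos 67 .mm ⟨0, 0, 0, 0, 0, 10348709, 0, 0, 0, ⟨0, 0⟩, 0⟩ 0 0) (.cut .s 8929280 (.pos 67 .mm ⟨0, 0, 0, 0, 0, 14764911,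 0, 0, 0, ⟨0, 0⟩, 0⟩ 0 0) (.pos 67 .mm ⟨0, 0, 0, 0, 0, 17510559, 0, 0, 0, ⟨0, 0⟩, 0⟩ 0 0)))) (.cut .s 8814592 (.pos 67 .mm ⟨9991240, 0, 0, 0, 0, 0, 0, 0, 0, ⟨0, 0⟩, 0⟩ 0 0) (.cut .d (-2097152) (.pos 67 .mm ⟨20492954, 0, 0, 0, 0, 0, 0, 0, 0, ⟨0, 0⟩, 0⟩ 0 0) (.pos 67 .mm ⟨0, 0, 0, 0, 0, 0, 0, 0, 0, ⟨0, 0⟩, 0⟩ 0 0))))) (.cut .d (-2097152) (.cut .l 16315842 (.cut .s 8814592 (.cut .v 14680064 (.cut .l 11886191 (.cut .d (-3145728) (.void 45 ⟨0, 0, 0, 0, 0, 100000, 0, 0, 0, ⟨0, 0⟩, 0⟩ 0 0) (.cut .l 9671365 (.void 45 ⟨0, 0, 0, 0, 0, 100000, 0, 0, 0, ⟨0, 0⟩, 0⟩ 0 0) (.cut .s 8699904 (.cut .d (-2621440) (.pos 45 .mm ⟨1919500, 0, 0, 0, 0, 13872626, 0, 0, 0, ⟨0, 0⟩, 0⟩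 0 0) (.pos 45 .mm ⟨0, 0, 0, 0, 0, 13238717, 0, 0, 0, ⟨0, 0⟩, 0⟩ 0 0)) (.cut .d (-2621440) (.pos 45 .mm ⟨6036291, 0, 0, 0, 0, 14785823, 0, 0, 0, ⟨0, 0⟩, 0⟩ 0 0) (.pos 45 .mm ⟨0, 0, 0, 0, 0, 17032151, 0, 0, 0, ⟨0, 0⟩, 0⟩ 0 0))))) (.cut .d (-3145728) (.cut .s 8699904 (.pos 45 .mm ⟨18916531, 0, 0, 0, 0, 941522, 0, 0, 0, ⟨0, 0⟩, 0⟩ 0 0) (.pos 45 .mm ⟨23172232, 0, 0, 0, 0, 1539260, 0, 0, 0, ⟨0, 0⟩, 0⟩ 0 0)) (.cut .d (-2621440) (.cut .l 14101016 (.cut .l 12993603 (.cut .s 8699904 (.pos 45 .mm ⟨4400632, 0, 0, 0, 0, 10324101, 0, 0, 0, ⟨0, 0⟩, 0⟩ 0 0) (.cut .v 13631488 (.pos 64 .mm ⟨458177, 0, 0, 0, 0, 16477389, 0, 0, 0, ⟨0, 0⟩, 0⟩ 0 0) (.pos 65 .mm ⟨15205659, 0, 0,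 0, 0, 5711359, 0, 0, 0, ⟨0, 0⟩, 0⟩ 0 0))) (.pos 45 .mm ⟨13910996, 0, 0, 0, 0, 486355, 0, 0, 0, ⟨0, 0⟩, 0⟩ 0 0)) (.pos 45 .mm ⟨3149049, 0, 0, 0, 0, 0, 0, 0, 0, ⟨0, 0⟩, 0⟩ 0 0)) (.pos 45 .mm ⟨0, 0, 0, 0, 0, 0, 0, 0, 0, ⟨0, 0⟩, 0⟩ 0 0)))) (.cut .d (-3145728) (.pos 46 .mm ⟨29619220, 0, 0, 0, 0, 0, 0, 0, 0, ⟨0, 0⟩, 0⟩ 0 0) (.cut .l 11886191 (.cut .s 8699904 (.pos 46 .mm ⟨14175900, 0, 0, 0, 0, 5773665, 0, 0, 0, ⟨0, 0⟩, 0⟩ 0 0) (.pos 46 .mm ⟨17458567, 0, 0, 0, 0, 7159057, 0, 0, 0, ⟨0, 0⟩, 0⟩ 0 0)) (.pos 46 .mm ⟨20249475, 0, 0, 0, 0, 0, 0, 0, 0, ⟨0, 0⟩, 0⟩ 0 0)))) (.cut .d (-3145728) (.cut .l 11886191 (.void 9 ⟨0, 0, 0, 0, 0, 100000, 0, 0, 0, ⟨0, 0⟩, 0⟩ 0 0) (.cut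 .v 14680064 (.cut .s 8929280 (.pos 45 .mm ⟨29739331, 0, 0, 0, 0, 432150, 0, 0, 0, ⟨0, 0⟩, 0⟩ 0 0) (.cut .l 14101016 (.pos 45 .mm ⟨30801514, 0, 0, 0, 0, 5681587, 0, 0, 0, ⟨0, 0⟩, 0⟩ 0 0) (.pos 45 .mm ⟨33998822, 0, 0, 0, 0, 0, 0, 0, 0, ⟨0, 0⟩, 0⟩ 0 0))) (.pos 46 .mm ⟨40795199, 0, 0, 0, 0, 0, 0, 0, 0, ⟨0, 0⟩, 0⟩ 0 0))) (.cut .v 14680064 (.cut .l 11886191 (.cut .l 9671365 (.void 45 ⟨0, 0, 0, 0, 0, 100000, 0, 0, 0, ⟨0, 0⟩, 0⟩ 0 0) (.cut .d (-2621440) (.cut .s 8929280 (.pos 45 .mm ⟨8592444, 0, 0, 0, 0, 18085232, 0, 0, 0, ⟨0, 0⟩, 0⟩ 0 0) (.void 45 ⟨0, 0, 0, 0, 0, 100000, 0, 0, 0, ⟨0, 0⟩, 0⟩ 0 0)) (.cut .s 8929280 (.cut .s 8871936 (.pos 45 .mm ⟨616512, 0, 0, 0, 0,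 19340091, 0, 0, 0, ⟨0, 0⟩, 0⟩ 0 0) (.cut .v 13631488 (.pos 64 .mm ⟨0, 0, 0, 0, 0, 21022558, 0, 0, 0, ⟨0, 0⟩, 0⟩ 0 0) (.pos 65 .mm ⟨3784134, 0, 0, 0, 0, 19200272, 0, 0, 0, ⟨0, 0⟩, 0⟩ 0 0))) (.cut .v 13631488 (.pos 64 .mm ⟨0, 0, 0, 0, 0, 24346313, 0, 0, 0, ⟨0, 0⟩, 0⟩ 0 0) (.cut .l 10778778 (.pos 65 .mm ⟨0, 0, 0, 0, 0, 30439802, 0, 0, 0, ⟨0, 0⟩, 0⟩ 0 0) (.cut .d (-2359296) (.cut .s 8986624 (.pos 65 .mm ⟨9905402, 0, 0, 0, 0, 16734290, 0, 0, 0, ⟨0, 0⟩, 0⟩ 0 0) (.cut .s 9015296 (.pos 65 .mm ⟨10888640, 0, 0, 0, 0, 17330797, 0, 0, 0, ⟨0, 0⟩, 0⟩ 0 0) (.pos 65 .mm ⟨11722070, 0, 0, 0, 0, 17782658, 0, 0, 0, ⟨0, 0⟩, 0⟩ 0 0))) (.cut .s 8986624 (.pos 65 .mm ⟨2593387, 0,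 0, 0, 0, 21024306, 0, 0, 0, ⟨0, 0⟩, 0⟩ 0 0) (.pos 65 .mm ⟨3793055, 0, 0, 0, 0, 22364539, 0, 0, 0, ⟨0, 0⟩, 0⟩ 0 0)))))))) (.cut .l 14101016 (.cut .d (-2621440) (.cut .s 8929280 (.cut .v 13631488 (.cut .s 8871936 (.pos 64 .mm ⟨12011671, 0, 0, 0, 0, 10144049, 0, 0, 0, ⟨0, 0⟩, 0⟩ 0 0) (.pos 64 .mm ⟨12510110, 0, 0, 0, 0, 11699632, 0, 0, 0, ⟨0, 0⟩, 0⟩ 0 0)) (.pos 65 .mm ⟨20437058, 0, 0, 0, 0, 5709887, 0, 0, 0, ⟨0, 0⟩, 0⟩ 0 0)) (.cut .v 13631488 (.cut .s 8986624 (.pos 64 .mm ⟨18951029, 0, 0, 0, 0, 8471273, 0, 0, 0, ⟨0, 0⟩, 0⟩ 0 0) (.cut .s 9015296 (.pos 64 .mm ⟨18098710, 0, 0, 0, 0, 10687224, 0, 0, 0, ⟨0, 0⟩, 0⟩ 0 0) (.cut .s 9029632 (.pos 64 .mm ⟨17696715, 0, 0,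 0, 0, 11774219, 0, 0, 0, ⟨0, 0⟩, 0⟩ 0 0) (.pos 64 .mm ⟨18321268, 0, 0, 0, 0, 11802951, 0, 0, 0, ⟨0, 0⟩, 0⟩ 0 0)))) (.pos 65 .mm ⟨27973653, 0, 0, 0, 0, 4643938, 0, 0, 0, ⟨0, 0⟩, 0⟩ 0 0))) (.cut .s 8929280 (.pos 45 .mm ⟨10716996, 0, 0, 0, 0, 8257945, 0, 0, 0, ⟨0, 0⟩, 0⟩ 0 0) (.cut .v 13631488 (.pos 64 .mm ⟨2442196, 0, 0, 0, 0, 19975135, 0, 0, 0, ⟨0, 0⟩, 0⟩ 0 0) (.cut .s 8986624 (.pos 65 .mm ⟨15724354, 0, 0, 0, 0, 8778592, 0, 0, 0, ⟨0, 0⟩, 0⟩ 0 0) (.pos 65 .mm ⟨17204022, 0, 0, 0, 0, 9754352, 0, 0, 0, ⟨0, 0⟩, 0⟩ 0 0))))) (.pos 45 .mm ⟨20381722, 0, 0, 0, 0, 0, 0, 0, 0, ⟨0, 0⟩, 0⟩ 0 0))) (.cut .l 11886191 (.cut .s 8929280 (.pos 46 .mm ⟨21642669, 0, 0, 0, 0, 8257918,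 0, 0, 0, ⟨0, 0⟩, 0⟩ 0 0) (.pos 46 .mm ⟨26628305, 0, 0, 0, 0, 9122327, 0, 0, 0, ⟨0, 0⟩, 0⟩ 0 0)) (.pos 46 .mm ⟨31412567, 0, 0, 0, 0, 0, 0, 0, 0, ⟨0, 0⟩, 0⟩ 0 0))))) (.cut .d (-3145728) (.cut .l 20745493 (.cut .l 18530667 (.cut .v 14680064 (.cut .s 8814592 (.pos 45 .mm ⟨17316075, 0, 0, 0, 0, 0, 0, 0, 0, ⟨0, 0⟩, 0⟩ 0 0) (.pos 45 .mm ⟨28659953, 0, 0, 0, 0, 0, 0, 0, 0, ⟨0, 0⟩, 0⟩ 0 0)) (.pos 46 .mm ⟨28294603, 0, 0, 0, 0, 0, 0, 0, 0, ⟨0, 0⟩, 0⟩ 0 0)) (.pos 9 .mm ⟨18916381, 0, 0, 0, 0, 0, 0, 0, 0, ⟨0, 0⟩, 0⟩ 0 0)) (.pos 9 .mm ⟨6897543, 0, 0, 0, 0, 0, 0, 0, 0, ⟨0, 0⟩, 0⟩ 0 0)) (.pos 9 .mm ⟨0, 0, 0, 0, 0, 0, 0, 0, 0, ⟨0, 0⟩, 0⟩ 0 0))) (.cut .l 16315842 (.cut .l 11886191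 (.cut .d (-1048576) (.cut .s 8814592 (.cut .v 14680064 (.cut .s 8699904 (.pos 45 .mm ⟨0, 0, 0, 0, 0, 11945999, 0, 0, 0, ⟨0, 0⟩, 0⟩ 0 0) (.cut .s 8757248 (.pos 45 .mm ⟨0, 0, 0, 0, 0, 14313912, 0, 0, 0, ⟨0, 0⟩, 0⟩ 0 0) (.pos 45 .mm ⟨0, 0, 0, 0, 0, 15865219, 0, 0, 0, ⟨0, 0⟩, 0⟩ 0 0))) (.cut .s 8699904 (.pos 46 .mm ⟨0, 0, 0, 0, 0, 13556323, 0, 0, 0, ⟨0, 0⟩, 0⟩ 0 0) (.pos 46 .mm ⟨0, 0, 0, 0, 0, 16939090, 0, 0, 0, ⟨0, 0⟩, 0⟩ 0 0))) (.cut .v 14680064 (.cut .d (-1572864) (.cut .l 9671365 (.pos 45 .mm ⟨0, 0, 0, 0, 0, 23680923, 0, 0, 0, ⟨0, 0⟩, 0⟩ 0 0) (.cut .s 8929280 (.pos 45 .mm ⟨0, 0, 0, 0, 0, 17820595, 0, 0, 0, ⟨0, 0⟩, 0⟩ 0 0) (.pos 45 .mm ⟨0, 0, 0, 0, 0, 21723398,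 0, 0, 0, ⟨0, 0⟩, 0⟩ 0 0))) (.pos 45 .mm ⟨0, 0, 0, 0, 0, 17790270, 0, 0, 0, ⟨0, 0⟩, 0⟩ 0 0)) (.cut .s 8929280 (.pos 46 .mm ⟨0, 0, 0, 0, 0, 20712075, 0, 0, 0, ⟨0, 0⟩, 0⟩ 0 0) (.pos 46 .mm ⟨0, 0, 0, 0, 0, 24888841, 0, 0, 0, ⟨0, 0⟩, 0⟩ 0 0)))) (.pos 9 .mm ⟨0, 0, 0, 0, 0, 0, 0, 0, 0, ⟨0, 0⟩, 0⟩ 0 0)) (.pos 9 .mm ⟨0, 0, 0, 0, 0, 0, 0, 0, 0, ⟨0, 0⟩, 0⟩ 0 0)) (.pos 9 .mm ⟨0, 0, 0, 0, 0, 0, 0, 0, 0, ⟨0, 0⟩, 0⟩ 0 0))))))) (.cut .v 268435456 (.cut .d (-8388608) (.void 10 ⟨100000, 0, 0, 0, 0, 0, 0, 0, 0, ⟨0, 0⟩, 0⟩ 0 0) (.cut .v 67108864 (.cut .v 33554432 (.cut .d (-4194304) (.cut .d (-6291456) (.void 13 ⟨100000, 0, 0, 0, 0, 0, 0, 0, 0, ⟨0, 0⟩, 0⟩ 0 0) (.cut .d (-5242880)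 (.pos 13 .mp ⟨92355035, 0, 0, 0, 0, 0, 0, 0, 0, ⟨0, 0⟩, 0⟩ 0 0) (.cut .s 8814592 (.pos 13 .mp ⟨47374161, 0, 0, 0, 0, 0, 0, 0, 0, ⟨0, 0⟩, 0⟩ 0 0) (.pos 13 .mp ⟨70432244, 0, 0, 0, 0, 0, 0, 0, 0, ⟨0, 0⟩, 0⟩ 0 0)))) (.cut .v 25165824 (.cut .d (-2097152) (.cut .s 8814592 (.pos 15 .mp ⟨31899339, 0, 0, 0, 0, 0, 0, 0, 0, ⟨0, 0⟩, 0⟩ 0 0) (.pos 15 .mp ⟨46850227, 0, 0, 0, 0, 0, 0, 0, 0, ⟨0, 0⟩, 0⟩ 0 0)) (.pos 15 .mp ⟨26970853, 0, 0, 0, 0, 0, 0, 0, 0, ⟨0, 0⟩, 0⟩ 0 0)) (.pos 16 .mp ⟨68425563, 0, 0, 0, 0, 0, 0, 0, 0, ⟨0, 0⟩, 0⟩ 0 0))) (.cut .d (-4194304) (.void 14 ⟨100000, 0, 0, 0, 0, 0, 0, 0, 0, ⟨0, 0⟩, 0⟩ 0 0) (.pos 14 .mp ⟨189526178, 0, 0, 0, 0, 0, 0, 0, 0, ⟨0, 0⟩,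 0⟩ 0 0))) (.cut .v 134217728 (.pos 31 .mp ⟨2136762328, 0, 0, 0, 0, 0, 0, 0, 0, ⟨0, 0⟩, 0⟩ 0 0) (.void 32 ⟨100000, 0, 0, 0, 0, 0, 0, 0, 0, ⟨0, 0⟩, 0⟩ 0 0)))) (.void 59 ⟨64975, 35025, 0, 0, 0, 0, 0, 0, 0, ⟨0, 0⟩, 0⟩ 0 0))) (.cut .v 16777216 (.cut .v 8388608 (.cut .v 4194304 (.cut .v 2097152 (.void 6 ⟨0, 0, 50000, 0, 50000, 0, 0, 0, 0, ⟨0, 0⟩, 0⟩ 0 0) (.pos 7 .pm ⟨0, 0, 0, 0, 0, 0, 0, 0, 1314091, ⟨0, 0⟩, 7053950⟩ 0 0)) (.pos 5 .pm ⟨0, 1591678, 0, 0, 0, 0, 0, 0, 0, ⟨0, 0⟩, 0⟩ 0 0)) (.cut .v 12582912 (.pos 8 .pm ⟨0, 835234, 0, 0, 0, 0, 0, 0, 0, ⟨0, 0⟩, 0⟩ 0 0) (.pos 9 .pm ⟨0, 0, 0, 0, 0, 0, 0, 0, 0, ⟨0, 0⟩, 0⟩ 0 0))) (.cut .v 268435456 (.cut .v 67108864 (.cut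 .v 33554432 (.pos 13 .pp ⟨0, 0, 0, 0, 0, 0, 0, 0, 0, ⟨0, 0⟩, 0⟩ 0 0) (.pos 14 .pp ⟨35610439, 0, 0, 0, 0, 0, 0, 0, 0, ⟨0, 0⟩, 0⟩ 0 0)) (.cut .v 134217728 (.pos 31 .pp ⟨213841224, 52107969, 0, 0, 0, 0, 0, 0, 0, ⟨0, 0⟩, 0⟩ 0 0) (.void 32 ⟨38573, 61427, 0, 0, 0, 0, 0, 0, 0, ⟨0, 0⟩, 0⟩ 0 0))) (.void 59 ⟨0, 0, 0, 100000, 0, 0, 0, 0, 0, ⟨0, 0⟩, 0⟩ 0 0)))),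
    by decide +kernel⟩

def covers11 : cell.Covers table row11.1 :=
  ⟨(.cut .d 0 (.cut .v 16777216 (.cut .d (-8388608) (.void 1 ⟨0, 0, 0, 0, 0, 100000, 0, 0, 0, ⟨0, 0⟩, 0⟩ 0 0) (.cut .v 8388608 (.cut .v 4194304 (.void 4 ⟨0, 0, 100000, 0, 0, 0, 0, 0, 0, ⟨0, 0⟩, 0⟩ 0 0) (.cut .d (-4194304) (.void 5 ⟨0, 0, 100000, 0, 0, 0, 0, 0, 0, ⟨0, 0⟩, 0⟩ 0 0) (.pos 5 .mm ⟨0, 0, 7105326, 0, 0, 14322091, 0, 0, 0, ⟨0, 0⟩, 0⟩ 0 0))) (.cut .d (-4194304) (.cut .l 16315842 (.void 3 ⟨0, 0, 0, 0, 0, 100000, 0, 0, 0, ⟨0, 0⟩, 0⟩ 0 0) (.cut .d (-6291456) (.cut .v 12582912 (.cut .v 10485760 (.pos 66 .mm ⟨80486400, 0, 4038451, 0, 0, 0, 0, 0, 0, ⟨0, 0⟩, 0⟩ 0 0) (.pos 67 .mm ⟨104791589,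 0, 0, 0, 0, 0, 0, 0, 0, ⟨0, 0⟩, 0⟩ 0 0)) (.void 9 ⟨100000, 0, 0, 0, 0, 0, 0, 0, 0, ⟨0, 0⟩, 0⟩ 0 0)) (.cut .v 12582912 (.cut .s 9306112 (.cut .v 10485760 (.pos 66 .mm ⟨0, 0, 0, 0, 0, 25870983, 0, 0, 0, ⟨0, 0⟩, 0⟩ 0 0) (.cut .d (-5242880) (.cut .s 9175040 (.pos 67 .mm ⟨45543383, 0, 0, 0, 0, 0, 0, 0, 0, ⟨0, 0⟩, 0⟩ 0 0) (.pos 67 .mm ⟨56032171, 0, 0, 0, 0, 0, 0, 0, 0, ⟨0, 0⟩, 0⟩ 0 0)) (.cut .s 9175040 (.pos 67 .mm ⟨38850423, 0, 0, 0, 0, 0, 0, 0, 0, ⟨0, 0⟩, 0⟩ 0 0) (.pos 67 .mm ⟨46825970, 0, 0, 0, 0, 0, 0, 0, 0, ⟨0, 0⟩, 0⟩ 0 0)))) (.cut .v 10485760 (.cut .d (-5242880) (.pos 66 .mm ⟨62820041, 0, 1406201, 0, 0, 0, 0, 0, 0, ⟨0, 0⟩, 0⟩ 0 0) (.cut .s 9437184 (.pos 66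 .mm ⟨32262640, 0, 0, 0, 0, 10217634, 0, 0, 0, ⟨0, 0⟩, 0⟩ 0 0) (.pos 66 .mm ⟨34027025, 0, 0, 0, 0, 15161174, 0, 0, 0, ⟨0, 0⟩, 0⟩ 0 0))) (.cut .d (-5242880) (.cut .s 9437184 (.pos 67 .mm ⟨68376221, 0, 0, 0, 0, 0, 0, 0, 0, ⟨0, 0⟩, 0⟩ 0 0) (.pos 67 .mm ⟨81871678, 0, 0, 0, 0, 0, 0, 0, 0, ⟨0, 0⟩, 0⟩ 0 0)) (.cut .s 9437184 (.cut .v 11534336 (.pos 68 .mm ⟨52091496, 0, 0, 0, 0, 0, 0, 0, 0, ⟨0, 0⟩, 0⟩ 0 0) (.pos 69 .mm ⟨57940120, 0, 0, 0, 0, 0, 0, 0, 0, ⟨0, 0⟩, 0⟩ 0 0)) (.cut .v 11534336 (.pos 68 .mm ⟨61306367, 0, 0, 0, 0, 0, 0, 0, 0, ⟨0, 0⟩, 0⟩ 0 0) (.pos 69 .mm ⟨68344653, 0, 0, 0, 0, 0, 0, 0, 0, ⟨0, 0⟩, 0⟩ 0 0)))))) (.cut .s 9306112 (.cut .d (-5242880) (.cut .s 9175040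 (.pos 9 .mm ⟨60138182, 0, 0, 0, 0, 0, 0, 0, 0, ⟨0, 0⟩, 0⟩ 0 0) (.pos 9 .mm ⟨73655640, 0, 0, 0, 0, 0, 0, 0, 0, ⟨0, 0⟩, 0⟩ 0 0)) (.cut .v 14680064 (.cut .s 9175040 (.cut .l 20745493 (.pos 45 .mm ⟨48073036, 0, 0, 0, 0, 0, 0, 0, 0, ⟨0, 0⟩, 0⟩ 0 0) (.pos 45 .mm ⟨42357308, 0, 0, 0, 0, 0, 0, 0, 0, ⟨0, 0⟩, 0⟩ 0 0)) (.pos 45 .mm ⟨55703336, 0, 0, 0, 0, 0, 0, 0, 0, ⟨0, 0⟩, 0⟩ 0 0)) (.pos 46 .mm ⟨61899452, 0, 0, 0, 0, 0, 0, 0, 0, ⟨0, 0⟩, 0⟩ 0 0))) (.cut .d (-5242880) (.void 9 ⟨100000, 0, 0, 0, 0, 0, 0, 0, 0, ⟨0, 0⟩, 0⟩ 0 0) (.cut .s 9437184 (.cut .d (-4718592) (.pos 9 .mm ⟨74386443, 0, 0, 0, 0, 0, 0, 0, 0, ⟨0, 0⟩, 0⟩ 0 0) (.pos 9 .mm ⟨65953490, 0, 0, 0, 0, 0, 0, 0, 0,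 ⟨0, 0⟩, 0⟩ 0 0)) (.pos 9 .mm ⟨85467502, 0, 0, 0, 0, 0, 0, 0, 0, ⟨0, 0⟩, 0⟩ 0 0))))))) (.cut .d (-2097152) (.cut .v 12582912 (.cut .l 16315842 (.cut .s 9306112 (.cut .v 10485760 (.pos 66 .mm ⟨0, 0, 0, 0, 0, 23491489, 0, 0, 0, ⟨0, 0⟩, 0⟩ 0 0) (.cut .s 9175040 (.cut .v 11534336 (.pos 68 .mm ⟨0, 0, 0, 0, 0, 23222172, 0, 0, 0, ⟨0, 0⟩, 0⟩ 0 0) (.cut .v 12058624 (.pos 70 .mm ⟨0, 0, 0, 0, 0, 24772150, 0, 0, 0, ⟨0, 0⟩, 0⟩ 0 0) (.cut .l 11886191 (.pos 71 .mm ⟨0, 0, 0, 0, 0, 29685330, 0, 0, 0, ⟨0, 0⟩, 0⟩ 0 0) (.cut .d (-3145728) (.pos 71 .mm ⟨28965902, 0, 0, 0, 0, 7034981, 0, 0, 0, ⟨0, 0⟩, 0⟩ 0 0) (.pos 71 .mm ⟨0, 0, 0, 0, 0, 23961198, 0, 0, 0, ⟨0, 0⟩, 0⟩ 0 0))))) (.cut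 .v 11534336 (.pos 68 .mm ⟨0, 0, 0, 0, 0, 28774692, 0, 0, 0, ⟨0, 0⟩, 0⟩ 0 0) (.cut .l 11886191 (.pos 69 .mm ⟨0, 0, 0, 0, 0, 37067692, 0, 0, 0, ⟨0, 0⟩, 0⟩ 0 0) (.cut .d (-3145728) (.pos 69 .mm ⟨29123135, 0, 0, 0, 0, 13283253, 0, 0, 0, ⟨0, 0⟩, 0⟩ 0 0) (.cut .s 9240576 (.pos 69 .mm ⟨4512097, 0, 0, 0, 0, 25282272, 0, 0, 0, ⟨0, 0⟩, 0⟩ 0 0) (.pos 69 .mm ⟨5533303, 0, 0, 0, 0, 27480790, 0, 0, 0, ⟨0, 0⟩, 0⟩ 0 0))))))) (.cut .v 10485760 (.pos 66 .mm ⟨0, 0, 0, 0, 0, 34957378, 0, 0, 0, ⟨0, 0⟩, 0⟩ 0 0) (.cut .l 11886191 (.pos 67 .mm ⟨0, 0, 0, 0, 0, 53752603, 0, 0, 0, ⟨0, 0⟩, 0⟩ 0 0) (.cut .d (-3145728) (.cut .d (-3670016) (.pos 67 .mm ⟨43868552, 0, 0, 0, 0, 27579338, 0,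 0, 0, ⟨0, 0⟩, 0⟩ 0 0) (.cut .s 9437184 (.pos 67 .mm ⟨32973350, 0, 0, 0, 0, 16109593, 0, 0, 0, ⟨0, 0⟩, 0⟩ 0 0) (.cut .s 9502720 (.pos 67 .mm ⟨36106476, 0, 0, 0, 0, 18115913, 0, 0, 0, ⟨0, 0⟩, 0⟩ 0 0) (.pos 67 .mm ⟨38039059, 0, 0, 0, 0, 20418465, 0, 0, 0, ⟨0, 0⟩, 0⟩ 0 0)))) (.cut .v 11534336 (.pos 68 .mm ⟨0, 0, 0, 0, 0, 35366254, 0, 0, 0, ⟨0, 0⟩, 0⟩ 0 0) (.cut .s 9437184 (.cut .s 9371648 (.pos 69 .mm ⟨6725149, 0, 0, 0, 0, 29684840, 0, 0, 0, ⟨0, 0⟩, 0⟩ 0 0) (.cut .d (-2621440) (.cut .l 14101016 (.pos 69 .mm ⟨19898770, 0, 0, 0, 0, 25174418, 0, 0, 0, ⟨0, 0⟩, 0⟩ 0 0) (.pos 69 .mm ⟨30679729, 0, 0, 0, 0, 13951242, 0, 0, 0, ⟨0, 0⟩, 0⟩ 0 0)) (.pos 69 .mm ⟨0, 0, 0, 0,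 0, 35095790, 0, 0, 0, ⟨0, 0⟩, 0⟩ 0 0))) (.cut .v 12058624 (.pos 70 .mm ⟨1645467, 0, 0, 0, 0, 39812922, 0, 0, 0, ⟨0, 0⟩, 0⟩ 0 0) (.cut .d (-2621440) (.cut .l 14101016 (.cut .s 9502720 (.pos 71 .mm ⟨24294007, 0, 0, 0, 0, 25492629, 0, 0, 0, ⟨0, 0⟩, 0⟩ 0 0) (.pos 71 .mm ⟨29015956, 0, 0, 0, 0, 25688662, 0, 0, 0, ⟨0, 0⟩, 0⟩ 0 0)) (.cut .d (-2883584) (.pos 71 .mm ⟨47397386, 0, 0, 0, 0, 7737729, 0, 0, 0, ⟨0, 0⟩, 0⟩ 0 0) (.pos 71 .mm ⟨41520248, 0, 0, 0, 0, 5908159, 0, 0, 0, ⟨0, 0⟩, 0⟩ 0 0))) (.cut .l 14101016 (.pos 71 .mm ⟨0, 0, 0, 0, 0, 42544705, 0, 0, 0, ⟨0, 0⟩, 0⟩ 0 0) (.pos 71 .mm ⟨0, 0, 0, 0, 0, 0, 0, 0, 0, ⟨0, 0⟩, 0⟩ 0 0)))))))))) (.cut .d (-3145728) (.cut .v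 10485760 (.pos 66 .mm ⟨0, 0, 0, 0, 0, 24250865, 0, 0, 0, ⟨0, 0⟩, 0⟩ 0 0) (.cut .l 20745493 (.cut .s 9306112 (.cut .s 9175040 (.pos 67 .mm ⟨31547692, 0, 0, 0, 0, 0, 0, 0, 0, ⟨0, 0⟩, 0⟩ 0 0) (.pos 67 .mm ⟨38882679, 0, 0, 0, 0, 0, 0, 0, 0, ⟨0, 0⟩, 0⟩ 0 0)) (.cut .d (-3670016) (.cut .s 9437184 (.pos 67 .mm ⟨50163692, 0, 0, 0, 0, 0, 0, 0, 0, ⟨0, 0⟩, 0⟩ 0 0) (.pos 67 .mm ⟨58695331, 0, 0, 0, 0, 0, 0, 0, 0, ⟨0, 0⟩, 0⟩ 0 0)) (.cut .s 9437184 (.pos 67 .mm ⟨41966486, 0, 0, 0, 0, 0, 0, 0, 0, ⟨0, 0⟩, 0⟩ 0 0) (.pos 67 .mm ⟨50401917, 0, 0, 0, 0, 0, 0, 0, 0, ⟨0, 0⟩, 0⟩ 0 0)))) (.pos 67 .mm ⟨31264976, 0, 0, 0, 0, 0, 0, 0, 0, ⟨0, 0⟩, 0⟩ 0 0))) (.pos 8 .mm ⟨20885036, 0, 0,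 0, 0, 0, 0, 0, 0, ⟨0, 0⟩, 0⟩ 0 0))) (.cut .s 9306112 (.cut .l 16315842 (.cut .d (-3145728) (.cut .l 11886191 (.void 9 ⟨0, 0, 0, 0, 0, 100000, 0, 0, 0, ⟨0, 0⟩, 0⟩ 0 0) (.cut .s 9175040 (.cut .s 9109504 (.cut .v 14680064 (.pos 45 .mm ⟨39998743, 0, 0, 0, 0, 0, 0, 0, 0, ⟨0, 0⟩, 0⟩ 0 0) (.pos 46 .mm ⟨47367603, 0, 0, 0, 0, 0, 0, 0, 0, ⟨0, 0⟩, 0⟩ 0 0)) (.pos 9 .mm ⟨45812284, 0, 0, 0, 0, 0, 0, 0, 0, ⟨0, 0⟩, 0⟩ 0 0)) (.pos 9 .mm ⟨54101843, 0, 0, 0, 0, 0, 0, 0, 0, ⟨0, 0⟩, 0⟩ 0 0))) (.cut .v 14680064 (.cut .l 11886191 (.cut .d (-2621440) (.void 45 ⟨0, 0, 0, 0, 0, 100000, 0, 0, 0, ⟨0, 0⟩, 0⟩ 0 0) (.cut .l 9671365 (.void 45 ⟨0, 0, 0, 0, 0, 100000, 0, 0, 0, ⟨0, 0⟩, 0⟩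 0 0) (.cut .s 9175040 (.cut .l 10778778 (.pos 45 .mm ⟨0, 0, 0, 0, 0, 36467000, 0, 0, 0, ⟨0, 0⟩, 0⟩ 0 0) (.cut .v 13631488 (.cut .s 9109504 (.pos 64 .mm ⟨0, 0, 0, 0, 0, 27704824, 0, 0, 0, ⟨0, 0⟩, 0⟩ 0 0) (.pos 64 .mm ⟨0, 0, 0, 0, 0, 31224896, 0, 0, 0, ⟨0, 0⟩, 0⟩ 0 0)) (.cut .d (-2359296) (.cut .s 9109504 (.cut .s 9076736 (.cut .d (-2490368) (.pos 65 .mm ⟨14630845, 0, 0, 0, 0, 16689375, 0, 0, 0, ⟨0, 0⟩, 0⟩ 0 0) (.pos 65 .mm ⟨12033602, 0, 0, 0, 0, 17934425, 0, 0, 0, ⟨0, 0⟩, 0⟩ 0 0)) (.pos 65 .mm ⟨12615675, 0, 0, 0, 0, 19688280, 0, 0, 0, ⟨0, 0⟩, 0⟩ 0 0)) (.pos 65 .mm ⟨13258200, 0, 0, 0, 0, 22120057, 0, 0, 0, ⟨0, 0⟩, 0⟩ 0 0)) (.cut .s 9109504 (.cut .s 9076736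 (.pos 65 .mm ⟨8854734, 0, 0, 0, 0, 19326240, 0, 0, 0, ⟨0, 0⟩, 0⟩ 0 0) (.pos 65 .mm ⟨9213404, 0, 0, 0, 0, 20660634, 0, 0, 0, ⟨0, 0⟩, 0⟩ 0 0)) (.pos 65 .mm ⟨7685047, 0, 0, 0, 0, 24422146, 0, 0, 0, ⟨0, 0⟩, 0⟩ 0 0))))) (.cut .l 10778778 (.void 45 ⟨0, 0, 0, 0, 0, 100000, 0, 0, 0, ⟨0, 0⟩, 0⟩ 0 0) (.cut .d (-2359296) (.cut .v 13631488 (.pos 64 .mm ⟨0, 0, 0, 0, 0, 40186698, 0, 0, 0, ⟨0, 0⟩, 0⟩ 0 0) (.cut .s 9240576 (.pos 65 .mm ⟨16743566, 0, 0, 0, 0, 22661265, 0, 0, 0, ⟨0, 0⟩, 0⟩ 0 0) (.pos 65 .mm ⟨20083195, 0, 0, 0, 0, 23598998, 0, 0, 0, ⟨0, 0⟩, 0⟩ 0 0))) (.cut .v 13631488 (.pos 64 .mm ⟨909002, 0, 0, 0, 0, 33194829, 0, 0, 0, ⟨0, 0⟩, 0⟩ 0 0) (.cut .v 14155776 (.cut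 .s 9240576 (.pos 72 .mm ⟨6803695, 0, 0, 0, 0, 28326560, 0, 0, 0, ⟨0, 0⟩, 0⟩ 0 0) (.pos 72 .mm ⟨9587867, 0, 0, 0, 0, 29636632, 0, 0, 0, ⟨0, 0⟩, 0⟩ 0 0)) (.pos 73 .mm ⟨29917790, 0, 0, 0, 0, 12788740, 0, 0, 0, ⟨0, 0⟩, 0⟩ 0 0)))))))) (.cut .d (-2621440) (.cut .l 14101016 (.cut .s 9175040 (.cut .v 13631488 (.cut .s 9109504 (.cut .d (-2883584) (.pos 64 .mm ⟨25574210, 0, 0, 0, 0, 8408229, 0, 0, 0, ⟨0, 0⟩, 0⟩ 0 0) (.cut .s 9076736 (.cut .s 9060352 (.pos 64 .mm ⟨17063613, 0, 0, 0, 0, 13006037, 0, 0, 0, ⟨0, 0⟩, 0⟩ 0 0) (.pos 64 .mm ⟨17659570, 0, 0, 0, 0, 13201837, 0, 0, 0, ⟨0, 0⟩, 0⟩ 0 0)) (.pos 64 .mm ⟨19765249, 0, 0, 0, 0, 12403304, 0, 0, 0, ⟨0, 0⟩, 0⟩ 0 0))) (.cut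 .v 13107200 (.pos 74 .mm ⟨15890485, 0, 0, 0, 0, 17038950, 0, 0, 0, ⟨0, 0⟩, 0⟩ 0 0) (.pos 75 .mm ⟨26555350, 0, 0, 0, 0, 9973711, 0, 0, 0, ⟨0, 0⟩, 0⟩ 0 0))) (.pos 65 .mm ⟨42335661, 0, 0, 0, 0, 0, 0, 0, 0, ⟨0, 0⟩, 0⟩ 0 0)) (.cut .d (-2883584) (.pos 45 .mm ⟨34470220, 0, 0, 0, 0, 10768994, 0, 0, 0, ⟨0, 0⟩, 0⟩ 0 0) (.cut .v 13631488 (.cut .s 9240576 (.pos 64 .mm ⟨26617786, 0, 0, 0, 0, 11861240, 0, 0, 0, ⟨0, 0⟩, 0⟩ 0 0) (.pos 64 .mm ⟨29212561, 0, 0, 0, 0, 13038152, 0, 0, 0, ⟨0, 0⟩, 0⟩ 0 0)) (.pos 65 .mm ⟨50877219, 0, 0, 0, 0, 0, 0, 0, 0, ⟨0, 0⟩, 0⟩ 0 0)))) (.pos 45 .mm ⟨31955806, 0, 0, 0, 0, 0, 0, 0, 0, ⟨0, 0⟩, 0⟩ 0 0)) (.cut .l 14101016 (.cut .l 12993603 (.cut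 .d (-2359296) (.cut .s 9175040 (.cut .v 13631488 (.cut .s 9109504 (.pos 64 .mm ⟨9488664, 0, 0, 0, 0, 18452002, 0, 0, 0, ⟨0, 0⟩, 0⟩ 0 0) (.pos 64 .mm ⟨13610360, 0, 0, 0, 0, 18183217, 0, 0, 0, ⟨0, 0⟩, 0⟩ 0 0)) (.cut .s 9109504 (.pos 65 .mm ⟨18936858, 0, 0, 0, 0, 10379282, 0, 0, 0, ⟨0, 0⟩, 0⟩ 0 0) (.pos 65 .mm ⟨20908946, 0, 0, 0, 0, 12442668, 0, 0, 0, ⟨0, 0⟩, 0⟩ 0 0))) (.cut .v 13631488 (.cut .s 9240576 (.pos 64 .mm ⟨14506261, 0, 0, 0, 0, 20853819, 0, 0, 0, ⟨0, 0⟩, 0⟩ 0 0) (.cut .s 9273344 (.pos 64 .mm ⟨15610077, 0, 0, 0, 0, 22632223, 0, 0, 0, ⟨0, 0⟩, 0⟩ 0 0) (.pos 64 .mm ⟨16241200, 0, 0, 0, 0, 23863593, 0, 0, 0, ⟨0, 0⟩, 0⟩ 0 0))) (.pos 65 .mm ⟨27802089, 0,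 0, 0, 0, 12804287, 0, 0, 0, ⟨0, 0⟩, 0⟩ 0 0))) (.cut .v 13631488 (.pos 64 .mm ⟨14179495, 0, 0, 0, 0, 11456029, 0, 0, 0, ⟨0, 0⟩, 0⟩ 0 0) (.pos 65 .mm ⟨26040868, 0, 0, 0, 0, 0, 0, 0, 0, ⟨0, 0⟩, 0⟩ 0 0))) (.pos 45 .mm ⟨17230890, 0, 0, 0, 0, 0, 0, 0, 0, ⟨0, 0⟩, 0⟩ 0 0)) (.pos 45 .mm ⟨6737097, 0, 0, 0, 0, 0, 0, 0, 0, ⟨0, 0⟩, 0⟩ 0 0)))) (.cut .l 11886191 (.pos 46 .mm ⟨55339646, 0, 0, 0, 0, 0, 0, 0, 0, ⟨0, 0⟩, 0⟩ 0 0) (.pos 46 .mm ⟨45247606, 0, 0, 0, 0, 0, 0, 0, 0, ⟨0, 0⟩, 0⟩ 0 0)))) (.cut .d (-3145728) (.cut .s 9175040 (.pos 9 .mm ⟨39176964, 0, 0, 0, 0, 0, 0, 0, 0, ⟨0, 0⟩, 0⟩ 0 0) (.pos 9 .mm ⟨47488943, 0, 0, 0, 0, 0, 0, 0, 0, ⟨0, 0⟩, 0⟩ 0 0)) (.pos 9 .mm ⟨17685521,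 0, 0, 0, 0, 0, 0, 0, 0, ⟨0, 0⟩, 0⟩ 0 0))) (.cut .l 16315842 (.cut .d (-3145728) (.cut .s 9437184 (.pos 9 .mm ⟨70461461, 0, 0, 0, 0, 0, 0, 0, 0, ⟨0, 0⟩, 0⟩ 0 0) (.pos 9 .mm ⟨83249797, 0, 0, 0, 0, 0, 0, 0, 0, ⟨0, 0⟩, 0⟩ 0 0)) (.cut .v 14680064 (.cut .l 11886191 (.cut .d (-2621440) (.void 45 ⟨0, 0, 0, 0, 0, 100000, 0, 0, 0, ⟨0, 0⟩, 0⟩ 0 0) (.cut .d (-2359296) (.void 45 ⟨0, 0, 0, 0, 0, 100000, 0, 0, 0, ⟨0, 0⟩, 0⟩ 0 0) (.cut .l 9671365 (.void 45 ⟨0, 0, 0, 0, 0, 100000, 0, 0, 0, ⟨0, 0⟩, 0⟩ 0 0) (.cut .l 10778778 (.void 45 ⟨0, 0, 0, 0, 0, 100000, 0, 0, 0, ⟨0, 0⟩, 0⟩ 0 0) (.cut .s 9437184 (.cut .v 13631488 (.cut .s 9371648 (.pos 64 .mm ⟨9912802, 0, 0, 0, 0, 31835523,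 0, 0, 0, ⟨0, 0⟩, 0⟩ 0 0) (.cut .d (-2228224) (.pos 64 .mm ⟨14965361, 0, 0, 0, 0, 33126853, 0, 0, 0, ⟨0, 0⟩, 0⟩ 0 0) (.pos 64 .mm ⟨11151210, 0, 0, 0, 0, 33301918, 0, 0, 0, ⟨0, 0⟩, 0⟩ 0 0))) (.cut .v 14155776 (.cut .l 11332484 (.pos 72 .mm ⟨9794172, 0, 0, 0, 0, 40283666, 0, 0, 0, ⟨0, 0⟩, 0⟩ 0 0) (.cut .s 9371648 (.pos 72 .mm ⟨19419943, 0, 0, 0, 0, 23778439, 0, 0, 0, ⟨0, 0⟩, 0⟩ 0 0) (.cut .s 9404416 (.pos 72 .mm ⟨20750500, 0, 0, 0, 0, 25479074, 0, 0, 0, ⟨0, 0⟩, 0⟩ 0 0) (.pos 72 .mm ⟨24116636, 0, 0, 0, 0, 24440272, 0, 0, 0, ⟨0, 0⟩, 0⟩ 0 0)))) (.pos 73 .mm ⟨62546681, 0, 0, 0, 0, 0, 0, 0, 0, ⟨0, 0⟩, 0⟩ 0 0))) (.cut .l 11332484 (.pos 45 .mm ⟨13188003, 0, 0, 0, 0,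 50169957, 0, 0, 0, ⟨0, 0⟩, 0⟩ 0 0) (.cut .v 13631488 (.cut .d (-2228224) (.pos 64 .mm ⟨16950132, 0, 0, 0, 0, 40831669, 0, 0, 0, ⟨0, 0⟩, 0⟩ 0 0) (.cut .s 9502720 (.pos 64 .mm ⟨14345712, 0, 0, 0, 0, 34600730, 0, 0, 0, ⟨0, 0⟩, 0⟩ 0 0) (.cut .d (-2162688) (.cut .s 9535488 (.pos 64 .mm ⟨19113408, 0, 0, 0, 0, 33475840, 0, 0, 0, ⟨0, 0⟩, 0⟩ 0 0) (.pos 64 .mm ⟨18159465, 0, 0, 0, 0, 38812542, 0, 0, 0, ⟨0, 0⟩, 0⟩ 0 0)) (.pos 64 .mm ⟨15605104, 0, 0, 0, 0, 37124668, 0, 0, 0, ⟨0, 0⟩, 0⟩ 0 0)))) (.cut .s 9502720 (.cut .s 9469952 (.pos 65 .mm ⟨26179094, 0, 0, 0, 0, 24761411, 0, 0, 0, ⟨0, 0⟩, 0⟩ 0 0) (.pos 65 .mm ⟨27860845, 0, 0, 0, 0, 25325418, 0, 0, 0, ⟨0, 0⟩, 0⟩ 0 0))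 (.pos 65 .mm ⟨34414077, 0, 0, 0, 0, 23133372, 0, 0, 0, ⟨0, 0⟩, 0⟩ 0 0))))))))) (.cut .d (-2621440) (.cut .v 13631488 (.cut .s 9437184 (.cut .d (-2883584) (.pos 64 .mm ⟨57193481, 0, 0, 0, 0, 0, 0, 0, 0, ⟨0, 0⟩, 0⟩ 0 0) (.cut .l 14101016 (.cut .l 12993603 (.pos 64 .mm ⟨26091770, 0, 0, 0, 0, 24811038, 0, 0, 0, ⟨0, 0⟩, 0⟩ 0 0) (.pos 64 .mm ⟨35964244, 0, 0, 0, 0, 10706016, 0, 0, 0, ⟨0, 0⟩, 0⟩ 0 0)) (.pos 64 .mm ⟨41082586, 0, 0, 0, 0, 0, 0, 0, 0, ⟨0, 0⟩, 0⟩ 0 0))) (.cut .l 14101016 (.cut .s 9502720 (.cut .s 9469952 (.pos 64 .mm ⟨40413853, 0, 0, 0, 0, 13997664, 0, 0, 0, ⟨0, 0⟩, 0⟩ 0 0) (.pos 64 .mm ⟨42366232, 0, 0, 0, 0, 14321250, 0, 0, 0, ⟨0, 0⟩, 0⟩ 0 0)) (.pos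 64 .mm ⟨47563097, 0, 0, 0, 0, 13485192, 0, 0, 0, ⟨0, 0⟩, 0⟩ 0 0)) (.pos 64 .mm ⟨54100874, 0, 0, 0, 0, 0, 0, 0, 0, ⟨0, 0⟩, 0⟩ 0 0))) (.pos 65 .mm ⟨64177300, 0, 0, 0, 0, 0, 0, 0, 0, ⟨0, 0⟩, 0⟩ 0 0)) (.cut .l 14101016 (.cut .s 9437184 (.cut .l 12993603 (.cut .v 13631488 (.cut .d (-2359296) (.cut .s 9371648 (.cut .l 12439897 (.cut .s 9338880 (.pos 64 .mm ⟨18936526, 0, 0, 0, 0, 23796292, 0, 0, 0, ⟨0, 0⟩, 0⟩ 0 0) (.pos 64 .mm ⟨19755356, 0, 0, 0, 0, 25049071, 0, 0, 0, ⟨0, 0⟩, 0⟩ 0 0)) (.pos 64 .mm ⟨23116887, 0, 0, 0, 0, 18901257, 0, 0, 0, ⟨0, 0⟩, 0⟩ 0 0)) (.cut .v 13107200 (.pos 74 .mm ⟨15379383, 0, 0, 0, 0, 29333993, 0, 0, 0, ⟨0, 0⟩, 0⟩ 0 0) (.cut .s 9404416 (.pos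 75 .mm ⟨26725673, 0, 0, 0, 0, 20153660, 0, 0, 0, ⟨0, 0⟩, 0⟩ 0 0) (.pos 75 .mm ⟨28060316, 0, 0, 0, 0, 20916598, 0, 0, 0, ⟨0, 0⟩, 0⟩ 0 0)))) (.cut .s 9371648 (.pos 64 .mm ⟨17222532, 0, 0, 0, 0, 22235389, 0, 0, 0, ⟨0, 0⟩, 0⟩ 0 0) (.cut .s 9404416 (.pos 64 .mm ⟨18769620, 0, 0, 0, 0, 23963117, 0, 0, 0, ⟨0, 0⟩, 0⟩ 0 0) (.cut .s 9420800 (.pos 64 .mm ⟨19426276, 0, 0, 0, 0, 24939885, 0, 0, 0, ⟨0, 0⟩, 0⟩ 0 0) (.pos 64 .mm ⟨20160145, 0, 0, 0, 0, 25119131, 0, 0, 0, ⟨0, 0⟩, 0⟩ 0 0))))) (.cut .d (-2359296) (.pos 65 .mm ⟨59963301, 0, 0, 0, 0, 0, 0, 0, 0, ⟨0, 0⟩, 0⟩ 0 0) (.pos 65 .mm ⟨43733678, 0, 0, 0, 0, 0, 0, 0, 0, ⟨0, 0⟩, 0⟩ 0 0))) (.cut .v 13631488 (.pos 64 .mm ⟨27897731,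 0, 0, 0, 0, 10410029, 0, 0, 0, ⟨0, 0⟩, 0⟩ 0 0) (.pos 65 .mm ⟨44163889, 0, 0, 0, 0, 0, 0, 0, 0, ⟨0, 0⟩, 0⟩ 0 0))) (.cut .v 13631488 (.cut .d (-2359296) (.cut .l 12993603 (.cut .v 13107200 (.cut .l 12439897 (.pos 74 .mm ⟨0, 0, 0, 0, 0, 55836450, 0, 0, 0, ⟨0, 0⟩, 0⟩ 0 0) (.cut .s 9502720 (.cut .s 9469952 (.pos 74 .mm ⟨20520068, 0, 0, 0, 0, 27789643, 0, 0, 0, ⟨0, 0⟩, 0⟩ 0 0) (.pos 74 .mm ⟨21951691, 0, 0, 0, 0, 28550471, 0, 0, 0, ⟨0, 0⟩, 0⟩ 0 0)) (.cut .d (-2490368) (.pos 74 .mm ⟨28662669, 0, 0, 0, 0, 27815102, 0, 0, 0, ⟨0, 0⟩, 0⟩ 0 0) (.cut .s 9535488 (.pos 74 .mm ⟨22463426, 0, 0, 0, 0, 29578100, 0, 0, 0, ⟨0, 0⟩, 0⟩ 0 0) (.pos 74 .mm ⟨25659343, 0, 0, 0, 0, 28819729,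 0, 0, 0, ⟨0, 0⟩, 0⟩ 0 0))))) (.cut .d (-2490368) (.pos 75 .mm ⟨67250662, 0, 0, 0, 0, 0, 0, 0, 0, ⟨0, 0⟩, 0⟩ 0 0) (.cut .v 13369344 (.cut .s 9502720 (.cut .s 9469952 (.pos 84 .mm ⟨27068324, 0, 0, 0, 0, 23123568, 0, 0, 0, ⟨0, 0⟩, 0⟩ 0 0) (.pos 84 .mm ⟨28423504, 0, 0, 0, 0, 23927170, 0, 0, 0, ⟨0, 0⟩, 0⟩ 0 0)) (.cut .l 12439897 (.pos 84 .mm ⟨26252716, 0, 0, 0, 0, 31001112, 0, 0, 0, ⟨0, 0⟩, 0⟩ 0 0) (.pos 84 .mm ⟨33758788, 0, 0, 0, 0, 21772521, 0, 0, 0, ⟨0, 0⟩, 0⟩ 0 0))) (.pos 85 .mm ⟨68251874, 0, 0, 0, 0, 0, 0, 0, 0, ⟨0, 0⟩, 0⟩ 0 0)))) (.cut .s 9502720 (.pos 64 .mm ⟨30529966, 0, 0, 0, 0, 17022348, 0, 0, 0, ⟨0, 0⟩, 0⟩ 0 0) (.cut .d (-2490368) (.pos 64 .mm ⟨35104409,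 0, 0, 0, 0, 19256962, 0, 0, 0, ⟨0, 0⟩, 0⟩ 0 0) (.pos 64 .mm ⟨34832822, 0, 0, 0, 0, 14080093, 0, 0, 0, ⟨0, 0⟩, 0⟩ 0 0)))) (.cut .l 12993603 (.cut .v 13107200 (.pos 74 .mm ⟨872656, 0, 0, 0, 0, 43813725, 0, 0, 0, ⟨0, 0⟩, 0⟩ 0 0) (.cut .s 9502720 (.cut .d (-2228224) (.cut .s 9469952 (.pos 75 .mm ⟨24219244, 0, 0, 0, 0, 24286971, 0, 0, 0, ⟨0, 0⟩, 0⟩ 0 0) (.cut .s 9486336 (.pos 75 .mm ⟨24483101, 0, 0, 0, 0, 25601040, 0, 0, 0, ⟨0, 0⟩, 0⟩ 0 0) (.pos 75 .mm ⟨25217076, 0, 0, 0, 0, 25924425, 0, 0, 0, ⟨0, 0⟩, 0⟩ 0 0))) (.pos 75 .mm ⟨19576295, 0, 0, 0, 0, 27157724, 0, 0, 0, ⟨0, 0⟩, 0⟩ 0 0)) (.cut .l 12439897 (.cut .d (-2228224) (.cut .v 13369344 (.cut .s 9535488 (.cut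 .d (-2293760) (.pos 84 .mm ⟨22477030, 0, 0, 0, 0, 30664774, 0, 0, 0, ⟨0, 0⟩, 0⟩ 0 0) (.pos 84 .mm ⟨19154872, 0, 0, 0, 0, 32472358, 0, 0, 0, ⟨0, 0⟩, 0⟩ 0 0)) (.cut .s 9551872 (.pos 84 .mm ⟨22614146, 0, 0, 0, 0, 31379730, 0, 0, 0, ⟨0, 0⟩, 0⟩ 0 0) (.cut .s 9560064 (.pos 84 .mm ⟨23456276, 0, 0, 0, 0, 31295108, 0, 0, 0, ⟨0, 0⟩, 0⟩ 0 0) (.pos 84 .mm ⟨23813952, 0, 0, 0, 0, 31490890, 0, 0, 0, ⟨0, 0⟩, 0⟩ 0 0)))) (.cut .s 9535488 (.pos 85 .mm ⟨27849819, 0, 0, 0, 0, 26171222, 0, 0, 0, ⟨0, 0⟩, 0⟩ 0 0) (.pos 85 .mm ⟨29073349, 0, 0, 0, 0, 27219945, 0, 0, 0, ⟨0, 0⟩, 0⟩ 0 0))) (.cut .s 9535488 (.pos 75 .mm ⟨20794338, 0, 0, 0, 0, 29822596, 0, 0, 0, ⟨0, 0⟩, 0⟩ 0 0) (.cut .v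 13369344 (.pos 84 .mm ⟨10500420, 0, 0, 0, 0, 39157261, 0, 0, 0, ⟨0, 0⟩, 0⟩ 0 0) (.pos 85 .mm ⟨24233801, 0, 0, 0, 0, 29655900, 0, 0, 0, ⟨0, 0⟩, 0⟩ 0 0)))) (.pos 75 .mm ⟨28590390, 0, 0, 0, 0, 21992157, 0, 0, 0, ⟨0, 0⟩, 0⟩ 0 0)))) (.pos 64 .mm ⟨20809008, 0, 0, 0, 0, 0, 0, 0, 0, ⟨0, 0⟩, 0⟩ 0 0))) (.cut .s 9502720 (.pos 65 .mm ⟨53375810, 0, 0, 0, 0, 0, 0, 0, 0, ⟨0, 0⟩, 0⟩ 0 0) (.pos 65 .mm ⟨58002175, 0, 0, 0, 0, 0, 0, 0, 0, ⟨0, 0⟩, 0⟩ 0 0)))) (.pos 45 .mm ⟨35063524, 0, 0, 0, 0, 0, 0, 0, 0, ⟨0, 0⟩, 0⟩ 0 0)))) (.pos 46 .mm ⟨72791615, 0, 0, 0, 0, 0, 0, 0, 0, ⟨0, 0⟩, 0⟩ 0 0))) (.cut .d (-3145728) (.cut .s 9437184 (.pos 9 .mm ⟨56653560, 0, 0, 0, 0, 0, 0, 0, 0, ⟨0,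 0⟩, 0⟩ 0 0) (.pos 9 .mm ⟨67093920, 0, 0, 0, 0, 0, 0, 0, 0, ⟨0, 0⟩, 0⟩ 0 0)) (.pos 9 .mm ⟨41554962, 0, 0, 0, 0, 0, 0, 0, 0, ⟨0, 0⟩, 0⟩ 0 0))))) (.cut .l 16315842 (.cut .v 12582912 (.cut .d (-1048576) (.cut .l 11886191 (.cut .s 9306112 (.pos 8 .mm ⟨0, 0, 0, 0, 0, 25402888, 0, 0, 0, ⟨0, 0⟩, 0⟩ 0 0) (.cut .s 9437184 (.pos 8 .mm ⟨0, 0, 0, 0, 0, 33913108, 0, 0, 0, ⟨0, 0⟩, 0⟩ 0 0) (.pos 8 .mm ⟨0, 0, 0, 0, 0, 40159169, 0, 0, 0, ⟨0, 0⟩, 0⟩ 0 0))) (.pos 8 .mm ⟨0, 0, 0, 0, 0, 0, 0, 0, 0, ⟨0, 0⟩, 0⟩ 0 0)) (.pos 8 .mm ⟨0, 0, 0, 0, 0, 12925088, 0, 0, 0, ⟨0, 0⟩, 0⟩ 0 0)) (.cut .d (-1048576) (.cut .l 11886191 (.cut .s 9306112 (.cut .s 9175040 (.cut .v 14680064 (.cut .d (-1572864)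 (.cut .l 9671365 (.pos 45 .mm ⟨0, 0, 0, 0, 0, 30628703, 0, 0, 0, ⟨0, 0⟩, 0⟩ 0 0) (.cut .s 9109504 (.pos 45 .mm ⟨0, 0, 0, 0, 0, 25171135, 0, 0, 0, ⟨0, 0⟩, 0⟩ 0 0) (.pos 45 .mm ⟨0, 0, 0, 0, 0, 28413203, 0, 0, 0, ⟨0, 0⟩, 0⟩ 0 0))) (.pos 45 .mm ⟨0, 0, 0, 0, 0, 24323603, 0, 0, 0, ⟨0, 0⟩, 0⟩ 0 0)) (.cut .s 9109504 (.pos 46 .mm ⟨4589288, 0, 0, 0, 0, 24959679, 0, 0, 0, ⟨0, 0⟩, 0⟩ 0 0) (.pos 46 .mm ⟨3802835, 0, 0, 0, 0, 28612102, 0, 0, 0, ⟨0, 0⟩, 0⟩ 0 0))) (.cut .v 14680064 (.cut .d (-1572864) (.cut .l 9671365 (.pos 45 .mm ⟨0, 0, 0, 0, 0, 39390240, 0, 0, 0, ⟨0, 0⟩, 0⟩ 0 0) (.cut .s 9240576 (.pos 45 .mm ⟨0, 0, 0, 0, 0, 31702104, 0, 0, 0, ⟨0, 0⟩, 0⟩ 0 0) (.cut .l 10778778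 (.pos 45 .mm ⟨1415770, 0, 0, 0, 0, 35509632, 0, 0, 0, ⟨0, 0⟩, 0⟩ 0 0) (.pos 45 .mm ⟨4448563, 0, 0, 0, 0, 29722803, 0, 0, 0, ⟨0, 0⟩, 0⟩ 0 0)))) (.pos 45 .mm ⟨0, 0, 0, 0, 0, 29999980, 0, 0, 0, ⟨0, 0⟩, 0⟩ 0 0)) (.cut .l 9671365 (.pos 46 .mm ⟨0, 0, 0, 0, 0, 39443271, 0, 0, 0, ⟨0, 0⟩, 0⟩ 0 0) (.cut .s 9240576 (.pos 46 .mm ⟨9044932, 0, 0, 0, 0, 26807300, 0, 0, 0, ⟨0, 0⟩, 0⟩ 0 0) (.pos 46 .mm ⟨11810258, 0, 0, 0, 0, 27843363, 0, 0, 0, ⟨0, 0⟩, 0⟩ 0 0))))) (.cut .d (-1572864) (.cut .l 9671365 (.cut .v 14680064 (.pos 45 .mm ⟨0, 0, 0, 0, 0, 56905116, 0, 0, 0, ⟨0, 0⟩, 0⟩ 0 0) (.pos 46 .mm ⟨0, 0, 0, 0, 0, 66575261, 0, 0, 0, ⟨0, 0⟩, 0⟩ 0 0)) (.cut .v 14680064 (.cut .s 9437184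 (.cut .d (-1835008) (.cut .l 10778778 (.pos 45 .mm ⟨4902679, 0, 0, 0, 0, 41459586, 0, 0, 0, ⟨0, 0⟩, 0⟩ 0 0) (.cut .s 9371648 (.pos 45 .mm ⟨6709309, 0, 0, 0, 0, 31790133, 0, 0, 0, ⟨0, 0⟩, 0⟩ 0 0) (.cut .v 13631488 (.pos 64 .mm ⟨0, 0, 0, 0, 0, 39032765, 0, 0, 0, ⟨0, 0⟩, 0⟩ 0 0) (.pos 65 .mm ⟨13526040, 0, 0, 0, 0, 30694891, 0, 0, 0, ⟨0, 0⟩, 0⟩ 0 0)))) (.pos 45 .mm ⟨0, 0, 0, 0, 0, 37479089, 0, 0, 0, ⟨0, 0⟩, 0⟩ 0 0)) (.cut .v 13631488 (.pos 64 .mm ⟨0, 0, 0, 0, 0, 45920775, 0, 0, 0, ⟨0, 0⟩, 0⟩ 0 0) (.cut .d (-1835008) (.cut .l 10778778 (.pos 65 .mm ⟨4940073, 0, 0, 0, 0, 54782665, 0, 0, 0, ⟨0, 0⟩, 0⟩ 0 0) (.cut .d (-1966080) (.cut .v 14155776 (.cut .s 9502720 (.pos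 72 .mm ⟨16558908, 0, 0, 0, 0, 32271106, 0, 0, 0, ⟨0, 0⟩, 0⟩ 0 0) (.cut .s 9535488 (.pos 72 .mm ⟨17949225, 0, 0, 0, 0, 34151537, 0, 0, 0, ⟨0, 0⟩, 0⟩ 0 0) (.pos 72 .mm ⟨19402190, 0, 0, 0, 0, 34972922, 0, 0, 0, ⟨0, 0⟩, 0⟩ 0 0))) (.pos 73 .mm ⟨40209564, 0, 0, 0, 0, 18413571, 0, 0, 0, ⟨0, 0⟩, 0⟩ 0 0)) (.pos 65 .mm ⟨13998901, 0, 0, 0, 0, 33939952, 0, 0, 0, ⟨0, 0⟩, 0⟩ 0 0))) (.cut .l 10778778 (.pos 65 .mm ⟨14220, 0, 0, 0, 0, 49627390, 0, 0, 0, ⟨0, 0⟩, 0⟩ 0 0) (.pos 65 .mm ⟨5275347, 0, 0, 0, 0, 0, 0, 0, 0, ⟨0, 0⟩, 0⟩ 0 0))))) (.cut .s 9437184 (.pos 46 .mm ⟨30863481, 0, 0, 0, 0, 19100560, 0, 0, 0, ⟨0, 0⟩, 0⟩ 0 0) (.pos 46 .mm ⟨38175930, 0, 0, 0, 0, 21180991, 0, 0,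 0, ⟨0, 0⟩, 0⟩ 0 0)))) (.cut .l 9671365 (.cut .v 14680064 (.cut .s 9437184 (.pos 45 .mm ⟨0, 0, 0, 0, 0, 38355205, 0, 0, 0, ⟨0, 0⟩, 0⟩ 0 0) (.pos 45 .mm ⟨0, 0, 0, 0, 0, 46162206, 0, 0, 0, ⟨0, 0⟩, 0⟩ 0 0)) (.pos 46 .mm ⟨0, 0, 0, 0, 0, 47133153, 0, 0, 0, ⟨0, 0⟩, 0⟩ 0 0)) (.pos 9 .mm ⟨0, 0, 0, 0, 0, 32483707, 0, 0, 0, ⟨0, 0⟩, 0⟩ 0 0)))) (.cut .v 14680064 (.pos 45 .mm ⟨14854337, 0, 0, 0, 0, 0, 0, 0, 0, ⟨0, 0⟩, 0⟩ 0 0) (.pos 46 .mm ⟨29558269, 0, 0, 0, 0, 0, 0, 0, 0, ⟨0, 0⟩, 0⟩ 0 0))) (.pos 9 .mm ⟨0, 0, 0, 0, 0, 16577536, 0, 0, 0, ⟨0, 0⟩, 0⟩ 0 0))) (.pos 3 .mm ⟨0, 0, 0, 0, 0, 0, 0, 0, 0, ⟨0, 0⟩, 0⟩ 0 0)))))) (.cut .v 268435456 (.cut .d (-8388608) (.void 10 ⟨100000,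 0, 0, 0, 0, 0, 0, 0, 0, ⟨0, 0⟩, 0⟩ 0 0) (.cut .v 67108864 (.cut .d (-4194304) (.cut .v 33554432 (.cut .v 25165824 (.cut .s 9306112 (.pos 15 .mp ⟨148382170, 0, 0, 0, 0, 0, 0, 0, 0, ⟨0, 0⟩, 0⟩ 0 0) (.void 15 ⟨100000, 0, 0, 0, 0, 0, 0, 0, 0, ⟨0, 0⟩, 0⟩ 0 0)) (.void 16 ⟨100000, 0, 0, 0, 0, 0, 0, 0, 0, ⟨0, 0⟩, 0⟩ 0 0)) (.void 14 ⟨100000, 0, 0, 0, 0, 0, 0, 0, 0, ⟨0, 0⟩, 0⟩ 0 0)) (.cut .v 33554432 (.cut .v 25165824 (.cut .d (-2097152) (.cut .v 20971520 (.cut .s 9306112 (.pos 17 .mp ⟨65507293, 0, 0, 0, 0, 0, 0, 0, 0, ⟨0, 0⟩, 0⟩ 0 0) (.pos 17 .mp ⟨94823312, 0, 0, 0, 0, 0, 0, 0, 0, ⟨0, 0⟩, 0⟩ 0 0)) (.pos 18 .mp ⟨116619792, 0, 0, 0, 0, 0, 0, 0, 0, ⟨0, 0⟩, 0⟩ 0 0)) (.cut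 .s 9306112 (.pos 15 .mp ⟨32026990, 0, 0, 0, 0, 11462703, 0, 0, 0, ⟨0, 0⟩, 0⟩ 0 0) (.cut .d (-1048576) (.pos 15 .mp ⟨67078990, 0, 0, 0, 0, 4688399, 0, 0, 0, ⟨0, 0⟩, 0⟩ 0 0) (.pos 15 .mp ⟨15967303, 0, 0, 0, 0, 32725306, 0, 0, 0, ⟨0, 0⟩, 0⟩ 0 0)))) (.pos 16 .mp ⟨147661710, 0, 0, 0, 0, 0, 0, 0, 0, ⟨0, 0⟩, 0⟩ 0 0)) (.cut .d (-2097152) (.pos 14 .mp ⟨578242959, 0, 0, 0, 0, 0, 0, 0, 0, ⟨0, 0⟩, 0⟩ 0 0) (.pos 14 .mp ⟨275189834, 0, 0, 0, 0, 0, 0, 0, 0, ⟨0, 0⟩, 0⟩ 0 0)))) (.cut .v 134217728 (.pos 31 .mp ⟨3496586914, 0, 0, 0, 0, 0, 0, 0, 0, ⟨0, 0⟩, 0⟩ 0 0) (.void 32 ⟨100000, 0, 0, 0, 0, 0, 0, 0, 0, ⟨0, 0⟩, 0⟩ 0 0)))) (.void 59 ⟨63682, 36318, 0, 0, 0, 0, 0, 0, 0, ⟨0, 0⟩,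 0⟩ 0 0))) (.cut .v 16777216 (.cut .v 8388608 (.cut .v 4194304 (.cut .v 2097152 (.pos 6 .pm ⟨0, 0, 48095202, 0, 45290044, 0, 0, 0, 5325237, ⟨0, 0⟩, 2804900⟩ 0 0) (.pos 7 .pm ⟨0, 674948, 0, 0, 0, 0, 0, 0, 4165747, ⟨0, 0⟩, 7053950⟩ 0 0)) (.cut .d 7172869 (.pos 5 .pm ⟨0, 0, 0, 0, 0, 0, 0, 0, 0, ⟨0, 0⟩, 0⟩ 0 0) (.cut .d 10759303 (.pos 5 .pm ⟨0, 0, 0, 0, 0, 0, 0, 0, 0, ⟨0, 0⟩, 0⟩ 0 0) (.pos 5 .pm ⟨0, 23205409, 0, 0, 0, 0, 0, 0, 0, ⟨0, 0⟩, 0⟩ 0 0)))) (.cut .d 7172869 (.cut .v 12582912 (.pos 8 .pm ⟨0, 0, 0, 0, 0, 0, 0, 0, 0, ⟨0, 0⟩, 0⟩ 0 0) (.pos 9 .pm ⟨0, 0, 0, 0, 0, 0, 0, 0, 0, ⟨0, 0⟩, 0⟩ 0 0)) (.cut .v 12582912 (.cut .d 10759303 (.pos 8 .pm ⟨0, 0, 0, 0, 0, 0,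 0, 0, 0, ⟨0, 0⟩, 0⟩ 0 0) (.cut .d 12552520 (.pos 8 .pm ⟨0, 19358024, 0, 0, 0, 0, 0, 0, 0, ⟨0, 0⟩, 0⟩ 0 0) (.pos 8 .pm ⟨0, 34401872, 0, 0, 0, 0, 0, 0, 0, ⟨0, 0⟩, 0⟩ 0 0))) (.pos 9 .pm ⟨0, 16060422, 0, 0, 0, 0, 0, 0, 0, ⟨0, 0⟩, 0⟩ 0 0)))) (.cut .v 268435456 (.cut .v 67108864 (.cut .v 33554432 (.pos 13 .pp ⟨0, 0, 0, 0, 0, 0, 0, 0, 0, ⟨0, 0⟩, 0⟩ 0 0) (.pos 14 .pp ⟨48334824, 0, 0, 0, 0, 0, 0, 0, 0, ⟨0, 0⟩, 0⟩ 0 0)) (.cut .v 134217728 (.cut .v 100663296 (.pos 43 .pp ⟨298264277, 0, 0, 0, 0, 0, 0, 0, 0, ⟨0, 0⟩, 0⟩ 0 0) (.pos 44 .pp ⟨933509598, 433094022, 0, 0, 0, 0, 0, 0, 0, ⟨0, 0⟩, 0⟩ 0 0)) (.void 32 ⟨38048, 61952, 0, 0, 0, 0, 0, 0, 0, ⟨0, 0⟩, 0⟩ 0 0))) (.void 59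 ⟨0, 0, 0, 100000, 0, 0, 0, 0, 0, ⟨0, 0⟩, 0⟩ 0 0)))),
    by decide +kernel⟩

def covers12 : cell.Covers table row12.1 :=
  ⟨(.cut .d 0 (.cut .v 16777216 (.cut .d (-8388608) (.void 1 ⟨0, 0, 0, 0, 0, 100000, 0, 0, 0, ⟨0, 0⟩, 0⟩ 0 0) (.cut .v 8388608 (.cut .v 4194304 (.void 4 ⟨0, 0, 100000, 0, 0, 0, 0, 0, 0, ⟨0, 0⟩, 0⟩ 0 0) (.cut .d (-4194304) (.void 5 ⟨0, 0, 100000, 0, 0, 0, 0, 0, 0, ⟨0, 0⟩, 0⟩ 0 0) (.cut .d (-2097152) (.pos 5 .mm ⟨0, 0, 51847127, 0, 0, 28361412, 0, 0, 0, ⟨0, 0⟩, 0⟩ 0 0) (.pos 5 .mm ⟨0, 0, 2293269, 0, 0, 29799511, 0, 0, 0, ⟨0, 0⟩, 0⟩ 0 0)))) (.cut .d (-4194304) (.cut .d (-6291456) (.void 3 ⟨88302, 0, 11698, 0, 0, 0, 0, 0, 0, ⟨0, 0⟩, 0⟩ 0 0)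 (.cut .l 16315842 (.void 3 ⟨0, 0, 0, 0, 0, 100000, 0, 0, 0, ⟨0, 0⟩, 0⟩ 0 0) (.cut .v 12582912 (.cut .d (-5242880) (.cut .s 9830400 (.cut .v 10485760 (.pos 66 .mm ⟨86615964, 0, 4393087, 0, 0, 0, 0, 0, 0, ⟨0, 0⟩, 0⟩ 0 0) (.pos 67 .mm ⟨106759997, 0, 0, 0, 0, 0, 0, 0, 0, ⟨0, 0⟩, 0⟩ 0 0)) (.void 8 ⟨86131, 0, 13869, 0, 0, 0, 0, 0, 0, ⟨0, 0⟩, 0⟩ 0 0)) (.cut .s 9830400 (.cut .v 10485760 (.cut .l 20745493 (.pos 66 .mm ⟨51504850, 0, 0, 0, 0, 22056996, 0, 0, 0, ⟨0, 0⟩, 0⟩ 0 0) (.cut .s 9699328 (.pos 66 .mm ⟨58742470, 0, 0, 0, 0, 0, 0, 0, 0, ⟨0, 0⟩, 0⟩ 0 0) (.cut .d (-4718592) (.pos 66 .mm ⟨77278373, 0, 3666558, 0, 0, 0, 0, 0, 0, ⟨0, 0⟩, 0⟩ 0 0) (.pos 66 .mm ⟨64669029,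 0, 0, 0, 0, 0, 0, 0, 0, ⟨0, 0⟩, 0⟩ 0 0)))) (.cut .l 20745493 (.pos 67 .mm ⟨91344939, 0, 0, 0, 0, 0, 0, 0, 0, ⟨0, 0⟩, 0⟩ 0 0) (.cut .s 9699328 (.cut .d (-4718592) (.pos 67 .mm ⟨75842019, 0, 0, 0, 0, 0, 0, 0, 0, ⟨0, 0⟩, 0⟩ 0 0) (.pos 67 .mm ⟨66254097, 0, 0, 0, 0, 0, 0, 0, 0, ⟨0, 0⟩, 0⟩ 0 0)) (.cut .d (-4718592) (.pos 67 .mm ⟨90355051, 0, 0, 0, 0, 0, 0, 0, 0, ⟨0, 0⟩, 0⟩ 0 0) (.pos 67 .mm ⟨79012112, 0, 0, 0, 0, 0, 0, 0, 0, ⟨0, 0⟩, 0⟩ 0 0))))) (.cut .v 10485760 (.cut .d (-4718592) (.pos 66 .mm ⟨102756757, 0, 7593340, 0, 0, 0, 0, 0, 0, ⟨0, 0⟩, 0⟩ 0 0) (.cut .l 20745493 (.pos 66 .mm ⟨65816102, 0, 0, 0, 0, 39755200, 0, 0, 0, ⟨0, 0⟩, 0⟩ 0 0) (.cut .s 9961472 (.pos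 66 .mm ⟨79812011, 0, 3387958, 0, 0, 0, 0, 0, 0, ⟨0, 0⟩, 0⟩ 0 0) (.pos 66 .mm ⟨96346895, 0, 8242989, 0, 0, 0, 0, 0, 0, ⟨0, 0⟩, 0⟩ 0 0)))) (.cut .s 9961472 (.cut .v 11534336 (.pos 68 .mm ⟨97953148, 0, 0, 0, 0, 0, 0, 0, 0, ⟨0, 0⟩, 0⟩ 0 0) (.pos 69 .mm ⟨109564449, 0, 0, 0, 0, 0, 0, 0, 0, ⟨0, 0⟩, 0⟩ 0 0)) (.pos 67 .mm ⟨120448145, 0, 0, 0, 0, 0, 0, 0, 0, ⟨0, 0⟩, 0⟩ 0 0))))) (.cut .s 9830400 (.cut .d (-5242880) (.void 9 ⟨100000, 0, 0, 0, 0, 0, 0, 0, 0, ⟨0, 0⟩, 0⟩ 0 0) (.cut .s 9699328 (.pos 9 .mm ⟨100104957, 0, 0, 0, 0, 0, 0, 0, 0, ⟨0, 0⟩, 0⟩ 0 0) (.pos 9 .mm ⟨119133476, 0, 0, 0, 0, 0, 0, 0, 0, ⟨0, 0⟩, 0⟩ 0 0))) (.pos 9 .mm ⟨181401310, 0, 0, 0, 0, 0, 0, 0, 0, ⟨0,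 0⟩, 0⟩ 0 0))))) (.cut .d (-2097152) (.cut .v 12582912 (.cut .l 16315842 (.cut .l 11886191 (.pos 8 .mm ⟨0, 0, 0, 0, 0, 103542541, 0, 0, 0, ⟨0, 0⟩, 0⟩ 0 0) (.cut .d (-3145728) (.cut .s 9830400 (.cut .v 10485760 (.pos 66 .mm ⟨0, 0, 0, 0, 0, 59991011, 0, 0, 0, ⟨0, 0⟩, 0⟩ 0 0) (.cut .s 9699328 (.cut .v 11534336 (.pos 68 .mm ⟨39099863, 0, 0, 0, 0, 22968066, 0, 0, 0, ⟨0, 0⟩, 0⟩ 0 0) (.pos 69 .mm ⟨74123569, 0, 0, 0, 0, 0, 0, 0, 0, ⟨0, 0⟩, 0⟩ 0 0)) (.pos 67 .mm ⟨57780445, 0, 0, 0, 0, 24525830, 0, 0, 0, ⟨0, 0⟩, 0⟩ 0 0))) (.pos 8 .mm ⟨42367395, 0, 0, 0, 0, 76425333, 0, 0, 0, ⟨0, 0⟩, 0⟩ 0 0)) (.cut .s 9830400 (.cut .v 10485760 (.pos 66 .mm ⟨0, 0, 0, 0, 0, 44339103, 0,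 0, 0, ⟨0, 0⟩, 0⟩ 0 0) (.cut .s 9699328 (.cut .v 11534336 (.pos 68 .mm ⟨0, 0, 0, 0, 0, 45559022, 0, 0, 0, ⟨0, 0⟩, 0⟩ 0 0) (.cut .d (-2621440) (.cut .l 14101016 (.cut .s 9633792 (.pos 69 .mm ⟨30512435, 0, 0, 0, 0, 28035205, 0, 0, 0, ⟨0, 0⟩, 0⟩ 0 0) (.pos 69 .mm ⟨32735400, 0, 0, 0, 0, 31128202, 0, 0, 0, ⟨0, 0⟩, 0⟩ 0 0)) (.cut .d (-2883584) (.pos 69 .mm ⟨51837016, 0, 0, 0, 0, 8624453, 0, 0, 0, ⟨0, 0⟩, 0⟩ 0 0) (.pos 69 .mm ⟨37901684, 0, 0, 0, 0, 17133512, 0, 0, 0, ⟨0, 0⟩, 0⟩ 0 0))) (.cut .l 14101016 (.cut .s 9633792 (.pos 69 .mm ⟨14920074, 0, 0, 0, 0, 36259029, 0, 0, 0, ⟨0, 0⟩, 0⟩ 0 0) (.pos 69 .mm ⟨14455895, 0, 0, 0, 0, 41200339, 0, 0, 0, ⟨0, 0⟩, 0⟩ 0 0)) (.pos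 69 .mm ⟨34902868, 0, 0, 0, 0, 0, 0, 0, 0, ⟨0, 0⟩, 0⟩ 0 0)))) (.cut .v 11534336 (.pos 68 .mm ⟨4510864, 0, 0, 0, 0, 51165031, 0, 0, 0, ⟨0, 0⟩, 0⟩ 0 0) (.cut .d (-2621440) (.cut .l 14101016 (.pos 69 .mm ⟨38202015, 0, 0, 0, 0, 36645727, 0, 0, 0, ⟨0, 0⟩, 0⟩ 0 0) (.cut .s 9764864 (.pos 69 .mm ⟨49546354, 0, 0, 0, 0, 16780977, 0, 0, 0, ⟨0, 0⟩, 0⟩ 0 0) (.pos 69 .mm ⟨54452928, 0, 0, 0, 0, 17493129, 0, 0, 0, ⟨0, 0⟩, 0⟩ 0 0))) (.cut .l 14101016 (.cut .s 9764864 (.pos 69 .mm ⟨14922011, 0, 0, 0, 0, 45659856, 0, 0, 0, ⟨0, 0⟩, 0⟩ 0 0) (.pos 69 .mm ⟨18576782, 0, 0, 0, 0, 47754974, 0, 0, 0, ⟨0, 0⟩, 0⟩ 0 0)) (.pos 69 .mm ⟨43558299, 0, 0, 0, 0, 9847129, 0, 0, 0, ⟨0, 0⟩, 0⟩ 0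 0)))))) (.cut .v 10485760 (.pos 66 .mm ⟨0, 0, 0, 0, 0, 63692073, 0, 0, 0, ⟨0, 0⟩, 0⟩ 0 0) (.cut .d (-2621440) (.cut .l 14101016 (.void 67 ⟨0, 0, 0, 0, 0, 100000, 0, 0, 0, ⟨0, 0⟩, 0⟩ 0 0) (.cut .v 11534336 (.cut .s 9961472 (.pos 68 .mm ⟨32095690, 0, 0, 0, 0, 41077087, 0, 0, 0, ⟨0, 0⟩, 0⟩ 0 0) (.pos 68 .mm ⟨36984950, 0, 0, 0, 0, 48725514, 0, 0, 0, ⟨0, 0⟩, 0⟩ 0 0)) (.cut .s 9961472 (.pos 69 .mm ⟨68730841, 0, 0, 0, 0, 12721575, 0, 0, 0, ⟨0, 0⟩, 0⟩ 0 0) (.pos 69 .mm ⟨82477651, 0, 0, 0, 0, 12357221, 0, 0, 0, ⟨0, 0⟩, 0⟩ 0 0)))) (.cut .l 14101016 (.cut .v 11534336 (.pos 68 .mm ⟨0, 0, 0, 0, 0, 71747183, 0, 0, 0, ⟨0, 0⟩, 0⟩ 0 0) (.cut .s 9961472 (.cut .d (-2359296)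 (.pos 69 .mm ⟨29725455, 0, 0, 0, 0, 49481228, 0, 0, 0, ⟨0, 0⟩, 0⟩ 0 0) (.pos 69 .mm ⟨8698690, 0, 0, 0, 0, 61384986, 0, 0, 0, ⟨0, 0⟩, 0⟩ 0 0)) (.cut .d (-2359296) (.pos 69 .mm ⟨38665433, 0, 0, 0, 0, 54424019, 0, 0, 0, ⟨0, 0⟩, 0⟩ 0 0) (.cut .s 10027008 (.pos 69 .mm ⟨23026265, 0, 0, 0, 0, 58594681, 0, 0, 0, ⟨0, 0⟩, 0⟩ 0 0) (.pos 69 .mm ⟨25846890, 0, 0, 0, 0, 62180901, 0, 0, 0, ⟨0, 0⟩, 0⟩ 0 0))))) (.cut .v 11534336 (.pos 68 .mm ⟨0, 0, 0, 0, 0, 63829821, 0, 0, 0, ⟨0, 0⟩, 0⟩ 0 0) (.cut .s 9961472 (.pos 69 .mm ⟨50383858, 0, 0, 0, 0, 14243111, 0, 0, 0, ⟨0, 0⟩, 0⟩ 0 0) (.cut .d (-2359296) (.pos 69 .mm ⟨54284261, 0, 0, 0, 0, 29413858, 0, 0, 0, ⟨0, 0⟩, 0⟩ 0 0) (.pos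 69 .mm ⟨44047399, 0, 0, 0, 0, 0, 0, 0, 0, ⟨0, 0⟩, 0⟩ 0 0)))))))))) (.cut .d (-3145728) (.cut .s 9830400 (.cut .v 10485760 (.cut .s 9699328 (.pos 66 .mm ⟨16113863, 0, 0, 0, 0, 29039517, 0, 0, 0, ⟨0, 0⟩, 0⟩ 0 0) (.pos 66 .mm ⟨17140407, 0, 0, 0, 0, 36345941, 0, 0, 0, ⟨0, 0⟩, 0⟩ 0 0)) (.cut .l 20745493 (.cut .d (-3670016) (.cut .s 9699328 (.pos 67 .mm ⟨67045370, 0, 0, 0, 0, 0, 0, 0, 0, ⟨0, 0⟩, 0⟩ 0 0) (.pos 67 .mm ⟨79224271, 0, 0, 0, 0, 0, 0, 0, 0, ⟨0, 0⟩, 0⟩ 0 0)) (.cut .s 9699328 (.pos 67 .mm ⟨55836408, 0, 0, 0, 0, 2367037, 0, 0, 0, ⟨0, 0⟩, 0⟩ 0 0) (.pos 67 .mm ⟨67062975, 0, 0, 0, 0, 1765392, 0, 0, 0, ⟨0, 0⟩, 0⟩ 0 0))) (.pos 67 .mm ⟨56988156, 0, 0, 0, 0, 0,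 0, 0, 0, ⟨0, 0⟩, 0⟩ 0 0))) (.cut .v 10485760 (.cut .v 9437184 (.pos 78 .mm ⟨0, 0, 29434497, 0, 0, 44071634, 0, 0, 0, ⟨0, 0⟩, 0⟩ 0 0) (.cut .l 20745493 (.cut .s 9961472 (.pos 79 .mm ⟨34784210, 0, 0, 0, 0, 35314287, 0, 0, 0, ⟨0, 0⟩, 0⟩ 0 0) (.cut .d (-3670016) (.pos 79 .mm ⟨64441154, 0, 0, 0, 0, 25010628, 0, 0, 0, ⟨0, 0⟩, 0⟩ 0 0) (.pos 79 .mm ⟨37858922, 0, 0, 0, 0, 39947606, 0, 0, 0, ⟨0, 0⟩, 0⟩ 0 0))) (.pos 79 .mm ⟨70876366, 0, 0, 0, 0, 0, 0, 0, 0, ⟨0, 0⟩, 0⟩ 0 0))) (.cut .s 9961472 (.cut .d (-3670016) (.cut .l 20745493 (.pos 67 .mm ⟨92728203, 0, 0, 0, 0, 0, 0, 0, 0, ⟨0, 0⟩, 0⟩ 0 0) (.pos 67 .mm ⟨80457151, 0, 0, 0, 0, 0, 0, 0, 0, ⟨0, 0⟩, 0⟩ 0 0)) (.pos 67 .mm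 ⟨80151033, 0, 0, 0, 0, 447330, 0, 0, 0, ⟨0, 0⟩, 0⟩ 0 0)) (.cut .d (-3670016) (.pos 67 .mm ⟨103409753, 0, 0, 0, 0, 0, 0, 0, 0, ⟨0, 0⟩, 0⟩ 0 0) (.pos 67 .mm ⟨93238670, 0, 0, 0, 0, 0, 0, 0, 0, ⟨0, 0⟩, 0⟩ 0 0))))) (.cut .s 9830400 (.pos 8 .mm ⟨37873611, 0, 0, 0, 0, 0, 0, 0, 0, ⟨0, 0⟩, 0⟩ 0 0) (.cut .v 10485760 (.pos 66 .mm ⟨0, 0, 0, 0, 0, 52278211, 0, 0, 0, ⟨0, 0⟩, 0⟩ 0 0) (.cut .s 9961472 (.pos 67 .mm ⟨58390764, 0, 0, 0, 0, 1313755, 0, 0, 0, ⟨0, 0⟩, 0⟩ 0 0) (.cut .d (-2621440) (.pos 67 .mm ⟨67894387, 0, 0, 0, 0, 8620816, 0, 0, 0, ⟨0, 0⟩, 0⟩ 0 0) (.pos 67 .mm ⟨38053361, 0, 0, 0, 0, 0, 0, 0, 0, ⟨0, 0⟩, 0⟩ 0 0))))))) (.cut .s 9830400 (.cut .v 14680064 (.cut .l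 16315842 (.cut .d (-3145728) (.void 45 ⟨100000, 0, 0, 0, 0, 0, 0, 0, 0, ⟨0, 0⟩, 0⟩ 0 0) (.cut .l 11886191 (.cut .s 9699328 (.cut .d (-2621440) (.void 45 ⟨0, 0, 0, 0, 0, 100000, 0, 0, 0, ⟨0, 0⟩, 0⟩ 0 0) (.cut .d (-2359296) (.void 45 ⟨0, 0, 0, 0, 0, 100000, 0, 0, 0, ⟨0, 0⟩, 0⟩ 0 0) (.cut .d (-2228224) (.void 45 ⟨0, 0, 0, 0, 0, 100000, 0, 0, 0, ⟨0, 0⟩, 0⟩ 0 0) (.cut .l 9671365 (.void 45 ⟨0, 0, 0, 0, 0, 100000, 0, 0, 0, ⟨0, 0⟩, 0⟩ 0 0) (.cut .l 10778778 (.void 45 ⟨0, 0, 0, 0, 0, 100000, 0, 0, 0, ⟨0, 0⟩, 0⟩ 0 0) (.cut .v 13631488 (.cut .s 9633792 (.cut .s 9601024 (.cut .d (-2162688) (.pos 64 .mm ⟨19349938, 0, 0, 0, 0, 37859305, 0, 0, 0, ⟨0, 0⟩, 0⟩ 0 0) (.pos 64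 .mm ⟨18537537, 0, 0, 0, 0, 36598935, 0, 0, 0, ⟨0, 0⟩, 0⟩ 0 0)) (.pos 64 .mm ⟨18073362, 0, 0, 0, 0, 41209669, 0, 0, 0, ⟨0, 0⟩, 0⟩ 0 0)) (.pos 64 .mm ⟨19147097, 0, 0, 0, 0, 44190703, 0, 0, 0, ⟨0, 0⟩, 0⟩ 0 0)) (.pos 65 .mm ⟨55418956, 0, 0, 0, 0, 14248003, 0, 0, 0, ⟨0, 0⟩, 0⟩ 0 0))))))) (.pos 45 .mm ⟨19461009, 0, 0, 0, 0, 73209885, 0, 0, 0, ⟨0, 0⟩, 0⟩ 0 0)) (.cut .v 13631488 (.cut .d (-2621440) (.cut .s 9699328 (.pos 64 .mm ⟨73902823, 0, 0, 0, 0, 0, 0, 0, 0, ⟨0, 0⟩, 0⟩ 0 0) (.pos 64 .mm ⟨88126619, 0, 0, 0, 0, 0, 0, 0, 0, ⟨0, 0⟩, 0⟩ 0 0)) (.cut .l 14101016 (.cut .s 9699328 (.cut .d (-2359296) (.cut .v 13107200 (.cut .s 9633792 (.cut .l 12993603 (.cut .s 9601024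 (.cut .s 9584640 (.cut .d (-2490368) (.void 74 ⟨0, 0, 0, 0, 0, 100000, 0, 0, 0, ⟨0, 0⟩, 0⟩ 0 0) (.cut .s 9576448 (.pos 74 .mm ⟨25427912, 0, 0, 0, 0, 29865829, 0, 0, 0, ⟨0, 0⟩, 0⟩ 0 0) (.pos 74 .mm ⟨25615282, 0, 0, 0, 0, 30259444, 0, 0, 0, ⟨0, 0⟩, 0⟩ 0 0))) (.pos 74 .mm ⟨27214391, 0, 0, 0, 0, 30200725, 0, 0, 0, ⟨0, 0⟩, 0⟩ 0 0)) (.pos 74 .mm ⟨27699720, 0, 0, 0, 0, 31629204, 0, 0, 0, ⟨0, 0⟩, 0⟩ 0 0)) (.cut .d (-2490368) (.pos 74 .mm ⟨33235209, 0, 0, 0, 0, 23328666, 0, 0, 0, ⟨0, 0⟩, 0⟩ 0 0) (.pos 74 .mm ⟨31095760, 0, 0, 0, 0, 21698983, 0, 0, 0, ⟨0, 0⟩, 0⟩ 0 0))) (.cut .l 12993603 (.pos 74 .mm ⟨28733679, 0, 0, 0, 0, 34967593, 0, 0, 0, ⟨0, 0⟩, 0⟩ 0 0) (.pos 74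 .mm ⟨35264928, 0, 0, 0, 0, 25786939, 0, 0, 0, ⟨0, 0⟩, 0⟩ 0 0))) (.pos 75 .mm ⟨76778379, 0, 0, 0, 0, 0, 0, 0, 0, ⟨0, 0⟩, 0⟩ 0 0)) (.cut .l 12993603 (.cut .s 9633792 (.cut .v 13107200 (.cut .l 12439897 (.pos 74 .mm ⟨0, 0, 0, 0, 0, 53650886, 0, 0, 0, ⟨0, 0⟩, 0⟩ 0 0) (.pos 74 .mm ⟨20440386, 0, 0, 0, 0, 32516988, 0, 0, 0, ⟨0, 0⟩, 0⟩ 0 0)) (.cut .l 12439897 (.cut .d (-2228224) (.cut .s 9601024 (.cut .s 9584640 (.cut .v 13369344 (.cut .s 9576448 (.cut .d (-2293760) (.cut .d (-2326528) (.pos 84 .mm ⟨27096559, 0, 0, 0, 0, 29297505, 0, 0, 0, ⟨0, 0⟩, 0⟩ 0 0) (.pos 84 .mm ⟨25966001, 0, 0, 0, 0, 29951503, 0, 0, 0, ⟨0, 0⟩, 0⟩ 0 0)) (.cut .s 9572352 (.cut .s 9570304 (.cut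 .v 13238272 (.pos 88 .mm ⟨23673144, 0, 0, 0, 0, 31110247, 0, 0, 0, ⟨0, 0⟩, 0⟩ 0 0) (.cut .d (-2260992) (.pos 89 .mm ⟨26167850, 0, 0, 0, 0, 29691852, 0, 0, 0, ⟨0, 0⟩, 0⟩ 0 0) (.pos 89 .mm ⟨23322964, 0, 0, 0, 0, 31723665, 0, 0, 0, ⟨0, 0⟩, 0⟩ 0 0))) (.pos 84 .mm ⟨23505967, 0, 0, 0, 0, 31787058, 0, 0, 0, ⟨0, 0⟩, 0⟩ 0 0)) (.pos 84 .mm ⟨23560909, 0, 0, 0, 0, 31877162, 0, 0, 0, ⟨0, 0⟩, 0⟩ 0 0))) (.pos 84 .mm ⟨24389483, 0, 0, 0, 0, 31768844, 0, 0, 0, ⟨0, 0⟩, 0⟩ 0 0)) (.pos 85 .mm ⟨78496611, 0, 0, 0, 0, 0, 0, 0, 0, ⟨0, 0⟩, 0⟩ 0 0)) (.pos 75 .mm ⟨28199333, 0, 0, 0, 0, 29081761, 0, 0, 0, ⟨0, 0⟩, 0⟩ 0 0)) (.pos 75 .mm ⟨29687836, 0, 0, 0, 0, 29284347, 0, 0, 0, ⟨0, 0⟩,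 0⟩ 0 0)) (.cut .v 13369344 (.pos 84 .mm ⟨20834090, 0, 0, 0, 0, 33204027, 0, 0, 0, ⟨0, 0⟩, 0⟩ 0 0) (.pos 85 .mm ⟨23772053, 0, 0, 0, 0, 31512249, 0, 0, 0, ⟨0, 0⟩, 0⟩ 0 0))) (.pos 75 .mm ⟨28622810, 0, 0, 0, 0, 25339042, 0, 0, 0, ⟨0, 0⟩, 0⟩ 0 0))) (.cut .v 13107200 (.pos 74 .mm ⟨17646872, 0, 0, 0, 0, 40748331, 0, 0, 0, ⟨0, 0⟩, 0⟩ 0 0) (.pos 75 .mm ⟨32032951, 0, 0, 0, 0, 29692203, 0, 0, 0, ⟨0, 0⟩, 0⟩ 0 0))) (.pos 64 .mm ⟨29039693, 0, 0, 0, 0, 0, 0, 0, 0, ⟨0, 0⟩, 0⟩ 0 0))) (.cut .d (-2359296) (.cut .l 12993603 (.pos 64 .mm ⟨34679897, 0, 0, 0, 0, 42989198, 0, 0, 0, ⟨0, 0⟩, 0⟩ 0 0) (.pos 64 .mm ⟨47535818, 0, 0, 0, 0, 22451706, 0, 0, 0, ⟨0, 0⟩, 0⟩ 0 0)) (.cut .v 13107200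 (.cut .s 9764864 (.cut .s 9732096 (.pos 74 .mm ⟨19714532, 0, 0, 0, 0, 41872223, 0, 0, 0, ⟨0, 0⟩, 0⟩ 0 0) (.pos 74 .mm ⟨20474585, 0, 0, 0, 0, 43706169, 0, 0, 0, ⟨0, 0⟩, 0⟩ 0 0)) (.pos 74 .mm ⟨38678197, 0, 0, 0, 0, 31658495, 0, 0, 0, ⟨0, 0⟩, 0⟩ 0 0)) (.pos 75 .mm ⟨44531298, 0, 0, 0, 0, 26434747, 0, 0, 0, ⟨0, 0⟩, 0⟩ 0 0)))) (.pos 64 .mm ⟨50353801, 0, 0, 0, 0, 0, 0, 0, 0, ⟨0, 0⟩, 0⟩ 0 0))) (.pos 65 .mm ⟨80187133, 0, 0, 0, 0, 0, 0, 0, 0, ⟨0, 0⟩, 0⟩ 0 0)))) (.cut .d (-3145728) (.cut .s 9699328 (.pos 45 .mm ⟨75911303, 0, 0, 0, 0, 0, 0, 0, 0, ⟨0, 0⟩, 0⟩ 0 0) (.pos 45 .mm ⟨90028367, 0, 0, 0, 0, 0, 0, 0, 0, ⟨0, 0⟩, 0⟩ 0 0)) (.pos 45 .mm ⟨55916185, 0, 0, 0, 0, 0, 0,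 0, 0, ⟨0, 0⟩, 0⟩ 0 0))) (.cut .l 16315842 (.pos 46 .mm ⟨109898003, 0, 0, 0, 0, 0, 0, 0, 0, ⟨0, 0⟩, 0⟩ 0 0) (.pos 46 .mm ⟨92855104, 0, 0, 0, 0, 0, 0, 0, 0, ⟨0, 0⟩, 0⟩ 0 0))) (.cut .v 14680064 (.cut .d (-3145728) (.cut .s 9961472 (.pos 45 .mm ⟨114723264, 0, 0, 0, 0, 0, 0, 0, 0, ⟨0, 0⟩, 0⟩ 0 0) (.pos 45 .mm ⟨131884188, 0, 0, 0, 0, 0, 0, 0, 0, ⟨0, 0⟩, 0⟩ 0 0)) (.cut .l 16315842 (.cut .l 11886191 (.void 45 ⟨0, 0, 0, 0, 0, 100000, 0, 0, 0, ⟨0, 0⟩, 0⟩ 0 0) (.cut .d (-2621440) (.pos 45 .mm ⟨109709685, 0, 0, 0, 0, 0, 0, 0, 0, ⟨0, 0⟩, 0⟩ 0 0) (.cut .d (-2359296) (.pos 45 .mm ⟨102045382, 0, 0, 0, 0, 0, 0, 0, 0, ⟨0, 0⟩, 0⟩ 0 0) (.cut .v 13631488 (.cut .v 13107200 (.cut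 .l 14101016 (.cut .s 9961472 (.cut .s 9895936 (.pos 74 .mm ⟨43231634, 0, 0, 0, 0, 33146363, 0, 0, 0, ⟨0, 0⟩, 0⟩ 0 0) (.pos 74 .mm ⟨47939479, 0, 0, 0, 0, 34724238, 0, 0, 0, ⟨0, 0⟩, 0⟩ 0 0)) (.cut .s 10027008 (.pos 74 .mm ⟨51840233, 0, 0, 0, 0, 37237520, 0, 0, 0, ⟨0, 0⟩, 0⟩ 0 0) (.pos 74 .mm ⟨56085240, 0, 0, 0, 0, 39687079, 0, 0, 0, ⟨0, 0⟩, 0⟩ 0 0))) (.pos 74 .mm ⟨65965813, 0, 0, 0, 0, 0, 0, 0, 0, ⟨0, 0⟩, 0⟩ 0 0)) (.pos 75 .mm ⟨83294654, 0, 0, 0, 0, 12092910, 0, 0, 0, ⟨0, 0⟩, 0⟩ 0 0)) (.pos 65 .mm ⟨108453372, 0, 0, 0, 0, 0, 0, 0, 0, ⟨0, 0⟩, 0⟩ 0 0))))) (.pos 45 .mm ⟨81939069, 0, 0, 0, 0, 0, 0, 0, 0, ⟨0, 0⟩, 0⟩ 0 0))) (.cut .l 16315842 (.pos 46 .mm ⟨147861960,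 0, 0, 0, 0, 0, 0, 0, 0, ⟨0, 0⟩, 0⟩ 0 0) (.pos 46 .mm ⟨128273681, 0, 0, 0, 0, 0, 0, 0, 0, ⟨0, 0⟩, 0⟩ 0 0))))) (.cut .l 16315842 (.cut .d (-1048576) (.cut .v 12582912 (.cut .l 11886191 (.cut .v 10485760 (.pos 66 .mm ⟨0, 0, 0, 0, 0, 50572818, 0, 0, 0, ⟨0, 0⟩, 0⟩ 0 0) (.cut .s 9830400 (.cut .s 9699328 (.pos 67 .mm ⟨0, 0, 0, 0, 0, 47688754, 0, 0, 0, ⟨0, 0⟩, 0⟩ 0 0) (.pos 67 .mm ⟨0, 0, 0, 0, 0, 56548188, 0, 0, 0, ⟨0, 0⟩, 0⟩ 0 0)) (.cut .s 9961472 (.pos 67 .mm ⟨0, 0, 0, 0, 0, 66326300, 0, 0, 0, ⟨0, 0⟩, 0⟩ 0 0) (.pos 67 .mm ⟨0, 0, 0, 0, 0, 77065530, 0, 0, 0, ⟨0, 0⟩, 0⟩ 0 0)))) (.cut .s 9830400 (.pos 8 .mm ⟨0, 0, 0, 0, 0, 39871328, 0, 0, 0, ⟨0, 0⟩, 0⟩ 0 0) (.cut .s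 9961472 (.pos 8 .mm ⟨0, 0, 0, 0, 0, 54588166, 0, 0, 0, ⟨0, 0⟩, 0⟩ 0 0) (.cut .d (-1572864) (.pos 8 .mm ⟨0, 0, 0, 0, 0, 68439187, 0, 0, 0, ⟨0, 0⟩, 0⟩ 0 0) (.pos 8 .mm ⟨0, 0, 0, 0, 0, 0, 0, 0, 0, ⟨0, 0⟩, 0⟩ 0 0))))) (.cut .l 11886191 (.cut .s 9830400 (.cut .v 14680064 (.cut .d (-1572864) (.cut .l 9671365 (.void 45 ⟨0, 0, 0, 0, 0, 100000, 0, 0, 0, ⟨0, 0⟩, 0⟩ 0 0) (.cut .s 9699328 (.cut .d (-1835008) (.cut .l 10778778 (.pos 45 .mm ⟨5084120, 0, 0, 0, 0, 65165892, 0, 0, 0, ⟨0, 0⟩, 0⟩ 0 0) (.cut .v 13631488 (.cut .s 9633792 (.pos 64 .mm ⟨13229772, 0, 0, 0, 0, 40577095, 0, 0, 0, ⟨0, 0⟩, 0⟩ 0 0) (.pos 64 .mm ⟨13181959, 0, 0, 0, 0, 45961610, 0, 0, 0, ⟨0, 0⟩, 0⟩ 0 0))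 (.cut .s 9633792 (.cut .s 9601024 (.cut .l 11332484 (.pos 65 .mm ⟨17196109, 0, 0, 0, 0, 39779393, 0, 0, 0, ⟨0, 0⟩, 0⟩ 0 0) (.pos 65 .mm ⟨21960146, 0, 0, 0, 0, 33416248, 0, 0, 0, ⟨0, 0⟩, 0⟩ 0 0)) (.pos 65 .mm ⟨22058703, 0, 0, 0, 0, 36587867, 0, 0, 0, ⟨0, 0⟩, 0⟩ 0 0)) (.pos 65 .mm ⟨30010259, 0, 0, 0, 0, 32877373, 0, 0, 0, ⟨0, 0⟩, 0⟩ 0 0)))) (.cut .l 10778778 (.pos 45 .mm ⟨93678, 0, 0, 0, 0, 58489180, 0, 0, 0, ⟨0, 0⟩, 0⟩ 0 0) (.pos 45 .mm ⟨9979482, 0, 0, 0, 0, 37149857, 0, 0, 0, ⟨0, 0⟩, 0⟩ 0 0))) (.cut .v 13631488 (.cut .s 9764864 (.pos 64 .mm ⟨9155939, 0, 0, 0, 0, 53646706, 0, 0, 0, ⟨0, 0⟩, 0⟩ 0 0) (.pos 64 .mm ⟨11412278, 0, 0, 0, 0, 56960346, 0, 0, 0, ⟨0,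 0⟩, 0⟩ 0 0)) (.cut .d (-1835008) (.cut .s 9764864 (.cut .l 10778778 (.void 65 ⟨0, 0, 0, 0, 0, 100000, 0, 0, 0, ⟨0, 0⟩, 0⟩ 0 0) (.pos 65 .mm ⟨34073535, 0, 0, 0, 0, 34724191, 0, 0, 0, ⟨0, 0⟩, 0⟩ 0 0)) (.pos 65 .mm ⟨39797911, 0, 0, 0, 0, 37597743, 0, 0, 0, ⟨0, 0⟩, 0⟩ 0 0)) (.cut .l 10778778 (.pos 65 .mm ⟨7452488, 0, 0, 0, 0, 64219451, 0, 0, 0, ⟨0, 0⟩, 0⟩ 0 0) (.pos 65 .mm ⟨19526276, 0, 0, 0, 0, 44229216, 0, 0, 0, ⟨0, 0⟩, 0⟩ 0 0)))))) (.cut .l 9671365 (.cut .s 9699328 (.pos 45 .mm ⟨0, 0, 0, 0, 0, 55240355, 0, 0, 0, ⟨0, 0⟩, 0⟩ 0 0) (.pos 45 .mm ⟨0, 0, 0, 0, 0, 66215254, 0, 0, 0, ⟨0, 0⟩, 0⟩ 0 0)) (.pos 45 .mm ⟨0, 0, 0, 0, 0, 49477176, 0, 0, 0, ⟨0, 0⟩, 0⟩ 0 0)))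 (.cut .v 15728640 (.cut .d (-1572864) (.cut .l 9671365 (.void 62 ⟨0, 0, 0, 0, 0, 100000, 0, 0, 0, ⟨0, 0⟩, 0⟩ 0 0) (.pos 62 .mm ⟨65466549, 0, 0, 0, 0, 12347137, 0, 0, 0, ⟨0, 0⟩, 0⟩ 0 0)) (.cut .l 9671365 (.cut .s 9699328 (.pos 62 .mm ⟨0, 0, 0, 0, 0, 60762985, 0, 0, 0, ⟨0, 0⟩, 0⟩ 0 0) (.pos 62 .mm ⟨0, 0, 0, 0, 0, 72802586, 0, 0, 0, ⟨0, 0⟩, 0⟩ 0 0)) (.pos 62 .mm ⟨13149669, 0, 0, 0, 0, 44297831, 0, 0, 0, ⟨0, 0⟩, 0⟩ 0 0))) (.pos 63 .mm ⟨75988907, 0, 0, 0, 0, 10249345, 0, 0, 0, ⟨0, 0⟩, 0⟩ 0 0))) (.cut .v 14680064 (.cut .d (-1572864) (.cut .l 9671365 (.void 45 ⟨0, 0, 0, 0, 0, 100000, 0, 0, 0, ⟨0, 0⟩, 0⟩ 0 0) (.cut .s 9961472 (.cut .v 13631488 (.cut .d (-1835008)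 (.pos 64 .mm ⟨18241318, 0, 0, 0, 0, 62882354, 0, 0, 0, ⟨0, 0⟩, 0⟩ 0 0) (.pos 64 .mm ⟨0, 0, 0, 0, 0, 71796027, 0, 0, 0, ⟨0, 0⟩, 0⟩ 0 0)) (.cut .d (-1835008) (.pos 65 .mm ⟨50568747, 0, 0, 0, 0, 38493943, 0, 0, 0, ⟨0, 0⟩, 0⟩ 0 0) (.cut .l 10778778 (.pos 65 .mm ⟨14494884, 0, 0, 0, 0, 70709893, 0, 0, 0, ⟨0, 0⟩, 0⟩ 0 0) (.pos 65 .mm ⟨31348651, 0, 0, 0, 0, 45258266, 0, 0, 0, ⟨0, 0⟩, 0⟩ 0 0)))) (.cut .l 10778778 (.pos 45 .mm ⟨11858013, 0, 0, 0, 0, 97912517, 0, 0, 0, ⟨0, 0⟩, 0⟩ 0 0) (.cut .d (-1835008) (.cut .v 13631488 (.pos 64 .mm ⟨22810087, 0, 0, 0, 0, 74142301, 0, 0, 0, ⟨0, 0⟩, 0⟩ 0 0) (.pos 65 .mm ⟨124026669, 0, 0, 0, 0, 0, 0, 0, 0, ⟨0, 0⟩, 0⟩ 0 0)) (.cut .v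 13631488 (.pos 64 .mm ⟨7807118, 0, 0, 0, 0, 78112910, 0, 0, 0, ⟨0, 0⟩, 0⟩ 0 0) (.pos 65 .mm ⟨39387156, 0, 0, 0, 0, 50748988, 0, 0, 0, ⟨0, 0⟩, 0⟩ 0 0)))))) (.cut .l 9671365 (.cut .s 9961472 (.pos 45 .mm ⟨0, 0, 0, 0, 0, 78415459, 0, 0, 0, ⟨0, 0⟩, 0⟩ 0 0) (.pos 45 .mm ⟨0, 0, 0, 0, 0, 92848543, 0, 0, 0, ⟨0, 0⟩, 0⟩ 0 0)) (.cut .s 9961472 (.pos 45 .mm ⟨0, 0, 0, 0, 0, 69005544, 0, 0, 0, ⟨0, 0⟩, 0⟩ 0 0) (.cut .s 10027008 (.pos 45 .mm ⟨0, 0, 0, 0, 0, 79780504, 0, 0, 0, ⟨0, 0⟩, 0⟩ 0 0) (.pos 45 .mm ⟨0, 0, 0, 0, 0, 86303703, 0, 0, 0, ⟨0, 0⟩, 0⟩ 0 0))))) (.cut .d (-1572864) (.pos 46 .mm ⟨129156618, 0, 0, 0, 0, 0, 0, 0, 0, ⟨0, 0⟩, 0⟩ 0 0) (.cut .l 9671365 (.cut .s 9961472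 (.pos 46 .mm ⟨0, 0, 0, 0, 0, 90486415, 0, 0, 0, ⟨0, 0⟩, 0⟩ 0 0) (.pos 46 .mm ⟨5841028, 0, 0, 0, 0, 100345212, 0, 0, 0, ⟨0, 0⟩, 0⟩ 0 0)) (.pos 46 .mm ⟨36942060, 0, 0, 0, 0, 47060175, 0, 0, 0, ⟨0, 0⟩, 0⟩ 0 0))))) (.cut .v 14680064 (.cut .d (-1572864) (.cut .d (-1835008) (.cut .l 14101016 (.cut .l 12993603 (.cut .s 9830400 (.cut .s 9699328 (.pos 45 .mm ⟨19461009, 0, 0, 0, 0, 0, 0, 0, 0, ⟨0, 0⟩, 0⟩ 0 0) (.cut .v 13631488 (.pos 64 .mm ⟨27293846, 0, 0, 0, 0, 31962906, 0, 0, 0, ⟨0, 0⟩, 0⟩ 0 0) (.pos 65 .mm ⟨64223147, 0, 0, 0, 0, 0, 0, 0, 0, ⟨0, 0⟩, 0⟩ 0 0))) (.cut .v 13631488 (.cut .s 9961472 (.cut .s 9895936 (.pos 64 .mm ⟨29714511, 0, 0, 0, 0, 41155592, 0, 0, 0,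 ⟨0, 0⟩, 0⟩ 0 0) (.pos 64 .mm ⟨33446068, 0, 0, 0, 0, 43324067, 0, 0, 0, ⟨0, 0⟩, 0⟩ 0 0)) (.cut .s 10027008 (.pos 64 .mm ⟨37442345, 0, 0, 0, 0, 45493255, 0, 0, 0, ⟨0, 0⟩, 0⟩ 0 0) (.pos 64 .mm ⟨41693872, 0, 0, 0, 0, 47672121, 0, 0, 0, ⟨0, 0⟩, 0⟩ 0 0))) (.pos 65 .mm ⟨83884928, 0, 0, 0, 0, 0, 0, 0, 0, ⟨0, 0⟩, 0⟩ 0 0))) (.pos 45 .mm ⟨39763861, 0, 0, 0, 0, 0, 0, 0, 0, ⟨0, 0⟩, 0⟩ 0 0)) (.pos 45 .mm ⟨20962085, 0, 0, 0, 0, 0, 0, 0, 0, ⟨0, 0⟩, 0⟩ 0 0)) (.pos 45 .mm ⟨24260588, 0, 0, 0, 0, 0, 0, 0, 0, ⟨0, 0⟩, 0⟩ 0 0)) (.pos 45 .mm ⟨0, 0, 0, 0, 0, 0, 0, 0, 0, ⟨0, 0⟩, 0⟩ 0 0)) (.pos 46 .mm ⟨66764547, 0, 0, 0, 0, 0, 0, 0, 0, ⟨0, 0⟩, 0⟩ 0 0)))) (.cut .v 12582912 (.pos 8 .mm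 ⟨0, 0, 0, 0, 0, 35448549, 0, 0, 0, ⟨0, 0⟩, 0⟩ 0 0) (.cut .s 9830400 (.pos 9 .mm ⟨0, 0, 0, 0, 0, 43850681, 0, 0, 0, ⟨0, 0⟩, 0⟩ 0 0) (.pos 9 .mm ⟨0, 0, 0, 0, 0, 60600136, 0, 0, 0, ⟨0, 0⟩, 0⟩ 0 0)))) (.pos 3 .mm ⟨0, 0, 0, 0, 0, 0, 0, 0, 0, ⟨0, 0⟩, 0⟩ 0 0)))))) (.cut .v 268435456 (.cut .d (-8388608) (.void 10 ⟨100000, 0, 0, 0, 0, 0, 0, 0, 0, ⟨0, 0⟩, 0⟩ 0 0) (.cut .d (-4194304) (.void 10 ⟨100000, 0, 0, 0, 0, 0, 0, 0, 0, ⟨0, 0⟩, 0⟩ 0 0) (.cut .v 67108864 (.cut .v 33554432 (.cut .d (-2097152) (.cut .v 25165824 (.cut .d (-3145728) (.pos 15 .mp ⟨207869266, 0, 0, 0, 0, 0, 0, 0, 0, ⟨0, 0⟩, 0⟩ 0 0) (.cut .l 16315842 (.pos 15 .mp ⟨180568936, 0, 0, 0, 0, 0, 0, 0, 0, ⟨0,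 0⟩, 0⟩ 0 0) (.pos 15 .mp ⟨120500068, 0, 0, 0, 0, 0, 0, 0, 0, ⟨0, 0⟩, 0⟩ 0 0))) (.pos 16 .mp ⟨326667999, 0, 0, 0, 0, 0, 0, 0, 0, ⟨0, 0⟩, 0⟩ 0 0)) (.cut .v 25165824 (.cut .d (-1048576) (.cut .s 9830400 (.pos 15 .mp ⟨101172345, 0, 0, 0, 0, 0, 0, 0, 0, ⟨0, 0⟩, 0⟩ 0 0) (.pos 15 .mp ⟨136953253, 0, 0, 0, 0, 0, 0, 0, 0, ⟨0, 0⟩, 0⟩ 0 0)) (.pos 15 .mp ⟨36071812, 0, 0, 0, 0, 36498966, 0, 0, 0, ⟨0, 0⟩, 0⟩ 0 0)) (.pos 16 .mp ⟨196348333, 0, 0, 0, 0, 0, 0, 0, 0, ⟨0, 0⟩, 0⟩ 0 0))) (.cut .v 50331648 (.cut .d (-2097152) (.void 23 ⟨100000, 0, 0, 0, 0, 0, 0, 0, 0, ⟨0, 0⟩, 0⟩ 0 0) (.pos 23 .mp ⟨381912194, 0, 0, 0, 0, 0, 0, 0, 0, ⟨0, 0⟩, 0⟩ 0 0)) (.pos 24 .mp ⟨1045901498, 0, 0,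 0, 0, 0, 0, 0, 0, ⟨0, 0⟩, 0⟩ 0 0))) (.cut .v 134217728 (.pos 31 .mp ⟨4168325454, 0, 0, 0, 0, 0, 0, 0, 0, ⟨0, 0⟩, 0⟩ 0 0) (.void 32 ⟨100000, 0, 0, 0, 0, 0, 0, 0, 0, ⟨0, 0⟩, 0⟩ 0 0))))) (.void 59 ⟨62439, 37561, 0, 0, 0, 0, 0, 0, 0, ⟨0, 0⟩, 0⟩ 0 0))) (.cut .v 16777216 (.cut .v 8388608 (.cut .v 4194304 (.cut .v 2097152 (.cut .v 1048576 (.void 100 ⟨0, 0, 50000, 0, 50000, 0, 0, 0, 0, ⟨0, 0⟩, 0⟩ 0 0) (.pos 101 .pm ⟨0, 204428, 0, 0, 0, 0, 0, 0, 5431353, ⟨0, 0⟩, 4987896⟩ 0 0)) (.pos 7 .pm ⟨0, 9178653, 0, 0, 0, 0, 0, 0, 0, ⟨0, 0⟩, 0⟩ 0 0)) (.cut .d 6320185 (.pos 5 .pm ⟨0, 0, 0, 0, 0, 0, 0, 0, 0, ⟨0, 0⟩, 0⟩ 0 0) (.cut .d 9480278 (.pos 5 .pm ⟨0, 0, 0, 0, 0, 0, 0, 0,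 0, ⟨0, 0⟩, 0⟩ 0 0) (.cut .v 6291456 (.pos 76 .pm ⟨0, 33542862, 0, 0, 0, 0, 0, 0, 0, ⟨0, 0⟩, 0⟩ 0 0) (.cut .l 16315842 (.cut .l 11886191 (.cut .d 11060324 (.cut .s 9830400 (.pos 77 .pm ⟨0, 0, 0, 0, 0, 0, 0, 0, 0, ⟨0, 0⟩, 0⟩ 0 0) (.pos 77 .pm ⟨0, 35451564, 0, 0, 0, 0, 0, 0, 0, ⟨0, 0⟩, 0⟩ 0 0)) (.cut .s 9830400 (.pos 77 .pm ⟨0, 37253301, 0, 0, 0, 0, 0, 0, 0, ⟨0, 0⟩, 0⟩ 0 0) (.pos 77 .pm ⟨0, 55754324, 0, 0, 0, 0, 0, 0, 0, ⟨0, 0⟩, 0⟩ 0 0))) (.pos 77 .pm ⟨0, 34370660, 0, 0, 0, 0, 0, 0, 0, ⟨0, 0⟩, 0⟩ 0 0)) (.pos 77 .pm ⟨0, 29000139, 0, 0, 0, 0, 0, 0, 0, ⟨0, 0⟩, 0⟩ 0 0)))))) (.cut .d 6320185 (.pos 3 .pm ⟨0, 0, 0, 0, 0, 0, 0, 0, 0, ⟨0, 0⟩, 0⟩ 0 0) (.cut .d 9480278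 (.pos 3 .pm ⟨0, 0, 0, 0, 0, 0, 0, 0, 0, ⟨0, 0⟩, 0⟩ 0 0) (.cut .v 12582912 (.cut .l 16315842 (.cut .l 11886191 (.cut .d 11060324 (.cut .s 9830400 (.pos 8 .pm ⟨0, 24343167, 0, 0, 0, 0, 0, 0, 0, ⟨0, 0⟩, 0⟩ 0 0) (.pos 8 .pm ⟨0, 37532695, 0, 0, 0, 0, 0, 0, 0, ⟨0, 0⟩, 0⟩ 0 0)) (.cut .s 9830400 (.pos 8 .pm ⟨0, 40714404, 0, 0, 0, 0, 0, 0, 0, ⟨0, 0⟩, 0⟩ 0 0) (.pos 8 .pm ⟨0, 62253413, 0, 0, 0, 0, 0, 0, 0, ⟨0, 0⟩, 0⟩ 0 0))) (.pos 8 .pm ⟨0, 36876392, 0, 0, 0, 0, 0, 0, 0, ⟨0, 0⟩, 0⟩ 0 0)) (.pos 8 .pm ⟨0, 30391222, 0, 0, 0, 0, 0, 0, 0, ⟨0, 0⟩, 0⟩ 0 0)) (.pos 9 .pm ⟨0, 46237228, 0, 0, 0, 0, 0, 0, 0, ⟨0, 0⟩, 0⟩ 0 0))))) (.cut .v 268435456 (.cut .d 6320185 (.cut .v 67108864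 (.cut .v 33554432 (.pos 13 .pp ⟨0, 0, 0, 0, 0, 0, 0, 0, 0, ⟨0, 0⟩, 0⟩ 0 0) (.pos 14 .pp ⟨128654062, 0, 0, 0, 0, 0, 0, 0, 0, ⟨0, 0⟩, 0⟩ 0 0)) (.cut .v 134217728 (.cut .v 100663296 (.cut .v 83886080 (.pos 104 .pp ⟨608633307, 0, 0, 0, 0, 0, 0, 0, 0, ⟨0, 0⟩, 0⟩ 0 0) (.pos 105 .pp ⟨966730582, 0, 0, 0, 0, 0, 0, 0, 0, ⟨0, 0⟩, 0⟩ 0 0)) (.pos 44 .pp ⟨1806605388, 742369627, 0, 0, 0, 0, 0, 0, 0, ⟨0, 0⟩, 0⟩ 0 0)) (.void 32 ⟨41157, 58843, 0, 0, 0, 0, 0, 0, 0, ⟨0, 0⟩, 0⟩ 0 0))) (.pos 10 .pp ⟨0, 27253701, 0, 0, 0, 0, 0, 0, 0, ⟨0, 0⟩, 0⟩ 0 0)) (.void 59 ⟨0, 0, 0, 100000, 0, 0, 0, 0, 0, ⟨0, 0⟩, 0⟩ 0 0)))),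
    by decide +kernel⟩

def covers13 : cell.Covers table row13.1 :=
  ⟨(.cut .d 0 (.cut .v 16777216 (.cut .d (-8388608) (.void 1 ⟨0, 0, 0, 0, 0, 100000, 0, 0, 0, ⟨0, 0⟩, 0⟩ 0 0) (.cut .v 8388608 (.cut .v 4194304 (.void 4 ⟨0, 0, 100000, 0, 0, 0, 0, 0, 0, ⟨0, 0⟩, 0⟩ 0 0) (.cut .d (-4194304) (.void 5 ⟨0, 0, 100000, 0, 0, 0, 0, 0, 0, ⟨0, 0⟩, 0⟩ 0 0) (.cut .d (-2097152) (.void 5 ⟨0, 0, 100000, 0, 0, 0, 0, 0, 0, ⟨0, 0⟩, 0⟩ 0 0) (.pos 5 .mm ⟨0, 0, 7738587, 0, 0, 48322270, 0, 0, 0, ⟨0, 0⟩, 0⟩ 0 0)))) (.cut .d (-4194304) (.cut .v 12582912 (.cut .d (-6291456) (.void 8 ⟨85877, 0, 14123, 0, 0, 0, 0, 0, 0, ⟨0, 0⟩, 0⟩ 0 0) (.cut .d (-5242880) (.void 8 ⟨85877, 0, 14123,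 0, 0, 0, 0, 0, 0, ⟨0, 0⟩, 0⟩ 0 0) (.cut .d (-4718592) (.void 8 ⟨85877, 0, 14123, 0, 0, 0, 0, 0, 0, ⟨0, 0⟩, 0⟩ 0 0) (.cut .v 10485760 (.cut .s 10289152 (.cut .s 10190848 (.pos 66 .mm ⟨111954547, 0, 10037123, 0, 0, 0, 0, 0, 0, ⟨0, 0⟩, 0⟩ 0 0) (.pos 66 .mm ⟨123275488, 0, 11246926, 0, 0, 0, 0, 0, 0, ⟨0, 0⟩, 0⟩ 0 0)) (.pos 66 .mm ⟨145903424, 0, 14246460, 0, 0, 0, 0, 0, 0, ⟨0, 0⟩, 0⟩ 0 0)) (.pos 67 .mm ⟨166946540, 0, 0, 0, 0, 0, 0, 0, 0, ⟨0, 0⟩, 0⟩ 0 0))))) (.void 9 ⟨100000, 0, 0, 0, 0, 0, 0, 0, 0, ⟨0, 0⟩, 0⟩ 0 0)) (.cut .d (-2097152) (.cut .v 12582912 (.cut .l 16315842 (.cut .d (-3145728) (.void 8 ⟨0, 0, 0, 0, 0, 100000, 0, 0, 0, ⟨0, 0⟩, 0⟩ 0 0) (.cut .l 11886191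 (.void 8 ⟨0, 0, 0, 0, 0, 100000, 0, 0, 0, ⟨0, 0⟩, 0⟩ 0 0) (.cut .v 10485760 (.cut .s 10289152 (.pos 66 .mm ⟨0, 0, 0, 0, 0, 82300237, 0, 0, 0, ⟨0, 0⟩, 0⟩ 0 0) (.pos 66 .mm ⟨0, 0, 0, 0, 0, 107586859, 0, 0, 0, ⟨0, 0⟩, 0⟩ 0 0)) (.cut .s 10289152 (.cut .d (-2621440) (.cut .v 11534336 (.cut .s 10190848 (.pos 68 .mm ⟨41358248, 0, 0, 0, 0, 53077445, 0, 0, 0, ⟨0, 0⟩, 0⟩ 0 0) (.pos 68 .mm ⟨50583301, 0, 0, 0, 0, 55461455, 0, 0, 0, ⟨0, 0⟩, 0⟩ 0 0)) (.pos 69 .mm ⟨118911763, 0, 0, 0, 0, 0, 0, 0, 0, ⟨0, 0⟩, 0⟩ 0 0)) (.cut .v 11534336 (.pos 68 .mm ⟨11157195, 0, 0, 0, 0, 74447258, 0, 0, 0, ⟨0, 0⟩, 0⟩ 0 0) (.cut .s 10190848 (.cut .l 14101016 (.pos 69 .mm ⟨29692369, 0, 0, 0,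 0, 67481009, 0, 0, 0, ⟨0, 0⟩, 0⟩ 0 0) (.pos 69 .mm ⟨62898584, 0, 0, 0, 0, 20996228, 0, 0, 0, ⟨0, 0⟩, 0⟩ 0 0)) (.pos 69 .mm ⟨74164181, 0, 0, 0, 0, 33168845, 0, 0, 0, ⟨0, 0⟩, 0⟩ 0 0)))) (.cut .d (-2621440) (.pos 67 .mm ⟨66554811, 0, 0, 0, 0, 72386243, 0, 0, 0, ⟨0, 0⟩, 0⟩ 0 0) (.cut .v 11534336 (.pos 68 .mm ⟨10700259, 0, 0, 0, 0, 96512621, 0, 0, 0, ⟨0, 0⟩, 0⟩ 0 0) (.pos 69 .mm ⟨102251308, 0, 0, 0, 0, 23379041, 0, 0, 0, ⟨0, 0⟩, 0⟩ 0 0))))))) (.cut .d (-3145728) (.cut .v 10485760 (.cut .v 9437184 (.pos 78 .mm ⟨0, 0, 55174815, 0, 0, 58370783, 0, 0, 0, ⟨0, 0⟩, 0⟩ 0 0) (.cut .s 10289152 (.cut .l 20745493 (.cut .d (-3670016) (.pos 79 .mm ⟨73364501, 0, 0, 0, 0, 32904863,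 0, 0, 0, ⟨0, 0⟩, 0⟩ 0 0) (.cut .s 10190848 (.pos 79 .mm ⟨42970431, 0, 0, 0, 0, 43551109, 0, 0, 0, ⟨0, 0⟩, 0⟩ 0 0) (.pos 79 .mm ⟨49020125, 0, 0, 0, 0, 47911843, 0, 0, 0, ⟨0, 0⟩, 0⟩ 0 0))) (.cut .s 10190848 (.pos 79 .mm ⟨86017206, 0, 0, 0, 0, 0, 0, 0, 0, ⟨0, 0⟩, 0⟩ 0 0) (.pos 79 .mm ⟨96959740, 0, 0, 0, 0, 0, 0, 0, 0, ⟨0, 0⟩, 0⟩ 0 0))) (.cut .d (-3670016) (.pos 79 .mm ⟨132735832, 0, 14689253, 0, 0, 0, 0, 0, 0, ⟨0, 0⟩, 0⟩ 0 0) (.cut .s 10387456 (.pos 79 .mm ⟨110291102, 0, 0, 0, 0, 956245, 0, 0, 0, ⟨0, 0⟩, 0⟩ 0 0) (.pos 79 .mm ⟨122539069, 0, 0, 0, 0, 0, 0, 0, 0, ⟨0, 0⟩, 0⟩ 0 0))))) (.cut .s 10289152 (.cut .d (-3670016) (.pos 67 .mm ⟨122146383, 0, 0, 0, 0, 0, 0,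 0, 0, ⟨0, 0⟩, 0⟩ 0 0) (.pos 67 .mm ⟨108478731, 0, 0, 0, 0, 0, 0, 0, 0, ⟨0, 0⟩, 0⟩ 0 0)) (.cut .d (-3670016) (.pos 67 .mm ⟨151041067, 0, 0, 0, 0, 0, 0, 0, 0, ⟨0, 0⟩, 0⟩ 0 0) (.pos 67 .mm ⟨134041701, 0, 0, 0, 0, 0, 0, 0, 0, ⟨0, 0⟩, 0⟩ 0 0)))) (.cut .d (-2621440) (.cut .l 20745493 (.cut .l 18530667 (.cut .v 10485760 (.cut .s 10289152 (.pos 66 .mm ⟨18094694, 0, 0, 0, 0, 62275589, 0, 0, 0, ⟨0, 0⟩, 0⟩ 0 0) (.pos 66 .mm ⟨31376957, 0, 0, 0, 0, 73534863, 0, 0, 0, ⟨0, 0⟩, 0⟩ 0 0)) (.cut .s 10289152 (.pos 67 .mm ⟨84494471, 0, 0, 0, 0, 947279, 0, 0, 0, ⟨0, 0⟩, 0⟩ 0 0) (.pos 67 .mm ⟨107711440, 0, 0, 0, 0, 3082101, 0, 0, 0, ⟨0, 0⟩, 0⟩ 0 0))) (.pos 8 .mm ⟨69178753, 0, 0,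 0, 0, 0, 0, 0, 0, ⟨0, 0⟩, 0⟩ 0 0)) (.pos 8 .mm ⟨47535420, 0, 0, 0, 0, 0, 0, 0, 0, ⟨0, 0⟩, 0⟩ 0 0)) (.pos 8 .mm ⟨49527399, 0, 0, 0, 0, 0, 0, 0, 0, ⟨0, 0⟩, 0⟩ 0 0)))) (.cut .d (-3145728) (.cut .s 10289152 (.pos 9 .mm ⟨170948263, 0, 0, 0, 0, 0, 0, 0, 0, ⟨0, 0⟩, 0⟩ 0 0) (.pos 9 .mm ⟨208864727, 0, 0, 0, 0, 0, 0, 0, 0, ⟨0, 0⟩, 0⟩ 0 0)) (.cut .l 16315842 (.cut .s 10289152 (.cut .l 11886191 (.void 9 ⟨0, 0, 0, 0, 0, 100000, 0, 0, 0, ⟨0, 0⟩, 0⟩ 0 0) (.cut .d (-2621440) (.void 9 ⟨100000, 0, 0, 0, 0, 0, 0, 0, 0, ⟨0, 0⟩, 0⟩ 0 0) (.pos 9 .mm ⟨101904849, 0, 0, 0, 0, 16161818, 0, 0, 0, ⟨0, 0⟩, 0⟩ 0 0))) (.pos 9 .mm ⟨180447470, 0, 0, 0, 0, 0, 0, 0, 0, ⟨0, 0⟩, 0⟩ 0 0)) (.pos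 9 .mm ⟨125588881, 0, 0, 0, 0, 0, 0, 0, 0, ⟨0, 0⟩, 0⟩ 0 0)))) (.cut .l 16315842 (.cut .d (-1048576) (.cut .v 12582912 (.cut .l 11886191 (.cut .d (-1572864) (.pos 8 .mm ⟨0, 0, 0, 0, 0, 108451140, 0, 0, 0, ⟨0, 0⟩, 0⟩ 0 0) (.cut .l 9671365 (.pos 8 .mm ⟨0, 0, 0, 0, 0, 97030304, 0, 0, 0, ⟨0, 0⟩, 0⟩ 0 0) (.pos 8 .mm ⟨0, 0, 0, 0, 0, 77888569, 0, 0, 0, ⟨0, 0⟩, 0⟩ 0 0))) (.cut .d (-1572864) (.cut .s 10289152 (.pos 8 .mm ⟨0, 0, 0, 0, 0, 77711786, 0, 0, 0, ⟨0, 0⟩, 0⟩ 0 0) (.pos 8 .mm ⟨0, 0, 0, 0, 0, 97772587, 0, 0, 0, ⟨0, 0⟩, 0⟩ 0 0)) (.pos 8 .mm ⟨0, 0, 0, 0, 0, 0, 0, 0, 0, ⟨0, 0⟩, 0⟩ 0 0))) (.cut .l 11886191 (.cut .v 14680064 (.cut .s 10289152 (.cut .d (-1572864) (.cut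 .s 10190848 (.cut .v 13631488 (.pos 64 .mm ⟨17413581, 0, 0, 0, 0, 82305758, 0, 0, 0, ⟨0, 0⟩, 0⟩ 0 0) (.cut .l 9671365 (.void 65 ⟨0, 0, 0, 0, 0, 100000, 0, 0, 0, ⟨0, 0⟩, 0⟩ 0 0) (.pos 65 .mm ⟨60176053, 0, 0, 0, 0, 48240188, 0, 0, 0, ⟨0, 0⟩, 0⟩ 0 0))) (.pos 45 .mm ⟨24637135, 0, 0, 0, 0, 95692157, 0, 0, 0, ⟨0, 0⟩, 0⟩ 0 0)) (.cut .l 9671365 (.pos 45 .mm ⟨0, 0, 0, 0, 0, 105864291, 0, 0, 0, ⟨0, 0⟩, 0⟩ 0 0) (.pos 45 .mm ⟨296627, 0, 0, 0, 0, 91202106, 0, 0, 0, ⟨0, 0⟩, 0⟩ 0 0))) (.cut .d (-1572864) (.pos 45 .mm ⟨27388951, 0, 0, 0, 0, 116124420, 0, 0, 0, ⟨0, 0⟩, 0⟩ 0 0) (.pos 45 .mm ⟨0, 0, 0, 0, 0, 121515266, 0, 0, 0, ⟨0, 0⟩, 0⟩ 0 0))) (.cut .d (-1572864) (.pos 46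 .mm ⟨161673305, 0, 0, 0, 0, 0, 0, 0, 0, ⟨0, 0⟩, 0⟩ 0 0) (.cut .s 10289152 (.cut .d (-1310720) (.pos 46 .mm ⟨77323609, 0, 0, 0, 0, 44848922, 0, 0, 0, ⟨0, 0⟩, 0⟩ 0 0) (.pos 46 .mm ⟨40334878, 0, 0, 0, 0, 66829724, 0, 0, 0, ⟨0, 0⟩, 0⟩ 0 0)) (.pos 46 .mm ⟨83236046, 0, 0, 0, 0, 60323945, 0, 0, 0, ⟨0, 0⟩, 0⟩ 0 0)))) (.cut .d (-1572864) (.cut .s 10289152 (.cut .d (-1835008) (.cut .d (-1966080) (.pos 9 .mm ⟨57465946, 0, 0, 0, 0, 43053224, 0, 0, 0, ⟨0, 0⟩, 0⟩ 0 0) (.pos 9 .mm ⟨48215402, 0, 0, 0, 0, 48651025, 0, 0, 0, ⟨0, 0⟩, 0⟩ 0 0)) (.pos 9 .mm ⟨44275147, 0, 0, 0, 0, 0, 0, 0, 0, ⟨0, 0⟩, 0⟩ 0 0)) (.pos 9 .mm ⟨80096594, 0, 0, 0, 0, 33986014, 0, 0, 0, ⟨0, 0⟩, 0⟩ 0 0))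 (.pos 9 .mm ⟨13725552, 0, 0, 0, 0, 0, 0, 0, 0, ⟨0, 0⟩, 0⟩ 0 0)))) (.cut .v 12582912 (.pos 8 .mm ⟨0, 0, 0, 0, 0, 59840132, 0, 0, 0, ⟨0, 0⟩, 0⟩ 0 0) (.pos 9 .mm ⟨6378872, 0, 0, 0, 0, 73967651, 0, 0, 0, ⟨0, 0⟩, 0⟩ 0 0))) (.pos 3 .mm ⟨0, 0, 0, 0, 0, 0, 0, 0, 0, ⟨0, 0⟩, 0⟩ 0 0)))))) (.cut .v 268435456 (.cut .d (-8388608) (.void 10 ⟨100000, 0, 0, 0, 0, 0, 0, 0, 0, ⟨0, 0⟩, 0⟩ 0 0) (.cut .d (-4194304) (.void 10 ⟨100000, 0, 0, 0, 0, 0, 0, 0, 0, ⟨0, 0⟩, 0⟩ 0 0) (.cut .v 67108864 (.cut .v 33554432 (.cut .d (-2097152) (.cut .v 25165824 (.cut .v 20971520 (.pos 17 .mp ⟨252995892, 0, 0, 0, 0, 0, 0, 0, 0, ⟨0, 0⟩, 0⟩ 0 0) (.pos 18 .mp ⟨337877149, 0, 0, 0, 0, 0, 0, 0, 0, ⟨0,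 0⟩, 0⟩ 0 0)) (.pos 16 .mp ⟨497545494, 0, 0, 0, 0, 0, 0, 0, 0, ⟨0, 0⟩, 0⟩ 0 0)) (.cut .v 25165824 (.cut .d (-1048576) (.pos 15 .mp ⟨191736614, 0, 0, 0, 0, 0, 0, 0, 0, ⟨0, 0⟩, 0⟩ 0 0) (.pos 15 .mp ⟨55869686, 0, 0, 0, 0, 51966043, 0, 0, 0, ⟨0, 0⟩, 0⟩ 0 0)) (.pos 16 .mp ⟨311640009, 0, 0, 0, 0, 0, 0, 0, 0, ⟨0, 0⟩, 0⟩ 0 0))) (.cut .v 50331648 (.cut .d (-2097152) (.void 23 ⟨100000, 0, 0, 0, 0, 0, 0, 0, 0, ⟨0, 0⟩, 0⟩ 0 0) (.pos 23 .mp ⟨586208378, 0, 0, 0, 0, 0, 0, 0, 0, ⟨0, 0⟩, 0⟩ 0 0)) (.pos 24 .mp ⟨1446058907, 0, 0, 0, 0, 0, 0, 0, 0, ⟨0, 0⟩, 0⟩ 0 0))) (.cut .v 134217728 (.pos 31 .mp ⟨5493749570, 0, 0, 0, 0, 0, 0, 0, 0, ⟨0, 0⟩, 0⟩ 0 0) (.void 32 ⟨100000, 0, 0, 0,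 0, 0, 0, 0, 0, ⟨0, 0⟩, 0⟩ 0 0))))) (.void 59 ⟨61538, 38462, 0, 0, 0, 0, 0, 0, 0, ⟨0, 0⟩, 0⟩ 0 0))) (.cut .v 16777216 (.cut .v 8388608 (.cut .v 4194304 (.cut .v 2097152 (.cut .v 1048576 (.pos 100 .pm ⟨0, 0, 21046028, 0, 17551324, 0, 0, 0, 7726408, ⟨0, 0⟩, 1983364⟩ 0 0) (.pos 101 .pm ⟨0, 5695563, 0, 0, 0, 0, 0, 0, 0, ⟨0, 0⟩, 0⟩ 0 0)) (.pos 7 .pm ⟨0, 11508501, 0, 0, 0, 0, 0, 0, 0, ⟨0, 0⟩, 0⟩ 0 0)) (.cut .d 5556092 (.pos 5 .pm ⟨0, 0, 0, 0, 0, 0, 0, 0, 0, ⟨0, 0⟩, 0⟩ 0 0) (.cut .d 8334138 (.pos 5 .pm ⟨0, 0, 0, 0, 0, 0, 0, 0, 0, ⟨0, 0⟩, 0⟩ 0 0) (.cut .d 9723161 (.pos 5 .pm ⟨0, 32457273, 0, 0, 0, 0, 0, 0, 0, ⟨0, 0⟩, 0⟩ 0 0) (.cut .s 10289152 (.cut .d 10417673 (.pos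 5 .pm ⟨0, 41904359, 0, 0, 0, 0, 0, 0, 0, ⟨0, 0⟩, 0⟩ 0 0) (.pos 5 .pm ⟨0, 52575565, 0, 0, 0, 0, 0, 0, 0, ⟨0, 0⟩, 0⟩ 0 0)) (.pos 5 .pm ⟨0, 63267725, 0, 0, 0, 0, 0, 0, 0, ⟨0, 0⟩, 0⟩ 0 0)))))) (.cut .d 5556092 (.pos 3 .pm ⟨0, 0, 0, 0, 0, 0, 0, 0, 0, ⟨0, 0⟩, 0⟩ 0 0) (.cut .d 8334138 (.pos 3 .pm ⟨0, 0, 0, 0, 0, 0, 0, 0, 0, ⟨0, 0⟩, 0⟩ 0 0) (.cut .d 9723161 (.pos 3 .pm ⟨0, 30625152, 0, 0, 0, 0, 0, 0, 0, ⟨0, 0⟩, 0⟩ 0 0) (.cut .d 10417673 (.pos 3 .pm ⟨0, 50573554, 0, 0, 0, 0, 0, 0, 0, ⟨0, 0⟩, 0⟩ 0 0) (.void 3 ⟨0, 100000, 0, 0, 0, 0, 0, 0, 0, ⟨0, 0⟩, 0⟩ 0 0)))))) (.cut .v 268435456 (.cut .d 5556092 (.cut .d 2778046 (.cut .v 67108864 (.cut .v 33554432 (.pos 13 .pp ⟨0,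 0, 0, 0, 0, 0, 0, 0, 0, ⟨0, 0⟩, 0⟩ 0 0) (.pos 14 .pp ⟨302245603, 0, 0, 0, 0, 0, 0, 0, 0, ⟨0, 0⟩, 0⟩ 0 0)) (.cut .v 134217728 (.cut .d 1389023 (.cut .v 100663296 (.pos 43 .pp ⟨1502913737, 0, 0, 0, 0, 0, 0, 0, 0, ⟨0, 0⟩, 0⟩ 0 0) (.pos 44 .pp ⟨3683282588, 0, 0, 0, 0, 0, 0, 0, 0, ⟨0, 0⟩, 0⟩ 0 0)) (.pos 31 .pp ⟨937688352, 202774262, 0, 0, 0, 0, 0, 0, 0, ⟨0, 0⟩, 0⟩ 0 0)) (.void 32 ⟨42490, 57510, 0, 0, 0, 0, 0, 0, 0, ⟨0, 0⟩, 0⟩ 0 0))) (.pos 10 .pp ⟨0, 14624879, 0, 0, 0, 0, 0, 0, 0, ⟨0, 0⟩, 0⟩ 0 0)) (.pos 10 .pp ⟨0, 39208196, 0, 0, 0, 0, 0, 0, 0, ⟨0, 0⟩, 0⟩ 0 0)) (.void 59 ⟨0, 0, 0, 100000, 0, 0, 0, 0, 0, ⟨0, 0⟩, 0⟩ 0 0)))),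
    by decide +kernel⟩

def covers14 : cell.Covers table row14.1 :=
  ⟨(.cut .d 0 (.cut .v 16777216 (.cut .d (-8388608) (.void 1 ⟨0, 0, 0, 0, 0, 100000, 0, 0, 0, ⟨0, 0⟩, 0⟩ 0 0) (.cut .v 8388608 (.cut .v 4194304 (.void 4 ⟨0, 0, 100000, 0, 0, 0, 0, 0, 0, ⟨0, 0⟩, 0⟩ 0 0) (.cut .d (-4194304) (.void 5 ⟨0, 0, 100000, 0, 0, 0, 0, 0, 0, ⟨0, 0⟩, 0⟩ 0 0) (.cut .d (-2097152) (.void 5 ⟨0, 0, 100000, 0, 0, 0, 0, 0, 0, ⟨0, 0⟩, 0⟩ 0 0) (.pos 5 .mm ⟨0, 0, 19010780, 0, 0, 72623672, 0, 0, 0, ⟨0, 0⟩, 0⟩ 0 0)))) (.cut .d (-4194304) (.void 3 ⟨87522, 0, 12478, 0, 0, 0, 0, 0, 0, ⟨0, 0⟩, 0⟩ 0 0) (.cut .d (-2097152) (.cut .v 12582912 (.cut .l 16315842 (.cut .d (-3145728) (.void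 8 ⟨0, 0, 0, 0, 0, 100000, 0, 0, 0, ⟨0, 0⟩, 0⟩ 0 0) (.cut .d (-2621440) (.void 8 ⟨0, 0, 0, 0, 0, 100000, 0, 0, 0, ⟨0, 0⟩, 0⟩ 0 0) (.cut .l 11886191 (.void 8 ⟨0, 0, 0, 0, 0, 100000, 0, 0, 0, ⟨0, 0⟩, 0⟩ 0 0) (.cut .l 14101016 (.pos 8 .mm ⟨34207985, 0, 0, 0, 0, 180293104, 0, 0, 0, ⟨0, 0⟩, 0⟩ 0 0) (.cut .v 10485760 (.cut .s 10682368 (.pos 66 .mm ⟨0, 0, 0, 0, 0, 129372081, 0, 0, 0, ⟨0, 0⟩, 0⟩ 0 0) (.pos 66 .mm ⟨0, 0, 0, 0, 0, 164952737, 0, 0, 0, ⟨0, 0⟩, 0⟩ 0 0)) (.cut .v 11534336 (.cut .s 10682368 (.pos 68 .mm ⟨39621913, 0, 0, 0, 0, 98650958, 0, 0, 0, ⟨0, 0⟩, 0⟩ 0 0) (.cut .s 10780672 (.pos 68 .mm ⟨63410431, 0, 0, 0, 0, 93890331, 0, 0, 0, ⟨0, 0⟩, 0⟩ 0 0) (.pos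 68 .mm ⟨75697569, 0, 0, 0, 0, 97073396, 0, 0, 0, ⟨0, 0⟩, 0⟩ 0 0))) (.pos 69 .mm ⟨166933553, 0, 0, 0, 0, 0, 0, 0, 0, ⟨0, 0⟩, 0⟩ 0 0))))))) (.cut .d (-3145728) (.cut .v 10485760 (.cut .d (-3670016) (.pos 66 .mm ⟨185160641, 0, 25007026, 0, 0, 0, 0, 0, 0, ⟨0, 0⟩, 0⟩ 0 0) (.cut .v 9437184 (.void 78 ⟨0, 0, 100000, 0, 0, 0, 0, 0, 0, ⟨0, 0⟩, 0⟩ 0 0) (.cut .s 10682368 (.cut .s 10584064 (.pos 79 .mm ⟨135605097, 0, 0, 0, 0, 0, 0, 0, 0, ⟨0, 0⟩, 0⟩ 0 0) (.pos 79 .mm ⟨148735110, 0, 0, 0, 0, 0, 0, 0, 0, ⟨0, 0⟩, 0⟩ 0 0)) (.cut .v 9961472 (.pos 94 .mm ⟨171562814, 0, 25791182, 0, 0, 0, 0, 0, 0, ⟨0, 0⟩, 0⟩ 0 0) (.pos 95 .mm ⟨181549221, 0, 0, 0, 0, 0, 0, 0, 0, ⟨0, 0⟩, 0⟩ 0 0)))))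 (.cut .s 10682368 (.pos 67 .mm ⟨178005045, 0, 0, 0, 0, 0, 0, 0, 0, ⟨0, 0⟩, 0⟩ 0 0) (.pos 67 .mm ⟨215826594, 0, 0, 0, 0, 0, 0, 0, 0, ⟨0, 0⟩, 0⟩ 0 0))) (.cut .v 10485760 (.cut .l 20745493 (.cut .d (-2621440) (.cut .v 9437184 (.pos 78 .mm ⟨0, 0, 70983753, 0, 0, 85441427, 0, 0, 0, ⟨0, 0⟩, 0⟩ 0 0) (.cut .s 10682368 (.cut .l 18530667 (.pos 79 .mm ⟨61770419, 0, 0, 0, 0, 72752799, 0, 0, 0, ⟨0, 0⟩, 0⟩ 0 0) (.pos 79 .mm ⟨97246290, 0, 0, 0, 0, 22051018, 0, 0, 0, ⟨0, 0⟩, 0⟩ 0 0)) (.cut .v 9961472 (.cut .l 18530667 (.cut .d (-2883584) (.pos 94 .mm ⟨74192530, 0, 0, 0, 0, 118048133, 0, 0, 0, ⟨0, 0⟩, 0⟩ 0 0) (.pos 94 .mm ⟨77568812, 0, 0, 0, 0, 75036136, 0, 0, 0, ⟨0, 0⟩,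 0⟩ 0 0)) (.cut .d (-2883584) (.pos 94 .mm ⟨155265544, 0, 14475733, 0, 0, 0, 0, 0, 0, ⟨0, 0⟩, 0⟩ 0 0) (.pos 94 .mm ⟨111157078, 0, 2877048, 0, 0, 28610188, 0, 0, 0, ⟨0, 0⟩, 0⟩ 0 0))) (.pos 95 .mm ⟨166249763, 0, 0, 0, 0, 0, 0, 0, 0, ⟨0, 0⟩, 0⟩ 0 0)))) (.cut .s 10682368 (.pos 66 .mm ⟨5399358, 0, 0, 0, 0, 101411938, 0, 0, 0, ⟨0, 0⟩, 0⟩ 0 0) (.cut .l 18530667 (.cut .d (-2359296) (.pos 66 .mm ⟨36977768, 0, 0, 0, 0, 108665304, 0, 0, 0, ⟨0, 0⟩, 0⟩ 0 0) (.pos 66 .mm ⟨16897985, 0, 0, 0, 0, 114814737, 0, 0, 0, ⟨0, 0⟩, 0⟩ 0 0)) (.pos 66 .mm ⟨64505158, 0, 0, 0, 0, 0, 0, 0, 0, ⟨0, 0⟩, 0⟩ 0 0)))) (.cut .v 9437184 (.pos 78 .mm ⟨0, 0, 112875048, 0, 0, 0, 0, 0, 0, ⟨0, 0⟩, 0⟩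 0 0) (.pos 79 .mm ⟨109476913, 0, 1827952, 0, 0, 0, 0, 0, 0, ⟨0, 0⟩, 0⟩ 0 0))) (.cut .v 11534336 (.cut .l 20745493 (.cut .d (-2621440) (.cut .s 10682368 (.pos 68 .mm ⟨139965979, 0, 0, 0, 0, 5687108, 0, 0, 0, ⟨0, 0⟩, 0⟩ 0 0) (.pos 68 .mm ⟨177149290, 0, 0, 0, 0, 0, 0, 0, 0, ⟨0, 0⟩, 0⟩ 0 0)) (.cut .s 10682368 (.pos 68 .mm ⟨84134051, 0, 0, 0, 0, 35675767, 0, 0, 0, ⟨0, 0⟩, 0⟩ 0 0) (.pos 68 .mm ⟨107973068, 0, 0, 0, 0, 42198202, 0, 0, 0, ⟨0, 0⟩, 0⟩ 0 0))) (.pos 68 .mm ⟨128646083, 0, 0, 0, 0, 0, 0, 0, 0, ⟨0, 0⟩, 0⟩ 0 0)) (.pos 69 .mm ⟨169345303, 0, 0, 0, 0, 0, 0, 0, 0, ⟨0, 0⟩, 0⟩ 0 0))))) (.cut .d (-3145728) (.pos 9 .mm ⟨295211424, 0, 0, 0, 0, 0, 0, 0, 0, ⟨0, 0⟩,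 0⟩ 0 0) (.cut .l 16315842 (.pos 9 .mm ⟨256655055, 0, 0, 0, 0, 0, 0, 0, 0, ⟨0, 0⟩, 0⟩ 0 0) (.pos 9 .mm ⟨201887615, 0, 0, 0, 0, 0, 0, 0, 0, ⟨0, 0⟩, 0⟩ 0 0)))) (.cut .l 16315842 (.cut .d (-1048576) (.cut .v 12582912 (.cut .l 11886191 (.cut .s 10682368 (.pos 8 .mm ⟨0, 0, 0, 0, 0, 139248486, 0, 0, 0, ⟨0, 0⟩, 0⟩ 0 0) (.pos 8 .mm ⟨0, 0, 0, 0, 0, 173671475, 0, 0, 0, ⟨0, 0⟩, 0⟩ 0 0)) (.cut .d (-1572864) (.cut .v 10485760 (.pos 66 .mm ⟨0, 0, 0, 0, 0, 117693566, 0, 0, 0, ⟨0, 0⟩, 0⟩ 0 0) (.cut .l 14101016 (.cut .s 10682368 (.pos 67 .mm ⟨12515241, 0, 0, 0, 0, 127358778, 0, 0, 0, ⟨0, 0⟩, 0⟩ 0 0) (.pos 67 .mm ⟨28129721, 0, 0, 0, 0, 141464332, 0, 0, 0, ⟨0, 0⟩, 0⟩ 0 0)) (.pos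 67 .mm ⟨77556679, 0, 0, 0, 0, 34699871, 0, 0, 0, ⟨0, 0⟩, 0⟩ 0 0))) (.pos 8 .mm ⟨0, 0, 0, 0, 0, 101347598, 0, 0, 0, ⟨0, 0⟩, 0⟩ 0 0))) (.cut .v 14680064 (.cut .l 11886191 (.cut .d (-1572864) (.pos 45 .mm ⟨29889258, 0, 0, 0, 0, 202509223, 0, 0, 0, ⟨0, 0⟩, 0⟩ 0 0) (.cut .s 10682368 (.pos 45 .mm ⟨0, 0, 0, 0, 0, 153412598, 0, 0, 0, ⟨0, 0⟩, 0⟩ 0 0) (.pos 45 .mm ⟨2206595, 0, 0, 0, 0, 184755206, 0, 0, 0, ⟨0, 0⟩, 0⟩ 0 0))) (.cut .d (-1572864) (.pos 45 .mm ⟨137278526, 0, 0, 0, 0, 28245297, 0, 0, 0, ⟨0, 0⟩, 0⟩ 0 0) (.pos 45 .mm ⟨58150049, 0, 0, 0, 0, 64149913, 0, 0, 0, ⟨0, 0⟩, 0⟩ 0 0))) (.pos 46 .mm ⟨217005820, 0, 0, 0, 0, 0, 0, 0, 0, ⟨0, 0⟩, 0⟩ 0 0))) (.cut .v 12582912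 (.pos 8 .mm ⟨0, 0, 0, 0, 0, 88849778, 0, 0, 0, ⟨0, 0⟩, 0⟩ 0 0) (.cut .v 14680064 (.pos 45 .mm ⟨0, 0, 0, 0, 0, 123101229, 0, 0, 0, ⟨0, 0⟩, 0⟩ 0 0) (.pos 46 .mm ⟨45330987, 0, 0, 0, 0, 105125912, 0, 0, 0, ⟨0, 0⟩, 0⟩ 0 0)))) (.pos 3 .mm ⟨36798209, 0, 0, 0, 0, 0, 0, 0, 0, ⟨0, 0⟩, 0⟩ 0 0)))))) (.cut .v 268435456 (.cut .d (-8388608) (.void 10 ⟨100000, 0, 0, 0, 0, 0, 0, 0, 0, ⟨0, 0⟩, 0⟩ 0 0) (.cut .d (-4194304) (.void 10 ⟨100000, 0, 0, 0, 0, 0, 0, 0, 0, ⟨0, 0⟩, 0⟩ 0 0) (.cut .v 67108864 (.cut .v 33554432 (.cut .d (-2097152) (.cut .v 25165824 (.pos 15 .mp ⟨438431508, 0, 0, 0, 0, 0, 0, 0, 0, ⟨0, 0⟩, 0⟩ 0 0) (.void 16 ⟨100000, 0, 0, 0, 0, 0, 0, 0, 0, ⟨0, 0⟩, 0⟩ 0 0))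 (.cut .v 25165824 (.cut .d (-1048576) (.pos 15 .mp ⟨289964698, 0, 0, 0, 0, 0, 0, 0, 0, ⟨0, 0⟩, 0⟩ 0 0) (.pos 15 .mp ⟨157472394, 0, 0, 0, 0, 0, 0, 0, 0, ⟨0, 0⟩, 0⟩ 0 0)) (.pos 16 .mp ⟨451502985, 0, 0, 0, 0, 0, 0, 0, 0, ⟨0, 0⟩, 0⟩ 0 0))) (.cut .v 50331648 (.cut .d (-2097152) (.void 23 ⟨100000, 0, 0, 0, 0, 0, 0, 0, 0, ⟨0, 0⟩, 0⟩ 0 0) (.pos 23 .mp ⟨836142792, 0, 0, 0, 0, 0, 0, 0, 0, ⟨0, 0⟩, 0⟩ 0 0)) (.pos 24 .mp ⟨1946648872, 0, 0, 0, 0, 0, 0, 0, 0, ⟨0, 0⟩, 0⟩ 0 0))) (.cut .v 134217728 (.pos 31 .mp ⟨7090808745, 0, 0, 0, 0, 0, 0, 0, 0, ⟨0, 0⟩, 0⟩ 0 0) (.void 32 ⟨100000, 0, 0, 0, 0, 0, 0, 0, 0, ⟨0, 0⟩, 0⟩ 0 0))))) (.void 59 ⟨60664, 39336, 0, 0, 0, 0, 0, 0, 0, ⟨0,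 0⟩, 0⟩ 0 0))) (.cut .v 16777216 (.cut .v 8388608 (.cut .v 4194304 (.cut .v 2097152 (.cut .v 1048576 (.pos 100 .pm ⟨0, 0, 610837, 0, 0, 0, 0, 0, 8058909, ⟨0, 0⟩, 1983364⟩ 0 0) (.pos 101 .pm ⟨0, 8194620, 0, 0, 0, 0, 0, 0, 0, ⟨0, 0⟩, 0⟩ 0 0)) (.pos 7 .pm ⟨0, 15025069, 0, 0, 0, 0, 0, 0, 0, ⟨0, 0⟩, 0⟩ 0 0)) (.cut .d 5033166 (.pos 5 .pm ⟨0, 0, 0, 0, 0, 0, 0, 0, 0, ⟨0, 0⟩, 0⟩ 0 0) (.cut .d 7549749 (.pos 5 .pm ⟨0, 0, 0, 0, 0, 0, 0, 0, 0, ⟨0, 0⟩, 0⟩ 0 0) (.cut .d 8808040 (.pos 5 .pm ⟨0, 41076696, 0, 0, 0, 0, 0, 0, 0, ⟨0, 0⟩, 0⟩ 0 0) (.cut .v 6291456 (.pos 76 .pm ⟨0, 69682835, 0, 0, 0, 0, 0, 0, 0, ⟨0, 0⟩, 0⟩ 0 0) (.pos 77 .pm ⟨0, 75364267, 0, 0, 0, 0, 0, 0, 0, ⟨0,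 0⟩, 0⟩ 0 0)))))) (.cut .d 5033166 (.pos 3 .pm ⟨0, 0, 0, 0, 0, 0, 0, 0, 0, ⟨0, 0⟩, 0⟩ 0 0) (.cut .d 7549749 (.pos 3 .pm ⟨0, 0, 0, 0, 0, 0, 0, 0, 0, ⟨0, 0⟩, 0⟩ 0 0) (.pos 3 .pm ⟨0, 71900385, 0, 0, 0, 0, 0, 0, 0, ⟨0, 0⟩, 0⟩ 0 0)))) (.cut .v 268435456 (.cut .d 5033166 (.cut .v 67108864 (.cut .v 33554432 (.pos 13 .pp ⟨0, 0, 0, 0, 0, 0, 0, 0, 0, ⟨0, 0⟩, 0⟩ 0 0) (.cut .v 50331648 (.pos 23 .pp ⟨248451522, 0, 0, 0, 0, 0, 0, 0, 0, ⟨0, 0⟩, 0⟩ 0 0) (.pos 24 .pp ⟨631374164, 0, 0, 0, 0, 0, 0, 0, 0, ⟨0, 0⟩, 0⟩ 0 0))) (.cut .v 134217728 (.cut .d 2516583 (.cut .v 100663296 (.cut .v 83886080 (.pos 104 .pp ⟨1440287760, 0, 0, 0, 0, 0, 0, 0, 0, ⟨0, 0⟩, 0⟩ 0 0) (.pos 105 .pp ⟨2161814029,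 0, 0, 0, 0, 0, 0, 0, 0, ⟨0, 0⟩, 0⟩ 0 0)) (.cut .d 1258291 (.cut .d 629145 (.pos 44 .pp ⟨6903313018, 0, 0, 0, 0, 0, 0, 0, 0, ⟨0, 0⟩, 0⟩ 0 0) (.pos 44 .pp ⟨3495979553, 527657651, 0, 0, 0, 0, 0, 0, 0, ⟨0, 0⟩, 0⟩ 0 0)) (.pos 44 .pp ⟨2179999696, 837041486, 0, 0, 0, 0, 0, 0, 0, ⟨0, 0⟩, 0⟩ 0 0))) (.pos 31 .pp ⟨0, 0, 0, 0, 0, 0, 0, 0, 0, ⟨0, 0⟩, 0⟩ 0 0)) (.void 32 ⟨40138, 59862, 0, 0, 0, 0, 0, 0, 0, ⟨0, 0⟩, 0⟩ 0 0))) (.pos 10 .pp ⟨0, 57585150, 0, 0, 0, 0, 0, 0, 0, ⟨0, 0⟩, 0⟩ 0 0)) (.void 59 ⟨0, 0, 0, 100000, 0, 0, 0, 0, 0, ⟨0, 0⟩, 0⟩ 0 0)))),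
    by decide +kernel⟩

def covers15 : cell.Covers table row15.1 :=
  ⟨(.cut .d 0 (.cut .v 16777216 (.cut .d (-8388608) (.pos 1 .mm ⟨0, 0, 0, 0, 0, 167772160000, 0, 0, 0, ⟨0, 0⟩, 0⟩ 0 0) (.cut .d (-4194304) (.void 1 ⟨0, 0, 0, 0, 0, 100000, 0, 0, 0, ⟨0, 0⟩, 0⟩ 0 0) (.cut .v 8388608 (.cut .v 4194304 (.void 4 ⟨0, 0, 100000, 0, 0, 0, 0, 0, 0, ⟨0, 0⟩, 0⟩ 0 0) (.cut .d (-2097152) (.void 5 ⟨0, 0, 100000, 0, 0, 0, 0, 0, 0, ⟨0, 0⟩, 0⟩ 0 0) (.cut .d (-1048576) (.pos 5 .mm ⟨0, 0, 75511020, 0, 0, 106363832, 0, 0, 0, ⟨0, 0⟩, 0⟩ 0 0) (.pos 5 .mm ⟨0, 0, 20640586, 0, 0, 90769024, 0, 0, 0, ⟨0, 0⟩, 0⟩ 0 0)))) (.cut .d (-2097152) (.cut .v 12582912 (.cut .d (-3145728) (.cut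 .v 10485760 (.cut .s 11108352 (.pos 66 .mm ⟨228159140, 0, 35600866, 0, 0, 0, 0, 0, 0, ⟨0, 0⟩, 0⟩ 0 0) (.pos 66 .mm ⟨282501234, 0, 43367949, 0, 0, 0, 0, 0, 0, ⟨0, 0⟩, 0⟩ 0 0)) (.pos 67 .mm ⟨323892869, 0, 0, 0, 0, 0, 0, 0, 0, ⟨0, 0⟩, 0⟩ 0 0)) (.cut .l 16315842 (.cut .s 11108352 (.cut .d (-2621440) (.void 8 ⟨0, 0, 0, 0, 0, 100000, 0, 0, 0, ⟨0, 0⟩, 0⟩ 0 0) (.cut .v 10485760 (.pos 66 .mm ⟨39873510, 0, 0, 0, 0, 152360907, 0, 0, 0, ⟨0, 0⟩, 0⟩ 0 0) (.cut .v 11534336 (.cut .s 10993664 (.pos 68 .mm ⟨75505848, 0, 0, 0, 0, 114932217, 0, 0, 0, ⟨0, 0⟩, 0⟩ 0 0) (.pos 68 .mm ⟨89232811, 0, 0, 0, 0, 124956739, 0, 0, 0, ⟨0, 0⟩, 0⟩ 0 0)) (.pos 69 .mm ⟨253046045, 0, 0, 0, 0,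 0, 0, 0, 0, ⟨0, 0⟩, 0⟩ 0 0)))) (.pos 8 .mm ⟨52810927, 0, 0, 0, 0, 285465246, 0, 0, 0, ⟨0, 0⟩, 0⟩ 0 0)) (.cut .v 10485760 (.cut .v 9437184 (.cut .s 11108352 (.pos 78 .mm ⟨0, 0, 65913045, 0, 0, 119659311, 0, 0, 0, ⟨0, 0⟩, 0⟩ 0 0) (.pos 78 .mm ⟨0, 0, 87028087, 0, 0, 150498673, 0, 0, 0, ⟨0, 0⟩, 0⟩ 0 0)) (.cut .s 11108352 (.cut .l 20745493 (.cut .d (-2621440) (.cut .s 10993664 (.cut .d (-2883584) (.pos 79 .mm ⟨201907078, 0, 22795307, 0, 0, 0, 0, 0, 0, ⟨0, 0⟩, 0⟩ 0 0) (.cut .l 18530667 (.pos 79 .mm ⟨83295085, 0, 0, 0, 0, 94264409, 0, 0, 0, ⟨0, 0⟩, 0⟩ 0 0) (.pos 79 .mm ⟨129196424, 0, 3202596, 0, 0, 21311430, 0, 0, 0, ⟨0, 0⟩, 0⟩ 0 0))) (.pos 79 .mm ⟨202323572, 0,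 16838705, 0, 0, 0, 0, 0, 0, ⟨0, 0⟩, 0⟩ 0 0)) (.cut .s 10993664 (.cut .v 9961472 (.pos 94 .mm ⟨54311805, 0, 0, 0, 0, 94657978, 0, 0, 0, ⟨0, 0⟩, 0⟩ 0 0) (.pos 95 .mm ⟨102502660, 0, 0, 0, 0, 58544651, 0, 0, 0, ⟨0, 0⟩, 0⟩ 0 0)) (.pos 79 .mm ⟨112848866, 0, 0, 0, 0, 58796385, 0, 0, 0, ⟨0, 0⟩, 0⟩ 0 0))) (.pos 79 .mm ⟨147808278, 0, 3007341, 0, 0, 0, 0, 0, 0, ⟨0, 0⟩, 0⟩ 0 0)) (.cut .d (-2621440) (.pos 79 .mm ⟨236482361, 0, 31887889, 0, 0, 0, 0, 0, 0, ⟨0, 0⟩, 0⟩ 0 0) (.cut .d (-2359296) (.pos 79 .mm ⟨173890341, 0, 1743919, 0, 0, 32804939, 0, 0, 0, ⟨0, 0⟩, 0⟩ 0 0) (.pos 79 .mm ⟨116865363, 0, 0, 0, 0, 71401002, 0, 0, 0, ⟨0, 0⟩, 0⟩ 0 0))))) (.cut .s 11108352 (.cut .d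 (-2621440) (.pos 67 .mm ⟨212538152, 0, 0, 0, 0, 0, 0, 0, 0, ⟨0, 0⟩, 0⟩ 0 0) (.pos 67 .mm ⟨170479745, 0, 0, 0, 0, 0, 0, 0, 0, ⟨0, 0⟩, 0⟩ 0 0)) (.pos 67 .mm ⟨252145872, 0, 0, 0, 0, 0, 0, 0, 0, ⟨0, 0⟩, 0⟩ 0 0))))) (.cut .s 11108352 (.cut .d (-3145728) (.void 9 ⟨100000, 0, 0, 0, 0, 0, 0, 0, 0, ⟨0, 0⟩, 0⟩ 0 0) (.pos 9 .mm ⟨305259601, 0, 0, 0, 0, 0, 0, 0, 0, ⟨0, 0⟩, 0⟩ 0 0)) (.pos 9 .mm ⟨417935673, 0, 0, 0, 0, 0, 0, 0, 0, ⟨0, 0⟩, 0⟩ 0 0))) (.cut .l 16315842 (.cut .d (-1048576) (.cut .v 12582912 (.cut .l 11886191 (.cut .s 11108352 (.pos 8 .mm ⟨0, 0, 0, 0, 0, 215463266, 0, 0, 0, ⟨0, 0⟩, 0⟩ 0 0) (.pos 8 .mm ⟨0, 0, 0, 0, 0, 272610153, 0, 0, 0, ⟨0, 0⟩, 0⟩ 0 0)) (.cut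 .d (-1572864) (.cut .s 11108352 (.cut .v 10485760 (.pos 66 .mm ⟨0, 0, 0, 0, 0, 159306126, 0, 0, 0, ⟨0, 0⟩, 0⟩ 0 0) (.cut .l 14101016 (.pos 67 .mm ⟨24183488, 0, 0, 0, 0, 190273065, 0, 0, 0, ⟨0, 0⟩, 0⟩ 0 0) (.pos 67 .mm ⟨91169040, 0, 0, 0, 0, 73047420, 0, 0, 0, ⟨0, 0⟩, 0⟩ 0 0))) (.cut .v 10485760 (.pos 66 .mm ⟨0, 0, 0, 0, 0, 203329528, 0, 0, 0, ⟨0, 0⟩, 0⟩ 0 0) (.cut .l 14101016 (.pos 67 .mm ⟨31025747, 0, 0, 0, 0, 246398496, 0, 0, 0, ⟨0, 0⟩, 0⟩ 0 0) (.pos 67 .mm ⟨123191599, 0, 0, 0, 0, 84868442, 0, 0, 0, ⟨0, 0⟩, 0⟩ 0 0)))) (.cut .s 11108352 (.pos 8 .mm ⟨0, 0, 0, 0, 0, 142944480, 0, 0, 0, ⟨0, 0⟩, 0⟩ 0 0) (.pos 8 .mm ⟨0, 0, 0, 0, 0, 182854095, 0, 0, 0, ⟨0, 0⟩,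 0⟩ 0 0)))) (.cut .v 14680064 (.cut .d (-1572864) (.cut .l 11886191 (.void 45 ⟨0, 0, 0, 0, 0, 100000, 0, 0, 0, ⟨0, 0⟩, 0⟩ 0 0) (.pos 45 .mm ⟨239767739, 0, 0, 0, 0, 5337284, 0, 0, 0, ⟨0, 0⟩, 0⟩ 0 0)) (.cut .l 11886191 (.cut .s 11108352 (.pos 45 .mm ⟨0, 0, 0, 0, 0, 233580291, 0, 0, 0, ⟨0, 0⟩, 0⟩ 0 0) (.pos 45 .mm ⟨10867789, 0, 0, 0, 0, 282339497, 0, 0, 0, ⟨0, 0⟩, 0⟩ 0 0)) (.pos 45 .mm ⟨117475127, 0, 0, 0, 0, 64117396, 0, 0, 0, ⟨0, 0⟩, 0⟩ 0 0))) (.pos 46 .mm ⟨316824448, 0, 0, 0, 0, 0, 0, 0, 0, ⟨0, 0⟩, 0⟩ 0 0))) (.cut .l 11886191 (.cut .d (-524288) (.cut .v 12582912 (.pos 8 .mm ⟨0, 0, 0, 0, 0, 160669179, 0, 0, 0, ⟨0, 0⟩, 0⟩ 0 0) (.cut .v 14680064 (.cut .s 11108352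 (.pos 45 .mm ⟨0, 0, 0, 0, 0, 190385290, 0, 0, 0, ⟨0, 0⟩, 0⟩ 0 0) (.pos 45 .mm ⟨0, 0, 0, 0, 0, 240399940, 0, 0, 0, ⟨0, 0⟩, 0⟩ 0 0)) (.pos 46 .mm ⟨140564272, 0, 0, 0, 0, 97356463, 0, 0, 0, ⟨0, 0⟩, 0⟩ 0 0))) (.pos 3 .mm ⟨0, 0, 0, 0, 0, 0, 0, 0, 0, ⟨0, 0⟩, 0⟩ 0 0)) (.pos 3 .mm ⟨0, 0, 0, 0, 0, 0, 0, 0, 0, ⟨0, 0⟩, 0⟩ 0 0))) (.cut .v 12582912 (.pos 8 .mm ⟨77369535, 0, 0, 0, 0, 14249535, 0, 0, 0, ⟨0, 0⟩, 0⟩ 0 0) (.pos 9 .mm ⟨153667682, 0, 0, 0, 0, 0, 0, 0, 0, ⟨0, 0⟩, 0⟩ 0 0))))))) (.cut .v 268435456 (.cut .d (-8388608) (.void 10 ⟨100000, 0, 0, 0, 0, 0, 0, 0, 0, ⟨0, 0⟩, 0⟩ 0 0) (.cut .d (-4194304) (.void 10 ⟨100000, 0, 0, 0, 0, 0, 0, 0, 0, ⟨0, 0⟩, 0⟩ 0 0) (.cut .v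 67108864 (.cut .v 33554432 (.cut .d (-2097152) (.pos 13 .mp ⟨902406796, 0, 0, 0, 0, 0, 0, 0, 0, ⟨0, 0⟩, 0⟩ 0 0) (.cut .v 25165824 (.cut .v 20971520 (.cut .d (-1048576) (.pos 17 .mp ⟨385078307, 0, 0, 0, 0, 0, 0, 0, 0, ⟨0, 0⟩, 0⟩ 0 0) (.pos 17 .mp ⟨229877917, 0, 0, 0, 0, 0, 0, 0, 0, ⟨0, 0⟩, 0⟩ 0 0)) (.pos 18 .mp ⟨454364947, 0, 0, 0, 0, 0, 0, 0, 0, ⟨0, 0⟩, 0⟩ 0 0)) (.pos 16 .mp ⟨643056726, 0, 0, 0, 0, 0, 0, 0, 0, ⟨0, 0⟩, 0⟩ 0 0))) (.cut .v 50331648 (.cut .d (-2097152) (.void 23 ⟨100000, 0, 0, 0, 0, 0, 0, 0, 0, ⟨0, 0⟩, 0⟩ 0 0) (.pos 23 .mp ⟨1181348120, 0, 0, 0, 0, 0, 0, 0, 0, ⟨0, 0⟩, 0⟩ 0 0)) (.pos 24 .mp ⟨2599253234, 0, 0, 0, 0, 0, 0, 0, 0, ⟨0, 0⟩, 0⟩ 0 0)))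 (.cut .v 134217728 (.pos 31 .mp ⟨9195923579, 0, 0, 0, 0, 0, 0, 0, 0, ⟨0, 0⟩, 0⟩ 0 0) (.void 32 ⟨100000, 0, 0, 0, 0, 0, 0, 0, 0, ⟨0, 0⟩, 0⟩ 0 0))))) (.void 59 ⟨59674, 40326, 0, 0, 0, 0, 0, 0, 0, ⟨0, 0⟩, 0⟩ 0 0))) (.cut .v 16777216 (.cut .v 8388608 (.cut .v 4194304 (.cut .v 2097152 (.cut .v 1048576 (.pos 100 .pm ⟨0, 3022406, 0, 0, 0, 0, 0, 0, 0, ⟨0, 0⟩, 0⟩ 0 0) (.pos 101 .pm ⟨0, 11685328, 0, 0, 0, 0, 0, 0, 0, ⟨0, 0⟩, 0⟩ 0 0)) (.cut .d 4548041 (.pos 7 .pm ⟨0, 0, 11127402, 0, 0, 0, 0, 0, 0, ⟨0, 0⟩, 0⟩ 0 0) (.pos 7 .pm ⟨0, 44502641, 0, 0, 0, 0, 0, 0, 0, ⟨0, 0⟩, 0⟩ 0 0))) (.cut .d 4548041 (.pos 5 .pm ⟨0, 0, 1497855, 0, 0, 0, 0, 0, 0, ⟨0, 0⟩, 0⟩ 0 0) (.cut .d 6822062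 (.pos 5 .pm ⟨0, 0, 0, 0, 0, 0, 0, 0, 0, ⟨0, 0⟩, 0⟩ 0 0) (.cut .d 7959072 (.pos 5 .pm ⟨0, 53486906, 0, 0, 0, 0, 0, 0, 0, ⟨0, 0⟩, 0⟩ 0 0) (.cut .v 6291456 (.pos 76 .pm ⟨0, 90275824, 0, 0, 0, 0, 0, 0, 0, ⟨0, 0⟩, 0⟩ 0 0) (.pos 77 .pm ⟨0, 97655582, 0, 0, 0, 0, 0, 0, 0, ⟨0, 0⟩, 0⟩ 0 0)))))) (.cut .d 4548041 (.pos 3 .pm ⟨0, 0, 0, 0, 0, 0, 0, 0, 0, ⟨0, 0⟩, 0⟩ 0 0) (.cut .d 6822062 (.pos 3 .pm ⟨0, 0, 0, 0, 0, 0, 0, 0, 0, ⟨0, 0⟩, 0⟩ 0 0) (.pos 3 .pm ⟨0, 98059939, 0, 0, 0, 0, 0, 0, 0, ⟨0, 0⟩, 0⟩ 0 0)))) (.cut .v 268435456 (.cut .d 4548041 (.cut .v 67108864 (.cut .v 33554432 (.pos 13 .pp ⟨0, 0, 0, 0, 0, 0, 0, 0, 0, ⟨0, 0⟩, 0⟩ 0 0) (.cut .v 50331648 (.pos 23 .pp ⟨345417435,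 0, 0, 0, 0, 0, 0, 0, 0, ⟨0, 0⟩, 0⟩ 0 0) (.cut .d 2274020 (.pos 24 .pp ⟨1138646766, 0, 0, 0, 0, 0, 0, 0, 0, ⟨0, 0⟩, 0⟩ 0 0) (.pos 24 .pp ⟨0, 0, 0, 0, 0, 0, 0, 0, 0, ⟨0, 0⟩, 0⟩ 0 0)))) (.cut .v 134217728 (.cut .d 2274020 (.cut .v 100663296 (.cut .v 83886080 (.pos 104 .pp ⟨1914051631, 0, 0, 0, 0, 0, 0, 0, 0, ⟨0, 0⟩, 0⟩ 0 0) (.cut .d 1137010 (.pos 105 .pp ⟨3262700408, 0, 0, 0, 0, 0, 0, 0, 0, ⟨0, 0⟩, 0⟩ 0 0) (.pos 105 .pp ⟨2242095643, 0, 0, 0, 0, 0, 0, 0, 0, ⟨0, 0⟩, 0⟩ 0 0))) (.cut .d 1137010 (.cut .v 117440512 (.pos 108 .pp ⟨4493571958, 0, 0, 0, 0, 0, 0, 0, 0, ⟨0, 0⟩, 0⟩ 0 0) (.cut .d 568505 (.pos 109 .pp ⟨12057446732, 0, 0, 0, 0, 0, 0, 0, 0, ⟨0, 0⟩, 0⟩ 0 0)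 (.pos 109 .pp ⟨5237261671, 1246268145, 0, 0, 0, 0, 0, 0, 0, ⟨0, 0⟩, 0⟩ 0 0))) (.pos 44 .pp ⟨2880708275, 1322687725, 0, 0, 0, 0, 0, 0, 0, ⟨0, 0⟩, 0⟩ 0 0))) (.pos 31 .pp ⟨0, 0, 0, 0, 0, 0, 0, 0, 0, ⟨0, 0⟩, 0⟩ 0 0)) (.void 32 ⟨39452, 60548, 0, 0, 0, 0, 0, 0, 0, ⟨0, 0⟩, 0⟩ 0 0))) (.pos 10 .pp ⟨0, 81001667, 0, 0, 0, 0, 0, 0, 0, ⟨0, 0⟩, 0⟩ 0 0)) (.void 59 ⟨0, 0, 0, 100000, 0, 0, 0, 0, 0, ⟨0, 0⟩, 0⟩ 0 0)))),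
    by decide +kernel⟩

def covers16 : cell.Covers table row16.1 :=
  ⟨(.cut .d 0 (.cut .v 16777216 (.cut .d (-8388608) (.void 1 ⟨0, 0, 0, 0, 0, 127646, 0, 0, 0, ⟨0, 0⟩, 0⟩ 0 0) (.cut .d (-4194304) (.void 1 ⟨0, 0, 0, 0, 0, 100000, 0, 0, 0, ⟨0, 0⟩, 0⟩ 0 0) (.cut .v 8388608 (.cut .v 4194304 (.void 4 ⟨0, 0, 100000, 0, 0, 0, 0, 0, 0, ⟨0, 0⟩, 0⟩ 0 0) (.cut .d (-2097152) (.void 5 ⟨0, 0, 100000, 0, 0, 0, 0, 0, 0, ⟨0, 0⟩, 0⟩ 0 0) (.cut .d (-1048576) (.void 5 ⟨0, 0, 100000, 0, 0, 0, 0, 0, 0, ⟨0, 0⟩, 0⟩ 0 0) (.pos 5 .mm ⟨0, 0, 38864044, 0, 0, 143043589, 0, 0, 0, ⟨0, 0⟩, 0⟩ 0 0)))) (.cut .d (-2097152) (.cut .v 12582912 (.cut .l 16315842 (.void 8 ⟨0, 0, 0, 0, 0, 100000,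 0, 0, 0, ⟨0, 0⟩, 0⟩ 0 0) (.cut .d (-3145728) (.void 8 ⟨84685, 0, 15315, 0, 0, 0, 0, 0, 0, ⟨0, 0⟩, 0⟩ 0 0) (.cut .v 10485760 (.cut .s 11534336 (.cut .v 9437184 (.void 78 ⟨0, 0, 100000, 0, 0, 0, 0, 0, 0, ⟨0, 0⟩, 0⟩ 0 0) (.pos 79 .mm ⟨250414123, 0, 30752013, 0, 0, 13692042, 0, 0, 0, ⟨0, 0⟩, 0⟩ 0 0)) (.pos 66 .mm ⟨299337098, 0, 47555180, 0, 0, 0, 0, 0, 0, ⟨0, 0⟩, 0⟩ 0 0)) (.pos 67 .mm ⟨342731193, 0, 0, 0, 0, 0, 0, 0, 0, ⟨0, 0⟩, 0⟩ 0 0)))) (.pos 9 .mm ⟨572601582, 0, 0, 0, 0, 0, 0, 0, 0, ⟨0, 0⟩, 0⟩ 0 0)) (.cut .d (-1048576) (.cut .v 12582912 (.cut .l 16315842 (.cut .l 11886191 (.pos 8 .mm ⟨0, 0, 0, 0, 0, 394336217, 0, 0, 0, ⟨0, 0⟩, 0⟩ 0 0) (.cut .d (-1572864) (.cut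 .l 14101016 (.pos 8 .mm ⟨28663516, 0, 0, 0, 0, 388254789, 0, 0, 0, ⟨0, 0⟩, 0⟩ 0 0) (.cut .v 10485760 (.cut .s 11534336 (.pos 66 .mm ⟨0, 0, 0, 0, 0, 266642944, 0, 0, 0, ⟨0, 0⟩, 0⟩ 0 0) (.pos 66 .mm ⟨2479104, 0, 0, 0, 0, 323326297, 0, 0, 0, ⟨0, 0⟩, 0⟩ 0 0)) (.cut .s 11534336 (.pos 67 .mm ⟨168794789, 0, 0, 0, 0, 91983521, 0, 0, 0, ⟨0, 0⟩, 0⟩ 0 0) (.pos 67 .mm ⟨208769474, 0, 0, 0, 0, 104115220, 0, 0, 0, ⟨0, 0⟩, 0⟩ 0 0)))) (.cut .l 14101016 (.cut .d (-1310720) (.pos 8 .mm ⟨0, 0, 0, 0, 0, 329281257, 0, 0, 0, ⟨0, 0⟩, 0⟩ 0 0) (.pos 8 .mm ⟨0, 0, 0, 0, 0, 251985043, 0, 0, 0, ⟨0, 0⟩, 0⟩ 0 0)) (.pos 8 .mm ⟨73202059, 0, 0, 0, 0, 96767169, 0, 0, 0, ⟨0, 0⟩, 0⟩ 0 0)))) (.cut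 .v 10485760 (.cut .v 9437184 (.pos 78 .mm ⟨0, 0, 217779340, 0, 0, 0, 0, 0, 0, ⟨0, 0⟩, 0⟩ 0 0) (.cut .s 11534336 (.pos 79 .mm ⟨104472453, 0, 0, 0, 0, 91076360, 0, 0, 0, ⟨0, 0⟩, 0⟩ 0 0) (.cut .d (-1572864) (.pos 79 .mm ⟨122714612, 0, 0, 0, 0, 137601335, 0, 0, 0, ⟨0, 0⟩, 0⟩ 0 0) (.pos 79 .mm ⟨0, 0, 0, 0, 0, 0, 0, 0, 0, ⟨0, 0⟩, 0⟩ 0 0)))) (.pos 67 .mm ⟨214661322, 0, 0, 0, 0, 0, 0, 0, 0, ⟨0, 0⟩, 0⟩ 0 0))) (.cut .d (-1572864) (.pos 9 .mm ⟨432029199, 0, 0, 0, 0, 0, 0, 0, 0, ⟨0, 0⟩, 0⟩ 0 0) (.cut .l 16315842 (.cut .l 11886191 (.cut .v 14680064 (.cut .s 11534336 (.pos 45 .mm ⟨45108414, 0, 0, 0, 0, 317441340, 0, 0, 0, ⟨0, 0⟩, 0⟩ 0 0) (.pos 45 .mm ⟨60025168, 0, 0, 0,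 0, 372680211, 0, 0, 0, ⟨0, 0⟩, 0⟩ 0 0)) (.pos 46 .mm ⟨503855616, 0, 0, 0, 0, 0, 0, 0, 0, ⟨0, 0⟩, 0⟩ 0 0)) (.pos 9 .mm ⟨251674471, 0, 0, 0, 0, 37187604, 0, 0, 0, ⟨0, 0⟩, 0⟩ 0 0)) (.pos 9 .mm ⟨162717390, 0, 0, 0, 0, 0, 0, 0, 0, ⟨0, 0⟩, 0⟩ 0 0)))) (.cut .d (-524288) (.cut .l 16315842 (.cut .l 11886191 (.cut .v 12582912 (.cut .l 9671365 (.pos 8 .mm ⟨0, 0, 0, 0, 0, 295690994, 0, 0, 0, ⟨0, 0⟩, 0⟩ 0 0) (.pos 8 .mm ⟨0, 0, 0, 0, 0, 228949240, 0, 0, 0, ⟨0, 0⟩, 0⟩ 0 0)) (.cut .v 14680064 (.cut .l 9671365 (.pos 45 .mm ⟨0, 0, 0, 0, 0, 372780811, 0, 0, 0, ⟨0, 0⟩, 0⟩ 0 0) (.pos 45 .mm ⟨96769323, 0, 0, 0, 0, 183699551, 0, 0, 0, ⟨0, 0⟩, 0⟩ 0 0)) (.cut .s 11534336 (.pos 46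 .mm ⟨155958037, 0, 0, 0, 0, 190218696, 0, 0, 0, ⟨0, 0⟩, 0⟩ 0 0) (.pos 46 .mm ⟨183469323, 0, 0, 0, 0, 226847013, 0, 0, 0, ⟨0, 0⟩, 0⟩ 0 0)))) (.pos 3 .mm ⟨10578682, 0, 0, 0, 0, 0, 0, 0, 0, ⟨0, 0⟩, 0⟩ 0 0)) (.pos 3 .mm ⟨0, 0, 6703536, 0, 0, 0, 0, 0, 0, ⟨0, 0⟩, 0⟩ 0 0)) (.pos 3 .mm ⟨0, 0, 0, 0, 0, 172110355, 0, 0, 0, ⟨0, 0⟩, 0⟩ 0 0))))))) (.cut .v 268435456 (.cut .d (-8388608) (.void 10 ⟨100000, 0, 0, 0, 0, 0, 0, 0, 0, ⟨0, 0⟩, 0⟩ 0 0) (.cut .d (-4194304) (.void 10 ⟨100000, 0, 0, 0, 0, 0, 0, 0, 0, ⟨0, 0⟩, 0⟩ 0 0) (.cut .d (-2097152) (.void 10 ⟨100000, 0, 0, 0, 0, 0, 0, 0, 0, ⟨0, 0⟩, 0⟩ 0 0) (.cut .v 67108864 (.cut .v 33554432 (.cut .v 25165824 (.cut .d (-1048576)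 (.pos 15 .mp ⟨632324722, 0, 0, 0, 0, 0, 0, 0, 0, ⟨0, 0⟩, 0⟩ 0 0) (.cut .d (-524288) (.pos 15 .mp ⟨475744462, 0, 0, 0, 0, 0, 0, 0, 0, ⟨0, 0⟩, 0⟩ 0 0) (.pos 15 .mp ⟨285936077, 0, 0, 0, 0, 0, 0, 0, 0, ⟨0, 0⟩, 0⟩ 0 0))) (.pos 16 .mp ⟨906214204, 0, 0, 0, 0, 0, 0, 0, 0, ⟨0, 0⟩, 0⟩ 0 0)) (.cut .v 50331648 (.pos 23 .mp ⟨1619254615, 0, 0, 0, 0, 0, 0, 0, 0, ⟨0, 0⟩, 0⟩ 0 0) (.pos 24 .mp ⟨2817158979, 0, 0, 0, 0, 0, 0, 0, 0, ⟨0, 0⟩, 0⟩ 0 0))) (.cut .v 134217728 (.pos 31 .mp ⟨10139375801, 0, 0, 0, 0, 0, 0, 0, 0, ⟨0, 0⟩, 0⟩ 0 0) (.void 32 ⟨100000, 0, 0, 0, 0, 0, 0, 0, 0, ⟨0, 0⟩, 0⟩ 0 0)))))) (.void 59 ⟨58851, 41149, 0, 0, 0, 0, 0, 0, 0, ⟨0, 0⟩, 0⟩ 0 0))) (.cut .v 16777216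 (.cut .v 8388608 (.cut .v 4194304 (.cut .v 2097152 (.cut .v 1048576 (.cut .v 524288 (.pos 118 .pm ⟨0, 1580117, 0, 0, 0, 0, 0, 0, 0, ⟨0, 0⟩, 0⟩ 0 0) (.pos 119 .pm ⟨0, 6791081, 0, 0, 0, 0, 0, 0, 0, ⟨0, 0⟩, 0⟩ 0 0)) (.pos 101 .pm ⟨0, 13593710, 0, 0, 0, 0, 0, 0, 0, ⟨0, 0⟩, 0⟩ 0 0)) (.cut .d 4024593 (.pos 7 .pm ⟨0, 0, 22776205, 0, 0, 0, 0, 0, 0, ⟨0, 0⟩, 0⟩ 0 0) (.pos 7 .pm ⟨0, 53939126, 0, 0, 0, 0, 0, 0, 0, ⟨0, 0⟩, 0⟩ 0 0))) (.cut .d 4024593 (.pos 5 .pm ⟨0, 0, 6991371, 0, 0, 0, 0, 0, 0, ⟨0, 0⟩, 0⟩ 0 0) (.cut .d 6036890 (.pos 5 .pm ⟨0, 0, 0, 0, 0, 0, 0, 0, 0, ⟨0, 0⟩, 0⟩ 0 0) (.cut .d 7043038 (.pos 5 .pm ⟨0, 70297648, 0, 0, 0, 0, 0, 0, 0, ⟨0, 0⟩, 0⟩ 0 0) (.pos 5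 .pm ⟨0, 115086215, 0, 0, 0, 0, 0, 0, 0, ⟨0, 0⟩, 0⟩ 0 0))))) (.cut .d 4024593 (.pos 3 .pm ⟨0, 0, 0, 0, 0, 0, 0, 0, 0, ⟨0, 0⟩, 0⟩ 0 0) (.pos 3 .pm ⟨0, 95143542, 0, 0, 0, 0, 0, 0, 0, ⟨0, 0⟩, 0⟩ 0 0))) (.cut .v 268435456 (.cut .d 4024593 (.cut .v 67108864 (.cut .v 33554432 (.pos 13 .pp ⟨0, 0, 0, 0, 0, 0, 0, 0, 0, ⟨0, 0⟩, 0⟩ 0 0) (.cut .v 50331648 (.pos 23 .pp ⟨483139429, 0, 0, 0, 0, 0, 0, 0, 0, ⟨0, 0⟩, 0⟩ 0 0) (.cut .d 2012296 (.pos 24 .pp ⟨1503134193, 0, 0, 0, 0, 0, 0, 0, 0, ⟨0, 0⟩, 0⟩ 0 0) (.pos 24 .pp ⟨0, 0, 0, 0, 0, 0, 0, 0, 0, ⟨0, 0⟩, 0⟩ 0 0)))) (.cut .v 134217728 (.cut .d 2012296 (.cut .v 100663296 (.cut .d 1006148 (.cut .v 83886080 (.pos 104 .pp ⟨2986534222,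 0, 0, 0, 0, 0, 0, 0, 0, ⟨0, 0⟩, 0⟩ 0 0) (.pos 105 .pp ⟨4322005703, 0, 0, 0, 0, 0, 0, 0, 0, ⟨0, 0⟩, 0⟩ 0 0)) (.pos 43 .pp ⟨2263723588, 0, 0, 0, 0, 0, 0, 0, 0, ⟨0, 0⟩, 0⟩ 0 0)) (.cut .d 1006148 (.cut .d 503074 (.pos 44 .pp ⟨11125713872, 0, 0, 0, 0, 0, 0, 0, 0, ⟨0, 0⟩, 0⟩ 0 0) (.cut .v 117440512 (.pos 108 .pp ⟨5538230487, 0, 0, 0, 0, 0, 0, 0, 0, ⟨0, 0⟩, 0⟩ 0 0) (.cut .v 125829120 (.pos 116 .pp ⟨6445064294, 0, 0, 0, 0, 0, 0, 0, 0, ⟨0, 0⟩, 0⟩ 0 0) (.pos 117 .pp ⟨7417494548, 1621909688, 0, 0, 0, 0, 0, 0, 0, ⟨0, 0⟩, 0⟩ 0 0)))) (.cut .v 117440512 (.pos 108 .pp ⟨4354894220, 0, 0, 0, 0, 0, 0, 0, 0, ⟨0, 0⟩, 0⟩ 0 0) (.pos 109 .pp ⟨5380843448, 2021469726, 0, 0, 0, 0,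 0, 0, 0, ⟨0, 0⟩, 0⟩ 0 0)))) (.pos 31 .pp ⟨0, 0, 0, 0, 0, 0, 0, 0, 0, ⟨0, 0⟩, 0⟩ 0 0)) (.void 32 ⟨38969, 61031, 0, 0, 0, 0, 0, 0, 0, ⟨0, 0⟩, 0⟩ 0 0))) (.pos 10 .pp ⟨0, 111127915, 0, 0, 0, 0, 0, 0, 0, ⟨0, 0⟩, 0⟩ 0 0)) (.void 59 ⟨0, 0, 0, 100000, 0, 0, 0, 0, 0, ⟨0, 0⟩, 0⟩ 0 0)))),
    by decide +kernel⟩

def covers17 : cell.Covers table row17.1 :=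
  ⟨(.cut .d 0 (.cut .v 16777216 (.cut .d (-8388608) (.void 1 ⟨0, 0, 0, 0, 0, 100000, 0, 0, 0, ⟨0, 0⟩, 0⟩ 0 0) (.cut .d (-4194304) (.void 1 ⟨0, 0, 0, 0, 0, 100000, 0, 0, 0, ⟨0, 0⟩, 0⟩ 0 0) (.cut .v 8388608 (.cut .v 4194304 (.void 4 ⟨0, 0, 100000, 0, 0, 0, 0, 0, 0, ⟨0, 0⟩, 0⟩ 0 0) (.cut .d (-2097152) (.void 5 ⟨0, 0, 100000, 0, 0, 0, 0, 0, 0, ⟨0, 0⟩, 0⟩ 0 0) (.cut .d (-1048576) (.void 5 ⟨0, 0, 100000, 0, 0, 0, 0, 0, 0, ⟨0, 0⟩, 0⟩ 0 0) (.pos 5 .mm ⟨0, 0, 49606447, 0, 0, 190444275, 0, 0, 0, ⟨0, 0⟩, 0⟩ 0 0)))) (.cut .d (-2097152) (.cut .v 12582912 (.cut .v 10485760 (.pos 66 .mm ⟨474370464, 0, 111294922, 0, 0, 0, 0, 0, 0, ⟨0, 0⟩, 0⟩ 0 0) (.pos 67 .mm ⟨618435791,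 0, 0, 0, 0, 0, 0, 0, 0, ⟨0, 0⟩, 0⟩ 0 0)) (.pos 9 .mm ⟨844373941, 0, 0, 0, 0, 0, 0, 0, 0, ⟨0, 0⟩, 0⟩ 0 0)) (.cut .d (-1048576) (.cut .v 12582912 (.cut .l 16315842 (.cut .l 11886191 (.pos 8 .mm ⟨0, 0, 0, 0, 0, 586638228, 0, 0, 0, ⟨0, 0⟩, 0⟩ 0 0) (.cut .d (-1572864) (.cut .v 10485760 (.cut .s 11993088 (.pos 66 .mm ⟨14442197, 0, 0, 0, 0, 384077588, 0, 0, 0, ⟨0, 0⟩, 0⟩ 0 0) (.pos 66 .mm ⟨36396549, 0, 0, 0, 0, 460760451, 0, 0, 0, ⟨0, 0⟩, 0⟩ 0 0)) (.pos 67 .mm ⟨433478177, 0, 0, 0, 0, 0, 0, 0, 0, ⟨0, 0⟩, 0⟩ 0 0)) (.cut .v 10485760 (.cut .s 11993088 (.pos 66 .mm ⟨0, 0, 0, 0, 0, 302081307, 0, 0, 0, ⟨0, 0⟩, 0⟩ 0 0) (.pos 66 .mm ⟨0, 0, 0, 0, 0, 376109972, 0, 0, 0, ⟨0,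 0⟩, 0⟩ 0 0)) (.cut .s 11993088 (.cut .v 11534336 (.pos 68 .mm ⟨0, 0, 0, 0, 0, 351687988, 0, 0, 0, ⟨0, 0⟩, 0⟩ 0 0) (.pos 69 .mm ⟨152766901, 0, 0, 0, 0, 218816475, 0, 0, 0, ⟨0, 0⟩, 0⟩ 0 0)) (.pos 67 .mm ⟨205696564, 0, 0, 0, 0, 205711565, 0, 0, 0, ⟨0, 0⟩, 0⟩ 0 0))))) (.cut .d (-1572864) (.cut .v 10485760 (.cut .d (-1835008) (.pos 66 .mm ⟨327271993, 0, 49859302, 0, 0, 1131112, 0, 0, 0, ⟨0, 0⟩, 0⟩ 0 0) (.cut .s 11993088 (.pos 66 .mm ⟨96675119, 0, 0, 0, 0, 166566489, 0, 0, 0, ⟨0, 0⟩, 0⟩ 0 0) (.pos 66 .mm ⟨232255472, 0, 38761336, 0, 0, 112054365, 0, 0, 0, ⟨0, 0⟩, 0⟩ 0 0))) (.pos 67 .mm ⟨352276980, 0, 0, 0, 0, 0, 0, 0, 0, ⟨0, 0⟩, 0⟩ 0 0)) (.pos 8 .mm ⟨86477613, 0,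 0, 0, 0, 108057475, 0, 0, 0, ⟨0, 0⟩, 0⟩ 0 0))) (.cut .s 11993088 (.pos 9 .mm ⟨494367829, 0, 0, 0, 0, 15507918, 0, 0, 0, ⟨0, 0⟩, 0⟩ 0 0) (.pos 9 .mm ⟨609719370, 0, 0, 0, 0, 0, 0, 0, 0, ⟨0, 0⟩, 0⟩ 0 0))) (.cut .d (-524288) (.cut .l 16315842 (.cut .l 11886191 (.cut .v 12582912 (.cut .l 9671365 (.pos 8 .mm ⟨0, 0, 0, 0, 0, 397351107, 0, 0, 0, ⟨0, 0⟩, 0⟩ 0 0) (.pos 8 .mm ⟨0, 0, 0, 0, 0, 313703623, 0, 0, 0, ⟨0, 0⟩, 0⟩ 0 0)) (.cut .v 14680064 (.cut .l 9671365 (.pos 45 .mm ⟨0, 0, 0, 0, 0, 498592773, 0, 0, 0, ⟨0, 0⟩, 0⟩ 0 0) (.pos 45 .mm ⟨99736180, 0, 0, 0, 0, 285700030, 0, 0, 0, ⟨0, 0⟩, 0⟩ 0 0)) (.cut .d (-786432) (.pos 46 .mm ⟨614226541, 0, 0, 0, 0, 0, 0, 0, 0, ⟨0,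 0⟩, 0⟩ 0 0) (.pos 46 .mm ⟨144240201, 0, 0, 0, 0, 316002066, 0, 0, 0, ⟨0, 0⟩, 0⟩ 0 0)))) (.pos 3 .mm ⟨62064146, 0, 0, 0, 0, 104976256, 0, 0, 0, ⟨0, 0⟩, 0⟩ 0 0)) (.pos 3 .mm ⟨0, 0, 10134454, 0, 0, 0, 0, 0, 0, ⟨0, 0⟩, 0⟩ 0 0)) (.pos 3 .mm ⟨0, 0, 0, 0, 0, 237781070, 0, 0, 0, ⟨0, 0⟩, 0⟩ 0 0))))))) (.cut .v 268435456 (.cut .d (-8388608) (.void 10 ⟨100000, 0, 0, 0, 0, 0, 0, 0, 0, ⟨0, 0⟩, 0⟩ 0 0) (.cut .d (-4194304) (.void 10 ⟨100000, 0, 0, 0, 0, 0, 0, 0, 0, ⟨0, 0⟩, 0⟩ 0 0) (.cut .d (-2097152) (.void 10 ⟨100000, 0, 0, 0, 0, 0, 0, 0, 0, ⟨0, 0⟩, 0⟩ 0 0) (.cut .v 67108864 (.cut .v 33554432 (.cut .v 25165824 (.cut .d (-1048576) (.pos 15 .mp ⟨898360648, 0, 0, 0, 0, 0,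 0, 0, 0, ⟨0, 0⟩, 0⟩ 0 0) (.cut .d (-524288) (.pos 15 .mp ⟨713087943, 0, 0, 0, 0, 0, 0, 0, 0, ⟨0, 0⟩, 0⟩ 0 0) (.pos 15 .mp ⟨342820350, 0, 0, 0, 0, 0, 0, 0, 0, ⟨0, 0⟩, 0⟩ 0 0))) (.pos 16 .mp ⟨1243607181, 0, 0, 0, 0, 0, 0, 0, 0, ⟨0, 0⟩, 0⟩ 0 0)) (.cut .v 50331648 (.pos 23 .mp ⟨2204948439, 0, 0, 0, 0, 0, 0, 0, 0, ⟨0, 0⟩, 0⟩ 0 0) (.pos 24 .mp ⟨3769702507, 0, 0, 0, 0, 0, 0, 0, 0, ⟨0, 0⟩, 0⟩ 0 0))) (.cut .v 134217728 (.pos 31 .mp ⟨12953692243, 0, 0, 0, 0, 0, 0, 0, 0, ⟨0, 0⟩, 0⟩ 0 0) (.void 32 ⟨100000, 0, 0, 0, 0, 0, 0, 0, 0, ⟨0, 0⟩, 0⟩ 0 0)))))) (.void 59 ⟨96375, 0, 0, 3625, 0, 0, 0, 0, 0, ⟨0, 0⟩, 0⟩ 0 0))) (.cut .v 16777216 (.cut .v 8388608 (.cut .v 4194304 (.cut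 .v 2097152 (.cut .v 1048576 (.cut .v 524288 (.pos 118 .pm ⟨0, 3331494, 0, 0, 0, 0, 0, 0, 0, ⟨0, 0⟩, 0⟩ 0 0) (.pos 119 .pm ⟨0, 10547787, 0, 0, 0, 0, 0, 0, 0, ⟨0, 0⟩, 0⟩ 0 0)) (.pos 101 .pm ⟨0, 19628345, 0, 0, 0, 0, 0, 0, 0, ⟨0, 0⟩, 0⟩ 0 0)) (.cut .d 3608508 (.pos 7 .pm ⟨0, 0, 31849238, 0, 0, 0, 0, 0, 0, ⟨0, 0⟩, 0⟩ 0 0) (.cut .d 5412762 (.pos 7 .pm ⟨0, 0, 0, 0, 0, 0, 0, 0, 0, ⟨0, 0⟩, 0⟩ 0 0) (.pos 7 .pm ⟨0, 95878878, 0, 0, 0, 0, 0, 0, 0, ⟨0, 0⟩, 0⟩ 0 0)))) (.cut .d 3608508 (.pos 5 .pm ⟨0, 0, 11691198, 0, 0, 0, 0, 0, 0, ⟨0, 0⟩, 0⟩ 0 0) (.cut .d 5412762 (.pos 5 .pm ⟨0, 0, 0, 0, 0, 0, 0, 0, 0, ⟨0, 0⟩, 0⟩ 0 0) (.cut .d 6314889 (.pos 5 .pm ⟨0, 76051923, 0, 0, 0,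 0, 0, 0, 0, ⟨0, 0⟩, 0⟩ 0 0) (.pos 5 .pm ⟨0, 146705525, 0, 0, 0, 0, 0, 0, 0, ⟨0, 0⟩, 0⟩ 0 0))))) (.cut .d 3608508 (.pos 3 .pm ⟨0, 0, 0, 0, 0, 0, 0, 0, 0, ⟨0, 0⟩, 0⟩ 0 0) (.pos 3 .pm ⟨0, 125603464, 0, 0, 0, 0, 0, 0, 0, ⟨0, 0⟩, 0⟩ 0 0))) (.cut .v 268435456 (.cut .d 3608508 (.cut .v 67108864 (.cut .v 33554432 (.pos 13 .pp ⟨0, 0, 0, 0, 0, 0, 0, 0, 0, ⟨0, 0⟩, 0⟩ 0 0) (.cut .v 50331648 (.pos 23 .pp ⟨593704783, 0, 0, 0, 0, 0, 0, 0, 0, ⟨0, 0⟩, 0⟩ 0 0) (.cut .d 1804254 (.pos 24 .pp ⟨1801659588, 0, 0, 0, 0, 0, 0, 0, 0, ⟨0, 0⟩, 0⟩ 0 0) (.pos 24 .pp ⟨0, 0, 0, 0, 0, 0, 0, 0, 0, ⟨0, 0⟩, 0⟩ 0 0)))) (.cut .v 134217728 (.cut .d 1804254 (.cut .v 100663296 (.cut .d 902127 (.cut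 .v 83886080 (.pos 104 .pp ⟨3807890318, 0, 0, 0, 0, 0, 0, 0, 0, ⟨0, 0⟩, 0⟩ 0 0) (.pos 105 .pp ⟨5509100332, 0, 0, 0, 0, 0, 0, 0, 0, ⟨0, 0⟩, 0⟩ 0 0)) (.pos 43 .pp ⟨2767656807, 0, 0, 0, 0, 0, 0, 0, 0, ⟨0, 0⟩, 0⟩ 0 0)) (.cut .d 902127 (.cut .d 451063 (.pos 44 .pp ⟨13786813186, 0, 0, 0, 0, 0, 0, 0, 0, ⟨0, 0⟩, 0⟩ 0 0) (.cut .v 117440512 (.pos 108 .pp ⟨7021992103, 0, 0, 0, 0, 0, 0, 0, 0, ⟨0, 0⟩, 0⟩ 0 0) (.cut .v 125829120 (.pos 116 .pp ⟨8185174871, 0, 0, 0, 0, 0, 0, 0, 0, ⟨0, 0⟩, 0⟩ 0 0) (.pos 117 .pp ⟨9319792687, 2491022479, 0, 0, 0, 0, 0, 0, 0, ⟨0, 0⟩, 0⟩ 0 0)))) (.cut .v 117440512 (.pos 108 .pp ⟨5462505367, 0, 0, 0, 0, 0, 0, 0, 0, ⟨0, 0⟩, 0⟩ 0 0) (.pos 109 .pp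 ⟨6803021616, 2442539682, 0, 0, 0, 0, 0, 0, 0, ⟨0, 0⟩, 0⟩ 0 0)))) (.pos 31 .pp ⟨0, 0, 0, 0, 0, 0, 0, 0, 0, ⟨0, 0⟩, 0⟩ 0 0)) (.void 32 ⟨38196, 61804, 0, 0, 0, 0, 0, 0, 0, ⟨0, 0⟩, 0⟩ 0 0))) (.pos 10 .pp ⟨0, 147248458, 0, 0, 0, 0, 0, 0, 0, ⟨0, 0⟩, 0⟩ 0 0)) (.void 59 ⟨0, 0, 0, 100000, 0, 0, 0, 0, 0, ⟨0, 0⟩, 0⟩ 0 0)))),
    by decide +kernel⟩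

def covers18 : cell.Covers table row18.1 :=
  ⟨(.cut .d 0 (.cut .v 16777216 (.cut .d (-8388608) (.void 1 ⟨0, 0, 0, 0, 0, 100000, 0, 0, 0, ⟨0, 0⟩, 0⟩ 0 0) (.cut .d (-4194304) (.void 1 ⟨0, 0, 0, 0, 0, 100000, 0, 0, 0, ⟨0, 0⟩, 0⟩ 0 0) (.cut .v 8388608 (.cut .v 4194304 (.void 4 ⟨0, 0, 100000, 0, 0, 0, 0, 0, 0, ⟨0, 0⟩, 0⟩ 0 0) (.cut .d (-2097152) (.void 5 ⟨0, 0, 100000, 0, 0, 0, 0, 0, 0, ⟨0, 0⟩, 0⟩ 0 0) (.cut .d (-1048576) (.void 5 ⟨0, 0, 100000, 0, 0, 0, 0, 0, 0, ⟨0, 0⟩, 0⟩ 0 0) (.pos 5 .mm ⟨0, 0, 84702503, 0, 0, 274768526, 0, 0, 0, ⟨0, 0⟩, 0⟩ 0 0)))) (.cut .d (-2097152) (.pos 3 .mm ⟨1169468615, 0, 180821751, 0, 0, 0, 0, 0, 0, ⟨0, 0⟩, 0⟩ 0 0) (.cut .d (-1048576)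 (.cut .v 12582912 (.cut .v 10485760 (.cut .d (-1572864) (.pos 66 .mm ⟨582231096, 0, 166116192, 0, 0, 0, 0, 0, 0, ⟨0, 0⟩, 0⟩ 0 0) (.cut .v 9437184 (.pos 78 .mm ⟨0, 0, 232604222, 0, 0, 379864190, 0, 0, 0, ⟨0, 0⟩, 0⟩ 0 0) (.cut .l 16315842 (.cut .d (-1310720) (.pos 79 .mm ⟨100502386, 0, 0, 0, 0, 450872596, 0, 0, 0, ⟨0, 0⟩, 0⟩ 0 0) (.pos 79 .mm ⟨0, 0, 0, 0, 0, 505592298, 0, 0, 0, ⟨0, 0⟩, 0⟩ 0 0)) (.pos 79 .mm ⟨207983223, 0, 0, 0, 0, 222335033, 0, 0, 0, ⟨0, 0⟩, 0⟩ 0 0)))) (.cut .s 12484608 (.cut .d (-1572864) (.pos 67 .mm ⟨599925143, 0, 0, 0, 0, 0, 0, 0, 0, ⟨0, 0⟩, 0⟩ 0 0) (.cut .s 12369920 (.pos 67 .mm ⟨330854921, 0, 0, 0, 0, 182542707, 0, 0, 0, ⟨0, 0⟩, 0⟩ 0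 0) (.pos 67 .mm ⟨374942425, 0, 0, 0, 0, 170398539, 0, 0, 0, ⟨0, 0⟩, 0⟩ 0 0))) (.pos 67 .mm ⟨595625879, 0, 0, 0, 0, 29235226, 0, 0, 0, ⟨0, 0⟩, 0⟩ 0 0))) (.pos 9 .mm ⟨783316102, 0, 0, 0, 0, 0, 0, 0, 0, ⟨0, 0⟩, 0⟩ 0 0)) (.cut .d (-524288) (.cut .l 16315842 (.cut .v 12582912 (.cut .l 11886191 (.cut .d (-786432) (.pos 8 .mm ⟨0, 0, 0, 0, 0, 580856226, 0, 0, 0, ⟨0, 0⟩, 0⟩ 0 0) (.pos 8 .mm ⟨0, 0, 0, 0, 0, 444092837, 0, 0, 0, ⟨0, 0⟩, 0⟩ 0 0)) (.pos 8 .mm ⟨0, 0, 0, 0, 0, 396828595, 0, 0, 0, ⟨0, 0⟩, 0⟩ 0 0)) (.cut .d (-786432) (.pos 9 .mm ⟨441058357, 0, 0, 0, 0, 192915282, 0, 0, 0, ⟨0, 0⟩, 0⟩ 0 0) (.pos 9 .mm ⟨210618556, 0, 0, 0, 0, 356610440, 0, 0, 0, ⟨0, 0⟩, 0⟩ 0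 0))) (.pos 3 .mm ⟨0, 0, 9537200, 0, 0, 0, 0, 0, 0, ⟨0, 0⟩, 0⟩ 0 0)) (.pos 3 .mm ⟨0, 0, 0, 0, 0, 331765728, 0, 0, 0, ⟨0, 0⟩, 0⟩ 0 0))))))) (.cut .v 268435456 (.cut .d (-8388608) (.void 10 ⟨100000, 0, 0, 0, 0, 0, 0, 0, 0, ⟨0, 0⟩, 0⟩ 0 0) (.cut .d (-4194304) (.void 10 ⟨100000, 0, 0, 0, 0, 0, 0, 0, 0, ⟨0, 0⟩, 0⟩ 0 0) (.cut .d (-2097152) (.void 10 ⟨100000, 0, 0, 0, 0, 0, 0, 0, 0, ⟨0, 0⟩, 0⟩ 0 0) (.cut .v 67108864 (.cut .v 33554432 (.cut .d (-1048576) (.pos 13 .mp ⟨1629609741, 0, 0, 0, 0, 0, 0, 0, 0, ⟨0, 0⟩, 0⟩ 0 0) (.cut .d (-524288) (.pos 13 .mp ⟨1101847173, 0, 0, 0, 0, 0, 0, 0, 0, ⟨0, 0⟩, 0⟩ 0 0) (.pos 13 .mp ⟨581992372, 0, 0, 0, 0, 0, 0, 0, 0, ⟨0, 0⟩, 0⟩ 0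 0))) (.cut .v 50331648 (.pos 23 .mp ⟨2894475938, 0, 0, 0, 0, 0, 0, 0, 0, ⟨0, 0⟩, 0⟩ 0 0) (.pos 24 .mp ⟨4837942132, 0, 0, 0, 0, 0, 0, 0, 0, ⟨0, 0⟩, 0⟩ 0 0))) (.cut .v 134217728 (.pos 31 .mp ⟨16009678917, 0, 0, 0, 0, 0, 0, 0, 0, ⟨0, 0⟩, 0⟩ 0 0) (.void 32 ⟨100000, 0, 0, 0, 0, 0, 0, 0, 0, ⟨0, 0⟩, 0⟩ 0 0)))))) (.void 59 ⟨96226, 0, 0, 3774, 0, 0, 0, 0, 0, ⟨0, 0⟩, 0⟩ 0 0))) (.cut .v 16777216 (.cut .v 8388608 (.cut .v 4194304 (.cut .v 2097152 (.cut .v 1048576 (.cut .v 524288 (.pos 118 .pm ⟨0, 4886122, 0, 0, 0, 0, 0, 0, 0, ⟨0, 0⟩, 0⟩ 0 0) (.pos 119 .pm ⟨0, 13225718, 0, 0, 0, 0, 0, 0, 0, ⟨0, 0⟩, 0⟩ 0 0)) (.pos 101 .pm ⟨0, 23538653, 0, 0, 0, 0, 0, 0, 0, ⟨0, 0⟩, 0⟩ 0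 0)) (.cut .d 3095263 (.pos 7 .pm ⟨0, 0, 83657571, 0, 0, 0, 0, 0, 0, ⟨0, 0⟩, 0⟩ 0 0) (.cut .d 4642894 (.pos 7 .pm ⟨0, 0, 0, 0, 0, 0, 0, 0, 0, ⟨0, 0⟩, 0⟩ 0 0) (.pos 7 .pm ⟨0, 118691492, 0, 0, 0, 0, 0, 0, 0, ⟨0, 0⟩, 0⟩ 0 0)))) (.cut .d 3095263 (.pos 5 .pm ⟨0, 0, 26161878, 0, 0, 0, 0, 0, 0, ⟨0, 0⟩, 0⟩ 0 0) (.cut .d 4642894 (.pos 5 .pm ⟨0, 0, 0, 0, 0, 0, 0, 0, 0, ⟨0, 0⟩, 0⟩ 0 0) (.pos 5 .pm ⟨0, 156386385, 0, 0, 0, 0, 0, 0, 0, ⟨0, 0⟩, 0⟩ 0 0)))) (.cut .d 3095263 (.pos 3 .pm ⟨0, 0, 0, 0, 0, 0, 0, 0, 0, ⟨0, 0⟩, 0⟩ 0 0) (.pos 3 .pm ⟨0, 170816235, 0, 0, 0, 0, 0, 0, 0, ⟨0, 0⟩, 0⟩ 0 0))) (.cut .v 268435456 (.cut .d 3095263 (.cut .v 67108864 (.cut .v 33554432 (.pos 13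 .pp ⟨0, 0, 0, 0, 0, 0, 0, 0, 0, ⟨0, 0⟩, 0⟩ 0 0) (.cut .v 50331648 (.pos 23 .pp ⟨789001994, 0, 0, 0, 0, 0, 0, 0, 0, ⟨0, 0⟩, 0⟩ 0 0) (.cut .d 1547631 (.pos 24 .pp ⟨2240013042, 0, 0, 0, 0, 0, 0, 0, 0, ⟨0, 0⟩, 0⟩ 0 0) (.pos 24 .pp ⟨0, 0, 0, 0, 0, 0, 0, 0, 0, ⟨0, 0⟩, 0⟩ 0 0)))) (.cut .v 134217728 (.cut .d 1547631 (.cut .v 100663296 (.cut .d 773815 (.cut .v 83886080 (.pos 104 .pp ⟨4788962061, 0, 0, 0, 0, 0, 0, 0, 0, ⟨0, 0⟩, 0⟩ 0 0) (.pos 105 .pp ⟨6840120161, 0, 0, 0, 0, 0, 0, 0, 0, ⟨0, 0⟩, 0⟩ 0 0)) (.pos 43 .pp ⟨3560129343, 0, 0, 0, 0, 0, 0, 0, 0, ⟨0, 0⟩, 0⟩ 0 0)) (.cut .d 773815 (.cut .v 117440512 (.pos 108 .pp ⟨9159941383, 0, 0, 0, 0, 0, 0, 0, 0, ⟨0, 0⟩, 0⟩ 0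 0) (.cut .d 386907 (.pos 109 .pp ⟨21461241631, 0, 0, 0, 0, 0, 0, 0, 0, ⟨0, 0⟩, 0⟩ 0 0) (.pos 109 .pp ⟨11091376013, 88518506, 0, 0, 0, 0, 0, 0, 0, ⟨0, 0⟩, 0⟩ 0 0))) (.cut .v 117440512 (.pos 108 .pp ⟨6868530819, 0, 0, 0, 0, 0, 0, 0, 0, ⟨0, 0⟩, 0⟩ 0 0) (.pos 109 .pp ⟨8893991454, 2991287172, 0, 0, 0, 0, 0, 0, 0, ⟨0, 0⟩, 0⟩ 0 0)))) (.pos 31 .pp ⟨0, 237870, 0, 0, 0, 0, 0, 0, 0, ⟨0, 0⟩, 0⟩ 0 0)) (.void 32 ⟨37659, 62341, 0, 0, 0, 0, 0, 0, 0, ⟨0, 0⟩, 0⟩ 0 0))) (.pos 10 .pp ⟨0, 211869201, 0, 0, 0, 0, 0, 0, 0, ⟨0, 0⟩, 0⟩ 0 0)) (.void 59 ⟨0, 0, 0, 100000, 0, 0, 0, 0, 0, ⟨0, 0⟩, 0⟩ 0 0)))),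
    by decide +kernel⟩

def covers19 : cell.Covers table row19.1 :=
  ⟨(.cut .d 0 (.cut .v 16777216 (.cut .d (-8388608) (.void 1 ⟨0, 0, 0, 0, 0, 100000, 0, 0, 0, ⟨0, 0⟩, 0⟩ 0 0) (.cut .d (-4194304) (.pos 1 .mm ⟨0, 0, 0, 0, 0, 167772160000, 0, 0, 0, ⟨0, 0⟩, 0⟩ 0 0) (.cut .v 8388608 (.cut .v 4194304 (.void 4 ⟨0, 0, 100000, 0, 0, 0, 0, 0, 0, ⟨0, 0⟩, 0⟩ 0 0) (.cut .d (-2097152) (.void 5 ⟨0, 0, 100000, 0, 0, 0, 0, 0, 0, ⟨0, 0⟩, 0⟩ 0 0) (.pos 5 .mm ⟨0, 0, 668806233, 0, 0, 0, 0, 0, 0, ⟨0, 0⟩, 0⟩ 0 0))) (.cut .d (-2097152) (.void 3 ⟨85659, 0, 14341, 0, 0, 0, 0, 0, 0, ⟨0, 0⟩, 0⟩ 0 0) (.cut .d (-1048576) (.cut .v 12582912 (.cut .d (-1572864) (.pos 8 .mm ⟨933511894,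 0, 211376605, 0, 0, 0, 0, 0, 0, ⟨0, 0⟩, 0⟩ 0 0) (.cut .v 10485760 (.cut .v 9437184 (.pos 78 .mm ⟨0, 0, 619817412, 0, 0, 473435915, 0, 0, 0, ⟨0, 0⟩, 0⟩ 0 0) (.cut .d (-1310720) (.pos 79 .mm ⟨726819192, 0, 208419200, 0, 0, 0, 0, 0, 0, ⟨0, 0⟩, 0⟩ 0 0) (.cut .l 16315842 (.cut .s 12976128 (.pos 79 .mm ⟨223005758, 0, 36188773, 0, 0, 412475757, 0, 0, 0, ⟨0, 0⟩, 0⟩ 0 0) (.cut .v 9961472 (.pos 94 .mm ⟨270895162, 0, 61084894, 0, 0, 415085825, 0, 0, 0, ⟨0, 0⟩, 0⟩ 0 0) (.pos 95 .mm ⟨322511805, 0, 0, 0, 0, 406978449, 0, 0, 0, ⟨0, 0⟩, 0⟩ 0 0))) (.cut .d (-1179648) (.pos 79 .mm ⟨574779267, 0, 115781053, 0, 0, 0, 0, 0, 0, ⟨0, 0⟩, 0⟩ 0 0) (.pos 79 .mm ⟨490075457, 0, 67198782,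 0, 0, 0, 0, 0, 0, ⟨0, 0⟩, 0⟩ 0 0))))) (.cut .s 12976128 (.pos 67 .mm ⟨719216437, 0, 0, 0, 0, 0, 0, 0, 0, ⟨0, 0⟩, 0⟩ 0 0) (.pos 67 .mm ⟨786188267, 0, 0, 0, 0, 0, 0, 0, 0, ⟨0, 0⟩, 0⟩ 0 0)))) (.pos 9 .mm ⟨1076523282, 0, 0, 0, 0, 0, 0, 0, 0, ⟨0, 0⟩, 0⟩ 0 0)) (.cut .d (-524288) (.cut .v 12582912 (.cut .l 16315842 (.cut .l 11886191 (.cut .d (-786432) (.pos 8 .mm ⟨0, 0, 6655996, 0, 0, 1064871601, 0, 0, 0, ⟨0, 0⟩, 0⟩ 0 0) (.pos 8 .mm ⟨0, 0, 0, 0, 0, 706769742, 0, 0, 0, ⟨0, 0⟩, 0⟩ 0 0)) (.cut .d (-786432) (.cut .v 10485760 (.cut .v 9437184 (.pos 78 .mm ⟨0, 0, 267783662, 0, 0, 473435915, 0, 0, 0, ⟨0, 0⟩, 0⟩ 0 0) (.cut .d (-917504) (.pos 79 .mm ⟨69875447, 0, 5639101,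 0, 0, 605166699, 0, 0, 0, ⟨0, 0⟩, 0⟩ 0 0) (.pos 79 .mm ⟨0, 0, 0, 0, 0, 629535005, 0, 0, 0, ⟨0, 0⟩, 0⟩ 0 0))) (.pos 67 .mm ⟨337880634, 0, 0, 0, 0, 319992980, 0, 0, 0, ⟨0, 0⟩, 0⟩ 0 0)) (.pos 8 .mm ⟨38997329, 0, 0, 0, 0, 450834389, 0, 0, 0, ⟨0, 0⟩, 0⟩ 0 0))) (.pos 8 .mm ⟨332314689, 0, 53980420, 0, 0, 0, 0, 0, 0, ⟨0, 0⟩, 0⟩ 0 0)) (.pos 9 .mm ⟨675191651, 0, 0, 0, 0, 136383188, 0, 0, 0, ⟨0, 0⟩, 0⟩ 0 0)) (.cut .v 12582912 (.pos 8 .mm ⟨0, 0, 0, 0, 0, 445278289, 0, 0, 0, ⟨0, 0⟩, 0⟩ 0 0) (.pos 9 .mm ⟨134277689, 0, 0, 0, 0, 532832439, 0, 0, 0, ⟨0, 0⟩, 0⟩ 0 0)))))))) (.cut .v 268435456 (.cut .d (-8388608) (.void 10 ⟨100000, 0, 0, 0, 0, 0, 0, 0, 0, ⟨0, 0⟩, 0⟩ 0 0) (.cut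 .d (-4194304) (.void 10 ⟨100000, 0, 0, 0, 0, 0, 0, 0, 0, ⟨0, 0⟩, 0⟩ 0 0) (.cut .d (-2097152) (.void 10 ⟨100000, 0, 0, 0, 0, 0, 0, 0, 0, ⟨0, 0⟩, 0⟩ 0 0) (.cut .v 67108864 (.cut .v 33554432 (.cut .d (-1048576) (.pos 13 .mp ⟨2263700910, 0, 0, 0, 0, 0, 0, 0, 0, ⟨0, 0⟩, 0⟩ 0 0) (.cut .d (-524288) (.pos 13 .mp ⟨1484726952, 0, 0, 0, 0, 0, 0, 0, 0, ⟨0, 0⟩, 0⟩ 0 0) (.pos 13 .mp ⟨837855054, 0, 0, 0, 0, 0, 0, 0, 0, ⟨0, 0⟩, 0⟩ 0 0))) (.cut .v 50331648 (.pos 23 .mp ⟨3776723734, 0, 0, 0, 0, 0, 0, 0, 0, ⟨0, 0⟩, 0⟩ 0 0) (.pos 24 .mp ⟨6186304055, 0, 0, 0, 0, 0, 0, 0, 0, ⟨0, 0⟩, 0⟩ 0 0))) (.cut .v 134217728 (.pos 31 .mp ⟨19766665600, 0, 0, 0, 0, 0, 0, 0, 0, ⟨0, 0⟩, 0⟩ 0 0)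 (.void 32 ⟨100000, 0, 0, 0, 0, 0, 0, 0, 0, ⟨0, 0⟩, 0⟩ 0 0)))))) (.void 59 ⟨96074, 0, 0, 3926, 0, 0, 0, 0, 0, ⟨0, 0⟩, 0⟩ 0 0))) (.cut .v 16777216 (.cut .v 8388608 (.cut .v 4194304 (.cut .v 2097152 (.cut .d 2680896 (.void 6 ⟨0, 0, 100000, 0, 0, 0, 0, 0, 0, ⟨0, 0⟩, 0⟩ 0 0) (.cut .v 1048576 (.cut .v 524288 (.pos 118 .pm ⟨0, 17760978, 0, 0, 0, 0, 0, 0, 0, ⟨0, 0⟩, 0⟩ 0 0) (.pos 119 .pm ⟨0, 51663956, 0, 0, 0, 0, 0, 0, 0, ⟨0, 0⟩, 0⟩ 0 0)) (.cut .d 4021344 (.pos 101 .pm ⟨0, 0, 0, 0, 0, 0, 0, 0, 0, ⟨0, 0⟩, 0⟩ 0 0) (.pos 101 .pm ⟨0, 123158643, 0, 0, 0, 0, 0, 0, 0, ⟨0, 0⟩, 0⟩ 0 0)))) (.cut .d 2680896 (.pos 7 .pm ⟨0, 0, 126627666, 0, 0, 0, 0, 0, 0, ⟨0, 0⟩, 0⟩ 0 0) (.cut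 .d 4021344 (.pos 7 .pm ⟨0, 0, 0, 0, 0, 0, 0, 0, 0, ⟨0, 0⟩, 0⟩ 0 0) (.cut .d 4691568 (.pos 7 .pm ⟨0, 136489488, 0, 0, 0, 0, 0, 0, 0, ⟨0, 0⟩, 0⟩ 0 0) (.pos 7 .pm ⟨0, 238713537, 0, 0, 0, 0, 0, 0, 0, ⟨0, 0⟩, 0⟩ 0 0))))) (.cut .d 2680896 (.pos 5 .pm ⟨0, 0, 55454125, 0, 0, 0, 0, 0, 0, ⟨0, 0⟩, 0⟩ 0 0) (.cut .d 4021344 (.pos 5 .pm ⟨0, 0, 0, 0, 0, 0, 0, 0, 0, ⟨0, 0⟩, 0⟩ 0 0) (.cut .d 4691568 (.pos 5 .pm ⟨0, 192431518, 0, 0, 0, 0, 0, 0, 0, ⟨0, 0⟩, 0⟩ 0 0) (.pos 5 .pm ⟨0, 314125143, 0, 0, 0, 0, 0, 0, 0, ⟨0, 0⟩, 0⟩ 0 0))))) (.cut .d 2680896 (.pos 3 .pm ⟨0, 0, 0, 0, 0, 0, 0, 0, 0, ⟨0, 0⟩, 0⟩ 0 0) (.pos 3 .pm ⟨0, 283146562, 0, 0, 0, 0, 0, 0, 0, ⟨0, 0⟩, 0⟩ 0 0))) (.cut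 .v 268435456 (.cut .d 2680896 (.cut .v 67108864 (.cut .v 33554432 (.pos 13 .pp ⟨0, 0, 0, 0, 0, 0, 0, 0, 0, ⟨0, 0⟩, 0⟩ 0 0) (.cut .v 50331648 (.pos 23 .pp ⟨975864864, 0, 0, 0, 0, 0, 0, 0, 0, ⟨0, 0⟩, 0⟩ 0 0) (.pos 24 .pp ⟨2116238459, 0, 0, 0, 0, 0, 0, 0, 0, ⟨0, 0⟩, 0⟩ 0 0))) (.cut .v 134217728 (.cut .d 1340448 (.cut .v 100663296 (.cut .v 83886080 (.pos 104 .pp ⟨4677795796, 0, 0, 0, 0, 0, 0, 0, 0, ⟨0, 0⟩, 0⟩ 0 0) (.pos 105 .pp ⟨7016925029, 0, 0, 0, 0, 0, 0, 0, 0, ⟨0, 0⟩, 0⟩ 0 0)) (.cut .d 670224 (.cut .v 117440512 (.pos 108 .pp ⟨10680986122, 0, 0, 0, 0, 0, 0, 0, 0, ⟨0, 0⟩, 0⟩ 0 0) (.pos 109 .pp ⟨13956424006, 0, 0, 0, 0, 0, 0, 0, 0, ⟨0, 0⟩, 0⟩ 0 0)) (.pos 44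 .pp ⟨8669538959, 2762147654, 0, 0, 0, 0, 0, 0, 0, ⟨0, 0⟩, 0⟩ 0 0))) (.pos 31 .pp ⟨0, 0, 0, 0, 0, 0, 0, 0, 0, ⟨0, 0⟩, 0⟩ 0 0)) (.pos 32 .pp ⟨38087478160, 43340768269, 0, 0, 0, 0, 0, 0, 0, ⟨0, 0⟩, 0⟩ 0 0))) (.pos 10 .pp ⟨0, 400508853, 0, 0, 0, 0, 0, 0, 0, ⟨0, 0⟩, 0⟩ 0 0)) (.void 59 ⟨0, 0, 0, 100000, 0, 0, 0, 0, 0, ⟨0, 0⟩, 0⟩ 0 0)))),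
    by decide +kernel⟩

def covers20 : cell.Covers table row20.1 :=
  ⟨(.cut .d 0 (.cut .v 16777216 (.cut .d (-8388608) (.void 1 ⟨0, 0, 0, 0, 0, 100000, 0, 0, 0, ⟨0, 0⟩, 0⟩ 0 0) (.cut .d (-4194304) (.void 1 ⟨0, 0, 5904, 0, 0, 126617, 0, 0, 0, ⟨0, 0⟩, 0⟩ 0 0) (.cut .d (-2097152) (.void 1 ⟨0, 0, 0, 0, 0, 100000, 0, 0, 0, ⟨0, 0⟩, 0⟩ 0 0) (.cut .v 8388608 (.cut .v 4194304 (.void 4 ⟨0, 0, 100000, 0, 0, 0, 0, 0, 0, ⟨0, 0⟩, 0⟩ 0 0) (.pos 5 .mm ⟨0, 0, 808640170, 0, 0, 0, 0, 0, 0, ⟨0, 0⟩, 0⟩ 0 0)) (.cut .d (-1048576) (.cut .v 12582912 (.cut .d (-1572864) (.void 8 ⟨82904, 0, 17096, 0, 0, 0, 0, 0, 0, ⟨0, 0⟩, 0⟩ 0 0) (.cut .v 10485760 (.cut .l 16315842 (.void 66 ⟨82236,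 0, 17764, 0, 0, 0, 0, 0, 0, ⟨0, 0⟩, 0⟩ 0 0) (.pos 66 .mm ⟨679863477, 0, 148068730, 0, 0, 0, 0, 0, 0, ⟨0, 0⟩, 0⟩ 0 0)) (.pos 67 .mm ⟨838453619, 0, 16179444, 0, 0, 0, 0, 0, 0, ⟨0, 0⟩, 0⟩ 0 0))) (.pos 9 .mm ⟨1354465360, 0, 0, 0, 0, 0, 0, 0, 0, ⟨0, 0⟩, 0⟩ 0 0)) (.cut .d (-524288) (.cut .v 12582912 (.cut .l 16315842 (.cut .l 11886191 (.pos 8 .mm ⟨0, 0, 0, 0, 0, 895110822, 0, 0, 0, ⟨0, 0⟩, 0⟩ 0 0) (.cut .v 10485760 (.cut .v 9437184 (.pos 78 .mm ⟨0, 0, 156216659, 0, 0, 593288060, 0, 0, 0, ⟨0, 0⟩, 0⟩ 0 0) (.pos 79 .mm ⟨106282843, 0, 12827399, 0, 0, 576811940, 0, 0, 0, ⟨0, 0⟩, 0⟩ 0 0)) (.pos 67 .mm ⟨284404027, 0, 0, 0, 0, 438721405, 0, 0, 0, ⟨0, 0⟩, 0⟩ 0 0))) (.cut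 .v 10485760 (.pos 66 .mm ⟨387500703, 0, 72511752, 0, 0, 0, 0, 0, 0, ⟨0, 0⟩, 0⟩ 0 0) (.pos 67 .mm ⟨562534000, 0, 0, 0, 0, 0, 0, 0, 0, ⟨0, 0⟩, 0⟩ 0 0))) (.pos 9 .mm ⟨591273009, 0, 0, 0, 0, 342387015, 0, 0, 0, ⟨0, 0⟩, 0⟩ 0 0)) (.pos 3 .mm ⟨64172112, 0, 0, 0, 0, 476293639, 0, 0, 0, ⟨0, 0⟩, 0⟩ 0 0))))))) (.cut .v 268435456 (.cut .d (-8388608) (.void 10 ⟨100000, 0, 0, 0, 0, 0, 0, 0, 0, ⟨0, 0⟩, 0⟩ 0 0) (.cut .d (-4194304) (.void 10 ⟨100000, 0, 0, 0, 0, 0, 0, 0, 0, ⟨0, 0⟩, 0⟩ 0 0) (.cut .d (-2097152) (.void 10 ⟨100000, 0, 0, 0, 0, 0, 0, 0, 0, ⟨0, 0⟩, 0⟩ 0 0) (.cut .d (-1048576) (.void 10 ⟨100000, 0, 0, 0, 0, 0, 0, 0, 0, ⟨0, 0⟩, 0⟩ 0 0) (.cut .v 67108864 (.cut .v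 33554432 (.cut .d (-524288) (.pos 13 .mp ⟨1632433784, 0, 0, 0, 0, 0, 0, 0, 0, ⟨0, 0⟩, 0⟩ 0 0) (.pos 13 .mp ⟨915878597, 0, 0, 0, 0, 0, 0, 0, 0, ⟨0, 0⟩, 0⟩ 0 0)) (.pos 14 .mp ⟨4623946909, 0, 0, 0, 0, 0, 0, 0, 0, ⟨0, 0⟩, 0⟩ 0 0)) (.cut .v 134217728 (.pos 31 .mp ⟨20163568713, 0, 0, 0, 0, 0, 0, 0, 0, ⟨0, 0⟩, 0⟩ 0 0) (.void 32 ⟨100000, 0, 0, 0, 0, 0, 0, 0, 0, ⟨0, 0⟩, 0⟩ 0 0))))))) (.void 59 ⟨95915, 0, 0, 4085, 0, 0, 0, 0, 0, ⟨0, 0⟩, 0⟩ 0 0))) (.cut .v 16777216 (.cut .v 8388608 (.cut .v 4194304 (.cut .v 2097152 (.cut .d 2242500 (.void 6 ⟨0, 0, 100000, 0, 0, 0, 0, 0, 0, ⟨0, 0⟩, 0⟩ 0 0) (.cut .v 1048576 (.cut .v 524288 (.cut .v 262144 (.pos 122 .pm ⟨0, 14042728, 0,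 0, 0, 0, 0, 0, 0, ⟨0, 0⟩, 0⟩ 0 0) (.pos 123 .pm ⟨0, 40367551, 0, 0, 0, 0, 0, 0, 0, ⟨0, 0⟩, 0⟩ 0 0)) (.pos 119 .pm ⟨0, 68539960, 0, 0, 0, 0, 0, 0, 0, ⟨0, 0⟩, 0⟩ 0 0)) (.cut .d 3363750 (.pos 101 .pm ⟨0, 0, 0, 0, 0, 0, 0, 0, 0, ⟨0, 0⟩, 0⟩ 0 0) (.cut .d 3924375 (.pos 101 .pm ⟨0, 128874765, 0, 0, 0, 0, 0, 0, 0, ⟨0, 0⟩, 0⟩ 0 0) (.pos 101 .pm ⟨0, 199528776, 0, 0, 0, 0, 0, 0, 0, ⟨0, 0⟩, 0⟩ 0 0))))) (.cut .d 2242500 (.pos 7 .pm ⟨0, 0, 212150832, 0, 0, 0, 0, 0, 0, ⟨0, 0⟩, 0⟩ 0 0) (.cut .d 3363750 (.pos 7 .pm ⟨0, 0, 0, 0, 0, 0, 0, 0, 0, ⟨0, 0⟩, 0⟩ 0 0) (.cut .l 16315842 (.cut .d 3924375 (.cut .s 13500416 (.pos 7 .pm ⟨0, 0, 0, 0, 0, 0, 0, 0, 0, ⟨0, 0⟩, 0⟩ 0 0) (.cut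 .d 3644062 (.pos 7 .pm ⟨0, 181841915, 0, 0, 0, 0, 0, 0, 0, ⟨0, 0⟩, 0⟩ 0 0) (.pos 7 .pm ⟨0, 241446969, 0, 0, 0, 0, 0, 0, 0, ⟨0, 0⟩, 0⟩ 0 0))) (.cut .s 13500416 (.pos 7 .pm ⟨0, 197282143, 0, 0, 0, 0, 0, 0, 0, ⟨0, 0⟩, 0⟩ 0 0) (.pos 7 .pm ⟨0, 378678700, 0, 0, 0, 0, 0, 0, 0, ⟨0, 0⟩, 0⟩ 0 0))) (.pos 7 .pm ⟨0, 236766223, 0, 0, 0, 0, 0, 0, 0, ⟨0, 0⟩, 0⟩ 0 0))))) (.cut .d 2242500 (.pos 5 .pm ⟨0, 0, 63618656, 0, 0, 0, 0, 0, 0, ⟨0, 0⟩, 0⟩ 0 0) (.cut .d 3363750 (.pos 5 .pm ⟨0, 0, 0, 0, 0, 0, 0, 0, 0, ⟨0, 0⟩, 0⟩ 0 0) (.cut .s 13500416 (.pos 5 .pm ⟨0, 231794269, 0, 0, 0, 0, 0, 0, 0, ⟨0, 0⟩, 0⟩ 0 0) (.cut .d 3924375 (.pos 5 .pm ⟨0, 312303048, 0, 0, 0, 0, 0, 0, 0, ⟨0, 0⟩,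 0⟩ 0 0) (.pos 5 .pm ⟨0, 502592726, 0, 0, 0, 0, 0, 0, 0, ⟨0, 0⟩, 0⟩ 0 0)))))) (.cut .d 2242500 (.pos 3 .pm ⟨0, 0, 0, 0, 0, 0, 0, 0, 0, ⟨0, 0⟩, 0⟩ 0 0) (.pos 3 .pm ⟨0, 383254962, 0, 0, 0, 0, 0, 0, 0, ⟨0, 0⟩, 0⟩ 0 0))) (.cut .v 268435456 (.cut .d 2242500 (.cut .v 67108864 (.cut .v 33554432 (.pos 13 .pp ⟨0, 0, 0, 0, 0, 0, 0, 0, 0, ⟨0, 0⟩, 0⟩ 0 0) (.pos 14 .pp ⟨1447580545, 0, 0, 0, 0, 0, 0, 0, 0, ⟨0, 0⟩, 0⟩ 0 0)) (.cut .v 134217728 (.cut .d 1121250 (.cut .v 100663296 (.pos 43 .pp ⟨6733919836, 0, 0, 0, 0, 0, 0, 0, 0, ⟨0, 0⟩, 0⟩ 0 0) (.cut .d 560625 (.pos 44 .pp ⟨14435346984, 0, 0, 0, 0, 0, 0, 0, 0, ⟨0, 0⟩, 0⟩ 0 0) (.pos 44 .pp ⟨10186212532, 2646782679, 0, 0, 0,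 0, 0, 0, 0, ⟨0, 0⟩, 0⟩ 0 0))) (.pos 31 .pp ⟨0, 0, 0, 0, 0, 0, 0, 0, 0, ⟨0, 0⟩, 0⟩ 0 0)) (.pos 32 .pp ⟨24369796613, 17558413981, 0, 0, 0, 0, 0, 0, 0, ⟨0, 0⟩, 0⟩ 0 0))) (.pos 10 .pp ⟨0, 552886526, 0, 0, 0, 0, 0, 0, 0, ⟨0, 0⟩, 0⟩ 0 0)) (.void 59 ⟨0, 0, 0, 100000, 0, 0, 0, 0, 0, ⟨0, 0⟩, 0⟩ 0 0)))),
    by decide +kernel⟩

def covers21 : cell.Covers table row21.1 :=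
  ⟨(.cut .d 0 (.cut .v 16777216 (.cut .d (-8388608) (.void 1 ⟨0, 0, 0, 0, 0, 100000, 0, 0, 0, ⟨0, 0⟩, 0⟩ 0 0) (.cut .v 8388608 (.pos 2 .mm ⟨0, 0, 2708620765, 0, 0, 0, 0, 0, 0, ⟨0, 0⟩, 0⟩ 0 0) (.cut .d (-4194304) (.void 3 ⟨84798, 0, 15202, 0, 0, 0, 0, 0, 0, ⟨0, 0⟩, 0⟩ 0 0) (.cut .d (-2097152) (.void 3 ⟨84798, 0, 15202, 0, 0, 0, 0, 0, 0, ⟨0, 0⟩, 0⟩ 0 0) (.cut .d (-1048576) (.cut .v 12582912 (.pos 8 .mm ⟨1206050431, 0, 290256669, 0, 0, 0, 0, 0, 0, ⟨0, 0⟩, 0⟩ 0 0) (.void 9 ⟨100000, 0, 0, 0, 0, 0, 0, 0, 0, ⟨0, 0⟩, 0⟩ 0 0)) (.cut .v 12582912 (.cut .v 10485760 (.pos 66 .mm ⟨374620534, 0, 298006340, 0, 0, 116666669, 0, 0, 0, ⟨0, 0⟩, 0⟩ 0 0) (.pos 67 .mm ⟨614901140,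 0, 102240927, 0, 0, 0, 0, 0, 0, ⟨0, 0⟩, 0⟩ 0 0)) (.pos 9 .mm ⟨840201087, 0, 0, 0, 0, 0, 0, 0, 0, ⟨0, 0⟩, 0⟩ 0 0))))))) (.cut .v 268435456 (.cut .d (-8388608) (.void 10 ⟨100000, 0, 0, 0, 0, 0, 0, 0, 0, ⟨0, 0⟩, 0⟩ 0 0) (.cut .d (-4194304) (.void 10 ⟨100000, 0, 0, 0, 0, 0, 0, 0, 0, ⟨0, 0⟩, 0⟩ 0 0) (.cut .d (-2097152) (.void 10 ⟨100000, 0, 0, 0, 0, 0, 0, 0, 0, ⟨0, 0⟩, 0⟩ 0 0) (.cut .d (-1048576) (.void 10 ⟨100000, 0, 0, 0, 0, 0, 0, 0, 0, ⟨0, 0⟩, 0⟩ 0 0) (.cut .v 67108864 (.cut .v 33554432 (.pos 13 .mp ⟨1392039022, 0, 0, 0, 0, 0, 0, 0, 0, ⟨0, 0⟩, 0⟩ 0 0) (.pos 14 .mp ⟨4963824407, 0, 0, 0, 0, 0, 0, 0, 0, ⟨0, 0⟩, 0⟩ 0 0)) (.cut .v 134217728 (.pos 31 .mp ⟨21390001993,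 0, 0, 0, 0, 0, 0, 0, 0, ⟨0, 0⟩, 0⟩ 0 0) (.void 32 ⟨100000, 0, 0, 0, 0, 0, 0, 0, 0, ⟨0, 0⟩, 0⟩ 0 0))))))) (.void 59 ⟨95783, 0, 0, 4217, 0, 0, 0, 0, 0, ⟨0, 0⟩, 0⟩ 0 0))) (.cut .v 16777216 (.cut .v 8388608 (.cut .v 4194304 (.cut .v 2097152 (.cut .d 1837506 (.void 6 ⟨0, 0, 100000, 0, 0, 0, 0, 0, 0, ⟨0, 0⟩, 0⟩ 0 0) (.cut .v 1048576 (.cut .v 524288 (.cut .v 262144 (.pos 122 .pm ⟨0, 19518603, 0, 0, 0, 0, 0, 0, 0, ⟨0, 0⟩, 0⟩ 0 0) (.pos 123 .pm ⟨0, 51377814, 0, 0, 0, 0, 0, 0, 0, ⟨0, 0⟩, 0⟩ 0 0)) (.cut .d 2756259 (.pos 119 .pm ⟨0, 0, 0, 0, 0, 0, 0, 0, 0, ⟨0, 0⟩, 0⟩ 0 0) (.pos 119 .pm ⟨0, 121724159, 0, 0, 0, 0, 0, 0, 0, ⟨0, 0⟩, 0⟩ 0 0))) (.cut .d 2756259 (.pos 101 .pm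 ⟨0, 0, 0, 0, 0, 0, 0, 0, 0, ⟨0, 0⟩, 0⟩ 0 0) (.cut .d 3215635 (.cut .s 13959168 (.pos 101 .pm ⟨0, 0, 0, 0, 0, 0, 0, 0, 0, ⟨0, 0⟩, 0⟩ 0 0) (.cut .d 2985947 (.pos 101 .pm ⟨0, 0, 0, 0, 0, 0, 0, 0, 0, ⟨0, 0⟩, 0⟩ 0 0) (.cut .d 3100791 (.pos 101 .pm ⟨0, 206626348, 0, 0, 0, 0, 0, 0, 0, ⟨0, 0⟩, 0⟩ 0 0) (.pos 101 .pm ⟨0, 246262147, 0, 0, 0, 0, 0, 0, 0, ⟨0, 0⟩, 0⟩ 0 0)))) (.cut .s 13959168 (.pos 101 .pm ⟨0, 188077392, 0, 0, 0, 0, 0, 0, 0, ⟨0, 0⟩, 0⟩ 0 0) (.pos 101 .pm ⟨0, 296785515, 0, 0, 0, 0, 0, 0, 0, ⟨0, 0⟩, 0⟩ 0 0)))))) (.cut .d 1837506 (.pos 7 .pm ⟨0, 0, 326778388, 0, 0, 0, 0, 0, 0, ⟨0, 0⟩, 0⟩ 0 0) (.cut .d 2756259 (.pos 7 .pm ⟨0, 0, 0, 0, 0, 0, 0, 0, 0, ⟨0, 0⟩,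 0⟩ 0 0) (.cut .d 3215635 (.cut .s 13959168 (.pos 7 .pm ⟨0, 0, 0, 0, 0, 0, 0, 0, 0, ⟨0, 0⟩, 0⟩ 0 0) (.cut .v 3145728 (.cut .d 2985947 (.pos 112 .pm ⟨0, 0, 0, 0, 0, 0, 0, 0, 0, ⟨0, 0⟩, 0⟩ 0 0) (.cut .d 3100791 (.pos 112 .pm ⟨0, 255949231, 0, 0, 0, 0, 0, 0, 0, ⟨0, 0⟩, 0⟩ 0 0) (.cut .s 14057472 (.pos 112 .pm ⟨0, 245084040, 0, 0, 0, 0, 0, 0, 0, ⟨0, 0⟩, 0⟩ 0 0) (.pos 112 .pm ⟨0, 328519175, 0, 0, 0, 0, 0, 0, 0, ⟨0, 0⟩, 0⟩ 0 0)))) (.pos 113 .pm ⟨0, 320629152, 0, 0, 0, 0, 0, 0, 0, ⟨0, 0⟩, 0⟩ 0 0))) (.cut .s 13959168 (.cut .d 3445323 (.pos 7 .pm ⟨0, 214639603, 0, 0, 0, 0, 0, 0, 0, ⟨0, 0⟩, 0⟩ 0 0) (.pos 7 .pm ⟨0, 283228381, 0, 0, 0, 0, 0, 0, 0, ⟨0, 0⟩, 0⟩ 0 0)) (.cut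 .s 14057472 (.pos 7 .pm ⟨0, 364542141, 0, 0, 0, 0, 0, 0, 0, ⟨0, 0⟩, 0⟩ 0 0) (.void 7 ⟨0, 0, 0, 100000, 0, 0, 0, 0, 0, ⟨0, 0⟩, 0⟩ 0 0))))))) (.cut .d 1837506 (.pos 5 .pm ⟨0, 0, 115607398, 0, 0, 0, 0, 0, 0, ⟨0, 0⟩, 0⟩ 0 0) (.cut .d 2756259 (.pos 5 .pm ⟨0, 0, 0, 0, 0, 0, 0, 0, 0, ⟨0, 0⟩, 0⟩ 0 0) (.cut .d 3215635 (.pos 5 .pm ⟨0, 323821980, 0, 0, 0, 0, 0, 0, 0, ⟨0, 0⟩, 0⟩ 0 0) (.cut .s 13959168 (.pos 5 .pm ⟨0, 368952573, 0, 0, 0, 0, 0, 0, 0, ⟨0, 0⟩, 0⟩ 0 0) (.pos 5 .pm ⟨0, 618276533, 0, 0, 0, 0, 0, 0, 0, ⟨0, 0⟩, 0⟩ 0 0)))))) (.cut .d 1837506 (.pos 3 .pm ⟨0, 0, 0, 0, 0, 0, 0, 0, 0, ⟨0, 0⟩, 0⟩ 0 0) (.pos 3 .pm ⟨0, 529511989, 0, 0, 0, 0, 0, 0, 0, ⟨0, 0⟩, 0⟩ 0 0)))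 (.cut .v 268435456 (.cut .v 67108864 (.pos 11 .pp ⟨0, 122092786, 0, 0, 0, 0, 0, 0, 0, ⟨0, 0⟩, 0⟩ 0 0) (.cut .v 134217728 (.cut .v 100663296 (.pos 43 .pp ⟨3002964165, 0, 0, 0, 0, 0, 0, 0, 0, ⟨0, 0⟩, 0⟩ 0 0) (.pos 44 .pp ⟨9547238918, 4978239082, 0, 0, 0, 0, 0, 0, 0, ⟨0, 0⟩, 0⟩ 0 0)) (.pos 32 .pp ⟨21819025738, 16523677608, 0, 0, 0, 0, 0, 0, 0, ⟨0, 0⟩, 0⟩ 0 0))) (.void 59 ⟨0, 0, 0, 100000, 0, 0, 0, 0, 0, ⟨0, 0⟩, 0⟩ 0 0)))),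
    by decide +kernel⟩

def covers22 : cell.Covers table row22.1 :=
  ⟨(.cut .d 0 (.cut .v 16777216 (.cut .d (-8388608) (.void 1 ⟨0, 0, 0, 0, 0, 100000, 0, 0, 0, ⟨0, 0⟩, 0⟩ 0 0) (.cut .v 8388608 (.pos 2 .mm ⟨0, 0, 3445010962, 0, 0, 0, 0, 0, 0, ⟨0, 0⟩, 0⟩ 0 0) (.cut .d (-4194304) (.void 3 ⟨100000, 0, 0, 0, 0, 0, 0, 0, 0, ⟨0, 0⟩, 0⟩ 0 0) (.cut .d (-2097152) (.void 3 ⟨84478, 0, 15522, 0, 0, 0, 0, 0, 0, ⟨0, 0⟩, 0⟩ 0 0) (.cut .d (-1048576) (.void 3 ⟨84478, 0, 15522, 0, 0, 0, 0, 0, 0, ⟨0, 0⟩, 0⟩ 0 0) (.cut .v 12582912 (.pos 8 .mm ⟨494186218, 0, 94610961, 0, 0, 0, 0, 0, 0, ⟨0, 0⟩, 0⟩ 0 0) (.pos 9 .mm ⟨882799805, 0, 0, 0, 0, 0, 0, 0, 0, ⟨0, 0⟩, 0⟩ 0 0))))))) (.cut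 .d (-8388608) (.void 58 ⟨100000, 0, 0, 0, 0, 0, 0, 0, 0, ⟨0, 0⟩, 0⟩ 0 0) (.cut .v 268435456 (.cut .d (-4194304) (.void 10 ⟨100000, 0, 0, 0, 0, 0, 0, 0, 0, ⟨0, 0⟩, 0⟩ 0 0) (.cut .d (-2097152) (.void 10 ⟨100000, 0, 0, 0, 0, 0, 0, 0, 0, ⟨0, 0⟩, 0⟩ 0 0) (.cut .v 67108864 (.cut .d (-1048576) (.void 11 ⟨100000, 0, 0, 0, 0, 0, 0, 0, 0, ⟨0, 0⟩, 0⟩ 0 0) (.cut .v 33554432 (.pos 13 .mp ⟨1341096506, 0, 0, 0, 0, 0, 0, 0, 0, ⟨0, 0⟩, 0⟩ 0 0) (.pos 14 .mp ⟨5124090939, 0, 0, 0, 0, 0, 0, 0, 0, ⟨0, 0⟩, 0⟩ 0 0))) (.pos 12 .mp ⟨87744493112, 0, 0, 0, 0, 0, 0, 0, 0, ⟨0, 0⟩, 0⟩ 0 0)))) (.void 59 ⟨93619, 0, 0, 6381, 0, 0, 0, 0, 0, ⟨0, 0⟩, 0⟩ 0 0)))) (.cut .v 16777216 (.cut .v 8388608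 (.cut .v 4194304 (.cut .v 2097152 (.cut .d 1553447 (.void 6 ⟨0, 0, 100000, 0, 0, 0, 0, 0, 0, ⟨0, 0⟩, 0⟩ 0 0) (.cut .v 1048576 (.cut .d 2330170 (.pos 100 .pm ⟨0, 0, 2658171107, 0, 0, 0, 0, 0, 0, ⟨0, 0⟩, 0⟩ 0 0) (.cut .v 524288 (.cut .v 262144 (.pos 122 .pm ⟨0, 31555848, 0, 0, 0, 0, 0, 0, 0, ⟨0, 0⟩, 0⟩ 0 0) (.pos 123 .pm ⟨0, 84671143, 0, 0, 0, 0, 0, 0, 0, ⟨0, 0⟩, 0⟩ 0 0)) (.cut .d 2718532 (.pos 119 .pm ⟨0, 120784867, 0, 0, 0, 0, 0, 0, 0, ⟨0, 0⟩, 0⟩ 0 0) (.pos 119 .pm ⟨0, 175077187, 0, 0, 0, 0, 0, 0, 0, ⟨0, 0⟩, 0⟩ 0 0)))) (.cut .d 2330170 (.pos 101 .pm ⟨0, 0, 0, 0, 0, 0, 0, 0, 0, ⟨0, 0⟩, 0⟩ 0 0) (.cut .d 2718532 (.cut .s 14319616 (.pos 101 .pm ⟨0, 0, 0, 0, 0,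 0, 0, 0, 0, ⟨0, 0⟩, 0⟩ 0 0) (.cut .d 2524351 (.pos 101 .pm ⟨0, 0, 0, 0, 0, 0, 0, 0, 0, ⟨0, 0⟩, 0⟩ 0 0) (.cut .s 14401536 (.pos 101 .pm ⟨0, 0, 0, 0, 0, 0, 0, 0, 0, ⟨0, 0⟩, 0⟩ 0 0) (.cut .d 2621441 (.pos 101 .pm ⟨0, 0, 0, 0, 0, 0, 0, 0, 0, ⟨0, 0⟩, 0⟩ 0 0) (.pos 101 .pm ⟨0, 279611068, 0, 0, 0, 0, 0, 0, 0, ⟨0, 0⟩, 0⟩ 0 0))))) (.cut .s 14319616 (.cut .d 2912713 (.pos 101 .pm ⟨0, 184549523, 0, 0, 0, 0, 0, 0, 0, ⟨0, 0⟩, 0⟩ 0 0) (.cut .s 14237696 (.pos 101 .pm ⟨0, 231239671, 0, 0, 0, 0, 0, 0, 0, ⟨0, 0⟩, 0⟩ 0 0) (.pos 101 .pm ⟨0, 294878293, 0, 0, 0, 0, 0, 0, 0, ⟨0, 0⟩, 0⟩ 0 0))) (.cut .s 14401536 (.cut .d 2912713 (.pos 101 .pm ⟨0, 279119917, 0, 0, 0, 0, 0, 0, 0, ⟨0,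 0⟩, 0⟩ 0 0) (.void 101 ⟨0, 0, 0, 100000, 0, 0, 0, 0, 0, ⟨0, 0⟩, 0⟩ 0 0)) (.pos 101 .pm ⟨0, 378671234, 0, 0, 0, 0, 0, 0, 0, ⟨0, 0⟩, 0⟩ 0 0))))))) (.cut .d 1553447 (.pos 7 .pm ⟨0, 0, 509774758, 0, 0, 0, 0, 0, 0, ⟨0, 0⟩, 0⟩ 0 0) (.cut .d 2330170 (.pos 7 .pm ⟨0, 0, 0, 0, 0, 0, 0, 0, 0, ⟨0, 0⟩, 0⟩ 0 0) (.cut .d 2718532 (.cut .s 14319616 (.pos 7 .pm ⟨0, 0, 0, 0, 0, 0, 0, 0, 0, ⟨0, 0⟩, 0⟩ 0 0) (.cut .v 3145728 (.cut .s 14401536 (.pos 112 .pm ⟨0, 0, 0, 0, 0, 0, 0, 0, 0, ⟨0, 0⟩, 0⟩ 0 0) (.pos 112 .pm ⟨0, 307414472, 0, 0, 0, 0, 0, 0, 0, ⟨0, 0⟩, 0⟩ 0 0)) (.pos 113 .pm ⟨0, 395950955, 0, 0, 0, 0, 0, 0, 0, ⟨0, 0⟩, 0⟩ 0 0))) (.cut .s 14319616 (.cut .v 3145728 (.cut .d 2912713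 (.pos 112 .pm ⟨0, 233850215, 0, 0, 0, 0, 0, 0, 0, ⟨0, 0⟩, 0⟩ 0 0) (.cut .s 14237696 (.pos 112 .pm ⟨0, 270308561, 0, 0, 0, 0, 0, 0, 0, ⟨0, 0⟩, 0⟩ 0 0) (.pos 112 .pm ⟨0, 354722194, 0, 0, 0, 0, 0, 0, 0, ⟨0, 0⟩, 0⟩ 0 0))) (.pos 113 .pm ⟨0, 367486052, 0, 0, 0, 0, 0, 0, 0, ⟨0, 0⟩, 0⟩ 0 0)) (.cut .s 14401536 (.cut .d 2912713 (.pos 7 .pm ⟨0, 370535034, 0, 0, 0, 0, 0, 0, 0, ⟨0, 0⟩, 0⟩ 0 0) (.void 7 ⟨0, 0, 0, 100000, 0, 0, 0, 0, 0, ⟨0, 0⟩, 0⟩ 0 0)) (.pos 7 .pm ⟨0, 551541123, 0, 0, 0, 0, 0, 0, 0, ⟨0, 0⟩, 0⟩ 0 0))))))) (.cut .d 1553447 (.pos 5 .pm ⟨0, 0, 86529891, 0, 0, 0, 0, 0, 0, ⟨0, 0⟩, 0⟩ 0 0) (.cut .d 2330170 (.pos 5 .pm ⟨0, 0, 0, 0, 0, 0, 0, 0, 0, ⟨0, 0⟩, 0⟩ 0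 0) (.cut .s 14319616 (.pos 5 .pm ⟨0, 427563957, 0, 0, 0, 0, 0, 0, 0, ⟨0, 0⟩, 0⟩ 0 0) (.pos 5 .pm ⟨0, 632514641, 0, 0, 0, 0, 0, 0, 0, ⟨0, 0⟩, 0⟩ 0 0))))) (.cut .d 1553447 (.pos 3 .pm ⟨0, 0, 0, 0, 0, 0, 0, 0, 0, ⟨0, 0⟩, 0⟩ 0 0) (.pos 3 .pm ⟨0, 700104996, 0, 0, 0, 0, 0, 0, 0, ⟨0, 0⟩, 0⟩ 0 0))) (.cut .v 268435456 (.cut .v 67108864 (.pos 11 .pp ⟨0, 300300242, 0, 0, 0, 0, 0, 0, 0, ⟨0, 0⟩, 0⟩ 0 0) (.cut .v 134217728 (.pos 31 .pp ⟨2987376251, 0, 0, 0, 0, 0, 0, 0, 0, ⟨0, 0⟩, 0⟩ 0 0) (.pos 32 .pp ⟨20616090426, 12426940542, 0, 0, 0, 0, 0, 0, 0, ⟨0, 0⟩, 0⟩ 0 0))) (.void 59 ⟨0, 0, 0, 100000, 0, 0, 0, 0, 0, ⟨0, 0⟩, 0⟩ 0 0)))),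
    by decide +kernel⟩

def covers23 : cell.Covers table row23.1 :=
  ⟨(.cut .d 0 (.cut .v 16777216 (.cut .d (-8388608) (.pos 1 .mm ⟨0, 0, 0, 0, 0, 167772160000, 0, 0, 0, ⟨0, 0⟩, 0⟩ 0 0) (.cut .v 8388608 (.pos 2 .mm ⟨0, 0, 4389798397, 0, 0, 0, 0, 0, 0, ⟨0, 0⟩, 0⟩ 0 0) (.cut .d (-4194304) (.void 3 ⟨100000, 0, 0, 0, 0, 0, 0, 0, 0, ⟨0, 0⟩, 0⟩ 0 0) (.cut .d (-2097152) (.void 3 ⟨84214, 0, 15786, 0, 0, 0, 0, 0, 0, ⟨0, 0⟩, 0⟩ 0 0) (.cut .d (-1048576) (.void 3 ⟨84214, 0, 15786, 0, 0, 0, 0, 0, 0, ⟨0, 0⟩, 0⟩ 0 0) (.pos 3 .mm ⟨412179627, 0, 279653150, 0, 0, 0, 0, 0, 0, ⟨0, 0⟩, 0⟩ 0 0)))))) (.cut .v 268435456 (.cut .d (-8388608) (.void 10 ⟨100000, 0, 0, 0, 0, 0, 0, 0,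 0, ⟨0, 0⟩, 0⟩ 0 0) (.cut .d (-4194304) (.void 10 ⟨100000, 0, 0, 0, 0, 0, 0, 0, 0, ⟨0, 0⟩, 0⟩ 0 0) (.cut .v 67108864 (.cut .d (-2097152) (.void 11 ⟨100000, 0, 0, 0, 0, 0, 0, 0, 0, ⟨0, 0⟩, 0⟩ 0 0) (.cut .v 33554432 (.pos 13 .mp ⟨2743952245, 0, 0, 0, 0, 0, 0, 0, 0, ⟨0, 0⟩, 0⟩ 0 0) (.pos 14 .mp ⟨7977093220, 0, 0, 0, 0, 0, 0, 0, 0, ⟨0, 0⟩, 0⟩ 0 0))) (.pos 12 .mp ⟨121653235752, 0, 0, 0, 0, 0, 0, 0, 0, ⟨0, 0⟩, 0⟩ 0 0)))) (.void 59 ⟨14895, 49006, 0, 0, 0, 36103, 0, 0, 0, ⟨0, 0⟩, 0⟩ 0 0))) (.cut .v 16777216 (.cut .v 8388608 (.cut .v 4194304 (.cut .v 2097152 (.cut .d 1328514 (.void 6 ⟨0, 0, 100000, 0, 0, 0, 0, 0, 0, ⟨0, 0⟩, 0⟩ 0 0) (.cut .v 1048576 (.cut .v 524288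 (.cut .v 262144 (.cut .v 131072 (.pos 128 .pm ⟨0, 20788472, 0, 0, 0, 0, 0, 0, 0, ⟨0, 0⟩, 0⟩ 0 0) (.pos 129 .pm ⟨0, 50604575, 0, 0, 0, 0, 0, 0, 0, ⟨0, 0⟩, 0⟩ 0 0)) (.pos 123 .pm ⟨0, 82725507, 0, 0, 0, 0, 0, 0, 0, ⟨0, 0⟩, 0⟩ 0 0)) (.cut .d 1992771 (.pos 119 .pm ⟨0, 0, 62963440, 0, 0, 0, 0, 0, 0, ⟨0, 0⟩, 0⟩ 0 0) (.cut .d 2324899 (.pos 119 .pm ⟨0, 154369610, 0, 0, 0, 0, 0, 0, 0, ⟨0, 0⟩, 0⟩ 0 0) (.cut .s 14647296 (.pos 119 .pm ⟨0, 184843205, 0, 0, 0, 0, 0, 0, 0, ⟨0, 0⟩, 0⟩ 0 0) (.pos 119 .pm ⟨0, 270857819, 0, 0, 0, 0, 0, 0, 0, ⟨0, 0⟩, 0⟩ 0 0))))) (.cut .d 1992771 (.pos 101 .pm ⟨0, 0, 0, 0, 0, 0, 0, 0, 0, ⟨0, 0⟩, 0⟩ 0 0) (.cut .d 2324899 (.cut .s 14647296 (.pos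 101 .pm ⟨0, 0, 0, 0, 0, 0, 0, 0, 0, ⟨0, 0⟩, 0⟩ 0 0) (.cut .d 2158835 (.pos 101 .pm ⟨0, 0, 0, 0, 0, 0, 0, 0, 0, ⟨0, 0⟩, 0⟩ 0 0) (.cut .s 14729216 (.pos 101 .pm ⟨0, 250701690, 0, 0, 0, 0, 0, 0, 0, ⟨0, 0⟩, 0⟩ 0 0) (.cut .v 1572864 (.pos 120 .pm ⟨0, 315989126, 0, 0, 0, 0, 0, 0, 0, ⟨0, 0⟩, 0⟩ 0 0) (.pos 121 .pm ⟨0, 373612322, 0, 0, 0, 0, 0, 0, 0, ⟨0, 0⟩, 0⟩ 0 0))))) (.cut .s 14647296 (.cut .d 2490963 (.pos 101 .pm ⟨0, 224483238, 0, 0, 0, 0, 0, 0, 0, ⟨0, 0⟩, 0⟩ 0 0) (.cut .s 14565376 (.cut .v 1572864 (.pos 120 .pm ⟨0, 246758468, 0, 0, 0, 0, 0, 0, 0, ⟨0, 0⟩, 0⟩ 0 0) (.pos 121 .pm ⟨0, 288057110, 0, 0, 0, 0, 0, 0, 0, ⟨0, 0⟩, 0⟩ 0 0)) (.pos 101 .pm ⟨0, 367981216, 0,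 0, 0, 0, 0, 0, 0, ⟨0, 0⟩, 0⟩ 0 0))) (.cut .v 1572864 (.pos 120 .pm ⟨0, 384849059, 0, 0, 0, 0, 0, 0, 0, ⟨0, 0⟩, 0⟩ 0 0) (.cut .s 14729216 (.pos 121 .pm ⟨0, 425746421, 0, 0, 0, 0, 0, 0, 0, ⟨0, 0⟩, 0⟩ 0 0) (.void 121 ⟨0, 0, 0, 100000, 0, 0, 0, 0, 0, ⟨0, 0⟩, 0⟩ 0 0)))))))) (.cut .d 1328514 (.pos 7 .pm ⟨0, 0, 799327999, 0, 0, 0, 0, 0, 0, ⟨0, 0⟩, 0⟩ 0 0) (.cut .d 1992771 (.pos 7 .pm ⟨0, 0, 0, 0, 0, 0, 0, 0, 0, ⟨0, 0⟩, 0⟩ 0 0) (.cut .d 2324899 (.cut .s 14647296 (.pos 7 .pm ⟨0, 0, 0, 0, 0, 0, 0, 0, 0, ⟨0, 0⟩, 0⟩ 0 0) (.pos 7 .pm ⟨0, 399079936, 0, 0, 0, 0, 0, 0, 0, ⟨0, 0⟩, 0⟩ 0 0)) (.cut .s 14647296 (.cut .s 14565376 (.pos 7 .pm ⟨0, 339217562, 0, 0, 0, 0, 0, 0, 0,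 ⟨0, 0⟩, 0⟩ 0 0) (.cut .d 2490963 (.pos 7 .pm ⟨0, 356692464, 0, 0, 0, 0, 0, 0, 0, ⟨0, 0⟩, 0⟩ 0 0) (.pos 7 .pm ⟨0, 487724301, 0, 0, 0, 0, 0, 0, 0, ⟨0, 0⟩, 0⟩ 0 0))) (.cut .s 14729216 (.pos 7 .pm ⟨0, 556739798, 0, 0, 0, 0, 0, 0, 0, ⟨0, 0⟩, 0⟩ 0 0) (.void 7 ⟨0, 0, 0, 100000, 0, 0, 0, 0, 0, ⟨0, 0⟩, 0⟩ 0 0))))))) (.cut .d 1328514 (.pos 5 .pm ⟨0, 0, 20622700, 0, 0, 0, 0, 0, 0, ⟨0, 0⟩, 0⟩ 0 0) (.cut .d 1992771 (.pos 5 .pm ⟨0, 0, 0, 0, 0, 0, 0, 0, 0, ⟨0, 0⟩, 0⟩ 0 0) (.cut .s 14647296 (.pos 5 .pm ⟨0, 589087100, 0, 0, 0, 0, 0, 0, 0, ⟨0, 0⟩, 0⟩ 0 0) (.pos 5 .pm ⟨0, 892884920, 0, 0, 0, 0, 0, 0, 0, ⟨0, 0⟩, 0⟩ 0 0))))) (.pos 3 .pm ⟨0, 537879479, 0, 0, 0, 0, 0, 0, 0, ⟨0,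 0⟩, 0⟩ 0 0)) (.cut .v 268435456 (.pos 10 .pp ⟨0, 751611501, 0, 0, 0, 0, 0, 0, 0, ⟨0, 0⟩, 0⟩ 0 0) (.void 59 ⟨0, 0, 0, 100000, 0, 0, 0, 0, 0, ⟨0, 0⟩, 0⟩ 0 0)))),
    by decide +kernel⟩

def covers24 : cell.Covers table row24.1 :=
  ⟨(.cut .d 0 (.cut .v 16777216 (.cut .d (-8388608) (.pos 1 .mm ⟨0, 0, 0, 0, 0, 167772160000, 0, 0, 0, ⟨0, 0⟩, 0⟩ 0 0) (.cut .v 8388608 (.void 2 ⟨0, 0, 100000, 0, 0, 0, 0, 0, 0, ⟨0, 0⟩, 0⟩ 0 0) (.cut .d (-4194304) (.void 3 ⟨100000, 0, 0, 0, 0, 0, 0, 0, 0, ⟨0, 0⟩, 0⟩ 0 0) (.cut .v 12582912 (.pos 8 .mm ⟨1435401867, 0, 1564275881, 0, 0, 0, 0, 0, 0, ⟨0, 0⟩, 0⟩ 0 0) (.pos 9 .mm ⟨3075799202, 0, 0, 0, 0, 0, 0, 0, 0, ⟨0, 0⟩, 0⟩ 0 0))))) (.cut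 .d (-8388608) (.void 58 ⟨100000, 0, 0, 0, 0, 0, 0, 0, 0, ⟨0, 0⟩, 0⟩ 0 0) (.cut .v 268435456 (.cut .d (-4194304) (.void 10 ⟨100000, 0, 0, 0, 0, 0, 0, 0, 0, ⟨0, 0⟩, 0⟩ 0 0) (.cut .v 67108864 (.cut .d (-2097152) (.void 11 ⟨100000, 0, 0, 0, 0, 0, 0, 0, 0, ⟨0, 0⟩, 0⟩ 0 0) (.pos 11 .mp ⟨5159223790, 0, 0, 0, 0, 0, 0, 0, 0, ⟨0, 0⟩, 0⟩ 0 0)) (.pos 12 .mp ⟨125368030320, 0, 0, 0, 0, 0, 0, 0, 0, ⟨0, 0⟩, 0⟩ 0 0))) (.void 59 ⟨93377, 0, 0, 6623, 0, 0, 0, 0, 0, ⟨0, 0⟩, 0⟩ 0 0)))) (.cut .v 16777216 (.cut .v 8388608 (.cut .v 4194304 (.cut .d 1113533 (.pos 4 .pm ⟨0, 0, 5800803185, 0, 0, 0, 0, 0, 0, ⟨0, 0⟩, 0⟩ 0 0) (.cut .v 2097152 (.cut .v 1048576 (.cut .d 1670300 (.pos 100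 .pm ⟨0, 0, 4388509345, 0, 0, 0, 0, 0, 0, ⟨0, 0⟩, 0⟩ 0 0) (.cut .v 524288 (.cut .v 262144 (.cut .v 131072 (.pos 128 .pm ⟨0, 31031361, 0, 0, 0, 0, 0, 0, 0, ⟨0, 0⟩, 0⟩ 0 0) (.pos 129 .pm ⟨0, 83888097, 0, 0, 0, 0, 0, 0, 0, ⟨0, 0⟩, 0⟩ 0 0)) (.pos 123 .pm ⟨0, 141078386, 0, 0, 0, 0, 0, 0, 0, ⟨0, 0⟩, 0⟩ 0 0)) (.cut .d 1948683 (.pos 119 .pm ⟨0, 178009826, 0, 0, 0, 0, 0, 0, 0, ⟨0, 0⟩, 0⟩ 0 0) (.cut .s 14942208 (.pos 119 .pm ⟨0, 233447579, 0, 0, 0, 0, 0, 0, 0, ⟨0, 0⟩, 0⟩ 0 0) (.pos 119 .pm ⟨0, 342544115, 0, 0, 0, 0, 0, 0, 0, ⟨0, 0⟩, 0⟩ 0 0))))) (.cut .d 1670300 (.pos 101 .pm ⟨0, 0, 0, 0, 0, 0, 0, 0, 0, ⟨0, 0⟩, 0⟩ 0 0) (.cut .d 1948683 (.cut .v 1572864 (.cut .s 14942208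 (.pos 120 .pm ⟨0, 0, 0, 0, 0, 0, 0, 0, 0, ⟨0, 0⟩, 0⟩ 0 0) (.cut .s 15007744 (.pos 120 .pm ⟨0, 0, 0, 0, 0, 0, 0, 0, 0, ⟨0, 0⟩, 0⟩ 0 0) (.pos 120 .pm ⟨0, 318534014, 0, 0, 0, 0, 0, 0, 0, ⟨0, 0⟩, 0⟩ 0 0))) (.pos 121 .pm ⟨0, 324006712, 0, 0, 0, 0, 0, 0, 0, ⟨0, 0⟩, 0⟩ 0 0)) (.cut .s 14942208 (.cut .d 2087875 (.pos 101 .pm ⟨0, 270620767, 0, 0, 0, 0, 0, 0, 0, ⟨0, 0⟩, 0⟩ 0 0) (.cut .s 14876672 (.pos 101 .pm ⟨0, 324279386, 0, 0, 0, 0, 0, 0, 0, ⟨0, 0⟩, 0⟩ 0 0) (.pos 101 .pm ⟨0, 433627722, 0, 0, 0, 0, 0, 0, 0, ⟨0, 0⟩, 0⟩ 0 0))) (.cut .d 2087875 (.cut .s 15007744 (.pos 101 .pm ⟨0, 401588303, 0, 0, 0, 0, 0, 0, 0, ⟨0, 0⟩, 0⟩ 0 0) (.pos 101 .pm ⟨0, 541715203, 0, 0, 0, 0,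 0, 0, 0, ⟨0, 0⟩, 0⟩ 0 0)) (.void 101 ⟨0, 0, 0, 100000, 0, 0, 0, 0, 0, ⟨0, 0⟩, 0⟩ 0 0)))))) (.cut .d 1670300 (.pos 7 .pm ⟨0, 0, 0, 0, 0, 0, 0, 0, 0, ⟨0, 0⟩, 0⟩ 0 0) (.cut .d 1948683 (.pos 7 .pm ⟨0, 415780123, 0, 0, 0, 0, 0, 0, 0, ⟨0, 0⟩, 0⟩ 0 0) (.cut .s 14942208 (.pos 7 .pm ⟨0, 500223349, 0, 0, 0, 0, 0, 0, 0, ⟨0, 0⟩, 0⟩ 0 0) (.pos 7 .pm ⟨0, 796596075, 0, 0, 0, 0, 0, 0, 0, ⟨0, 0⟩, 0⟩ 0 0)))))) (.cut .d 1113533 (.pos 5 .pm ⟨0, 0, 783408669, 0, 0, 0, 0, 0, 0, ⟨0, 0⟩, 0⟩ 0 0) (.pos 5 .pm ⟨0, 801103188, 0, 0, 0, 0, 0, 0, 0, ⟨0, 0⟩, 0⟩ 0 0))) (.pos 3 .pm ⟨0, 911221186, 0, 0, 0, 0, 0, 0, 0, ⟨0, 0⟩, 0⟩ 0 0)) (.cut .v 268435456 (.pos 10 .pp ⟨0, 1458773637, 0, 0, 0,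 0, 0, 0, 0, ⟨0, 0⟩, 0⟩ 0 0) (.void 59 ⟨0, 0, 0, 100000, 0, 0, 0, 0, 0, ⟨0, 0⟩, 0⟩ 0 0)))),
    by decide +kernel⟩

def covers25 : cell.Covers table row25.1 :=
  ⟨(.cut .d 0 (.cut .v 16777216 (.cut .d (-8388608) (.pos 1 .mm ⟨0, 0, 0, 0, 0, 167772160000, 0, 0, 0, ⟨0, 0⟩, 0⟩ 0 0) (.cut .v 8388608 (.pos 2 .mm ⟨0, 0, 167772160000, 0, 0, 0, 0, 0, 0, ⟨0, 0⟩, 0⟩ 0 0) (.cut .d (-4194304) (.void 3 ⟨100000, 0, 0, 0, 0, 0, 0, 0, 0, ⟨0, 0⟩, 0⟩ 0 0) (.pos 3 .mm ⟨2202673036, 0, 2324147026, 0, 0, 0, 0, 0, 0, ⟨0, 0⟩, 0⟩ 0 0)))) (.cut .v 268435456 (.cut .d (-8388608) (.void 10 ⟨100000, 0, 0, 0, 0, 0, 0, 0, 0, ⟨0, 0⟩, 0⟩ 0 0) (.cut .d (-4194304) (.void 10 ⟨100000, 0, 0, 0,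 0, 0, 0, 0, 0, ⟨0, 0⟩, 0⟩ 0 0) (.cut .v 67108864 (.cut .v 33554432 (.pos 13 .mp ⟨6643391138, 0, 0, 0, 0, 0, 0, 0, 0, ⟨0, 0⟩, 0⟩ 0 0) (.pos 14 .mp ⟨16232403002, 0, 0, 0, 0, 0, 0, 0, 0, ⟨0, 0⟩, 0⟩ 0 0)) (.pos 12 .mp ⟨127282108615, 0, 0, 0, 0, 0, 0, 0, 0, ⟨0, 0⟩, 0⟩ 0 0)))) (.void 59 ⟨95530, 0, 0, 4470, 0, 0, 0, 0, 0, ⟨0, 0⟩, 0⟩ 0 0))) (.cut .v 16777216 (.cut .v 8388608 (.cut .v 4194304 (.cut .d 948278 (.pos 4 .pm ⟨0, 0, 7217621756, 0, 0, 0, 0, 0, 0, ⟨0, 0⟩, 0⟩ 0 0) (.cut .v 2097152 (.cut .v 1048576 (.cut .d 1422417 (.pos 100 .pm ⟨0, 0, 167772160000, 0, 0, 0, 0, 0, 0, ⟨0, 0⟩, 0⟩ 0 0) (.cut .v 524288 (.cut .v 262144 (.cut .v 131072 (.pos 128 .pm ⟨0, 38586499,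 0, 0, 0, 0, 0, 0, 0, ⟨0, 0⟩, 0⟩ 0 0) (.pos 129 .pm ⟨0, 99687384, 0, 0, 0, 0, 0, 0, 0, ⟨0, 0⟩, 0⟩ 0 0)) (.pos 123 .pm ⟨0, 166368451, 0, 0, 0, 0, 0, 0, 0, ⟨0, 0⟩, 0⟩ 0 0)) (.cut .d 1659487 (.pos 119 .pm ⟨0, 191950404, 0, 0, 0, 0, 0, 0, 0, ⟨0, 0⟩, 0⟩ 0 0) (.cut .s 15171584 (.cut .d 1778022 (.pos 119 .pm ⟨0, 235109074, 0, 0, 0, 0, 0, 0, 0, ⟨0, 0⟩, 0⟩ 0 0) (.pos 119 .pm ⟨0, 323627448, 0, 0, 0, 0, 0, 0, 0, ⟨0, 0⟩, 0⟩ 0 0)) (.cut .s 15220736 (.pos 119 .pm ⟨0, 361675878, 0, 0, 0, 0, 0, 0, 0, ⟨0, 0⟩, 0⟩ 0 0) (.pos 119 .pm ⟨0, 423253095, 0, 0, 0, 0, 0, 0, 0, ⟨0, 0⟩, 0⟩ 0 0)))))) (.cut .d 1422417 (.pos 101 .pm ⟨0, 0, 391185394, 0, 0, 0, 0, 0, 0, ⟨0, 0⟩, 0⟩ 0 0) (.cut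 .d 1659487 (.pos 101 .pm ⟨0, 299961846, 0, 0, 0, 0, 0, 0, 0, ⟨0, 0⟩, 0⟩ 0 0) (.cut .s 15171584 (.cut .d 1778022 (.pos 101 .pm ⟨0, 325690004, 0, 0, 0, 0, 0, 0, 0, ⟨0, 0⟩, 0⟩ 0 0) (.cut .s 15122432 (.pos 101 .pm ⟨0, 393828209, 0, 0, 0, 0, 0, 0, 0, ⟨0, 0⟩, 0⟩ 0 0) (.pos 101 .pm ⟨0, 488163087, 0, 0, 0, 0, 0, 0, 0, ⟨0, 0⟩, 0⟩ 0 0))) (.cut .d 1778022 (.cut .s 15220736 (.pos 101 .pm ⟨0, 441514454, 0, 0, 0, 0, 0, 0, 0, ⟨0, 0⟩, 0⟩ 0 0) (.pos 101 .pm ⟨0, 543025698, 0, 0, 0, 0, 0, 0, 0, ⟨0, 0⟩, 0⟩ 0 0)) (.void 101 ⟨0, 0, 0, 100000, 0, 0, 0, 0, 0, ⟨0, 0⟩, 0⟩ 0 0)))))) (.cut .d 1422417 (.pos 7 .pm ⟨0, 0, 0, 0, 0, 0, 0, 0, 0, ⟨0, 0⟩, 0⟩ 0 0) (.cut .s 15171584 (.pos 7 .pm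 ⟨0, 593461276, 0, 0, 0, 0, 0, 0, 0, ⟨0, 0⟩, 0⟩ 0 0) (.pos 7 .pm ⟨0, 800707323, 0, 0, 0, 0, 0, 0, 0, ⟨0, 0⟩, 0⟩ 0 0))))) (.pos 5 .pm ⟨0, 755247374, 0, 0, 0, 0, 0, 0, 0, ⟨0, 0⟩, 0⟩ 0 0)) (.pos 3 .pm ⟨0, 1400723520, 0, 0, 0, 0, 0, 0, 0, ⟨0, 0⟩, 0⟩ 0 0)) (.pos 58 .pp ⟨0, 2408879625, 0, 0, 0, 0, 0, 0, 0, ⟨0, 0⟩, 0⟩ 0 0))),
    by decide +kernel⟩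

def covers26 : cell.Covers table row26.1 :=
  ⟨(.cut .d 0 (.cut .v 16777216 (.cut .d (-8388608) (.pos 1 .mm ⟨0, 0, 0, 0, 0, 167772160000, 0, 0, 0, ⟨0, 0⟩, 0⟩ 0 0) (.cut .v 8388608 (.pos 2 .mm ⟨0, 0, 167772160000, 0, 0, 0, 0, 0, 0, ⟨0, 0⟩, 0⟩ 0 0) (.cut .d (-4194304) (.void 3 ⟨100000, 0, 0, 0, 0, 0, 0, 0, 0, ⟨0, 0⟩, 0⟩ 0 0) (.pos 3 .mm ⟨1962913282, 0, 3136933965, 0, 0, 0, 0, 0, 0, ⟨0, 0⟩, 0⟩ 0 0)))) (.cut .v 268435456 (.cut .d (-8388608) (.void 10 ⟨100000, 0, 0, 0, 0, 0, 0, 0, 0, ⟨0, 0⟩, 0⟩ 0 0) (.cut .d (-4194304) (.void 10 ⟨100000, 0, 0, 0, 0, 0, 0, 0, 0, ⟨0, 0⟩, 0⟩ 0 0) (.cut .v 67108864 (.cut .v 33554432 (.pos 13 .mp ⟨6918691572, 0, 0, 0, 0, 0, 0, 0,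 0, ⟨0, 0⟩, 0⟩ 0 0) (.pos 14 .mp ⟨16815937012, 0, 0, 0, 0, 0, 0, 0, 0, ⟨0, 0⟩, 0⟩ 0 0)) (.pos 12 .mp ⟨128559866816, 0, 0, 0, 0, 0, 0, 0, 0, ⟨0, 0⟩, 0⟩ 0 0)))) (.void 59 ⟨95666, 0, 0, 4334, 0, 0, 0, 0, 0, ⟨0, 0⟩, 0⟩ 0 0))) (.cut .v 16777216 (.cut .v 8388608 (.cut .v 4194304 (.cut .v 2097152 (.cut .d 828061 (.pos 6 .pm ⟨0, 0, 167772160000, 0, 0, 0, 0, 0, 0, ⟨0, 0⟩, 0⟩ 0 0) (.cut .v 1048576 (.cut .v 524288 (.cut .d 1242092 (.void 118 ⟨0, 0, 100000, 0, 0, 0, 0, 0, 0, ⟨0, 0⟩, 0⟩ 0 0) (.cut .v 262144 (.cut .v 131072 (.pos 128 .pm ⟨0, 56661495, 0, 0, 0, 0, 0, 0, 0, ⟨0, 0⟩, 0⟩ 0 0) (.pos 129 .pm ⟨0, 137555448, 0, 0, 0, 0, 0, 0, 0, ⟨0, 0⟩, 0⟩ 0 0)) (.cut .d 1449107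 (.pos 123 .pm ⟨0, 192373695, 0, 0, 0, 0, 0, 0, 0, ⟨0, 0⟩, 0⟩ 0 0) (.pos 123 .pm ⟨0, 283837073, 0, 0, 0, 0, 0, 0, 0, ⟨0, 0⟩, 0⟩ 0 0)))) (.cut .d 1242092 (.pos 119 .pm ⟨0, 0, 99703067, 0, 0, 0, 0, 0, 0, ⟨0, 0⟩, 0⟩ 0 0) (.cut .d 1449107 (.cut .s 15400960 (.pos 119 .pm ⟨0, 0, 0, 0, 0, 0, 0, 0, 0, ⟨0, 0⟩, 0⟩ 0 0) (.cut .d 1345599 (.pos 119 .pm ⟨0, 282994912, 0, 0, 0, 0, 0, 0, 0, ⟨0, 0⟩, 0⟩ 0 0) (.cut .s 15466496 (.pos 119 .pm ⟨0, 328014643, 0, 0, 0, 0, 0, 0, 0, ⟨0, 0⟩, 0⟩ 0 0) (.pos 119 .pm ⟨0, 485120132, 0, 0, 0, 0, 0, 0, 0, ⟨0, 0⟩, 0⟩ 0 0)))) (.cut .s 15400960 (.cut .d 1552615 (.pos 119 .pm ⟨0, 299741176, 0, 0, 0, 0, 0, 0, 0, ⟨0, 0⟩, 0⟩ 0 0) (.cut .s 15335424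 (.pos 119 .pm ⟨0, 354410479, 0, 0, 0, 0, 0, 0, 0, ⟨0, 0⟩, 0⟩ 0 0) (.pos 119 .pm ⟨0, 483936472, 0, 0, 0, 0, 0, 0, 0, ⟨0, 0⟩, 0⟩ 0 0))) (.cut .v 786432 (.pos 124 .pm ⟨0, 473041575, 0, 0, 0, 0, 0, 0, 0, ⟨0, 0⟩, 0⟩ 0 0) (.pos 125 .pm ⟨0, 606298204, 0, 0, 0, 0, 0, 0, 0, ⟨0, 0⟩, 0⟩ 0 0)))))) (.cut .d 1242092 (.pos 101 .pm ⟨0, 0, 0, 0, 0, 0, 0, 0, 0, ⟨0, 0⟩, 0⟩ 0 0) (.cut .d 1449107 (.cut .s 15400960 (.pos 101 .pm ⟨0, 0, 0, 0, 0, 0, 0, 0, 0, ⟨0, 0⟩, 0⟩ 0 0) (.cut .s 15466496 (.pos 101 .pm ⟨0, 483138824, 0, 0, 0, 0, 0, 0, 0, ⟨0, 0⟩, 0⟩ 0 0) (.cut .d 1345599 (.pos 101 .pm ⟨0, 524673808, 0, 0, 0, 0, 0, 0, 0, ⟨0, 0⟩, 0⟩ 0 0) (.pos 101 .pm ⟨0, 666252081, 0, 0, 0, 0,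 0, 0, 0, ⟨0, 0⟩, 0⟩ 0 0)))) (.cut .s 15400960 (.cut .d 1552615 (.pos 101 .pm ⟨0, 433888479, 0, 0, 0, 0, 0, 0, 0, ⟨0, 0⟩, 0⟩ 0 0) (.cut .s 15335424 (.pos 101 .pm ⟨0, 481586069, 0, 0, 0, 0, 0, 0, 0, ⟨0, 0⟩, 0⟩ 0 0) (.pos 101 .pm ⟨0, 675528323, 0, 0, 0, 0, 0, 0, 0, ⟨0, 0⟩, 0⟩ 0 0))) (.cut .s 15466496 (.pos 101 .pm ⟨0, 836351651, 0, 0, 0, 0, 0, 0, 0, ⟨0, 0⟩, 0⟩ 0 0) (.void 101 ⟨0, 0, 0, 100000, 0, 0, 0, 0, 0, ⟨0, 0⟩, 0⟩ 0 0))))))) (.cut .d 828061 (.pos 7 .pm ⟨0, 0, 2459534022, 0, 0, 0, 0, 0, 0, ⟨0, 0⟩, 0⟩ 0 0) (.cut .d 1242092 (.pos 7 .pm ⟨0, 0, 0, 0, 0, 0, 0, 0, 0, ⟨0, 0⟩, 0⟩ 0 0) (.cut .s 15400960 (.pos 7 .pm ⟨0, 801907107, 0, 0, 0, 0, 0, 0, 0, ⟨0, 0⟩, 0⟩ 0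 0) (.cut .d 1449107 (.pos 7 .pm ⟨0, 983622076, 0, 0, 0, 0, 0, 0, 0, ⟨0, 0⟩, 0⟩ 0 0) (.pos 7 .pm ⟨0, 1504868233, 0, 0, 0, 0, 0, 0, 0, ⟨0, 0⟩, 0⟩ 0 0)))))) (.cut .d 828061 (.pos 5 .pm ⟨0, 0, 746764969, 0, 0, 0, 0, 0, 0, ⟨0, 0⟩, 0⟩ 0 0) (.pos 5 .pm ⟨0, 1583764166, 0, 0, 0, 0, 0, 0, 0, ⟨0, 0⟩, 0⟩ 0 0))) (.pos 3 .pm ⟨0, 2198422635, 0, 0, 0, 0, 0, 0, 0, ⟨0, 0⟩, 0⟩ 0 0)) (.pos 58 .pp ⟨0, 3949354991, 0, 0, 0, 0, 0, 0, 0, ⟨0, 0⟩, 0⟩ 0 0))),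
    by decide +kernel⟩

def covers27 : cell.Covers table row27.1 :=
  ⟨(.cut .d 0 (.cut .v 16777216 (.cut .d (-8388608) (.pos 1 .mm ⟨0, 0, 0, 0, 0, 167772160000, 0, 0, 0, ⟨0, 0⟩, 0⟩ 0 0) (.cut .v 8388608 (.pos 2 .mm ⟨0, 0, 167772160000, 0, 0, 0, 0, 0, 0, ⟨0, 0⟩, 0⟩ 0 0) (.cut .d (-4194304) (.void 3 ⟨100000, 0, 0, 0, 0, 0, 0, 0, 0, ⟨0, 0⟩, 0⟩ 0 0) (.pos 3 .mm ⟨1224969414, 0, 4813562040, 0, 0, 0, 0, 0, 0, ⟨0, 0⟩, 0⟩ 0 0)))) (.cut .v 268435456 (.cut .d (-8388608) (.void 10 ⟨100000, 0, 0, 0, 0, 0, 0, 0, 0, ⟨0, 0⟩, 0⟩ 0 0) (.cut .d (-4194304) (.void 10 ⟨100000, 0, 0, 0, 0, 0, 0, 0, 0, ⟨0, 0⟩, 0⟩ 0 0) (.cut .v 67108864 (.pos 11 .mp ⟨14510553793, 0, 0, 0, 0, 0,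 0, 0, 0, ⟨0, 0⟩, 0⟩ 0 0) (.pos 12 .mp ⟨127657709209, 0, 0, 0, 0, 0, 0, 0, 0, ⟨0, 0⟩, 0⟩ 0 0)))) (.void 59 ⟨95294, 0, 0, 4706, 0, 0, 0, 0, 0, ⟨0, 0⟩, 0⟩ 0 0))) (.cut .v 16777216 (.cut .v 8388608 (.cut .v 4194304 (.cut .v 2097152 (.cut .d 672505 (.pos 6 .pm ⟨0, 0, 167772160000, 0, 0, 0, 0, 0, 0, ⟨0, 0⟩, 0⟩ 0 0) (.cut .v 1048576 (.cut .v 524288 (.cut .v 262144 (.cut .d 1008758 (.pos 122 .pm ⟨0, 0, 167772160000, 0, 0, 0, 0, 0, 0, ⟨0, 0⟩, 0⟩ 0 0) (.cut .v 131072 (.cut .v 65536 (.pos 136 .pm ⟨0, 43317160, 0, 0, 0, 0, 0, 0, 0, ⟨0, 0⟩, 0⟩ 0 0) (.pos 137 .pm ⟨0, 111740547, 0, 0, 0, 0, 0, 0, 0, ⟨0, 0⟩, 0⟩ 0 0)) (.pos 129 .pm ⟨0, 186582647, 0, 0, 0, 0, 0, 0, 0, ⟨0,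 0⟩, 0⟩ 0 0))) (.cut .d 1008758 (.pos 123 .pm ⟨0, 0, 282072945, 0, 0, 0, 0, 0, 0, ⟨0, 0⟩, 0⟩ 0 0) (.cut .s 15654912 (.cut .d 1176884 (.pos 123 .pm ⟨0, 0, 0, 0, 0, 0, 0, 0, 0, ⟨0, 0⟩, 0⟩ 0 0) (.pos 123 .pm ⟨0, 305843374, 0, 0, 0, 0, 0, 0, 0, ⟨0, 0⟩, 0⟩ 0 0)) (.cut .d 1176884 (.cut .d 1092821 (.pos 123 .pm ⟨0, 272598963, 0, 0, 0, 0, 0, 0, 0, ⟨0, 0⟩, 0⟩ 0 0) (.pos 123 .pm ⟨0, 377400618, 0, 0, 0, 0, 0, 0, 0, ⟨0, 0⟩, 0⟩ 0 0)) (.pos 123 .pm ⟨0, 468540852, 0, 0, 0, 0, 0, 0, 0, ⟨0, 0⟩, 0⟩ 0 0))))) (.cut .d 1008758 (.pos 119 .pm ⟨0, 0, 0, 0, 0, 0, 0, 0, 0, ⟨0, 0⟩, 0⟩ 0 0) (.cut .s 15654912 (.cut .d 1176884 (.pos 119 .pm ⟨0, 0, 0, 0, 0, 0, 0, 0, 0, ⟨0, 0⟩, 0⟩ 0 0) (.cut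 .d 1260947 (.cut .s 15593472 (.pos 119 .pm ⟨0, 0, 0, 0, 0, 0, 0, 0, 0, ⟨0, 0⟩, 0⟩ 0 0) (.pos 119 .pm ⟨0, 450003366, 0, 0, 0, 0, 0, 0, 0, ⟨0, 0⟩, 0⟩ 0 0)) (.cut .s 15593472 (.pos 119 .pm ⟨0, 452667031, 0, 0, 0, 0, 0, 0, 0, ⟨0, 0⟩, 0⟩ 0 0) (.pos 119 .pm ⟨0, 655514128, 0, 0, 0, 0, 0, 0, 0, ⟨0, 0⟩, 0⟩ 0 0)))) (.cut .d 1176884 (.cut .d 1092821 (.pos 119 .pm ⟨0, 401592751, 0, 0, 0, 0, 0, 0, 0, ⟨0, 0⟩, 0⟩ 0 0) (.cut .s 15716352 (.pos 119 .pm ⟨0, 447227595, 0, 0, 0, 0, 0, 0, 0, ⟨0, 0⟩, 0⟩ 0 0) (.pos 119 .pm ⟨0, 683002162, 0, 0, 0, 0, 0, 0, 0, ⟨0, 0⟩, 0⟩ 0 0))) (.pos 119 .pm ⟨0, 843841109, 0, 0, 0, 0, 0, 0, 0, ⟨0, 0⟩, 0⟩ 0 0))))) (.cut .d 1008758 (.pos 101 .pm ⟨0,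 0, 0, 0, 0, 0, 0, 0, 0, ⟨0, 0⟩, 0⟩ 0 0) (.cut .s 15654912 (.cut .d 1176884 (.pos 101 .pm ⟨0, 0, 0, 0, 0, 0, 0, 0, 0, ⟨0, 0⟩, 0⟩ 0 0) (.cut .s 15593472 (.pos 101 .pm ⟨0, 620431932, 0, 0, 0, 0, 0, 0, 0, ⟨0, 0⟩, 0⟩ 0 0) (.pos 101 .pm ⟨0, 817356975, 0, 0, 0, 0, 0, 0, 0, ⟨0, 0⟩, 0⟩ 0 0))) (.cut .d 1176884 (.cut .s 15716352 (.pos 101 .pm ⟨0, 706372244, 0, 0, 0, 0, 0, 0, 0, ⟨0, 0⟩, 0⟩ 0 0) (.pos 101 .pm ⟨0, 893791322, 0, 0, 0, 0, 0, 0, 0, ⟨0, 0⟩, 0⟩ 0 0)) (.pos 101 .pm ⟨0, 1423076332, 0, 0, 0, 0, 0, 0, 0, ⟨0, 0⟩, 0⟩ 0 0)))))) (.cut .d 672505 (.pos 7 .pm ⟨0, 0, 3793468635, 0, 0, 0, 0, 0, 0, ⟨0, 0⟩, 0⟩ 0 0) (.cut .s 15654912 (.pos 7 .pm ⟨0, 1061967408, 0, 0, 0, 0,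 0, 0, 0, ⟨0, 0⟩, 0⟩ 0 0) (.cut .d 1008758 (.pos 7 .pm ⟨0, 0, 0, 0, 0, 0, 0, 0, 0, ⟨0, 0⟩, 0⟩ 0 0) (.pos 7 .pm ⟨0, 1924888016, 0, 0, 0, 0, 0, 0, 0, ⟨0, 0⟩, 0⟩ 0 0))))) (.cut .d 672505 (.pos 5 .pm ⟨0, 0, 427068159, 0, 0, 0, 0, 0, 0, ⟨0, 0⟩, 0⟩ 0 0) (.pos 5 .pm ⟨0, 2409531406, 0, 0, 0, 0, 0, 0, 0, ⟨0, 0⟩, 0⟩ 0 0))) (.pos 3 .pm ⟨0, 3623125119, 0, 0, 0, 0, 0, 0, 0, ⟨0, 0⟩, 0⟩ 0 0)) (.pos 58 .pp ⟨0, 6751357731, 0, 0, 0, 0, 0, 0, 0, ⟨0, 0⟩, 0⟩ 0 0))),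
    by decide +kernel⟩

def covers28 : cell.Covers table row28.1 :=
  ⟨(.cut .d 0 (.cut .v 16777216 (.cut .d (-8388608) (.pos 1 .mm ⟨0, 0, 0, 0, 0, 167772160000, 0, 0, 0, ⟨0, 0⟩, 0⟩ 0 0) (.cut .v 8388608 (.void 2 ⟨0, 0, 100000, 0, 0, 0, 0, 0, 0, ⟨0, 0⟩, 0⟩ 0 0) (.pos 3 .mm ⟨10203305800, 0, 10310672826, 0, 0, 0, 0, 0, 0, ⟨0, 0⟩, 0⟩ 0 0))) (.cut .v 268435456 (.cut .d (-8388608) (.void 10 ⟨100000, 0, 0, 0, 0, 0, 0, 0, 0, ⟨0, 0⟩, 0⟩ 0 0) (.cut .d (-4194304) (.void 10 ⟨100000, 0, 0, 0, 0, 0, 0, 0, 0, ⟨0, 0⟩, 0⟩ 0 0) (.cut .v 67108864 (.pos 11 .mp ⟨13588936486, 0, 0, 0, 0, 0, 0, 0, 0, ⟨0, 0⟩, 0⟩ 0 0) (.pos 12 .mp ⟨122701491927, 0, 0, 0, 0, 0, 0, 0, 0, ⟨0, 0⟩, 0⟩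 0 0)))) (.void 59 ⟨95235, 0, 0, 4765, 0, 0, 0, 0, 0, ⟨0, 0⟩, 0⟩ 0 0))) (.cut .v 16777216 (.cut .v 8388608 (.cut .v 4194304 (.cut .d 531367 (.pos 4 .pm ⟨0, 0, 20165055891, 0, 0, 0, 0, 0, 0, ⟨0, 0⟩, 0⟩ 0 0) (.cut .v 2097152 (.cut .v 1048576 (.cut .v 524288 (.cut .v 262144 (.cut .d 797050 (.pos 122 .pm ⟨0, 0, 167772160000, 0, 0, 0, 0, 0, 0, ⟨0, 0⟩, 0⟩ 0 0) (.cut .v 131072 (.cut .v 65536 (.pos 136 .pm ⟨0, 58964609, 0, 0, 0, 0, 0, 0, 0, ⟨0, 0⟩, 0⟩ 0 0) (.pos 137 .pm ⟨0, 143451612, 0, 0, 0, 0, 0, 0, 0, ⟨0, 0⟩, 0⟩ 0 0)) (.cut .d 929892 (.pos 129 .pm ⟨0, 210261473, 0, 0, 0, 0, 0, 0, 0, ⟨0, 0⟩, 0⟩ 0 0) (.pos 129 .pm ⟨0, 295595940, 0, 0, 0, 0, 0, 0, 0, ⟨0, 0⟩, 0⟩ 0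 0)))) (.cut .d 797050 (.pos 123 .pm ⟨0, 0, 740866560, 0, 0, 0, 0, 0, 0, ⟨0, 0⟩, 0⟩ 0 0) (.cut .s 15876096 (.cut .d 929892 (.pos 123 .pm ⟨0, 0, 0, 0, 0, 0, 0, 0, 0, ⟨0, 0⟩, 0⟩ 0 0) (.cut .d 996313 (.pos 123 .pm ⟨0, 337202767, 0, 0, 0, 0, 0, 0, 0, ⟨0, 0⟩, 0⟩ 0 0) (.pos 123 .pm ⟨0, 452581884, 0, 0, 0, 0, 0, 0, 0, ⟨0, 0⟩, 0⟩ 0 0))) (.cut .d 929892 (.cut .d 863471 (.pos 123 .pm ⟨0, 328446231, 0, 0, 0, 0, 0, 0, 0, ⟨0, 0⟩, 0⟩ 0 0) (.cut .s 15925248 (.pos 123 .pm ⟨0, 386258149, 0, 0, 0, 0, 0, 0, 0, ⟨0, 0⟩, 0⟩ 0 0) (.pos 123 .pm ⟨0, 551615568, 0, 0, 0, 0, 0, 0, 0, ⟨0, 0⟩, 0⟩ 0 0))) (.pos 123 .pm ⟨0, 625968271, 0, 0, 0, 0, 0, 0, 0, ⟨0, 0⟩, 0⟩ 0 0))))) (.cut .d 797050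 (.pos 119 .pm ⟨0, 0, 0, 0, 0, 0, 0, 0, 0, ⟨0, 0⟩, 0⟩ 0 0) (.cut .d 929892 (.cut .s 15876096 (.pos 119 .pm ⟨0, 0, 0, 0, 0, 0, 0, 0, 0, ⟨0, 0⟩, 0⟩ 0 0) (.cut .s 15925248 (.pos 119 .pm ⟨0, 547138107, 0, 0, 0, 0, 0, 0, 0, ⟨0, 0⟩, 0⟩ 0 0) (.cut .d 863471 (.pos 119 .pm ⟨0, 585096139, 0, 0, 0, 0, 0, 0, 0, ⟨0, 0⟩, 0⟩ 0 0) (.pos 119 .pm ⟨0, 814137503, 0, 0, 0, 0, 0, 0, 0, ⟨0, 0⟩, 0⟩ 0 0)))) (.cut .s 15876096 (.cut .s 15826944 (.pos 119 .pm ⟨0, 494881829, 0, 0, 0, 0, 0, 0, 0, ⟨0, 0⟩, 0⟩ 0 0) (.cut .d 996313 (.pos 119 .pm ⟨0, 556320795, 0, 0, 0, 0, 0, 0, 0, ⟨0, 0⟩, 0⟩ 0 0) (.pos 119 .pm ⟨0, 823217960, 0, 0, 0, 0, 0, 0, 0, ⟨0, 0⟩, 0⟩ 0 0))) (.cut .v 786432 (.pos 124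 .pm ⟨0, 891604655, 0, 0, 0, 0, 0, 0, 0, ⟨0, 0⟩, 0⟩ 0 0) (.pos 125 .pm ⟨0, 1158202489, 0, 0, 0, 0, 0, 0, 0, ⟨0, 0⟩, 0⟩ 0 0)))))) (.cut .d 797050 (.pos 101 .pm ⟨0, 0, 0, 0, 0, 0, 0, 0, 0, ⟨0, 0⟩, 0⟩ 0 0) (.cut .s 15876096 (.pos 101 .pm ⟨0, 915586760, 0, 0, 0, 0, 0, 0, 0, ⟨0, 0⟩, 0⟩ 0 0) (.cut .d 929892 (.pos 101 .pm ⟨0, 1102314850, 0, 0, 0, 0, 0, 0, 0, ⟨0, 0⟩, 0⟩ 0 0) (.pos 101 .pm ⟨0, 1837500446, 0, 0, 0, 0, 0, 0, 0, ⟨0, 0⟩, 0⟩ 0 0))))) (.cut .s 15876096 (.pos 7 .pm ⟨0, 1590425193, 0, 0, 0, 0, 0, 0, 0, ⟨0, 0⟩, 0⟩ 0 0) (.pos 7 .pm ⟨0, 2231759630, 0, 0, 0, 0, 0, 0, 0, ⟨0, 0⟩, 0⟩ 0 0)))) (.pos 5 .pm ⟨0, 2944314152, 0, 0, 0, 0, 0, 0, 0, ⟨0, 0⟩, 0⟩ 0 0)) (.pos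 3 .pm ⟨0, 5713514947, 0, 0, 0, 0, 0, 0, 0, ⟨0, 0⟩, 0⟩ 0 0)) (.pos 58 .pp ⟨0, 10903533336, 0, 0, 0, 0, 0, 0, 0, ⟨0, 0⟩, 0⟩ 0 0))),
    by decide +kernel⟩

def covers29 : cell.Covers table row29.1 :=
  ⟨(.cut .d 0 (.cut .v 16777216 (.cut .d (-8388608) (.pos 1 .mm ⟨0, 0, 0, 0, 0, 167772160000, 0, 0, 0, ⟨0, 0⟩, 0⟩ 0 0) (.cut .v 8388608 (.pos 2 .mm ⟨0, 0, 167772160000, 0, 0, 0, 0, 0, 0, ⟨0, 0⟩, 0⟩ 0 0) (.pos 3 .mm ⟨10941678688, 0, 15799158270, 0, 0, 0, 0, 0, 0, ⟨0, 0⟩, 0⟩ 0 0))) (.cut .v 268435456 (.cut .d (-8388608) (.void 10 ⟨100000, 0, 0, 0, 0, 0, 0, 0, 0, ⟨0, 0⟩, 0⟩ 0 0) (.cut .d (-4194304) (.void 10 ⟨100000, 0, 0, 0, 0, 0, 0, 0, 0, ⟨0, 0⟩, 0⟩ 0 0) (.cut .v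 67108864 (.pos 11 .mp ⟨11957144284, 0, 0, 0, 0, 0, 0, 0, 0, ⟨0, 0⟩, 0⟩ 0 0) (.pos 12 .mp ⟨113533220668, 0, 0, 0, 0, 0, 0, 0, 0, ⟨0, 0⟩, 0⟩ 0 0)))) (.void 59 ⟨95186, 0, 0, 4814, 0, 0, 0, 0, 0, ⟨0, 0⟩, 0⟩ 0 0))) (.cut .v 16777216 (.cut .v 8388608 (.cut .v 4194304 (.cut .d 421582 (.pos 4 .pm ⟨0, 0, 28748391880, 0, 0, 0, 0, 0, 0, ⟨0, 0⟩, 0⟩ 0 0) (.cut .v 2097152 (.cut .v 1048576 (.cut .v 524288 (.cut .v 262144 (.cut .d 632373 (.pos 122 .pm ⟨0, 0, 167772160000, 0, 0, 0, 0, 0, 0, ⟨0, 0⟩, 0⟩ 0 0) (.cut .v 131072 (.cut .v 65536 (.cut .v 32768 (.pos 140 .pm ⟨0, 42642088, 0, 0, 0, 0, 0, 0, 0, ⟨0, 0⟩, 0⟩ 0 0) (.pos 141 .pm ⟨0, 111741412, 0, 0, 0, 0, 0, 0, 0, ⟨0, 0⟩,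 0⟩ 0 0)) (.pos 137 .pm ⟨0, 185819382, 0, 0, 0, 0, 0, 0, 0, ⟨0, 0⟩, 0⟩ 0 0)) (.cut .l 16315842 (.cut .l 11886191 (.cut .s 16056320 (.cut .d 737769 (.pos 129 .pm ⟨0, 0, 0, 0, 0, 0, 0, 0, 0, ⟨0, 0⟩, 0⟩ 0 0) (.pos 129 .pm ⟨0, 311252887, 0, 0, 0, 0, 0, 0, 0, ⟨0, 0⟩, 0⟩ 0 0)) (.cut .d 737769 (.cut .d 685071 (.pos 129 .pm ⟨0, 283528927, 0, 0, 0, 0, 0, 0, 0, ⟨0, 0⟩, 0⟩ 0 0) (.pos 129 .pm ⟨0, 380704713, 0, 0, 0, 0, 0, 0, 0, ⟨0, 0⟩, 0⟩ 0 0)) (.pos 129 .pm ⟨0, 453662022, 0, 0, 0, 0, 0, 0, 0, ⟨0, 0⟩, 0⟩ 0 0))) (.pos 129 .pm ⟨0, 237070009, 0, 0, 0, 0, 0, 0, 0, ⟨0, 0⟩, 0⟩ 0 0)) (.pos 129 .pm ⟨0, 166710771, 0, 0, 0, 0, 0, 0, 0, ⟨0, 0⟩, 0⟩ 0 0)))) (.cut .d 632373 (.pos 123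 .pm ⟨0, 0, 1124011356, 0, 0, 0, 0, 0, 0, ⟨0, 0⟩, 0⟩ 0 0) (.cut .l 16315842 (.cut .s 16056320 (.cut .d 737769 (.pos 123 .pm ⟨0, 0, 0, 0, 0, 0, 0, 0, 0, ⟨0, 0⟩, 0⟩ 0 0) (.cut .l 11886191 (.cut .l 9671365 (.cut .d 790467 (.cut .v 393216 (.pos 134 .pm ⟨0, 395435120, 0, 0, 0, 0, 0, 0, 0, ⟨0, 0⟩, 0⟩ 0 0) (.pos 135 .pm ⟨0, 514882380, 0, 0, 0, 0, 0, 0, 0, ⟨0, 0⟩, 0⟩ 0 0)) (.cut .s 16015360 (.pos 123 .pm ⟨0, 486174677, 0, 0, 0, 0, 0, 0, 0, ⟨0, 0⟩, 0⟩ 0 0) (.pos 123 .pm ⟨0, 677789471, 0, 0, 0, 0, 0, 0, 0, ⟨0, 0⟩, 0⟩ 0 0))) (.pos 123 .pm ⟨0, 419681227, 0, 0, 0, 0, 0, 0, 0, ⟨0, 0⟩, 0⟩ 0 0)) (.pos 123 .pm ⟨0, 329077948, 0, 0, 0, 0, 0, 0, 0, ⟨0, 0⟩, 0⟩ 0 0))) (.cut .d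 737769 (.cut .d 685071 (.pos 123 .pm ⟨0, 419593023, 0, 0, 0, 0, 0, 0, 0, ⟨0, 0⟩, 0⟩ 0 0) (.cut .s 16097280 (.pos 123 .pm ⟨0, 470399997, 0, 0, 0, 0, 0, 0, 0, ⟨0, 0⟩, 0⟩ 0 0) (.pos 123 .pm ⟨0, 705258606, 0, 0, 0, 0, 0, 0, 0, ⟨0, 0⟩, 0⟩ 0 0))) (.pos 123 .pm ⟨0, 825515251, 0, 0, 0, 0, 0, 0, 0, ⟨0, 0⟩, 0⟩ 0 0))) (.pos 123 .pm ⟨0, 301612854, 0, 0, 0, 0, 0, 0, 0, ⟨0, 0⟩, 0⟩ 0 0)))) (.cut .d 632373 (.pos 119 .pm ⟨0, 0, 0, 0, 0, 0, 0, 0, 0, ⟨0, 0⟩, 0⟩ 0 0) (.cut .l 16315842 (.cut .l 11886191 (.cut .d 737769 (.cut .s 16056320 (.pos 119 .pm ⟨0, 0, 0, 0, 0, 0, 0, 0, 0, ⟨0, 0⟩, 0⟩ 0 0) (.cut .s 16097280 (.pos 119 .pm ⟨0, 735710024, 0, 0, 0, 0, 0, 0, 0, ⟨0, 0⟩, 0⟩ 0 0)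 (.pos 119 .pm ⟨0, 922465061, 0, 0, 0, 0, 0, 0, 0, ⟨0, 0⟩, 0⟩ 0 0))) (.cut .s 16056320 (.cut .s 16015360 (.pos 119 .pm ⟨0, 666102309, 0, 0, 0, 0, 0, 0, 0, ⟨0, 0⟩, 0⟩ 0 0) (.cut .d 790467 (.pos 119 .pm ⟨0, 732985928, 0, 0, 0, 0, 0, 0, 0, ⟨0, 0⟩, 0⟩ 0 0) (.pos 119 .pm ⟨0, 1013436417, 0, 0, 0, 0, 0, 0, 0, ⟨0, 0⟩, 0⟩ 0 0))) (.pos 119 .pm ⟨0, 1433409836, 0, 0, 0, 0, 0, 0, 0, ⟨0, 0⟩, 0⟩ 0 0))) (.pos 119 .pm ⟨0, 669452353, 0, 0, 0, 0, 0, 0, 0, ⟨0, 0⟩, 0⟩ 0 0)) (.pos 119 .pm ⟨0, 594404764, 0, 0, 0, 0, 0, 0, 0, ⟨0, 0⟩, 0⟩ 0 0)))) (.cut .d 632373 (.pos 101 .pm ⟨0, 0, 0, 0, 0, 0, 0, 0, 0, ⟨0, 0⟩, 0⟩ 0 0) (.cut .s 16056320 (.pos 101 .pm ⟨0, 1272530227, 0, 0, 0, 0, 0,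 0, 0, ⟨0, 0⟩, 0⟩ 0 0) (.cut .d 737769 (.pos 101 .pm ⟨0, 1487001364, 0, 0, 0, 0, 0, 0, 0, ⟨0, 0⟩, 0⟩ 0 0) (.pos 101 .pm ⟨0, 2378325274, 0, 0, 0, 0, 0, 0, 0, ⟨0, 0⟩, 0⟩ 0 0))))) (.pos 7 .pm ⟨0, 2653649978, 0, 0, 0, 0, 0, 0, 0, ⟨0, 0⟩, 0⟩ 0 0))) (.pos 5 .pm ⟨0, 4355818502, 0, 0, 0, 0, 0, 0, 0, ⟨0, 0⟩, 0⟩ 0 0)) (.pos 3 .pm ⟨0, 8539665781, 0, 0, 0, 0, 0, 0, 0, ⟨0, 0⟩, 0⟩ 0 0)) (.pos 58 .pp ⟨0, 16541645069, 0, 0, 0, 0, 0, 0, 0, ⟨0, 0⟩, 0⟩ 0 0))),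
    by decide +kernel⟩

def covers30 : cell.Covers table row30.1 :=
  ⟨(.cut .d 0 (.cut .v 16777216 (.cut .d (-8388608) (.pos 1 .mm ⟨0, 0, 0, 0, 0, 167772160000, 0, 0, 0, ⟨0, 0⟩, 0⟩ 0 0) (.pos 1 .mm ⟨0, 0, 18008789109, 0, 0, 16853112137, 0, 0, 0, ⟨0, 0⟩, 0⟩ 0 0)) (.cut .v 4294967296 (.cut .v 268435456 (.cut .d (-8388608) (.void 10 ⟨100000, 0, 0, 0, 0, 0, 0, 0, 0, ⟨0, 0⟩, 0⟩ 0 0) (.cut .d (-4194304) (.void 10 ⟨100000, 0, 0, 0, 0, 0, 0, 0, 0, ⟨0, 0⟩, 0⟩ 0 0) (.pos 10 .mp ⟨90954545524, 0, 0, 0, 0, 0, 0, 0, 0, ⟨0, 0⟩, 0⟩ 0 0))) (.void 59 ⟨95181, 0, 0, 4819, 0, 0, 0, 0, 0, ⟨0, 0⟩, 0⟩ 0 0)) (.void 144 ⟨0, 0, 0, 5107, 0, 107688, 0, 0, 0, ⟨0, 0⟩, 0⟩ 0 0))) (.cut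 .v 16777216 (.cut .v 8388608 (.cut .v 4194304 (.cut .v 2097152 (.cut .v 1048576 (.cut .v 524288 (.cut .v 262144 (.cut .v 131072 (.cut .v 65536 (.cut .v 32768 (.pos 140 .pm ⟨0, 26321013, 0, 0, 0, 0, 0, 0, 0, ⟨0, 0⟩, 0⟩ 0 0) (.pos 141 .pm ⟨0, 60153747, 0, 0, 0, 0, 0, 0, 0, ⟨0, 0⟩, 0⟩ 0 0)) (.pos 137 .pm ⟨0, 107901994, 0, 0, 0, 0, 0, 0, 0, ⟨0, 0⟩, 0⟩ 0 0)) (.pos 129 .pm ⟨0, 197226132, 0, 0, 0, 0, 0, 0, 0, ⟨0, 0⟩, 0⟩ 0 0)) (.pos 123 .pm ⟨0, 373663576, 0, 0, 0, 0, 0, 0, 0, ⟨0, 0⟩, 0⟩ 0 0)) (.pos 119 .pm ⟨0, 733745068, 0, 0, 0, 0, 0, 0, 0, ⟨0, 0⟩, 0⟩ 0 0)) (.pos 101 .pm ⟨0, 1458671702, 0, 0, 0, 0, 0, 0, 0, ⟨0, 0⟩, 0⟩ 0 0)) (.pos 7 .pm ⟨0, 2902732845, 0, 0, 0, 0,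 0, 0, 0, ⟨0, 0⟩, 0⟩ 0 0)) (.pos 5 .pm ⟨0, 5767686631, 0, 0, 0, 0, 0, 0, 0, ⟨0, 0⟩, 0⟩ 0 0)) (.pos 3 .pm ⟨0, 11404920205, 0, 0, 0, 0, 0, 0, 0, ⟨0, 0⟩, 0⟩ 0 0)) (.cut .v 4294967296 (.pos 58 .pp ⟨0, 22308691361, 0, 0, 0, 0, 0, 0, 0, ⟨0, 0⟩, 0⟩ 0 0) (.void 144 ⟨0, 0, 0, 100000, 0, 0, 0, 0, 0, ⟨0, 0⟩, 0⟩ 0 0)))),
    by decide +kernel⟩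

def covers31 : cell.Covers table row31.1 :=
  ⟨(.cut .d 0 (.cut .v 16777216 (.pos 1 .mm ⟨0, 0, 65552857800, 0, 0, 73766422600, 0, 0, 0, ⟨0, 0⟩, 0⟩ 0 0) (.cut .v 4294967296 (.cut .v 268435456 (.cut .d (-8388608) (.void 10 ⟨100000, 0, 0, 0, 0, 0, 0, 0, 0, ⟨0, 0⟩, 0⟩ 0 0) (.cut .d (-4194304) (.void 10 ⟨100000, 0, 0, 0, 0, 0, 0, 0, 0, ⟨0, 0⟩, 0⟩ 0 0) (.pos 10 .mp ⟨0, 0, 0, 0, 0, 27586619611, 0, 0, 0, ⟨0, 0⟩, 0⟩ 0 0))) (.void 59 ⟨95158, 0, 0, 4842, 0, 0, 0, 0, 0, ⟨0, 0⟩, 0⟩ 0 0)) (.void 144 ⟨95116, 0, 0, 4884, 0, 0, 0, 0, 0, ⟨0, 0⟩, 0⟩ 0 0))) (.cut .v 16777216 (.pos 1 .pm ⟨0, 0, 0, 343785, 0, 0, 0, 0, 0, ⟨0, 0⟩, 0⟩ 0 0) (.pos 143 .pp ⟨0, 40393134604, 0, 0, 0,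 0, 0, 0, 0, ⟨0, 0⟩, 0⟩ 0 0))),
    by decide +kernel⟩

def covers32 : cell.Covers table row32.1 :=
  ⟨(.cut .d 0 (.cut .v 16777216 (.cut .v 8388608 (.pos 2 .mm ⟨0, 0, 167772160000, 0, 0, 0, 0, 0, 0, ⟨0, 0⟩, 0⟩ 0 0) (.cut .s 16408576 (.pos 3 .mm ⟨0, 0, 79500528632, 0, 0, 79222293655, 0, 0, 0, ⟨0, 0⟩, 0⟩ 0 0) (.cut .d (-8388608) (.void 3 ⟨130882, 0, 0, 0, 0, 0, 0, 0, 0, ⟨0, 0⟩, 0⟩ 0 0) (.pos 3 .mm ⟨0, 0, 66849988039, 0, 0, 20185891, 0, 0, 0, ⟨0, 0⟩, 0⟩ 0 0)))) (.cut .v 4294967296 (.cut .v 268435456 (.cut .d (-8388608) (.void 10 ⟨0, 0, 0, 0, 0, 1000000000, 0, 0, 0, ⟨0, 0⟩, 0⟩ 0 0) (.cut .d (-4194304) (.void 10 ⟨1000000000, 0, 0, 0, 0, 0, 0, 0, 0, ⟨0, 0⟩, 0⟩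 0 0) (.pos 10 .mp ⟨0, 0, 0, 0, 0, 128174660709, 0, 0, 0, ⟨0, 0⟩, 0⟩ 0 0))) (.void 59 ⟨95116, 0, 0, 4884, 0, 0, 0, 0, 0, ⟨0, 0⟩, 0⟩ 0 0)) (.void 144 ⟨95210, 0, 0, 4790, 0, 0, 0, 0, 0, ⟨0, 0⟩, 0⟩ 0 0))) (.cut .v 16777216 (.cut .v 8388608 (.cut .v 4194304 (.cut .v 2097152 (.cut .v 1048576 (.cut .v 524288 (.cut .v 262144 (.cut .v 131072 (.cut .v 65536 (.cut .v 32768 (.pos 140 .pm ⟨0, 42785030, 0, 0, 0, 0, 0, 0, 0, ⟨0, 0⟩, 0⟩ 0 0) (.pos 141 .pm ⟨0, 114773868, 0, 0, 0, 0, 0, 0, 0, ⟨0, 0⟩, 0⟩ 0 0)) (.pos 137 .pm ⟨0, 222227918, 0, 0, 0, 0, 0, 0, 0, ⟨0, 0⟩, 0⟩ 0 0)) (.pos 129 .pm ⟨0, 437110757, 0, 0, 0, 0, 0, 0, 0, ⟨0, 0⟩, 0⟩ 0 0)) (.pos 123 .pm ⟨0, 866775397, 0,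 0, 0, 0, 0, 0, 0, ⟨0, 0⟩, 0⟩ 0 0)) (.pos 119 .pm ⟨0, 1725700523, 0, 0, 0, 0, 0, 0, 0, ⟨0, 0⟩, 0⟩ 0 0)) (.pos 101 .pm ⟨0, 3441934159, 0, 0, 0, 0, 0, 0, 0, ⟨0, 0⟩, 0⟩ 0 0)) (.pos 7 .pm ⟨0, 6867934963, 0, 0, 0, 0, 0, 0, 0, ⟨0, 0⟩, 0⟩ 0 0)) (.pos 5 .pm ⟨0, 13694070704, 0, 0, 0, 0, 0, 0, 0, ⟨0, 0⟩, 0⟩ 0 0)) (.pos 3 .pm ⟨0, 27242878719, 0, 0, 0, 0, 0, 0, 0, ⟨0, 0⟩, 0⟩ 0 0)) (.cut .v 4294967296 (.pos 58 .pp ⟨0, 53926640877, 0, 0, 0, 0, 0, 0, 0, ⟨0, 0⟩, 0⟩ 0 0) (.void 144 ⟨0, 0, 0, 100000, 0, 0, 0, 0, 0, ⟨0, 0⟩, 0⟩ 0 0)))),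
    by decide +kernel⟩

def covers33 : cell.Covers table row33.1 :=
  ⟨(.cut .d 0 (.cut .v 16777216 (.cut .d (-8388608) (.void 1 ⟨0, 0, 100000, 0, 0, 0, 0, 0, 0, ⟨0, 0⟩, 0⟩ 0 0) (.cut .l 16315842 (.cut .s 16482304 (.cut .d (-4194304) (.void 1 ⟨0, 0, 0, 0, 0, 100000, 0, 0, 0, ⟨0, 0⟩, 0⟩ 0 0) (.pos 1 .mm ⟨0, 0, 66186375497, 0, 0, 0, 0, 0, 0, ⟨0, 0⟩, 0⟩ 0 0)) (.cut .d (-4194304) (.cut .l 11886191 (.cut .v 8388608 (.cut .d (-6291456) (.pos 2 .mm ⟨0, 0, 167772160000, 0, 0, 0, 0, 0, 0, ⟨0, 0⟩, 0⟩ 0 0) (.void 2 ⟨0, 0, 1000000000, 0, 0, 0, 0, 0, 0, ⟨0, 0⟩, 0⟩ 0 0)) (.cut .s 16498688 (.void 3 ⟨1000000000, 0, 0, 0, 0, 0, 0, 0, 0, ⟨0, 0⟩, 0⟩ 0 0) (.void 3 ⟨1000000000,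 0, 0, 0, 0, 0, 0, 0, 0, ⟨0, 0⟩, 0⟩ 0 0))) (.cut .l 14101016 (.cut .l 12993603 (.cut .l 12439897 (.pos 1 .mm ⟨0, 0, 27961045674, 0, 0, 139811114326, 0, 0, 0, ⟨0, 0⟩, 0⟩ 0 0) (.pos 1 .mm ⟨0, 0, 28958766517, 0, 0, 138813393483, 0, 0, 0, ⟨0, 0⟩, 0⟩ 0 0)) (.cut .l 13547309 (.pos 1 .mm ⟨0, 0, 29956487360, 0, 0, 137815672640, 0, 0, 0, ⟨0, 0⟩, 0⟩ 0 0) (.pos 1 .mm ⟨0, 0, 30954207984, 0, 0, 136817952016, 0, 0, 0, ⟨0, 0⟩, 0⟩ 0 0))) (.cut .l 15208429 (.cut .l 14654722 (.pos 1 .mm ⟨0, 0, 31951930847, 0, 0, 135820229153, 0, 0, 0, ⟨0, 0⟩, 0⟩ 0 0) (.pos 1 .mm ⟨0, 0, 32949651527, 0, 0, 134822508473, 0, 0, 0, ⟨0, 0⟩, 0⟩ 0 0)) (.cut .l 15762135 (.pos 1 .mm ⟨0, 0, 33947374334,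 0, 0, 133824785666, 0, 0, 0, ⟨0, 0⟩, 0⟩ 0 0) (.pos 1 .mm ⟨0, 0, 34945095070, 0, 0, 132827064930, 0, 0, 0, ⟨0, 0⟩, 0⟩ 0 0))))) (.cut .s 16498688 (.cut .s 16490496 (.cut .s 16486400 (.pos 1 .mm ⟨0, 0, 167772160000, 0, 0, 0, 0, 0, 0, ⟨0, 0⟩, 0⟩ 0 0) (.pos 1 .mm ⟨0, 0, 106085770017, 0, 0, 0, 0, 0, 0, ⟨0, 0⟩, 0⟩ 0 0)) (.cut .s 16494592 (.pos 1 .mm ⟨0, 0, 111169402982, 0, 0, 0, 0, 0, 0, ⟨0, 0⟩, 0⟩ 0 0) (.pos 1 .mm ⟨0, 0, 116403841107, 0, 0, 0, 0, 0, 0, ⟨0, 0⟩, 0⟩ 0 0))) (.cut .l 11886191 (.cut .l 9671365 (.cut .l 8563952 (.cut .l 8010246 (.cut .s 16506880 (.pos 1 .mm ⟨0, 0, 167772160000, 0, 0, 0, 0, 0, 0, ⟨0, 0⟩, 0⟩ 0 0) (.pos 1 .mm ⟨0, 0, 167772160000, 0, 0, 0,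 0, 0, 0, ⟨0, 0⟩, 0⟩ 0 0)) (.cut .s 16506880 (.pos 1 .mm ⟨0, 0, 167772160000, 0, 0, 0, 0, 0, 0, ⟨0, 0⟩, 0⟩ 0 0) (.pos 1 .mm ⟨0, 0, 167772160000, 0, 0, 0, 0, 0, 0, ⟨0, 0⟩, 0⟩ 0 0))) (.cut .s 16506880 (.cut .l 9117658 (.cut .l 8840805 (.pos 1 .mm ⟨0, 0, 123960681399, 0, 0, 0, 0, 0, 0, ⟨0, 0⟩, 0⟩ 0 0) (.pos 1 .mm ⟨0, 0, 124501917775, 0, 0, 0, 0, 0, 0, ⟨0, 0⟩, 0⟩ 0 0)) (.cut .l 9394511 (.pos 1 .mm ⟨0, 0, 125043154150, 0, 0, 0, 0, 0, 0, ⟨0, 0⟩, 0⟩ 0 0) (.pos 1 .mm ⟨0, 0, 125584390526, 0, 0, 0, 0, 0, 0, ⟨0, 0⟩, 0⟩ 0 0))) (.cut .l 9117658 (.cut .l 8840805 (.pos 1 .mm ⟨0, 0, 135357129719, 0, 0, 0, 0, 0, 0, ⟨0, 0⟩, 0⟩ 0 0) (.pos 1 .mm ⟨0, 0, 135926283092, 0, 0, 0,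 0, 0, 0, ⟨0, 0⟩, 0⟩ 0 0)) (.cut .s 16510976 (.pos 1 .mm ⟨0, 0, 136495436466, 0, 0, 0, 0, 0, 0, ⟨0, 0⟩, 0⟩ 0 0) (.pos 1 .mm ⟨0, 0, 142492351988, 0, 0, 0, 0, 0, 0, ⟨0, 0⟩, 0⟩ 0 0))))) (.cut .l 10778778 (.cut .l 10225071 (.cut .s 16506880 (.cut .l 9948218 (.pos 1 .mm ⟨0, 0, 126125628857, 0, 0, 0, 0, 0, 0, ⟨0, 0⟩, 0⟩ 0 0) (.pos 1 .mm ⟨0, 0, 126666865233, 0, 0, 0, 0, 0, 0, ⟨0, 0⟩, 0⟩ 0 0)) (.cut .l 9948218 (.pos 1 .mm ⟨0, 0, 167772160000, 0, 0, 0, 0, 0, 0, ⟨0, 0⟩, 0⟩ 0 0) (.pos 1 .mm ⟨0, 0, 167772160000, 0, 0, 0, 0, 0, 0, ⟨0, 0⟩, 0⟩ 0 0))) (.cut .l 10501924 (.pos 1 .mm ⟨0, 0, 127208101609, 0, 0, 0, 0, 0, 0, ⟨0, 0⟩, 0⟩ 0 0) (.pos 1 .mm ⟨0, 0, 127749337985, 0, 0,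 0, 0, 0, 0, ⟨0, 0⟩, 0⟩ 0 0))) (.cut .l 11332484 (.cut .s 16506880 (.cut .l 11055631 (.pos 1 .mm ⟨0, 0, 128290576315, 0, 0, 0, 0, 0, 0, ⟨0, 0⟩, 0⟩ 0 0) (.pos 1 .mm ⟨0, 0, 128831812691, 0, 0, 0, 0, 0, 0, ⟨0, 0⟩, 0⟩ 0 0)) (.cut .l 11055631 (.pos 1 .mm ⟨0, 0, 167772160000, 0, 0, 0, 0, 0, 0, ⟨0, 0⟩, 0⟩ 0 0) (.pos 1 .mm ⟨0, 0, 140479514191, 0, 0, 0, 0, 0, 0, ⟨0, 0⟩, 0⟩ 0 0))) (.cut .s 16506880 (.cut .l 11609337 (.pos 1 .mm ⟨0, 0, 129373049067, 0, 0, 0, 0, 0, 0, ⟨0, 0⟩, 0⟩ 0 0) (.pos 1 .mm ⟨0, 0, 129914285443, 0, 0, 0, 0, 0, 0, ⟨0, 0⟩, 0⟩ 0 0)) (.cut .s 16510976 (.cut .s 16508928 (.pos 1 .mm ⟨0, 0, 141048667564, 0, 0, 0, 0, 0, 0, ⟨0, 0⟩, 0⟩ 0 0) (.pos 1 .mm ⟨0,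 0, 144082217765, 0, 0, 0, 0, 0, 0, ⟨0, 0⟩, 0⟩ 0 0)) (.cut .s 16513024 (.pos 1 .mm ⟨0, 0, 147163742216, 0, 0, 0, 0, 0, 0, ⟨0, 0⟩, 0⟩ 0 0) (.pos 1 .mm ⟨0, 0, 103886628866, 0, 0, 0, 0, 0, 0, ⟨0, 0⟩, 0⟩ 0 0))))))) (.cut .s 16506880 (.cut .l 14101016 (.cut .l 12993603 (.cut .l 12439897 (.cut .s 16502784 (.cut .s 16500736 (.pos 1 .mm ⟨0, 0, 130455523774, 0, 0, 0, 0, 0, 0, ⟨0, 0⟩, 0⟩ 0 0) (.pos 1 .mm ⟨0, 0, 49238608494, 0, 0, 0, 0, 0, 0, ⟨0, 0⟩, 0⟩ 0 0)) (.cut .s 16504832 (.pos 1 .mm ⟨0, 0, 136231061731, 0, 0, 0, 0, 0, 0, ⟨0, 0⟩, 0⟩ 0 0) (.pos 1 .mm ⟨0, 0, 139185963497, 0, 0, 0, 0, 0, 0, ⟨0, 0⟩, 0⟩ 0 0))) (.cut .s 16502784 (.cut .l 12716750 (.pos 1 .mm ⟨0, 0, 131537996526,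 0, 0, 0, 0, 0, 0, ⟨0, 0⟩, 0⟩ 0 0) (.pos 1 .mm ⟨0, 0, 132079232901, 0, 0, 0, 0, 0, 0, ⟨0, 0⟩, 0⟩ 0 0)) (.cut .l 12716750 (.pos 1 .mm ⟨0, 0, 137340926723, 0, 0, 0, 0, 0, 0, ⟨0, 0⟩, 0⟩ 0 0) (.pos 1 .mm ⟨0, 0, 137895859218, 0, 0, 0, 0, 0, 0, ⟨0, 0⟩, 0⟩ 0 0)))) (.cut .s 16502784 (.cut .l 13547309 (.cut .l 13270456 (.pos 1 .mm ⟨0, 0, 132620469277, 0, 0, 0, 0, 0, 0, ⟨0, 0⟩, 0⟩ 0 0) (.pos 1 .mm ⟨0, 0, 133161705653, 0, 0, 0, 0, 0, 0, ⟨0, 0⟩, 0⟩ 0 0)) (.cut .s 16500736 (.pos 1 .mm ⟨0, 0, 133702942029, 0, 0, 0, 0, 0, 0, ⟨0, 0⟩, 0⟩ 0 0) (.pos 1 .mm ⟨0, 0, 136609368406, 0, 0, 0, 0, 0, 0, ⟨0, 0⟩, 0⟩ 0 0))) (.cut .l 13547309 (.cut .l 13270456 (.pos 1 .mm ⟨0, 0, 138450791714,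 0, 0, 0, 0, 0, 0, ⟨0, 0⟩, 0⟩ 0 0) (.pos 1 .mm ⟨0, 0, 139005724209, 0, 0, 0, 0, 0, 0, ⟨0, 0⟩, 0⟩ 0 0)) (.cut .s 16504832 (.pos 1 .mm ⟨0, 0, 139560656705, 0, 0, 0, 0, 0, 0, ⟨0, 0⟩, 0⟩ 0 0) (.pos 1 .mm ⟨0, 0, 142557818649, 0, 0, 0, 0, 0, 0, ⟨0, 0⟩, 0⟩ 0 0))))) (.cut .s 16502784 (.cut .l 15208429 (.cut .l 14654722 (.cut .l 14377869 (.pos 1 .mm ⟨0, 0, 134785416736, 0, 0, 0, 0, 0, 0, ⟨0, 0⟩, 0⟩ 0 0) (.pos 1 .mm ⟨0, 0, 52809057848, 0, 0, 0, 0, 0, 0, ⟨0, 0⟩, 0⟩ 0 0)) (.cut .l 14931575 (.pos 1 .mm ⟨0, 0, 53363082216, 0, 0, 0, 0, 0, 0, ⟨0, 0⟩, 0⟩ 0 0) (.pos 1 .mm ⟨0, 0, 53917106585, 0, 0, 0, 0, 0, 0, ⟨0, 0⟩, 0⟩ 0 0))) (.cut .s 16500736 (.pos 1 .mm ⟨0, 0, 136950364194,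 0, 0, 0, 0, 0, 0, ⟨0, 0⟩, 0⟩ 0 0) (.pos 1 .mm ⟨0, 0, 139897494165, 0, 0, 0, 0, 0, 0, ⟨0, 0⟩, 0⟩ 0 0))) (.cut .l 15208429 (.cut .l 14654722 (.cut .s 16504832 (.pos 1 .mm ⟨0, 0, 140670523701, 0, 0, 0, 0, 0, 0, ⟨0, 0⟩, 0⟩ 0 0) (.pos 1 .mm ⟨0, 0, 143681772397, 0, 0, 0, 0, 0, 0, ⟨0, 0⟩, 0⟩ 0 0)) (.cut .s 16504832 (.pos 1 .mm ⟨0, 0, 141780388692, 0, 0, 0, 0, 0, 0, ⟨0, 0⟩, 0⟩ 0 0) (.pos 1 .mm ⟨0, 0, 144805724114, 0, 0, 0, 0, 0, 0, ⟨0, 0⟩, 0⟩ 0 0))) (.cut .l 15762135 (.cut .s 16504832 (.pos 1 .mm ⟨0, 0, 142890255688, 0, 0, 0, 0, 0, 0, ⟨0, 0⟩, 0⟩ 0 0) (.pos 1 .mm ⟨0, 0, 145929677862, 0, 0, 0, 0, 0, 0, ⟨0, 0⟩, 0⟩ 0 0)) (.cut .l 16038988 (.pos 1 .mm ⟨0, 0, 144000120679,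 0, 0, 0, 0, 0, 0, ⟨0, 0⟩, 0⟩ 0 0) (.pos 1 .mm ⟨0, 0, 144555053175, 0, 0, 0, 0, 0, 0, ⟨0, 0⟩, 0⟩ 0 0)))))) (.cut .l 14101016 (.cut .d (-2097152) (.void 1 ⟨0, 0, 0, 0, 0, 100000, 0, 0, 0, ⟨0, 0⟩, 0⟩ 0 0) (.pos 1 .mm ⟨0, 0, 0, 0, 0, 0, 0, 0, 0, ⟨0, 0⟩, 0⟩ 0 0)) (.cut .s 16510976 (.cut .l 15208429 (.cut .l 14654722 (.cut .s 16508928 (.pos 1 .mm ⟨0, 0, 146740205410, 0, 0, 0, 0, 0, 0, ⟨0, 0⟩, 0⟩ 0 0) (.pos 1 .mm ⟨0, 0, 149846903073, 0, 0, 0, 0, 0, 0, ⟨0, 0⟩, 0⟩ 0 0)) (.cut .s 16508928 (.pos 1 .mm ⟨0, 0, 147878512157, 0, 0, 0, 0, 0, 0, ⟨0, 0⟩, 0⟩ 0 0) (.pos 1 .mm ⟨0, 0, 150999839302, 0, 0, 0, 0, 0, 0, ⟨0, 0⟩, 0⟩ 0 0))) (.cut .l 15762135 (.cut .s 16508928 (.pos 1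 .mm ⟨0, 0, 149016820959, 0, 0, 0, 0, 0, 0, ⟨0, 0⟩, 0⟩ 0 0) (.pos 1 .mm ⟨0, 0, 152152777613, 0, 0, 0, 0, 0, 0, ⟨0, 0⟩, 0⟩ 0 0)) (.cut .s 16508928 (.pos 1 .mm ⟨0, 0, 150155127706, 0, 0, 0, 0, 0, 0, ⟨0, 0⟩, 0⟩ 0 0) (.pos 1 .mm ⟨0, 0, 153305713841, 0, 0, 0, 0, 0, 0, ⟨0, 0⟩, 0⟩ 0 0)))) (.cut .l 15208429 (.cut .s 16513024 (.pos 1 .mm ⟨0, 0, 64280018252, 0, 0, 0, 0, 0, 0, ⟨0, 0⟩, 0⟩ 0 0) (.pos 1 .mm ⟨0, 0, 156209581104, 0, 0, 0, 0, 0, 0, ⟨0, 0⟩, 0⟩ 0 0)) (.cut .s 16513024 (.pos 1 .mm ⟨0, 0, 155338674060, 0, 0, 0, 0, 0, 0, ⟨0, 0⟩, 0⟩ 0 0) (.pos 1 .mm ⟨0, 0, 158575671447, 0, 0, 0, 0, 0, 0, ⟨0, 0⟩, 0⟩ 0 0)))))))))) (.cut .s 16482304 (.cut .v 8388608 (.pos 2 .mm ⟨0,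 0, 167772160000, 0, 0, 0, 0, 0, 0, ⟨0, 0⟩, 0⟩ 0 0) (.pos 3 .mm ⟨0, 0, 79989507432, 0, 0, 0, 0, 0, 0, ⟨0, 0⟩, 0⟩ 0 0)) (.cut .d (-4194304) (.cut .l 20745493 (.cut .v 8388608 (.cut .s 16498688 (.cut .s 16490496 (.pos 2 .mm ⟨0, 0, 167772160000, 0, 0, 0, 0, 0, 0, ⟨0, 0⟩, 0⟩ 0 0) (.void 2 ⟨0, 0, 70282, 0, 0, 0, 0, 0, 0, ⟨0, 0⟩, 0⟩ 0 0)) (.cut .s 16506880 (.pos 2 .mm ⟨0, 0, 167772160000, 0, 0, 0, 0, 0, 0, ⟨0, 0⟩, 0⟩ 0 0) (.pos 2 .mm ⟨0, 0, 167772160000, 0, 0, 0, 0, 0, 0, ⟨0, 0⟩, 0⟩ 0 0))) (.cut .s 16498688 (.void 3 ⟨100000, 0, 0, 0, 0, 0, 0, 0, 0, ⟨0, 0⟩, 0⟩ 0 0) (.void 3 ⟨100000, 0, 0, 0, 0, 0, 0, 0, 0, ⟨0, 0⟩, 0⟩ 0 0))) (.cut .v 8388608 (.cut .d (-6291456) (.pos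 2 .mm ⟨0, 0, 167772160000, 0, 0, 0, 0, 0, 0, ⟨0, 0⟩, 0⟩ 0 0) (.void 2 ⟨0, 0, 1000000000, 0, 0, 0, 0, 0, 0, ⟨0, 0⟩, 0⟩ 0 0)) (.cut .s 16498688 (.void 3 ⟨100000, 0, 0, 0, 0, 0, 0, 0, 0, ⟨0, 0⟩, 0⟩ 0 0) (.void 3 ⟨100000, 0, 0, 0, 0, 0, 0, 0, 0, ⟨0, 0⟩, 0⟩ 0 0)))) (.cut .s 16498688 (.cut .s 16490496 (.cut .l 20745493 (.cut .l 18530667 (.cut .l 17423254 (.cut .s 16486400 (.cut .s 16484352 (.pos 1 .mm ⟨0, 0, 116867046847, 0, 0, 0, 0, 0, 0, ⟨0, 0⟩, 0⟩ 0 0) (.pos 1 .mm ⟨0, 0, 119506194891, 0, 0, 0, 0, 0, 0, ⟨0, 0⟩, 0⟩ 0 0)) (.cut .s 16488448 (.pos 1 .mm ⟨0, 0, 122184168802, 0, 0, 0, 0, 0, 0, ⟨0, 0⟩, 0⟩ 0 0) (.pos 1 .mm ⟨0, 0, 46736074762, 0, 0, 0, 0, 0, 0, ⟨0, 0⟩,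 0⟩ 0 0))) (.cut .s 16486400 (.cut .l 17976960 (.pos 1 .mm ⟨0, 0, 118832093860, 0, 0, 0, 0, 0, 0, ⟨0, 0⟩, 0⟩ 0 0) (.pos 1 .mm ⟨0, 0, 119814617366, 0, 0, 0, 0, 0, 0, ⟨0, 0⟩, 0⟩ 0 0)) (.cut .l 17976960 (.pos 1 .mm ⟨0, 0, 124196467288, 0, 0, 0, 0, 0, 0, ⟨0, 0⟩, 0⟩ 0 0) (.pos 1 .mm ⟨0, 0, 125202616530, 0, 0, 0, 0, 0, 0, ⟨0, 0⟩, 0⟩ 0 0)))) (.cut .l 19638080 (.cut .l 19084373 (.pos 1 .mm ⟨0, 0, 120797142647, 0, 0, 0, 0, 0, 0, ⟨0, 0⟩, 0⟩ 0 0) (.pos 1 .mm ⟨0, 0, 121779666154, 0, 0, 0, 0, 0, 0, ⟨0, 0⟩, 0⟩ 0 0)) (.cut .l 20191786 (.pos 1 .mm ⟨0, 0, 122762191435, 0, 0, 0, 0, 0, 0, ⟨0, 0⟩, 0⟩ 0 0) (.pos 1 .mm ⟨0, 0, 123744714941, 0, 0, 0, 0, 0, 0, ⟨0, 0⟩, 0⟩ 0 0)))) (.cut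 .s 16486400 (.cut .l 22960319 (.cut .l 21852906 (.cut .s 16484352 (.pos 1 .mm ⟨0, 0, 124727240222, 0, 0, 0, 0, 0, 0, ⟨0, 0⟩, 0⟩ 0 0) (.pos 1 .mm ⟨0, 0, 127460028043, 0, 0, 0, 0, 0, 0, ⟨0, 0⟩, 0⟩ 0 0)) (.cut .s 16484352 (.pos 1 .mm ⟨0, 0, 126692289009, 0, 0, 0, 0, 0, 0, ⟨0, 0⟩, 0⟩ 0 0) (.pos 1 .mm ⟨0, 0, 129448486780, 0, 0, 0, 0, 0, 0, ⟨0, 0⟩, 0⟩ 0 0))) (.cut .l 24067732 (.cut .l 23514025 (.pos 1 .mm ⟨0, 0, 128657337797, 0, 0, 0, 0, 0, 0, ⟨0, 0⟩, 0⟩ 0 0) (.pos 1 .mm ⟨0, 0, 129639861303, 0, 0, 0, 0, 0, 0, ⟨0, 0⟩, 0⟩ 0 0)) (.cut .l 24621438 (.pos 1 .mm ⟨0, 0, 130622386584, 0, 0, 0, 0, 0, 0, ⟨0, 0⟩, 0⟩ 0 0) (.pos 1 .mm ⟨0, 0, 131604910090, 0, 0, 0, 0, 0, 0, ⟨0,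 0⟩, 0⟩ 0 0)))) (.cut .l 22960319 (.cut .s 16488448 (.pos 1 .mm ⟨0, 0, 53665643435, 0, 0, 0, 0, 0, 0, ⟨0, 0⟩, 0⟩ 0 0) (.pos 1 .mm ⟨0, 0, 54977616063, 0, 0, 0, 0, 0, 0, ⟨0, 0⟩, 0⟩ 0 0)) (.cut .l 24067732 (.cut .s 16488448 (.pos 1 .mm ⟨0, 0, 134257968800, 0, 0, 0, 0, 0, 0, ⟨0, 0⟩, 0⟩ 0 0) (.pos 1 .mm ⟨0, 0, 58389252672, 0, 0, 0, 0, 0, 0, ⟨0, 0⟩, 0⟩ 0 0)) (.cut .l 24621438 (.pos 1 .mm ⟨0, 0, 59019878195, 0, 0, 0, 0, 0, 0, ⟨0, 0⟩, 0⟩ 0 0) (.pos 1 .mm ⟨0, 0, 60048766463, 0, 0, 0, 0, 0, 0, ⟨0, 0⟩, 0⟩ 0 0)))))) (.cut .s 16494592 (.cut .s 16492544 (.pos 1 .mm ⟨0, 0, 127659921838, 0, 0, 0, 0, 0, 0, ⟨0, 0⟩, 0⟩ 0 0) (.pos 1 .mm ⟨0, 0, 130459424591, 0, 0, 0, 0, 0, 0,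 ⟨0, 0⟩, 0⟩ 0 0)) (.cut .l 20745493 (.cut .l 18530667 (.cut .l 17423254 (.cut .l 16869548 (.cut .l 16592695 (.pos 1 .mm ⟨0, 0, 133301202205, 0, 0, 0, 0, 0, 0, ⟨0, 0⟩, 0⟩ 0 0) (.pos 1 .mm ⟨0, 0, 133829244381, 0, 0, 0, 0, 0, 0, ⟨0, 0⟩, 0⟩ 0 0)) (.cut .l 17146401 (.pos 1 .mm ⟨0, 0, 134357286558, 0, 0, 0, 0, 0, 0, ⟨0, 0⟩, 0⟩ 0 0) (.pos 1 .mm ⟨0, 0, 134885328735, 0, 0, 0, 0, 0, 0, ⟨0, 0⟩, 0⟩ 0 0))) (.cut .l 17976960 (.cut .l 17700107 (.pos 1 .mm ⟨0, 0, 135413370911, 0, 0, 0, 0, 0, 0, ⟨0, 0⟩, 0⟩ 0 0) (.pos 1 .mm ⟨0, 0, 135941413088, 0, 0, 0, 0, 0, 0, ⟨0, 0⟩, 0⟩ 0 0)) (.cut .s 16496640 (.pos 1 .mm ⟨0, 0, 136469455265, 0, 0, 0, 0, 0, 0, ⟨0, 0⟩, 0⟩ 0 0) (.pos 1 .mm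 ⟨0, 0, 139393647754, 0, 0, 0, 0, 0, 0, ⟨0, 0⟩, 0⟩ 0 0)))) (.cut .l 19638080 (.cut .l 19084373 (.cut .s 16496640 (.pos 1 .mm ⟨0, 0, 137525541525, 0, 0, 0, 0, 0, 0, ⟨0, 0⟩, 0⟩ 0 0) (.pos 1 .mm ⟨0, 0, 140462805508, 0, 0, 0, 0, 0, 0, ⟨0, 0⟩, 0⟩ 0 0)) (.cut .s 16496640 (.pos 1 .mm ⟨0, 0, 138581625879, 0, 0, 0, 0, 0, 0, ⟨0, 0⟩, 0⟩ 0 0) (.pos 1 .mm ⟨0, 0, 141531961331, 0, 0, 0, 0, 0, 0, ⟨0, 0⟩, 0⟩ 0 0))) (.cut .l 20191786 (.cut .s 16496640 (.pos 1 .mm ⟨0, 0, 139637712139, 0, 0, 0, 0, 0, 0, ⟨0, 0⟩, 0⟩ 0 0) (.pos 1 .mm ⟨0, 0, 142601119085, 0, 0, 0, 0, 0, 0, ⟨0, 0⟩, 0⟩ 0 0)) (.cut .s 16496640 (.pos 1 .mm ⟨0, 0, 140693796493, 0, 0, 0, 0, 0, 0, ⟨0, 0⟩, 0⟩ 0 0) (.pos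 1 .mm ⟨0, 0, 143670274908, 0, 0, 0, 0, 0, 0, ⟨0, 0⟩, 0⟩ 0 0))))) (.cut .l 22960319 (.cut .l 21852906 (.cut .l 21299199 (.cut .l 21022346 (.pos 1 .mm ⟨0, 0, 141749882753, 0, 0, 0, 0, 0, 0, ⟨0, 0⟩, 0⟩ 0 0) (.pos 1 .mm ⟨0, 0, 142277924930, 0, 0, 0, 0, 0, 0, ⟨0, 0⟩, 0⟩ 0 0)) (.cut .s 16496640 (.cut .s 16495616 (.pos 1 .mm ⟨0, 0, 61414907487, 0, 0, 0, 0, 0, 0, ⟨0, 0⟩, 0⟩ 0 0) (.pos 1 .mm ⟨0, 0, 62619876891, 0, 0, 0, 0, 0, 0, ⟨0, 0⟩, 0⟩ 0 0)) (.cut .l 21576052 (.pos 1 .mm ⟨0, 0, 145808588484, 0, 0, 0, 0, 0, 0, ⟨0, 0⟩, 0⟩ 0 0) (.pos 1 .mm ⟨0, 0, 146343166396, 0, 0, 0, 0, 0, 0, ⟨0, 0⟩, 0⟩ 0 0)))) (.cut .l 22406612 (.cut .s 16496640 (.cut .s 16495616 (.pos 1 .mm ⟨0,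 0, 57362753772, 0, 0, 0, 0, 0, 0, ⟨0, 0⟩, 0⟩ 0 0) (.pos 1 .mm ⟨0, 0, 145364137369, 0, 0, 0, 0, 0, 0, ⟨0, 0⟩, 0⟩ 0 0)) (.cut .l 22129759 (.pos 1 .mm ⟨0, 0, 146877746238, 0, 0, 0, 0, 0, 0, ⟨0, 0⟩, 0⟩ 0 0) (.pos 1 .mm ⟨0, 0, 147412324150, 0, 0, 0, 0, 0, 0, ⟨0, 0⟩, 0⟩ 0 0))) (.cut .s 16496640 (.cut .s 16495616 (.pos 1 .mm ⟨0, 0, 144918137721, 0, 0, 0, 0, 0, 0, ⟨0, 0⟩, 0⟩ 0 0) (.pos 1 .mm ⟨0, 0, 146426727110, 0, 0, 0, 0, 0, 0, ⟨0, 0⟩, 0⟩ 0 0)) (.cut .l 22683465 (.pos 1 .mm ⟨0, 0, 147946902061, 0, 0, 0, 0, 0, 0, ⟨0, 0⟩, 0⟩ 0 0) (.pos 1 .mm ⟨0, 0, 148481479973, 0, 0, 0, 0, 0, 0, ⟨0, 0⟩, 0⟩ 0 0))))) (.cut .s 16496640 (.cut .l 24067732 (.cut .l 23514025 (.cut .l 23237172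 (.pos 1 .mm ⟨0, 0, 145974223981, 0, 0, 0, 0, 0, 0, ⟨0, 0⟩, 0⟩ 0 0) (.pos 1 .mm ⟨0, 0, 146502266158, 0, 0, 0, 0, 0, 0, ⟨0, 0⟩, 0⟩ 0 0)) (.cut .s 16495616 (.pos 1 .mm ⟨0, 0, 65663962317, 0, 0, 0, 0, 0, 0, ⟨0, 0⟩, 0⟩ 0 0) (.pos 1 .mm ⟨0, 0, 66895558267, 0, 0, 0, 0, 0, 0, ⟨0, 0⟩, 0⟩ 0 0))) (.cut .s 16495616 (.pos 1 .mm ⟨0, 0, 66726226984, 0, 0, 0, 0, 0, 0, ⟨0, 0⟩, 0⟩ 0 0) (.pos 1 .mm ⟨0, 0, 67964479576, 0, 0, 0, 0, 0, 0, ⟨0, 0⟩, 0⟩ 0 0))) (.cut .l 24067732 (.cut .l 23514025 (.cut .l 23237172 (.pos 1 .mm ⟨0, 0, 149016059815, 0, 0, 0, 0, 0, 0, ⟨0, 0⟩, 0⟩ 0 0) (.pos 1 .mm ⟨0, 0, 149550637726, 0, 0, 0, 0, 0, 0, ⟨0, 0⟩, 0⟩ 0 0)) (.cut .s 16497664 (.pos 1 .mm ⟨0, 0,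 150085215638, 0, 0, 0, 0, 0, 0, ⟨0, 0⟩, 0⟩ 0 0) (.pos 1 .mm ⟨0, 0, 151630358357, 0, 0, 0, 0, 0, 0, ⟨0, 0⟩, 0⟩ 0 0))) (.cut .l 24621438 (.cut .l 24344585 (.pos 1 .mm ⟨0, 0, 151154373392, 0, 0, 0, 0, 0, 0, ⟨0, 0⟩, 0⟩ 0 0) (.pos 1 .mm ⟨0, 0, 151688951303, 0, 0, 0, 0, 0, 0, ⟨0, 0⟩, 0⟩ 0 0)) (.cut .s 16497664 (.pos 1 .mm ⟨0, 0, 152223529214, 0, 0, 0, 0, 0, 0, ⟨0, 0⟩, 0⟩ 0 0) (.pos 1 .mm ⟨0, 0, 153781926835, 0, 0, 0, 0, 0, 0, ⟨0, 0⟩, 0⟩ 0 0))))))))) (.cut .l 20745493 (.cut .l 18530667 (.cut .l 17423254 (.cut .l 16869548 (.cut .s 16506880 (.cut .s 16502784 (.cut .l 16592695 (.pos 1 .mm ⟨0, 0, 56687232430, 0, 0, 0, 0, 0, 0, ⟨0, 0⟩, 0⟩ 0 0) (.pos 1 .mm ⟨0, 0, 57241256799,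 0, 0, 0, 0, 0, 0, ⟨0, 0⟩, 0⟩ 0 0)) (.cut .s 16504832 (.pos 1 .mm ⟨0, 0, 145109987675, 0, 0, 0, 0, 0, 0, ⟨0, 0⟩, 0⟩ 0 0) (.pos 1 .mm ⟨0, 0, 148177583327, 0, 0, 0, 0, 0, 0, ⟨0, 0⟩, 0⟩ 0 0))) (.cut .s 16510976 (.cut .s 16508928 (.pos 1 .mm ⟨0, 0, 151293436508, 0, 0, 0, 0, 0, 0, ⟨0, 0⟩, 0⟩ 0 0) (.pos 1 .mm ⟨0, 0, 154458652152, 0, 0, 0, 0, 0, 0, ⟨0, 0⟩, 0⟩ 0 0)) (.cut .s 16513024 (.pos 1 .mm ⟨0, 0, 157674369174, 0, 0, 0, 0, 0, 0, ⟨0, 0⟩, 0⟩ 0 0) (.pos 1 .mm ⟨0, 0, 160941761791, 0, 0, 0, 0, 0, 0, ⟨0, 0⟩, 0⟩ 0 0)))) (.cut .s 16506880 (.cut .s 16502784 (.cut .s 16500736 (.pos 1 .mm ⟨0, 0, 140197784404, 0, 0, 0, 0, 0, 0, ⟨0, 0⟩, 0⟩ 0 0) (.pos 1 .mm ⟨0, 0, 59219022372,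 0, 0, 0, 0, 0, 0, ⟨0, 0⟩, 0⟩ 0 0)) (.cut .l 17146401 (.pos 1 .mm ⟨0, 0, 146219852666, 0, 0, 0, 0, 0, 0, ⟨0, 0⟩, 0⟩ 0 0) (.pos 1 .mm ⟨0, 0, 146774785162, 0, 0, 0, 0, 0, 0, ⟨0, 0⟩, 0⟩ 0 0))) (.cut .s 16510976 (.cut .s 16508928 (.pos 1 .mm ⟨0, 0, 152431743255, 0, 0, 0, 0, 0, 0, ⟨0, 0⟩, 0⟩ 0 0) (.pos 1 .mm ⟨0, 0, 155611588381, 0, 0, 0, 0, 0, 0, ⟨0, 0⟩, 0⟩ 0 0)) (.cut .s 16513024 (.cut .s 16512000 (.pos 1 .mm ⟨0, 0, 158842215677, 0, 0, 0, 0, 0, 0, ⟨0, 0⟩, 0⟩ 0 0) (.pos 1 .mm ⟨0, 0, 160476940199, 0, 0, 0, 0, 0, 0, ⟨0, 0⟩, 0⟩ 0 0)) (.cut .l 17146401 (.pos 1 .mm ⟨0, 0, 162124805894, 0, 0, 0, 0, 0, 0, ⟨0, 0⟩, 0⟩ 0 0) (.pos 1 .mm ⟨0, 0, 116387709611, 0, 0, 0, 0, 0,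 0, ⟨0, 0⟩, 0⟩ 0 0)))))) (.cut .l 17976960 (.cut .l 17700107 (.pos 1 .mm ⟨0, 0, 141280257156, 0, 0, 0, 0, 0, 0, ⟨0, 0⟩, 0⟩ 0 0) (.pos 1 .mm ⟨0, 0, 141821493532, 0, 0, 0, 0, 0, 0, ⟨0, 0⟩, 0⟩ 0 0)) (.cut .s 16506880 (.cut .s 16502784 (.cut .l 18253813 (.pos 1 .mm ⟨0, 0, 142362729908, 0, 0, 0, 0, 0, 0, ⟨0, 0⟩, 0⟩ 0 0) (.pos 1 .mm ⟨0, 0, 142903966283, 0, 0, 0, 0, 0, 0, ⟨0, 0⟩, 0⟩ 0 0)) (.cut .s 16504832 (.pos 1 .mm ⟨0, 0, 148439582649, 0, 0, 0, 0, 0, 0, ⟨0, 0⟩, 0⟩ 0 0) (.pos 1 .mm ⟨0, 0, 151549438480, 0, 0, 0, 0, 0, 0, ⟨0, 0⟩, 0⟩ 0 0))) (.cut .s 16510976 (.cut .s 16508928 (.cut .s 16507904 (.pos 1 .mm ⟨0, 0, 154708356749, 0, 0, 0, 0, 0, 0, ⟨0, 0⟩, 0⟩ 0 0) (.pos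 1 .mm ⟨0, 0, 156306564020, 0, 0, 0, 0, 0, 0, ⟨0, 0⟩, 0⟩ 0 0)) (.cut .s 16509952 (.pos 1 .mm ⟨0, 0, 157917460838, 0, 0, 0, 0, 0, 0, ⟨0, 0⟩, 0⟩ 0 0) (.pos 1 .mm ⟨0, 0, 159541193034, 0, 0, 0, 0, 0, 0, ⟨0, 0⟩, 0⟩ 0 0))) (.cut .d (-2097152) (.void 1 ⟨0, 0, 0, 0, 0, 100000, 0, 0, 0, ⟨0, 0⟩, 0⟩ 0 0) (.pos 1 .mm ⟨0, 0, 0, 0, 0, 0, 0, 0, 0, ⟨0, 0⟩, 0⟩ 0 0)))))) (.cut .l 19638080 (.cut .l 19084373 (.cut .s 16506880 (.cut .s 16502784 (.cut .s 16500736 (.pos 1 .mm ⟨0, 0, 143445204614, 0, 0, 0, 0, 0, 0, ⟨0, 0⟩, 0⟩ 0 0) (.pos 1 .mm ⟨0, 0, 146473741725, 0, 0, 0, 0, 0, 0, ⟨0, 0⟩, 0⟩ 0 0)) (.cut .l 18807520 (.pos 1 .mm ⟨0, 0, 149549449644, 0, 0, 0, 0, 0, 0, ⟨0, 0⟩, 0⟩ 0 0)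 (.pos 1 .mm ⟨0, 0, 150104382140, 0, 0, 0, 0, 0, 0, ⟨0, 0⟩, 0⟩ 0 0))) (.cut .s 16510976 (.cut .s 16508928 (.cut .s 16507904 (.pos 1 .mm ⟨0, 0, 155846665551, 0, 0, 0, 0, 0, 0, ⟨0, 0⟩, 0⟩ 0 0) (.pos 1 .mm ⟨0, 0, 157452152879, 0, 0, 0, 0, 0, 0, ⟨0, 0⟩, 0⟩ 0 0)) (.cut .s 16509952 (.pos 1 .mm ⟨0, 0, 159070399149, 0, 0, 0, 0, 0, 0, ⟨0, 0⟩, 0⟩ 0 0) (.pos 1 .mm ⟨0, 0, 160701550992, 0, 0, 0, 0, 0, 0, ⟨0, 0⟩, 0⟩ 0 0))) (.cut .s 16513024 (.cut .s 16512000 (.pos 1 .mm ⟨0, 0, 162345757293, 0, 0, 0, 0, 0, 0, ⟨0, 0⟩, 0⟩ 0 0) (.pos 1 .mm ⟨0, 0, 164003169234, 0, 0, 0, 0, 0, 0, ⟨0, 0⟩, 0⟩ 0 0)) (.cut .l 18807520 (.pos 1 .mm ⟨0, 0, 165673940341, 0, 0, 0, 0, 0, 0, ⟨0, 0⟩, 0⟩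 0 0) (.pos 1 .mm ⟨0, 0, 166265462393, 0, 0, 0, 0, 0, 0, ⟨0, 0⟩, 0⟩ 0 0))))) (.cut .s 16506880 (.cut .s 16502784 (.cut .l 19361226 (.pos 1 .mm ⟨0, 0, 62227478117, 0, 0, 0, 0, 0, 0, ⟨0, 0⟩, 0⟩ 0 0) (.pos 1 .mm ⟨0, 0, 62781502485, 0, 0, 0, 0, 0, 0, ⟨0, 0⟩, 0⟩ 0 0)) (.cut .l 19361226 (.pos 1 .mm ⟨0, 0, 150659314636, 0, 0, 0, 0, 0, 0, ⟨0, 0⟩, 0⟩ 0 0) (.pos 1 .mm ⟨0, 0, 151214247131, 0, 0, 0, 0, 0, 0, ⟨0, 0⟩, 0⟩ 0 0))) (.cut .s 16510976 (.cut .s 16508928 (.cut .s 16507904 (.pos 1 .mm ⟨0, 0, 156984972298, 0, 0, 0, 0, 0, 0, ⟨0, 0⟩, 0⟩ 0 0) (.pos 1 .mm ⟨0, 0, 158597739668, 0, 0, 0, 0, 0, 0, ⟨0, 0⟩, 0⟩ 0 0)) (.cut .s 16509952 (.pos 1 .mm ⟨0, 0, 160223335378, 0, 0,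 0, 0, 0, 0, ⟨0, 0⟩, 0⟩ 0 0) (.pos 1 .mm ⟨0, 0, 161861906855, 0, 0, 0, 0, 0, 0, ⟨0, 0⟩, 0⟩ 0 0))) (.cut .s 16513024 (.cut .s 16512000 (.pos 1 .mm ⟨0, 0, 163513603795, 0, 0, 0, 0, 0, 0, ⟨0, 0⟩, 0⟩ 0 0) (.pos 1 .mm ⟨0, 0, 165178578205, 0, 0, 0, 0, 0, 0, ⟨0, 0⟩, 0⟩ 0 0)) (.cut .l 19361226 (.pos 1 .mm ⟨0, 0, 166856984445, 0, 0, 0, 0, 0, 0, ⟨0, 0⟩, 0⟩ 0 0) (.pos 1 .mm ⟨0, 0, 121150024959, 0, 0, 0, 0, 0, 0, ⟨0, 0⟩, 0⟩ 0 0)))))) (.cut .s 16506880 (.cut .s 16502784 (.cut .l 20191786 (.cut .l 19914933 (.pos 1 .mm ⟨0, 0, 145610152073, 0, 0, 0, 0, 0, 0, ⟨0, 0⟩, 0⟩ 0 0) (.pos 1 .mm ⟨0, 0, 146151388448, 0, 0, 0, 0, 0, 0, ⟨0, 0⟩, 0⟩ 0 0)) (.cut .l 20468639 (.pos 1 .mm ⟨0,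 0, 146692624824, 0, 0, 0, 0, 0, 0, ⟨0, 0⟩, 0⟩ 0 0) (.pos 1 .mm ⟨0, 0, 147233861200, 0, 0, 0, 0, 0, 0, ⟨0, 0⟩, 0⟩ 0 0))) (.cut .l 20191786 (.cut .l 19914933 (.pos 1 .mm ⟨0, 0, 151769181631, 0, 0, 0, 0, 0, 0, ⟨0, 0⟩, 0⟩ 0 0) (.pos 1 .mm ⟨0, 0, 152324114127, 0, 0, 0, 0, 0, 0, ⟨0, 0⟩, 0⟩ 0 0)) (.cut .s 16504832 (.cut .s 16503808 (.pos 1 .mm ⟨0, 0, 152879046623, 0, 0, 0, 0, 0, 0, ⟨0, 0⟩, 0⟩ 0 0) (.pos 1 .mm ⟨0, 0, 154455951466, 0, 0, 0, 0, 0, 0, ⟨0, 0⟩, 0⟩ 0 0)) (.cut .l 20468639 (.pos 1 .mm ⟨0, 0, 156045249410, 0, 0, 0, 0, 0, 0, ⟨0, 0⟩, 0⟩ 0 0) (.pos 1 .mm ⟨0, 0, 70903319206, 0, 0, 0, 0, 0, 0, ⟨0, 0⟩, 0⟩ 0 0))))) (.cut .s 16510976 (.cut .s 16508928 (.cut .l 20191786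 (.cut .s 16507904 (.pos 1 .mm ⟨0, 0, 158123281101, 0, 0, 0, 0, 0, 0, ⟨0, 0⟩, 0⟩ 0 0) (.pos 1 .mm ⟨0, 0, 159743328526, 0, 0, 0, 0, 0, 0, ⟨0, 0⟩, 0⟩ 0 0)) (.cut .s 16507904 (.pos 1 .mm ⟨0, 0, 159261587847, 0, 0, 0, 0, 0, 0, ⟨0, 0⟩, 0⟩ 0 0) (.pos 1 .mm ⟨0, 0, 160888915316, 0, 0, 0, 0, 0, 0, ⟨0, 0⟩, 0⟩ 0 0))) (.cut .l 20191786 (.cut .s 16509952 (.pos 1 .mm ⟨0, 0, 161376273689, 0, 0, 0, 0, 0, 0, ⟨0, 0⟩, 0⟩ 0 0) (.pos 1 .mm ⟨0, 0, 163022264814, 0, 0, 0, 0, 0, 0, ⟨0, 0⟩, 0⟩ 0 0)) (.cut .s 16509952 (.pos 1 .mm ⟨0, 0, 162529209917, 0, 0, 0, 0, 0, 0, ⟨0, 0⟩, 0⟩ 0 0) (.pos 1 .mm ⟨0, 0, 164182620676, 0, 0, 0, 0, 0, 0, ⟨0, 0⟩, 0⟩ 0 0)))) (.cut .l 20191786 (.cut .s 16513024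 (.pos 1 .mm ⟨0, 0, 76101256747, 0, 0, 0, 0, 0, 0, ⟨0, 0⟩, 0⟩ 0 0) (.pos 1 .mm ⟨0, 0, 121745316259, 0, 0, 0, 0, 0, 0, ⟨0, 0⟩, 0⟩ 0 0)) (.cut .s 16513024 (.cut .s 16512000 (.pos 1 .mm ⟨0, 0, 165849298909, 0, 0, 0, 0, 0, 0, ⟨0, 0⟩, 0⟩ 0 0) (.pos 1 .mm ⟨0, 0, 167529398269, 0, 0, 0, 0, 0, 0, ⟨0, 0⟩, 0⟩ 0 0)) (.cut .s 16514048 (.pos 1 .mm ⟨0, 0, 167772160000, 0, 0, 0, 0, 0, 0, ⟨0, 0⟩, 0⟩ 0 0) (.pos 1 .mm ⟨0, 0, 167772160000, 0, 0, 0, 0, 0, 0, ⟨0, 0⟩, 0⟩ 0 0)))))))) (.cut .l 22960319 (.cut .l 21852906 (.cut .l 21299199 (.cut .s 16506880 (.cut .s 16502784 (.cut .s 16500736 (.cut .l 21022346 (.pos 1 .mm ⟨0, 0, 64785613200, 0, 0, 0, 0, 0, 0, ⟨0, 0⟩, 0⟩ 0 0) (.pos 1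 .mm ⟨0, 0, 65333168918, 0, 0, 0, 0, 0, 0, ⟨0, 0⟩, 0⟩ 0 0)) (.cut .l 21022346 (.pos 1 .mm ⟨0, 0, 150857908084, 0, 0, 0, 0, 0, 0, ⟨0, 0⟩, 0⟩ 0 0) (.pos 1 .mm ⟨0, 0, 67536034939, 0, 0, 0, 0, 0, 0, ⟨0, 0⟩, 0⟩ 0 0))) (.cut .s 16504832 (.cut .s 16503808 (.pos 1 .mm ⟨0, 0, 153988913618, 0, 0, 0, 0, 0, 0, ⟨0, 0⟩, 0⟩ 0 0) (.pos 1 .mm ⟨0, 0, 155572828676, 0, 0, 0, 0, 0, 0, ⟨0, 0⟩, 0⟩ 0 0)) (.cut .s 16505856 (.pos 1 .mm ⟨0, 0, 157169203157, 0, 0, 0, 0, 0, 0, ⟨0, 0⟩, 0⟩ 0 0) (.pos 1 .mm ⟨0, 0, 158778178092, 0, 0, 0, 0, 0, 0, ⟨0, 0⟩, 0⟩ 0 0)))) (.cut .s 16510976 (.cut .s 16508928 (.cut .s 16507904 (.pos 1 .mm ⟨0, 0, 160399896650, 0, 0, 0, 0, 0, 0, ⟨0, 0⟩, 0⟩ 0 0) (.pos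 1 .mm ⟨0, 0, 162034504174, 0, 0, 0, 0, 0, 0, ⟨0, 0⟩, 0⟩ 0 0)) (.cut .s 16509952 (.pos 1 .mm ⟨0, 0, 163682148228, 0, 0, 0, 0, 0, 0, ⟨0, 0⟩, 0⟩ 0 0) (.pos 1 .mm ⟨0, 0, 165342978635, 0, 0, 0, 0, 0, 0, ⟨0, 0⟩, 0⟩ 0 0))) (.cut .d (-2097152) (.void 1 ⟨0, 0, 0, 0, 0, 100000, 0, 0, 0, ⟨0, 0⟩, 0⟩ 0 0) (.pos 1 .mm ⟨0, 0, 0, 0, 0, 0, 0, 0, 0, ⟨0, 0⟩, 0⟩ 0 0)))) (.cut .s 16506880 (.cut .s 16502784 (.cut .l 21576052 (.pos 1 .mm ⟨0, 0, 66659677068, 0, 0, 0, 0, 0, 0, ⟨0, 0⟩, 0⟩ 0 0) (.pos 1 .mm ⟨0, 0, 67213701436, 0, 0, 0, 0, 0, 0, ⟨0, 0⟩, 0⟩ 0 0)) (.cut .s 16504832 (.cut .s 16503808 (.pos 1 .mm ⟨0, 0, 155098778610, 0, 0, 0, 0, 0, 0, ⟨0, 0⟩, 0⟩ 0 0) (.pos 1 .mm ⟨0, 0, 156689703870,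 0, 0, 0, 0, 0, 0, ⟨0, 0⟩, 0⟩ 0 0)) (.cut .s 16505856 (.pos 1 .mm ⟨0, 0, 72532324616, 0, 0, 0, 0, 0, 0, ⟨0, 0⟩, 0⟩ 0 0) (.pos 1 .mm ⟨0, 0, 159909273407, 0, 0, 0, 0, 0, 0, ⟨0, 0⟩, 0⟩ 0 0)))) (.cut .s 16510976 (.cut .s 16508928 (.cut .s 16507904 (.pos 1 .mm ⟨0, 0, 161538203397, 0, 0, 0, 0, 0, 0, ⟨0, 0⟩, 0⟩ 0 0) (.pos 1 .mm ⟨0, 0, 163180090964, 0, 0, 0, 0, 0, 0, ⟨0, 0⟩, 0⟩ 0 0)) (.cut .s 16509952 (.pos 1 .mm ⟨0, 0, 164835084457, 0, 0, 0, 0, 0, 0, ⟨0, 0⟩, 0⟩ 0 0) (.pos 1 .mm ⟨0, 0, 166503334498, 0, 0, 0, 0, 0, 0, ⟨0, 0⟩, 0⟩ 0 0))) (.cut .d (-2097152) (.void 1 ⟨0, 0, 0, 0, 0, 100000, 0, 0, 0, ⟨0, 0⟩, 0⟩ 0 0) (.pos 1 .mm ⟨0, 0, 0, 0, 0, 0, 0, 0, 0, ⟨0, 0⟩, 0⟩ 0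 0))))) (.cut .s 16506880 (.cut .l 22406612 (.cut .s 16502784 (.cut .l 22129759 (.pos 1 .mm ⟨0, 0, 67767727806, 0, 0, 0, 0, 0, 0, ⟨0, 0⟩, 0⟩ 0 0) (.pos 1 .mm ⟨0, 0, 68321752175, 0, 0, 0, 0, 0, 0, ⟨0, 0⟩, 0⟩ 0 0)) (.cut .s 16504832 (.cut .s 16503808 (.pos 1 .mm ⟨0, 0, 156208645605, 0, 0, 0, 0, 0, 0, ⟨0, 0⟩, 0⟩ 0 0) (.pos 1 .mm ⟨0, 0, 157806581081, 0, 0, 0, 0, 0, 0, ⟨0, 0⟩, 0⟩ 0 0)) (.cut .s 16505856 (.pos 1 .mm ⟨0, 0, 159417108622, 0, 0, 0, 0, 0, 0, ⟨0, 0⟩, 0⟩ 0 0) (.pos 1 .mm ⟨0, 0, 161040370764, 0, 0, 0, 0, 0, 0, ⟨0, 0⟩, 0⟩ 0 0)))) (.cut .s 16502784 (.cut .l 22683465 (.pos 1 .mm ⟨0, 0, 68875776543, 0, 0, 0, 0, 0, 0, ⟨0, 0⟩, 0⟩ 0 0) (.pos 1 .mm ⟨0, 0, 69429800912,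 0, 0, 0, 0, 0, 0, ⟨0, 0⟩, 0⟩ 0 0)) (.cut .s 16504832 (.cut .s 16503808 (.pos 1 .mm ⟨0, 0, 157318510597, 0, 0, 0, 0, 0, 0, ⟨0, 0⟩, 0⟩ 0 0) (.pos 1 .mm ⟨0, 0, 158923456275, 0, 0, 0, 0, 0, 0, ⟨0, 0⟩, 0⟩ 0 0)) (.cut .s 16505856 (.pos 1 .mm ⟨0, 0, 160541060340, 0, 0, 0, 0, 0, 0, ⟨0, 0⟩, 0⟩ 0 0) (.pos 1 .mm ⟨0, 0, 162171466078, 0, 0, 0, 0, 0, 0, ⟨0, 0⟩, 0⟩ 0 0))))) (.cut .l 22406612 (.cut .l 22129759 (.pos 1 .mm ⟨0, 0, 162676512199, 0, 0, 0, 0, 0, 0, ⟨0, 0⟩, 0⟩ 0 0) (.pos 1 .mm ⟨0, 0, 79521414468, 0, 0, 0, 0, 0, 0, ⟨0, 0⟩, 0⟩ 0 0)) (.cut .l 22683465 (.pos 1 .mm ⟨0, 0, 163814818946, 0, 0, 0, 0, 0, 0, ⟨0, 0⟩, 0⟩ 0 0) (.pos 1 .mm ⟨0, 0, 80716577102, 0, 0, 0, 0, 0,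 0, ⟨0, 0⟩, 0⟩ 0 0))))) (.cut .l 24067732 (.cut .l 23514025 (.cut .s 16506880 (.cut .s 16502784 (.cut .s 16500736 (.cut .l 23237172 (.pos 1 .mm ⟨0, 0, 152104994448, 0, 0, 0, 0, 0, 0, ⟨0, 0⟩, 0⟩ 0 0) (.pos 1 .mm ⟨0, 0, 69713618613, 0, 0, 0, 0, 0, 0, ⟨0, 0⟩, 0⟩ 0 0)) (.cut .s 16501760 (.pos 1 .mm ⟨0, 0, 155242074443, 0, 0, 0, 0, 0, 0, ⟨0, 0⟩, 0⟩ 0 0) (.pos 1 .mm ⟨0, 0, 156829004510, 0, 0, 0, 0, 0, 0, ⟨0, 0⟩, 0⟩ 0 0))) (.cut .s 16504832 (.cut .s 16503808 (.pos 1 .mm ⟨0, 0, 158428377592, 0, 0, 0, 0, 0, 0, ⟨0, 0⟩, 0⟩ 0 0) (.pos 1 .mm ⟨0, 0, 160040333486, 0, 0, 0, 0, 0, 0, ⟨0, 0⟩, 0⟩ 0 0)) (.cut .s 16505856 (.pos 1 .mm ⟨0, 0, 75924898518, 0, 0, 0, 0, 0, 0, ⟨0, 0⟩,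 0⟩ 0 0) (.pos 1 .mm ⟨0, 0, 163302563435, 0, 0, 0, 0, 0, 0, ⟨0, 0⟩, 0⟩ 0 0)))) (.cut .s 16510976 (.cut .s 16508928 (.cut .s 16507904 (.pos 1 .mm ⟨0, 0, 164953127748, 0, 0, 0, 0, 0, 0, ⟨0, 0⟩, 0⟩ 0 0) (.pos 1 .mm ⟨0, 0, 166616855470, 0, 0, 0, 0, 0, 0, ⟨0, 0⟩, 0⟩ 0 0)) (.cut .s 16509952 (.pos 1 .mm ⟨0, 0, 167772160000, 0, 0, 0, 0, 0, 0, ⟨0, 0⟩, 0⟩ 0 0) (.pos 1 .mm ⟨0, 0, 167772160000, 0, 0, 0, 0, 0, 0, ⟨0, 0⟩, 0⟩ 0 0))) (.cut .s 16513024 (.cut .s 16512000 (.pos 1 .mm ⟨0, 0, 167772160000, 0, 0, 0, 0, 0, 0, ⟨0, 0⟩, 0⟩ 0 0) (.pos 1 .mm ⟨0, 0, 167772160000, 0, 0, 0, 0, 0, 0, ⟨0, 0⟩, 0⟩ 0 0)) (.cut .l 23237172 (.pos 1 .mm ⟨0, 0, 128888792506, 0, 0, 0, 0, 0, 0, ⟨0,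 0⟩, 0⟩ 0 0) (.pos 1 .mm ⟨0, 0, 167772160000, 0, 0, 0, 0, 0, 0, ⟨0, 0⟩, 0⟩ 0 0))))) (.cut .s 16506880 (.cut .s 16502784 (.cut .l 23790878 (.pos 1 .mm ⟨0, 0, 153187467199, 0, 0, 0, 0, 0, 0, ⟨0, 0⟩, 0⟩ 0 0) (.pos 1 .mm ⟨0, 0, 153728703575, 0, 0, 0, 0, 0, 0, ⟨0, 0⟩, 0⟩ 0 0)) (.cut .s 16504832 (.cut .s 16503808 (.pos 1 .mm ⟨0, 0, 159538242584, 0, 0, 0, 0, 0, 0, ⟨0, 0⟩, 0⟩ 0 0) (.pos 1 .mm ⟨0, 0, 161157208679, 0, 0, 0, 0, 0, 0, ⟨0, 0⟩, 0⟩ 0 0)) (.cut .s 16505856 (.pos 1 .mm ⟨0, 0, 162788965805, 0, 0, 0, 0, 0, 0, ⟨0, 0⟩, 0⟩ 0 0) (.pos 1 .mm ⟨0, 0, 164433658749, 0, 0, 0, 0, 0, 0, ⟨0, 0⟩, 0⟩ 0 0)))) (.cut .s 16510976 (.cut .s 16508928 (.cut .s 16507904 (.pos 1 .mm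 ⟨0, 0, 166091434495, 0, 0, 0, 0, 0, 0, ⟨0, 0⟩, 0⟩ 0 0) (.pos 1 .mm ⟨0, 0, 167762442259, 0, 0, 0, 0, 0, 0, ⟨0, 0⟩, 0⟩ 0 0)) (.cut .s 16509952 (.pos 1 .mm ⟨0, 0, 167772160000, 0, 0, 0, 0, 0, 0, ⟨0, 0⟩, 0⟩ 0 0) (.pos 1 .mm ⟨0, 0, 167772160000, 0, 0, 0, 0, 0, 0, ⟨0, 0⟩, 0⟩ 0 0))) (.cut .d (-2097152) (.void 1 ⟨0, 0, 0, 0, 0, 100000, 0, 0, 0, ⟨0, 0⟩, 0⟩ 0 0) (.pos 1 .mm ⟨0, 0, 0, 0, 0, 0, 0, 0, 0, ⟨0, 0⟩, 0⟩ 0 0))))) (.cut .s 16506880 (.cut .s 16502784 (.cut .l 24621438 (.cut .l 24344585 (.pos 1 .mm ⟨0, 0, 154269941906, 0, 0, 0, 0, 0, 0, ⟨0, 0⟩, 0⟩ 0 0) (.pos 1 .mm ⟨0, 0, 154811178282, 0, 0, 0, 0, 0, 0, ⟨0, 0⟩, 0⟩ 0 0)) (.cut .l 24898291 (.pos 1 .mm ⟨0, 0, 155352414658,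 0, 0, 0, 0, 0, 0, ⟨0, 0⟩, 0⟩ 0 0) (.pos 1 .mm ⟨0, 0, 73861999862, 0, 0, 0, 0, 0, 0, ⟨0, 0⟩, 0⟩ 0 0))) (.cut .s 16504832 (.cut .l 24621438 (.cut .s 16503808 (.pos 1 .mm ⟨0, 0, 160648109579, 0, 0, 0, 0, 0, 0, ⟨0, 0⟩, 0⟩ 0 0) (.pos 1 .mm ⟨0, 0, 162274085890, 0, 0, 0, 0, 0, 0, ⟨0, 0⟩, 0⟩ 0 0)) (.cut .s 16503808 (.pos 1 .mm ⟨0, 0, 161757974571, 0, 0, 0, 0, 0, 0, ⟨0, 0⟩, 0⟩ 0 0) (.pos 1 .mm ⟨0, 0, 163390961084, 0, 0, 0, 0, 0, 0, ⟨0, 0⟩, 0⟩ 0 0))) (.cut .l 24621438 (.cut .l 24344585 (.pos 1 .mm ⟨0, 0, 163912919552, 0, 0, 0, 0, 0, 0, ⟨0, 0⟩, 0⟩ 0 0) (.pos 1 .mm ⟨0, 0, 78864960244, 0, 0, 0, 0, 0, 0, ⟨0, 0⟩, 0⟩ 0 0)) (.cut .s 16505856 (.pos 1 .mm ⟨0, 0, 79317470377,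 0, 0, 0, 0, 0, 0, ⟨0, 0⟩, 0⟩ 0 0) (.pos 1 .mm ⟨0, 0, 166695851421, 0, 0, 0, 0, 0, 0, ⟨0, 0⟩, 0⟩ 0 0))))) (.cut .s 16510976 (.cut .s 16508928 (.cut .l 24621438 (.cut .s 16507904 (.pos 1 .mm ⟨0, 0, 167229743298, 0, 0, 0, 0, 0, 0, ⟨0, 0⟩, 0⟩ 0 0) (.pos 1 .mm ⟨0, 0, 167772160000, 0, 0, 0, 0, 0, 0, ⟨0, 0⟩, 0⟩ 0 0)) (.cut .s 16507904 (.pos 1 .mm ⟨0, 0, 167772160000, 0, 0, 0, 0, 0, 0, ⟨0, 0⟩, 0⟩ 0 0) (.pos 1 .mm ⟨0, 0, 167772160000, 0, 0, 0, 0, 0, 0, ⟨0, 0⟩, 0⟩ 0 0))) (.cut .l 24621438 (.cut .s 16509952 (.pos 1 .mm ⟨0, 0, 167772160000, 0, 0, 0, 0, 0, 0, ⟨0, 0⟩, 0⟩ 0 0) (.pos 1 .mm ⟨0, 0, 167772160000, 0, 0, 0, 0, 0, 0, ⟨0, 0⟩, 0⟩ 0 0)) (.cut .s 16509952 (.pos 1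 .mm ⟨0, 0, 167772160000, 0, 0, 0, 0, 0, 0, ⟨0, 0⟩, 0⟩ 0 0) (.pos 1 .mm ⟨0, 0, 167772160000, 0, 0, 0, 0, 0, 0, ⟨0, 0⟩, 0⟩ 0 0)))) (.cut .l 24621438 (.cut .s 16513024 (.cut .s 16512000 (.pos 1 .mm ⟨0, 0, 167772160000, 0, 0, 0, 0, 0, 0, ⟨0, 0⟩, 0⟩ 0 0) (.pos 1 .mm ⟨0, 0, 167772160000, 0, 0, 0, 0, 0, 0, ⟨0, 0⟩, 0⟩ 0 0)) (.cut .l 24344585 (.pos 1 .mm ⟨0, 0, 131269951255, 0, 0, 0, 0, 0, 0, ⟨0, 0⟩, 0⟩ 0 0) (.pos 1 .mm ⟨0, 0, 131865240405, 0, 0, 0, 0, 0, 0, ⟨0, 0⟩, 0⟩ 0 0))) (.cut .l 24898291 (.pos 1 .mm ⟨0, 0, 167772160000, 0, 0, 0, 0, 0, 0, ⟨0, 0⟩, 0⟩ 0 0) (.pos 1 .mm ⟨0, 0, 167772160000, 0, 0, 0, 0, 0, 0, ⟨0, 0⟩, 0⟩ 0 0))))))))))))) (.cut .v 4294967296 (.cut .v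 268435456 (.cut .d (-8388608) (.void 10 ⟨0, 0, 0, 0, 0, 1000000000, 0, 0, 0, ⟨0, 0⟩, 0⟩ 0 0) (.cut .d (-4194304) (.void 10 ⟨1000000000, 0, 0, 0, 0, 0, 0, 0, 0, ⟨0, 0⟩, 0⟩ 0 0) (.pos 10 .mp ⟨0, 0, 0, 0, 0, 128320306706, 0, 0, 0, ⟨0, 0⟩, 0⟩ 0 0))) (.void 59 ⟨95093, 0, 0, 4907, 0, 0, 0, 0, 0, ⟨0, 0⟩, 0⟩ 0 0)) (.void 144 ⟨94826, 0, 0, 5174, 0, 0, 0, 0, 0, ⟨0, 0⟩, 0⟩ 0 0))) (.cut .v 16777216 (.cut .v 8388608 (.cut .v 4194304 (.cut .d 167105 (.cut .s 16482304 (.cut .s 16465920 (.pos 4 .pm ⟨0, 0, 167772160000, 0, 0, 0, 0, 0, 0, ⟨0, 0⟩, 0⟩ 0 0) (.pos 4 .pm ⟨0, 0, 130979513496, 0, 0, 0, 0, 0, 0, ⟨0, 0⟩, 0⟩ 0 0)) (.pos 4 .pm ⟨0, 0, 0, 0, 0, 0, 0, 0, 0, ⟨0, 0⟩, 0⟩ 0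 0)) (.cut .v 2097152 (.cut .v 1048576 (.cut .v 524288 (.cut .v 262144 (.cut .v 131072 (.cut .v 65536 (.cut .v 32768 (.pos 140 .pm ⟨0, 43764600, 0, 0, 0, 0, 0, 0, 0, ⟨0, 0⟩, 0⟩ 0 0) (.pos 141 .pm ⟨0, 116860637, 0, 0, 0, 0, 0, 0, 0, ⟨0, 0⟩, 0⟩ 0 0)) (.pos 137 .pm ⟨0, 226498378, 0, 0, 0, 0, 0, 0, 0, ⟨0, 0⟩, 0⟩ 0 0)) (.pos 129 .pm ⟨0, 445748600, 0, 0, 0, 0, 0, 0, 0, ⟨0, 0⟩, 0⟩ 0 0)) (.pos 123 .pm ⟨0, 884148005, 0, 0, 0, 0, 0, 0, 0, ⟨0, 0⟩, 0⟩ 0 0)) (.pos 119 .pm ⟨0, 1760542660, 0, 0, 0, 0, 0, 0, 0, ⟨0, 0⟩, 0⟩ 0 0)) (.pos 101 .pm ⟨0, 3511715355, 0, 0, 0, 0, 0, 0, 0, ⟨0, 0⟩, 0⟩ 0 0)) (.pos 7 .pm ⟨0, 7007594279, 0, 0, 0, 0, 0, 0, 0, ⟨0, 0⟩, 0⟩ 0 0))) (.pos 5 .pm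 ⟨0, 13400392582, 0, 0, 0, 0, 0, 0, 0, ⟨0, 0⟩, 0⟩ 0 0)) (.pos 3 .pm ⟨0, 26655420596, 0, 0, 0, 0, 0, 0, 0, ⟨0, 0⟩, 0⟩ 0 0)) (.cut .v 4294967296 (.pos 58 .pp ⟨0, 52751622804, 0, 0, 0, 0, 0, 0, 0, ⟨0, 0⟩, 0⟩ 0 0) (.void 144 ⟨0, 0, 0, 100000, 0, 0, 0, 0, 0, ⟨0, 0⟩, 0⟩ 0 0)))),
    by decide +kernel⟩

def covers34 : cell.Covers table row34.1 :=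
  ⟨(.cut .d 0 (.cut .v 16777216 (.cut .d (-8388608) (.void 1 ⟨0, 0, 51538, 0, 0, 0, 0, 0, 0, ⟨0, 0⟩, 0⟩ 0 0) (.pos 1 .mm ⟨0, 0, 167772160000, 0, 0, 0, 0, 0, 0, ⟨0, 0⟩, 0⟩ 0 0)) (.cut .v 4294967296 (.cut .v 268435456 (.cut .d (-8388608) (.void 10 ⟨0, 0, 0, 0, 0, 1000000000, 0, 0, 0, ⟨0, 0⟩, 0⟩ 0 0) (.cut .d (-4194304) (.void 10 ⟨1000000000, 0, 0, 0, 0, 0, 0, 0, 0, ⟨0, 0⟩, 0⟩ 0 0) (.pos 10 .mp ⟨85888756628, 0, 0, 0, 0, 81883403372, 0, 0, 0, ⟨0, 0⟩, 0⟩ 0 0))) (.void 59 ⟨95074, 0, 0, 4926, 0, 0, 0, 0, 0, ⟨0, 0⟩, 0⟩ 0 0)) (.void 144 ⟨94876, 0, 0, 5124, 0, 0, 0, 0, 0, ⟨0, 0⟩, 0⟩ 0 0))) (.cut .v 16777216 (.cut .v 8388608 (.cut .v 4194304 (.cut .v 2097152 (.cut .v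 1048576 (.cut .v 524288 (.cut .v 262144 (.cut .v 131072 (.pos 128 .pm ⟨0, 49361467, 0, 0, 0, 0, 0, 0, 0, ⟨0, 0⟩, 0⟩ 0 0) (.pos 129 .pm ⟨0, 630114769, 0, 0, 0, 0, 0, 0, 0, ⟨0, 0⟩, 0⟩ 0 0)) (.pos 123 .pm ⟨0, 1252542966, 0, 0, 0, 0, 0, 0, 0, ⟨0, 0⟩, 0⟩ 0 0)) (.pos 119 .pm ⟨0, 2496978648, 0, 0, 0, 0, 0, 0, 0, ⟨0, 0⟩, 0⟩ 0 0)) (.pos 101 .pm ⟨0, 4984167165, 0, 0, 0, 0, 0, 0, 0, ⟨0, 0⟩, 0⟩ 0 0)) (.pos 7 .pm ⟨0, 9951812808, 0, 0, 0, 0, 0, 0, 0, ⟨0, 0⟩, 0⟩ 0 0)) (.pos 5 .pm ⟨0, 19860178534, 0, 0, 0, 0, 0, 0, 0, ⟨0, 0⟩, 0⟩ 0 0)) (.pos 3 .pm ⟨0, 39569207739, 0, 0, 0, 0, 0, 0, 0, ⟨0, 0⟩, 0⟩ 0 0)) (.pos 143 .pp ⟨0, 78556457167, 0, 0, 0, 0, 0, 0, 0, ⟨0, 0⟩, 0⟩ 0 0))),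
    by decide +kernel⟩

def covers35 : cell.Covers table row35.1 :=
  ⟨(.cut .d 0 (.cut .v 16777216 (.cut .d (-8388608) (.void 1 ⟨0, 0, 0, 0, 0, 1000000000, 0, 0, 0, ⟨0, 0⟩, 0⟩ 0 0) (.pos 1 .mm ⟨0, 0, 167772160000, 0, 0, 0, 0, 0, 0, ⟨0, 0⟩, 0⟩ 0 0)) (.cut .v 4294967296 (.cut .d (-8388608) (.void 58 ⟨1000000000, 0, 0, 0, 0, 0, 0, 0, 0, ⟨0, 0⟩, 0⟩ 0 0) (.cut .v 268435456 (.cut .d (-4194304) (.void 10 ⟨1000000000, 0, 0, 0, 0, 0, 0, 0, 0, ⟨0, 0⟩, 0⟩ 0 0) (.cut .d (-2097152) (.void 10 ⟨1000000000, 0, 0, 0, 0, 0, 0, 0, 0, ⟨0, 0⟩, 0⟩ 0 0) (.pos 10 .mp ⟨0, 0, 0, 0, 0, 0, 0, 0, 0, ⟨0, 0⟩, 0⟩ 0 0))) (.cut .d (-4194304) (.void 59 ⟨1000000000, 0, 0, 0, 0, 0, 0, 0, 0,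 ⟨0, 0⟩, 0⟩ 0 0) (.cut .s 16588800 (.void 59 ⟨91659, 0, 0, 8341, 0, 0, 0, 0, 0, ⟨0, 0⟩, 0⟩ 0 0) (.void 59 ⟨91659, 0, 0, 8341, 0, 0, 0, 0, 0, ⟨0, 0⟩, 0⟩ 0 0))))) (.void 144 ⟨0, 0, 0, 2522, 0, 80488, 0, 958, 0, ⟨(-1), 4935892⟩, 0⟩ 0 342))) (.cut .v 16777216 (.cut .v 8388608 (.cut .d 107866 (.pos 2 .pm ⟨0, 0, 0, 387909, 0, 0, 0, 0, 0, ⟨0, 0⟩, 0⟩ 0 0) (.cut .v 4194304 (.cut .v 2097152 (.cut .v 1048576 (.cut .v 524288 (.cut .v 262144 (.cut .v 131072 (.cut .v 65536 (.pos 136 .pm ⟨0, 74010784, 0, 0, 0, 0, 0, 0, 0, ⟨0, 0⟩, 0⟩ 0 0) (.pos 137 .pm ⟨0, 323858431, 0, 0, 0, 0, 0, 0, 0, ⟨0, 0⟩, 0⟩ 0 0)) (.pos 129 .pm ⟨0, 640204108, 0, 0, 0, 0, 0, 0, 0, ⟨0, 0⟩, 0⟩ 0 0)) (.pos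 123 .pm ⟨0, 1272790284, 0, 0, 0, 0, 0, 0, 0, ⟨0, 0⟩, 0⟩ 0 0)) (.pos 119 .pm ⟨0, 2537541923, 0, 0, 0, 0, 0, 0, 0, ⟨0, 0⟩, 0⟩ 0 0)) (.pos 101 .pm ⟨0, 0, 0, 0, 0, 0, 0, 0, 0, ⟨0, 0⟩, 0⟩ 0 0)) (.pos 7 .pm ⟨0, 0, 0, 0, 0, 0, 0, 0, 0, ⟨0, 0⟩, 0⟩ 0 0)) (.pos 5 .pm ⟨0, 20185165212, 0, 0, 0, 0, 0, 0, 0, ⟨0, 0⟩, 0⟩ 0 0))) (.pos 3 .pm ⟨0, 39015319667, 0, 0, 0, 0, 0, 0, 0, ⟨0, 0⟩, 0⟩ 0 0)) (.pos 143 .pp ⟨0, 83542908184, 0, 0, 0, 0, 0, 0, 0, ⟨0, 0⟩, 0⟩ 0 0))),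
    by decide +kernel⟩

def covers36 : cell.Covers table row36.1 :=
  ⟨(.cut .d 0 (.cut .v 16777216 (.cut .d (-8388608) (.cut .d (-12582912) (.void 1 ⟨0, 0, 100000, 0, 0, 0, 0, 0, 0, ⟨0, 0⟩, 0⟩ 0 0) (.void 1 ⟨0, 0, 100000, 0, 0, 0, 0, 0, 0, ⟨0, 0⟩, 0⟩ 0 0)) (.cut .d (-4194304) (.void 1 ⟨0, 0, 100000, 0, 0, 0, 0, 0, 0, ⟨0, 0⟩, 0⟩ 0 0) (.pos 1 .mm ⟨0, 0, 167772160000, 0, 0, 0, 0, 0, 0, ⟨0, 0⟩, 0⟩ 0 0))) (.cut .v 4294967296 (.cut .d (-8388608) (.void 58 ⟨1000000000, 0, 0, 0, 0, 0, 0, 0, 0, ⟨0, 0⟩, 0⟩ 0 0) (.cut .v 268435456 (.cut .d (-4194304) (.void 10 ⟨1000000000, 0, 0, 0, 0, 0, 0, 0, 0, ⟨0, 0⟩, 0⟩ 0 0) (.cut .d (-2097152) (.void 10 ⟨1000000000, 0, 0, 0, 0,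 0, 0, 0, 0, ⟨0, 0⟩, 0⟩ 0 0) (.pos 10 .mp ⟨0, 0, 0, 0, 0, 0, 0, 0, 0, ⟨0, 0⟩, 0⟩ 0 0))) (.cut .s 16629760 (.void 59 ⟨92667, 0, 0, 7333, 0, 0, 0, 0, 0, ⟨0, 0⟩, 0⟩ 0 0) (.void 59 ⟨92667, 0, 0, 7333, 0, 0, 0, 0, 0, ⟨0, 0⟩, 0⟩ 0 0)))) (.void 144 ⟨95037, 0, 0, 4963, 0, 0, 0, 0, 0, ⟨0, 0⟩, 0⟩ 0 0))) (.cut .v 16777216 (.cut .v 8388608 (.cut .v 4194304 (.cut .v 2097152 (.cut .v 1048576 (.cut .v 524288 (.cut .v 262144 (.pos 122 .pm ⟨0, 44094851, 0, 0, 0, 0, 0, 0, 0, ⟨0, 0⟩, 0⟩ 0 0) (.pos 123 .pm ⟨0, 1452176343, 0, 0, 0, 0, 0, 0, 0, ⟨0, 0⟩, 0⟩ 0 0)) (.pos 119 .pm ⟨0, 2896092128, 0, 0, 0, 0, 0, 0, 0, ⟨0, 0⟩, 0⟩ 0 0)) (.pos 101 .pm ⟨0, 5782211756, 0, 0, 0, 0, 0, 0, 0,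 ⟨0, 0⟩, 0⟩ 0 0)) (.pos 7 .pm ⟨0, 11547603248, 0, 0, 0, 0, 0, 0, 0, ⟨0, 0⟩, 0⟩ 0 0)) (.pos 5 .pm ⟨0, 23050995176, 0, 0, 0, 0, 0, 0, 0, ⟨0, 0⟩, 0⟩ 0 0)) (.pos 3 .pm ⟨0, 45948214808, 0, 0, 0, 0, 0, 0, 0, ⟨0, 0⟩, 0⟩ 0 0)) (.pos 143 .pp ⟨0, 91304397175, 0, 0, 0, 0, 0, 0, 0, ⟨0, 0⟩, 0⟩ 0 0))),
    by decide +kernel⟩

def covers37 : cell.Covers table row37.1 :=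
  ⟨(.cut .d 0 (.cut .v 16777216 (.cut .d (-8388608) (.void 1 ⟨0, 0, 100000, 0, 0, 0, 0, 0, 0, ⟨0, 0⟩, 0⟩ 0 0) (.cut .d (-4194304) (.void 1 ⟨0, 0, 100000, 0, 0, 0, 0, 0, 0, ⟨0, 0⟩, 0⟩ 0 0) (.pos 1 .mm ⟨0, 0, 167772160000, 0, 0, 0, 0, 0, 0, ⟨0, 0⟩, 0⟩ 0 0))) (.cut .v 4294967296 (.cut .v 268435456 (.cut .d (-8388608) (.void 10 ⟨86813, 0, 0, 0, 0, 0, 0, 13056, 0, ⟨(-1), 9570306⟩, 0⟩ 0 128) (.cut .d (-4194304) (.void 10 ⟨1000000000, 0, 0, 0, 0, 0, 0, 0, 0, ⟨0, 0⟩, 0⟩ 0 0) (.cut .d (-2097152) (.void 10 ⟨1000000000, 0, 0, 0, 0, 0, 0, 0, 0, ⟨0, 0⟩, 0⟩ 0 0) (.pos 10 .mp ⟨0, 0, 0, 0, 0, 0, 0, 0, 0, ⟨0, 0⟩, 0⟩ 0 0)))) (.cut .d (-8388608) (.void 59 ⟨92836, 0, 868, 0,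 0, 0, 0, 7804, 0, ⟨(-1), 9570306⟩, 0⟩ 0 128) (.cut .s 16654336 (.void 59 ⟨1000000000, 0, 0, 0, 0, 0, 0, 0, 0, ⟨0, 0⟩, 0⟩ 0 0) (.void 59 ⟨1000000000, 0, 0, 0, 0, 0, 0, 0, 0, ⟨0, 0⟩, 0⟩ 0 0)))) (.void 144 ⟨1000000000, 0, 0, 0, 0, 0, 0, 0, 0, ⟨0, 0⟩, 0⟩ 0 0))) (.cut .v 16777216 (.pos 1 .pm ⟨0, 0, 0, 399665, 0, 0, 0, 0, 0, ⟨0, 0⟩, 0⟩ 0 0) (.pos 143 .pp ⟨0, 99372523112, 0, 0, 0, 0, 0, 0, 0, ⟨0, 0⟩, 0⟩ 0 0))),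
    by decide +kernel⟩

def covers38 : cell.Covers table row38.1 :=
  ⟨(.cut .d 0 (.cut .v 16777216 (.cut .d (-8388608) (.void 1 ⟨0, 0, 0, 0, 0, 100000, 0, 0, 0, ⟨0, 0⟩, 0⟩ 0 0) (.cut .d (-4194304) (.cut .s 16678912 (.void 1 ⟨0, 0, 100000, 0, 0, 0, 0, 0, 0, ⟨0, 0⟩, 0⟩ 0 0) (.void 1 ⟨0, 0, 100000, 0, 0, 0, 0, 0, 0, ⟨0, 0⟩, 0⟩ 0 0)) (.pos 1 .mm ⟨0, 0, 167772160000, 0, 0, 0, 0, 0, 0, ⟨0, 0⟩, 0⟩ 0 0))) (.cut .v 4294967296 (.cut .v 268435456 (.cut .d (-8388608) (.void 10 ⟨100000, 0, 0, 0, 0, 0, 0, 0, 0, ⟨0, 0⟩, 0⟩ 0 0) (.cut .d (-4194304) (.void 10 ⟨100000, 0, 0, 0, 0, 0, 0, 0, 0, ⟨0, 0⟩, 0⟩ 0 0) (.cut .d (-2097152) (.void 10 ⟨100000, 0, 0, 0, 0, 0, 0, 0, 0, ⟨0,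 0⟩, 0⟩ 0 0) (.pos 10 .mp ⟨66618630868, 0, 0, 0, 0, 0, 0, 0, 0, ⟨0, 0⟩, 0⟩ 0 0)))) (.void 59 ⟨88320, 0, 0, 4978, 0, 6703, 0, 0, 0, ⟨0, 0⟩, 0⟩ 0 0)) (.void 144 ⟨74492, 0, 0, 2108, 0, 0, 0, 0, 0, ⟨0, 0⟩, 0⟩ 0 0))) (.cut .v 16777216 (.pos 1 .pm ⟨0, 0, 0, 402565, 0, 0, 0, 0, 0, ⟨0, 0⟩, 0⟩ 0 0) (.pos 143 .pp ⟨0, 89274501686, 0, 0, 0, 0, 0, 0, 0, ⟨0, 0⟩, 0⟩ 0 0))),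
    by decide +kernel⟩

def covers39 : cell.Covers table row39.1 :=
  ⟨(.cut .d 0 (.cut .v 16777216 (.cut .d (-8388608) (.void 1 ⟨0, 0, 100000, 0, 0, 0, 0, 0, 0, ⟨0, 0⟩, 0⟩ 0 0) (.cut .d (-4194304) (.void 1 ⟨0, 0, 100000, 0, 0, 0, 0, 0, 0, ⟨0, 0⟩, 0⟩ 0 0) (.cut .d (-2097152) (.void 1 ⟨0, 0, 100000, 0, 0, 0, 0, 0, 0, ⟨0, 0⟩, 0⟩ 0 0) (.pos 1 .mm ⟨0, 0, 167772160000, 0, 0, 0, 0, 0, 0, ⟨0, 0⟩, 0⟩ 0 0)))) (.cut .v 4294967296 (.cut .d (-8388608) (.void 58 ⟨1000000000, 0, 0, 0, 0, 0, 0, 0, 0, ⟨0, 0⟩, 0⟩ 0 0) (.cut .v 268435456 (.cut .d (-4194304) (.void 10 ⟨1000000000, 0, 0, 0, 0, 0, 0, 0, 0, ⟨0, 0⟩, 0⟩ 0 0) (.cut .d (-2097152) (.void 10 ⟨1000000000, 0, 0, 0, 0,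 0, 0, 0, 0, ⟨0, 0⟩, 0⟩ 0 0) (.cut .d (-1048576) (.void 10 ⟨1000000000, 0, 0, 0, 0, 0, 0, 0, 0, ⟨0, 0⟩, 0⟩ 0 0) (.pos 10 .mp ⟨15500142977, 0, 0, 0, 0, 0, 0, 0, 0, ⟨0, 0⟩, 0⟩ 0 0)))) (.void 59 ⟨92388052, 0, 0, 0, 0, 0, 0, 0, 0, ⟨0, 0⟩, 0⟩ 0 0))) (.cut .v 68719476736 (.void 147 ⟨95019, 0, 0, 4981, 0, 0, 0, 0, 0, ⟨0, 0⟩, 0⟩ 0 0) (.void 148 ⟨0, 0, 0, 100000, 0, 0, 0, 0, 0, ⟨0, 0⟩, 0⟩ 0 0)))) (.cut .v 16777216 (.pos 1 .pm ⟨0, 0, 0, 407179, 0, 0, 0, 0, 0, ⟨0, 0⟩, 0⟩ 0 0) (.pos 143 .pp ⟨0, 86820994365, 0, 0, 0, 0, 0, 0, 0, ⟨0, 0⟩, 0⟩ 0 0))),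
    by decide +kernel⟩

def covers40 : cell.Covers table row40.1 :=
  ⟨(.cut .d 0 (.cut .v 16777216 (.cut .d (-8388608) (.void 1 ⟨0, 0, 100000, 0, 0, 0, 0, 0, 0, ⟨0, 0⟩, 0⟩ 0 0) (.cut .d (-4194304) (.void 1 ⟨0, 0, 100000, 0, 0, 0, 0, 0, 0, ⟨0, 0⟩, 0⟩ 0 0) (.cut .d (-2097152) (.void 1 ⟨0, 0, 100000, 0, 0, 0, 0, 0, 0, ⟨0, 0⟩, 0⟩ 0 0) (.cut .s 16719872 (.cut .s 16715776 (.cut .s 16713728 (.cut .s 16712704 (.pos 1 .mm ⟨0, 0, 167772160000, 0, 0, 0, 0, 0, 0, ⟨0, 0⟩, 0⟩ 0 0) (.pos 1 .mm ⟨0, 0, 167772160000, 0, 0, 0, 0, 0, 0, ⟨0, 0⟩, 0⟩ 0 0)) (.cut .l 16315842 (.cut .s 16714752 (.cut .s 16714240 (.pos 1 .mm ⟨0, 0, 167772160000, 0, 0, 0, 0, 0, 0, ⟨0, 0⟩, 0⟩ 0 0) (.pos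 1 .mm ⟨0, 0, 167772160000, 0, 0, 0, 0, 0, 0, ⟨0, 0⟩, 0⟩ 0 0)) (.cut .l 11886191 (.pos 1 .mm ⟨0, 0, 167772160000, 0, 0, 0, 0, 0, 0, ⟨0, 0⟩, 0⟩ 0 0) (.pos 1 .mm ⟨0, 0, 167772160000, 0, 0, 0, 0, 0, 0, ⟨0, 0⟩, 0⟩ 0 0))) (.cut .d (-1048576) (.void 1 ⟨0, 0, 100000, 0, 0, 0, 0, 0, 0, ⟨0, 0⟩, 0⟩ 0 0) (.pos 1 .mm ⟨0, 0, 167772160000, 0, 0, 0, 0, 0, 0, ⟨0, 0⟩, 0⟩ 0 0)))) (.cut .d (-1048576) (.void 1 ⟨0, 0, 100000, 0, 0, 0, 0, 0, 0, ⟨0, 0⟩, 0⟩ 0 0) (.pos 1 .mm ⟨0, 0, 167772160000, 0, 0, 0, 0, 0, 0, ⟨0, 0⟩, 0⟩ 0 0))) (.cut .v 8388608 (.void 2 ⟨0, 0, 100000, 0, 0, 0, 0, 0, 0, ⟨0, 0⟩, 0⟩ 0 0) (.pos 3 .mm ⟨107733457941, 0, 60038702059, 0, 0, 0, 0, 0, 0, ⟨0, 0⟩, 0⟩ 0 0))))))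 (.cut .d (-8388608) (.void 143 ⟨76568, 0, 0, 4, 0, 0, 0, 23432, 0, ⟨(-1), 9570306⟩, 0⟩ 0 128) (.cut .v 4294967296 (.cut .v 268435456 (.cut .d (-4194304) (.void 10 ⟨1000000000, 0, 0, 0, 0, 0, 0, 0, 0, ⟨0, 0⟩, 0⟩ 0 0) (.cut .d (-2097152) (.void 10 ⟨1000000000, 0, 0, 0, 0, 0, 0, 0, 0, ⟨0, 0⟩, 0⟩ 0 0) (.cut .d (-1048576) (.void 10 ⟨1000000000, 0, 0, 0, 0, 0, 0, 0, 0, ⟨0, 0⟩, 0⟩ 0 0) (.cut .d (-524288) (.void 10 ⟨1000000000, 0, 0, 0, 0, 0, 0, 0, 0, ⟨0, 0⟩, 0⟩ 0 0) (.pos 10 .mp ⟨80087270151, 0, 0, 0, 0, 0, 0, 0, 0, ⟨0, 0⟩, 0⟩ 0 0))))) (.void 59 ⟨477357329, 0, 0, 0, 0, 0, 0, 0, 0, ⟨0, 0⟩, 0⟩ 0 0)) (.void 144 ⟨477357329, 0, 0, 0, 0, 0, 0, 0, 0, ⟨0, 0⟩, 0⟩ 0 0))))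 (.cut .v 16777216 (.cut .v 8388608 (.cut .v 4194304 (.cut .v 2097152 (.cut .v 1048576 (.cut .v 524288 (.cut .v 262144 (.cut .v 131072 (.cut .v 65536 (.cut .v 32768 (.cut .v 16384 (.cut .v 8192 (.cut .v 4096 (.cut .v 2048 (.pos 155 .pm ⟨0, 0, 0, 317650, 0, 0, 0, 0, 0, ⟨0, 0⟩, 0⟩ 0 0) (.pos 156 .pm ⟨0, 0, 0, 125202, 0, 0, 0, 0, 0, ⟨0, 0⟩, 0⟩ 0 0)) (.pos 154 .pm ⟨0, 0, 3105931, 0, 0, 0, 0, 0, 0, ⟨0, 0⟩, 0⟩ 0 0)) (.pos 152 .pm ⟨0, 0, 14075590, 0, 0, 0, 0, 0, 0, ⟨0, 0⟩, 0⟩ 0 0)) (.pos 150 .pm ⟨0, 0, 36015341, 0, 0, 0, 0, 0, 0, ⟨0, 0⟩, 0⟩ 0 0)) (.pos 141 .pm ⟨0, 0, 79896584, 0, 0, 0, 0, 0, 0, ⟨0, 0⟩, 0⟩ 0 0)) (.pos 137 .pm ⟨0, 0, 167666029, 0, 0, 0, 0, 0, 0, ⟨0,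 0⟩, 0⟩ 0 0)) (.pos 129 .pm ⟨0, 0, 343232755, 0, 0, 0, 0, 0, 0, ⟨0, 0⟩, 0⟩ 0 0)) (.pos 123 .pm ⟨0, 0, 694477553, 0, 0, 0, 0, 0, 0, ⟨0, 0⟩, 0⟩ 0 0)) (.pos 119 .pm ⟨0, 0, 1397412528, 0, 0, 0, 0, 0, 0, ⟨0, 0⟩, 0⟩ 0 0)) (.pos 101 .pm ⟨0, 0, 2805064000, 0, 0, 0, 0, 0, 0, ⟨0, 0⟩, 0⟩ 0 0)) (.pos 7 .pm ⟨0, 0, 5627493029, 0, 0, 0, 0, 0, 0, ⟨0, 0⟩, 0⟩ 0 0)) (.pos 5 .pm ⟨0, 0, 11300855424, 0, 0, 0, 0, 0, 0, ⟨0, 0⟩, 0⟩ 0 0)) (.pos 3 .pm ⟨0, 0, 22761597568, 0, 0, 0, 0, 0, 0, ⟨0, 0⟩, 0⟩ 0 0)) (.cut .v 4294967296 (.cut .v 268435456 (.pos 10 .pp ⟨0, 0, 0, 0, 0, 0, 0, 0, 0, ⟨0, 0⟩, 0⟩ 0 0) (.void 59 ⟨0, 0, 0, 100000, 0, 0, 0, 0, 0, ⟨0, 0⟩, 0⟩ 0 0)) (.void 144 ⟨0, 0, 0, 100000,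 0, 0, 0, 0, 0, ⟨0, 0⟩, 0⟩ 0 0)))),
    by decide +kernel⟩

def covers41 : cell.Covers table row41.1 :=
  ⟨(.cut .d 0 (.cut .v 16777216 (.cut .d (-8388608) (.void 1 ⟨0, 0, 100000, 0, 0, 0, 0, 0, 0, ⟨0, 0⟩, 0⟩ 0 0) (.cut .d (-4194304) (.void 1 ⟨0, 0, 0, 0, 0, 100000, 0, 0, 0, ⟨0, 0⟩, 0⟩ 0 0) (.cut .d (-2097152) (.void 1 ⟨0, 0, 100000, 0, 0, 0, 0, 0, 0, ⟨0, 0⟩, 0⟩ 0 0) (.cut .d (-1048576) (.void 1 ⟨0, 0, 100000, 0, 0, 0, 0, 0, 0, ⟨0, 0⟩, 0⟩ 0 0) (.cut .d (-524288) (.void 1 ⟨0, 0, 100000, 0, 0, 0, 0, 0, 0, ⟨0, 0⟩, 0⟩ 0 0) (.cut .d (-262144) (.void 1 ⟨0, 0, 100000, 0, 0, 0, 0, 0, 0, ⟨0, 0⟩, 0⟩ 0 0) (.cut .v 8388608 (.void 2 ⟨0, 0, 1000000000, 0, 0, 0, 0, 0, 0,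 ⟨0, 0⟩, 0⟩ 0 0) (.pos 3 .mm ⟨82569811683, 0, 85202348317, 0, 0, 0, 0, 0, 0, ⟨0, 0⟩, 0⟩ 0 0)))))))) (.cut .v 4294967296 (.cut .d (-8388608) (.void 58 ⟨1000000000, 0, 0, 0, 0, 0, 0, 0, 0, ⟨0, 0⟩, 0⟩ 0 0) (.cut .v 268435456 (.cut .d (-4194304) (.void 10 ⟨1000000000, 0, 0, 0, 0, 0, 0, 0, 0, ⟨0, 0⟩, 0⟩ 0 0) (.cut .d (-2097152) (.void 10 ⟨1000000000, 0, 0, 0, 0, 0, 0, 0, 0, ⟨0, 0⟩, 0⟩ 0 0) (.cut .d (-1048576) (.void 10 ⟨1000000000, 0, 0, 0, 0, 0, 0, 0, 0, ⟨0, 0⟩, 0⟩ 0 0) (.cut .d (-524288) (.void 10 ⟨1000000000, 0, 0, 0, 0, 0, 0, 0, 0, ⟨0, 0⟩, 0⟩ 0 0) (.cut .d (-262144) (.void 10 ⟨1000000000, 0, 0, 0, 0, 0, 0, 0, 0, ⟨0, 0⟩, 0⟩ 0 0) (.cut .d (-131072) (.void 10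 ⟨1000000000, 0, 0, 0, 0, 0, 0, 0, 0, ⟨0, 0⟩, 0⟩ 0 0) (.pos 10 .mp ⟨130250294039, 0, 0, 0, 0, 0, 0, 0, 0, ⟨0, 0⟩, 0⟩ 0 0))))))) (.void 59 ⟨776352251, 0, 0, 0, 0, 0, 0, 0, 0, ⟨0, 0⟩, 0⟩ 0 0))) (.void 144 ⟨776352251, 0, 0, 0, 0, 0, 0, 0, 0, ⟨0, 0⟩, 0⟩ 0 0))) (.cut .v 16777216 (.cut .v 8388608 (.cut .v 4194304 (.cut .v 2097152 (.cut .v 1048576 (.cut .v 524288 (.cut .v 262144 (.cut .v 131072 (.cut .v 65536 (.cut .v 32768 (.cut .v 16384 (.cut .v 8192 (.cut .v 4096 (.cut .v 2048 (.pos 155 .pm ⟨0, 0, 7148179, 0, 0, 0, 0, 0, 0, ⟨0, 0⟩, 0⟩ 0 0) (.pos 156 .pm ⟨0, 0, 0, 153281, 0, 0, 0, 0, 0, ⟨0, 0⟩, 0⟩ 0 0)) (.pos 154 .pm ⟨0, 0, 2058919, 0, 0, 0, 0, 0, 0, ⟨0, 0⟩, 0⟩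 0 0)) (.pos 152 .pm ⟨0, 0, 12001525, 0, 0, 0, 0, 0, 0, ⟨0, 0⟩, 0⟩ 0 0)) (.pos 150 .pm ⟨0, 0, 31887171, 0, 0, 0, 0, 0, 0, ⟨0, 0⟩, 0⟩ 0 0)) (.pos 141 .pm ⟨0, 0, 71660204, 0, 0, 0, 0, 0, 0, ⟨0, 0⟩, 0⟩ 0 0)) (.pos 137 .pm ⟨0, 0, 151213229, 0, 0, 0, 0, 0, 0, ⟨0, 0⟩, 0⟩ 0 0)) (.pos 129 .pm ⟨0, 0, 310347116, 0, 0, 0, 0, 0, 0, ⟨0, 0⟩, 0⟩ 0 0)) (.pos 123 .pm ⟨0, 0, 628726234, 0, 0, 0, 0, 0, 0, ⟨0, 0⟩, 0⟩ 0 0)) (.pos 119 .pm ⟨0, 0, 1265929850, 0, 0, 0, 0, 0, 0, ⟨0, 0⟩, 0⟩ 0 0)) (.pos 101 .pm ⟨0, 0, 2542118604, 0, 0, 0, 0, 0, 0, ⟨0, 0⟩, 0⟩ 0 0)) (.pos 7 .pm ⟨0, 0, 5101622196, 0, 0, 0, 0, 0, 0, ⟨0, 0⟩, 0⟩ 0 0)) (.pos 5 .pm ⟨0, 0, 10249133718, 0, 0, 0, 0, 0, 0, ⟨0, 0⟩,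 0⟩ 0 0)) (.pos 3 .pm ⟨0, 0, 20658174118, 0, 0, 0, 0, 0, 0, ⟨0, 0⟩, 0⟩ 0 0)) (.cut .v 4294967296 (.cut .v 268435456 (.pos 10 .pp ⟨0, 0, 0, 0, 0, 0, 0, 0, 0, ⟨0, 0⟩, 0⟩ 0 0) (.void 59 ⟨0, 0, 0, 100000, 0, 0, 0, 0, 0, ⟨0, 0⟩, 0⟩ 0 0)) (.void 144 ⟨0, 0, 0, 100000, 0, 0, 0, 0, 0, ⟨0, 0⟩, 0⟩ 0 0)))),
    by decide +kernel⟩

def covers42 : cell.Covers table row42.1 :=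
  ⟨(.cut .d 0 (.cut .v 16777216 (.cut .d (-8388608) (.void 1 ⟨0, 0, 0, 0, 0, 1000000000, 0, 0, 0, ⟨0, 0⟩, 0⟩ 0 0) (.cut .d (-4194304) (.void 1 ⟨0, 0, 0, 0, 0, 1000000000, 0, 0, 0, ⟨0, 0⟩, 0⟩ 0 0) (.cut .d (-2097152) (.void 1 ⟨0, 0, 0, 0, 0, 1000000000, 0, 0, 0, ⟨0, 0⟩, 0⟩ 0 0) (.cut .d (-1048576) (.void 1 ⟨0, 0, 0, 0, 0, 1000000000, 0, 0, 0, ⟨0, 0⟩, 0⟩ 0 0) (.cut .d (-524288) (.void 1 ⟨0, 0, 0, 0, 0, 1000000000, 0, 0, 0, ⟨0, 0⟩, 0⟩ 0 0) (.cut .d (-262144) (.void 1 ⟨0, 0, 0, 0, 0, 1000000000, 0, 0, 0, ⟨0, 0⟩, 0⟩ 0 0) (.cut .d (-131072) (.void 1 ⟨0, 0, 0, 0, 0, 1000000000, 0, 0, 0, ⟨0, 0⟩, 0⟩ 0 0) (.cut .d (-65536) (.void 1 ⟨0, 0, 100000, 0, 0, 0, 0, 0, 0,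 ⟨0, 0⟩, 0⟩ 0 0) (.cut .v 8388608 (.void 2 ⟨0, 0, 1000000000, 0, 0, 0, 0, 0, 0, ⟨0, 0⟩, 0⟩ 0 0) (.pos 3 .mm ⟨167772160000, 0, 0, 0, 0, 0, 0, 0, 0, ⟨0, 0⟩, 0⟩ 0 0)))))))))) (.cut .v 4294967296 (.cut .d (-8388608) (.void 58 ⟨1000000000, 0, 0, 0, 0, 0, 0, 0, 0, ⟨0, 0⟩, 0⟩ 0 0) (.cut .v 268435456 (.cut .d (-4194304) (.void 10 ⟨1000000000, 0, 0, 0, 0, 0, 0, 0, 0, ⟨0, 0⟩, 0⟩ 0 0) (.cut .d (-2097152) (.void 10 ⟨1000000000, 0, 0, 0, 0, 0, 0, 0, 0, ⟨0, 0⟩, 0⟩ 0 0) (.cut .d (-1048576) (.void 10 ⟨1000000000, 0, 0, 0, 0, 0, 0, 0, 0, ⟨0, 0⟩, 0⟩ 0 0) (.cut .d (-524288) (.void 10 ⟨1000000000, 0, 0, 0, 0, 0, 0, 0, 0, ⟨0, 0⟩, 0⟩ 0 0) (.cut .d (-262144) (.void 10 ⟨1000000000,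 0, 0, 0, 0, 0, 0, 0, 0, ⟨0, 0⟩, 0⟩ 0 0) (.cut .d (-131072) (.void 10 ⟨1000000000, 0, 0, 0, 0, 0, 0, 0, 0, ⟨0, 0⟩, 0⟩ 0 0) (.cut .d (-65536) (.void 10 ⟨1000000000, 0, 0, 0, 0, 0, 0, 0, 0, ⟨0, 0⟩, 0⟩ 0 0) (.cut .d (-32768) (.void 10 ⟨1000000000, 0, 0, 0, 0, 0, 0, 0, 0, ⟨0, 0⟩, 0⟩ 0 0) (.pos 10 .mp ⟨167772160000, 0, 0, 0, 0, 0, 0, 0, 0, ⟨0, 0⟩, 0⟩ 0 0))))))))) (.void 59 ⟨1000000000, 0, 0, 0, 0, 0, 0, 0, 0, ⟨0, 0⟩, 0⟩ 0 0))) (.void 144 ⟨1000000000, 0, 0, 0, 0, 0, 0, 0, 0, ⟨0, 0⟩, 0⟩ 0 0))) (.cut .v 16777216 (.cut .v 8388608 (.cut .v 4194304 (.cut .v 2097152 (.cut .v 1048576 (.cut .v 524288 (.cut .v 262144 (.cut .v 131072 (.cut .v 65536 (.cut .v 32768 (.cut .v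 16384 (.cut .v 8192 (.cut .v 4096 (.cut .v 2048 (.cut .v 1024 (.pos 157 .pm ⟨0, 0, 18725475, 0, 0, 0, 0, 0, 0, ⟨0, 0⟩, 0⟩ 0 0) (.pos 158 .pm ⟨0, 0, 29418942, 0, 0, 0, 0, 0, 0, ⟨0, 0⟩, 0⟩ 0 0)) (.pos 156 .pm ⟨0, 0, 35413547, 0, 0, 0, 0, 0, 0, ⟨0, 0⟩, 0⟩ 0 0)) (.pos 154 .pm ⟨0, 0, 78738334, 0, 0, 0, 0, 0, 0, ⟨0, 0⟩, 0⟩ 0 0)) (.pos 152 .pm ⟨0, 0, 165388017, 0, 0, 0, 0, 0, 0, ⟨0, 0⟩, 0⟩ 0 0)) (.pos 150 .pm ⟨0, 0, 338687820, 0, 0, 0, 0, 0, 0, ⟨0, 0⟩, 0⟩ 0 0)) (.pos 141 .pm ⟨0, 0, 685289177, 0, 0, 0, 0, 0, 0, ⟨0, 0⟩, 0⟩ 0 0)) (.pos 137 .pm ⟨0, 0, 1378498889, 0, 0, 0, 0, 0, 0, ⟨0, 0⟩, 0⟩ 0 0)) (.pos 129 .pm ⟨0, 0, 2764946308, 0, 0, 0, 0, 0, 0, ⟨0, 0⟩, 0⟩ 0 0)) (.pos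 123 .pm ⟨0, 0, 5537953125, 0, 0, 0, 0, 0, 0, ⟨0, 0⟩, 0⟩ 0 0)) (.pos 119 .pm ⟨0, 0, 11084414673, 0, 0, 0, 0, 0, 0, ⟨0, 0⟩, 0⟩ 0 0)) (.pos 101 .pm ⟨0, 0, 22179129427, 0, 0, 0, 0, 0, 0, ⟨0, 0⟩, 0⟩ 0 0)) (.pos 7 .pm ⟨0, 0, 44375725567, 0, 0, 0, 0, 0, 0, ⟨0, 0⟩, 0⟩ 0 0)) (.pos 5 .pm ⟨0, 0, 88797584376, 0, 0, 0, 0, 0, 0, ⟨0, 0⟩, 0⟩ 0 0)) (.pos 3 .pm ⟨0, 0, 167772160000, 0, 0, 0, 0, 0, 0, ⟨0, 0⟩, 0⟩ 0 0)) (.cut .v 4294967296 (.cut .v 268435456 (.pos 10 .pp ⟨0, 0, 0, 0, 0, 0, 0, 0, 0, ⟨0, 0⟩, 0⟩ 0 0) (.cut .s 16750592 (.void 59 ⟨0, 0, 0, 100000, 0, 0, 0, 0, 0, ⟨0, 0⟩, 0⟩ 0 0) (.void 59 ⟨0, 0, 0, 100000, 0, 0, 0, 0, 0, ⟨0, 0⟩, 0⟩ 0 0))) (.void 144 ⟨0, 0, 0, 100000,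 0, 0, 0, 0, 0, ⟨0, 0⟩, 0⟩ 0 0)))),
    by decide +kernel⟩

def covers43 : cell.Covers table row43.1 :=
  ⟨(.cut .d 0 (.cut .v 16777216 (.cut .d (-8388608) (.void 1 ⟨0, 0, 0, 0, 0, 1000000000, 0, 0, 0, ⟨0, 0⟩, 0⟩ 0 0) (.cut .d (-4194304) (.void 1 ⟨0, 0, 0, 0, 0, 1000000000, 0, 0, 0, ⟨0, 0⟩, 0⟩ 0 0) (.cut .d (-2097152) (.void 1 ⟨0, 0, 0, 0, 0, 1000000000, 0, 0, 0, ⟨0, 0⟩, 0⟩ 0 0) (.cut .d (-1048576) (.void 1 ⟨0, 0, 0, 0, 0, 1000000000, 0, 0, 0, ⟨0, 0⟩, 0⟩ 0 0) (.cut .d (-524288) (.void 1 ⟨0, 0, 0, 0, 0, 1000000000, 0, 0, 0, ⟨0, 0⟩, 0⟩ 0 0) (.cut .d (-262144) (.void 1 ⟨0, 0, 0, 0, 0, 1000000000, 0, 0, 0, ⟨0, 0⟩, 0⟩ 0 0) (.cut .d (-131072) (.void 1 ⟨0, 0, 0,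 0, 0, 1000000000, 0, 0, 0, ⟨0, 0⟩, 0⟩ 0 0) (.cut .d (-65536) (.void 1 ⟨0, 0, 0, 0, 0, 1000000000, 0, 0, 0, ⟨0, 0⟩, 0⟩ 0 0) (.cut .d (-32768) (.void 1 ⟨0, 0, 0, 0, 0, 1000000000, 0, 0, 0, ⟨0, 0⟩, 0⟩ 0 0) (.cut .v 8388608 (.void 2 ⟨0, 0, 1000000000, 0, 0, 0, 0, 0, 0, ⟨0, 0⟩, 0⟩ 0 0) (.pos 3 .mm ⟨167772160000, 0, 0, 0, 0, 0, 0, 0, 0, ⟨0, 0⟩, 0⟩ 0 0))))))))))) (.cut .v 4294967296 (.cut .d (-8388608) (.void 58 ⟨1000000000, 0, 0, 0, 0, 0, 0, 0, 0, ⟨0, 0⟩, 0⟩ 0 0) (.cut .v 268435456 (.cut .d (-4194304) (.void 10 ⟨1000000000, 0, 0, 0, 0, 0, 0, 0, 0, ⟨0, 0⟩, 0⟩ 0 0) (.cut .d (-2097152) (.void 10 ⟨1000000000, 0, 0, 0, 0, 0, 0, 0, 0, ⟨0, 0⟩, 0⟩ 0 0) (.cut .d (-1048576)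 (.void 10 ⟨1000000000, 0, 0, 0, 0, 0, 0, 0, 0, ⟨0, 0⟩, 0⟩ 0 0) (.cut .d (-524288) (.void 10 ⟨1000000000, 0, 0, 0, 0, 0, 0, 0, 0, ⟨0, 0⟩, 0⟩ 0 0) (.cut .d (-262144) (.void 10 ⟨1000000000, 0, 0, 0, 0, 0, 0, 0, 0, ⟨0, 0⟩, 0⟩ 0 0) (.cut .d (-131072) (.void 10 ⟨1000000000, 0, 0, 0, 0, 0, 0, 0, 0, ⟨0, 0⟩, 0⟩ 0 0) (.cut .d (-65536) (.void 10 ⟨1000000000, 0, 0, 0, 0, 0, 0, 0, 0, ⟨0, 0⟩, 0⟩ 0 0) (.cut .d (-32768) (.void 10 ⟨1000000000, 0, 0, 0, 0, 0, 0, 0, 0, ⟨0, 0⟩, 0⟩ 0 0) (.cut .d (-16384) (.void 10 ⟨1000000000, 0, 0, 0, 0, 0, 0, 0, 0, ⟨0, 0⟩, 0⟩ 0 0) (.pos 10 .mp ⟨167772160000, 0, 0, 0, 0, 0, 0, 0, 0, ⟨0, 0⟩, 0⟩ 0 0)))))))))) (.void 59 ⟨1000000000, 0, 0, 0, 0,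 0, 0, 0, 0, ⟨0, 0⟩, 0⟩ 0 0))) (.void 144 ⟨1000000000, 0, 0, 0, 0, 0, 0, 0, 0, ⟨0, 0⟩, 0⟩ 0 0))) (.cut .v 16777216 (.cut .v 8388608 (.cut .v 4194304 (.cut .v 2097152 (.cut .v 1048576 (.cut .v 524288 (.cut .v 262144 (.cut .v 131072 (.cut .v 65536 (.cut .v 32768 (.cut .v 16384 (.cut .v 8192 (.cut .v 4096 (.cut .v 2048 (.cut .v 1024 (.pos 157 .pm ⟨0, 0, 60936030, 0, 0, 0, 0, 0, 0, ⟨0, 0⟩, 0⟩ 0 0) (.pos 158 .pm ⟨0, 0, 97350276, 0, 0, 0, 0, 0, 0, ⟨0, 0⟩, 0⟩ 0 0)) (.pos 156 .pm ⟨0, 0, 159535617, 0, 0, 0, 0, 0, 0, ⟨0, 0⟩, 0⟩ 0 0)) (.pos 154 .pm ⟨0, 0, 300867432, 0, 0, 0, 0, 0, 0, ⟨0, 0⟩, 0⟩ 0 0)) (.pos 152 .pm ⟨0, 0, 609666959, 0, 0, 0, 0, 0, 0, ⟨0, 0⟩, 0⟩ 0 0))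 (.pos 150 .pm ⟨0, 0, 1227266454, 0, 0, 0, 0, 0, 0, ⟨0, 0⟩, 0⟩ 0 0)) (.pos 141 .pm ⟨0, 0, 2462467199, 0, 0, 0, 0, 0, 0, ⟨0, 0⟩, 0⟩ 0 0)) (.pos 137 .pm ⟨0, 0, 4932875719, 0, 0, 0, 0, 0, 0, ⟨0, 0⟩, 0⟩ 0 0)) (.pos 129 .pm ⟨0, 0, 9873720873, 0, 0, 0, 0, 0, 0, ⟨0, 0⟩, 0⟩ 0 0)) (.pos 123 .pm ⟨0, 0, 19755523637, 0, 0, 0, 0, 0, 0, ⟨0, 0⟩, 0⟩ 0 0)) (.pos 119 .pm ⟨0, 0, 39519578989, 0, 0, 0, 0, 0, 0, ⟨0, 0⟩, 0⟩ 0 0)) (.pos 101 .pm ⟨0, 0, 79049488985, 0, 0, 0, 0, 0, 0, ⟨0, 0⟩, 0⟩ 0 0)) (.pos 7 .pm ⟨0, 0, 158116506151, 0, 0, 0, 0, 0, 0, ⟨0, 0⟩, 0⟩ 0 0)) (.pos 5 .pm ⟨0, 0, 167772160000, 0, 0, 0, 0, 0, 0, ⟨0, 0⟩, 0⟩ 0 0)) (.pos 3 .pm ⟨0, 0, 167772160000, 0, 0, 0, 0, 0,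 0, ⟨0, 0⟩, 0⟩ 0 0)) (.cut .v 4294967296 (.cut .v 268435456 (.pos 10 .pp ⟨0, 0, 0, 0, 0, 0, 0, 0, 0, ⟨0, 0⟩, 0⟩ 0 0) (.cut .s 16760832 (.void 59 ⟨0, 0, 0, 100000, 0, 0, 0, 0, 0, ⟨0, 0⟩, 0⟩ 0 0) (.void 59 ⟨0, 0, 0, 100000, 0, 0, 0, 0, 0, ⟨0, 0⟩, 0⟩ 0 0))) (.void 144 ⟨0, 0, 0, 100000, 0, 0, 0, 0, 0, ⟨0, 0⟩, 0⟩ 0 0)))),
    by decide +kernel⟩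

def covers44 : cell.Covers table row44.1 :=
  ⟨(.cut .d 0 (.cut .v 16777216 (.cut .d (-8388608) (.void 1 ⟨0, 0, 100000, 0, 0, 0, 0, 0, 0, ⟨0, 0⟩, 0⟩ 0 0) (.cut .d (-4194304) (.void 1 ⟨0, 0, 100000, 0, 0, 0, 0, 0, 0, ⟨0, 0⟩, 0⟩ 0 0) (.cut .d (-2097152) (.void 1 ⟨0, 0, 100000, 0, 0, 0, 0, 0, 0, ⟨0, 0⟩, 0⟩ 0 0) (.cut .d (-1048576) (.void 1 ⟨0, 0, 100000, 0, 0, 0, 0, 0, 0, ⟨0, 0⟩, 0⟩ 0 0) (.cut .d (-524288) (.void 1 ⟨0, 0, 100000, 0, 0, 0, 0, 0, 0, ⟨0, 0⟩, 0⟩ 0 0) (.cut .d (-262144) (.void 1 ⟨0, 0, 100000, 0, 0, 0, 0, 0, 0, ⟨0, 0⟩, 0⟩ 0 0) (.cut .d (-131072) (.void 1 ⟨0, 0, 100000, 0, 0, 0, 0, 0, 0, ⟨0, 0⟩, 0⟩ 0 0) (.cut .d (-65536) (.void 1 ⟨0, 0, 100000, 0,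 0, 0, 0, 0, 0, ⟨0, 0⟩, 0⟩ 0 0) (.cut .d (-32768) (.void 1 ⟨0, 0, 100000, 0, 0, 0, 0, 0, 0, ⟨0, 0⟩, 0⟩ 0 0) (.cut .v 8388608 (.void 2 ⟨0, 0, 100000, 0, 0, 0, 0, 0, 0, ⟨0, 0⟩, 0⟩ 0 0) (.pos 3 .mm ⟨167772160000, 0, 0, 0, 0, 0, 0, 0, 0, ⟨0, 0⟩, 0⟩ 0 0))))))))))) (.cut .v 4294967296 (.cut .d (-8388608) (.void 58 ⟨1000000000, 0, 0, 0, 0, 0, 0, 0, 0, ⟨0, 0⟩, 0⟩ 0 0) (.cut .v 268435456 (.cut .d (-4194304) (.void 10 ⟨1000000000, 0, 0, 0, 0, 0, 0, 0, 0, ⟨0, 0⟩, 0⟩ 0 0) (.cut .d (-2097152) (.void 10 ⟨1000000000, 0, 0, 0, 0, 0, 0, 0, 0, ⟨0, 0⟩, 0⟩ 0 0) (.cut .d (-1048576) (.void 10 ⟨1000000000, 0, 0, 0, 0, 0, 0, 0, 0, ⟨0, 0⟩, 0⟩ 0 0) (.cut .d (-524288) (.void 10 ⟨1000000000,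 0, 0, 0, 0, 0, 0, 0, 0, ⟨0, 0⟩, 0⟩ 0 0) (.cut .d (-262144) (.void 10 ⟨1000000000, 0, 0, 0, 0, 0, 0, 0, 0, ⟨0, 0⟩, 0⟩ 0 0) (.cut .d (-131072) (.void 10 ⟨1000000000, 0, 0, 0, 0, 0, 0, 0, 0, ⟨0, 0⟩, 0⟩ 0 0) (.cut .d (-65536) (.void 10 ⟨1000000000, 0, 0, 0, 0, 0, 0, 0, 0, ⟨0, 0⟩, 0⟩ 0 0) (.cut .d (-32768) (.void 10 ⟨1000000000, 0, 0, 0, 0, 0, 0, 0, 0, ⟨0, 0⟩, 0⟩ 0 0) (.cut .d (-16384) (.void 10 ⟨1000000000, 0, 0, 0, 0, 0, 0, 0, 0, ⟨0, 0⟩, 0⟩ 0 0) (.pos 10 .mp ⟨167772160000, 0, 0, 0, 0, 0, 0, 0, 0, ⟨0, 0⟩, 0⟩ 0 0)))))))))) (.void 59 ⟨1000000000, 0, 0, 0, 0, 0, 0, 0, 0, ⟨0, 0⟩, 0⟩ 0 0))) (.void 144 ⟨1000000000, 0, 0, 0, 0, 0, 0, 0, 0, ⟨0, 0⟩, 0⟩ 0 0))) (.cut .v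 16777216 (.cut .v 8388608 (.cut .v 4194304 (.cut .v 2097152 (.cut .v 1048576 (.cut .v 524288 (.cut .v 262144 (.cut .v 131072 (.cut .v 65536 (.cut .v 32768 (.cut .v 16384 (.cut .v 8192 (.cut .v 4096 (.cut .v 2048 (.cut .v 1024 (.pos 157 .pm ⟨0, 0, 65770869, 0, 0, 0, 0, 0, 0, ⟨0, 0⟩, 0⟩ 0 0) (.pos 158 .pm ⟨0, 0, 228678487, 0, 0, 0, 0, 0, 0, ⟨0, 0⟩, 0⟩ 0 0)) (.pos 156 .pm ⟨0, 0, 465302764, 0, 0, 0, 0, 0, 0, ⟨0, 0⟩, 0⟩ 0 0)) (.pos 154 .pm ⟨0, 0, 938551345, 0, 0, 0, 0, 0, 0, ⟨0, 0⟩, 0⟩ 0 0)) (.pos 152 .pm ⟨0, 0, 1885048618, 0, 0, 0, 0, 0, 0, ⟨0, 0⟩, 0⟩ 0 0)) (.pos 150 .pm ⟨0, 0, 3778043603, 0, 0, 0, 0, 0, 0, ⟨0, 0⟩, 0⟩ 0 0)) (.pos 141 .pm ⟨0, 0, 7564035336, 0,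 0, 0, 0, 0, 0, ⟨0, 0⟩, 0⟩ 0 0)) (.pos 137 .pm ⟨0, 0, 15136025850, 0, 0, 0, 0, 0, 0, ⟨0, 0⟩, 0⟩ 0 0)) (.pos 129 .pm ⟨0, 0, 30280035071, 0, 0, 0, 0, 0, 0, ⟨0, 0⟩, 0⟩ 0 0)) (.pos 123 .pm ⟨0, 0, 60568166289, 0, 0, 0, 0, 0, 0, ⟨0, 0⟩, 0⟩ 0 0)) (.pos 119 .pm ⟨0, 0, 121144879825, 0, 0, 0, 0, 0, 0, ⟨0, 0⟩, 0⟩ 0 0)) (.pos 101 .pm ⟨0, 0, 167772160000, 0, 0, 0, 0, 0, 0, ⟨0, 0⟩, 0⟩ 0 0)) (.pos 7 .pm ⟨0, 0, 167772160000, 0, 0, 0, 0, 0, 0, ⟨0, 0⟩, 0⟩ 0 0)) (.pos 5 .pm ⟨0, 0, 167772160000, 0, 0, 0, 0, 0, 0, ⟨0, 0⟩, 0⟩ 0 0)) (.pos 3 .pm ⟨0, 0, 167772160000, 0, 0, 0, 0, 0, 0, ⟨0, 0⟩, 0⟩ 0 0)) (.cut .v 4294967296 (.cut .v 268435456 (.pos 10 .pp ⟨0, 0, 0, 0, 0, 0, 0, 0, 0,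 ⟨0, 0⟩, 0⟩ 0 0) (.void 59 ⟨0, 0, 0, 100000, 0, 0, 0, 0, 0, ⟨0, 0⟩, 0⟩ 0 0)) (.void 144 ⟨0, 0, 0, 100000, 0, 0, 0, 0, 0, ⟨0, 0⟩, 0⟩ 0 0)))),
    by decide +kernel⟩

def covers45 : cell.Covers table row45.1 :=
  ⟨(.cut .d 0 (.cut .v 16777216 (.cut .d (-8388608) (.void 1 ⟨0, 0, 0, 0, 0, 1000000000, 0, 0, 0, ⟨0, 0⟩, 0⟩ 0 0) (.cut .d (-4194304) (.void 1 ⟨0, 0, 0, 0, 0, 1000000000, 0, 0, 0, ⟨0, 0⟩, 0⟩ 0 0) (.cut .d (-2097152) (.cut .s 16771072 (.void 1 ⟨0, 0, 0, 0, 0, 1000000000, 0, 0, 0, ⟨0, 0⟩, 0⟩ 0 0) (.void 1 ⟨0, 0, 100000, 0, 0, 0, 0, 0, 0, ⟨0, 0⟩, 0⟩ 0 0)) (.cut .d (-1048576) (.void 1 ⟨0, 0, 0, 0, 0, 1000000000, 0, 0, 0, ⟨0, 0⟩, 0⟩ 0 0) (.cut .d (-524288)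 (.void 1 ⟨0, 0, 0, 0, 0, 1000000000, 0, 0, 0, ⟨0, 0⟩, 0⟩ 0 0) (.cut .d (-262144) (.void 1 ⟨0, 0, 0, 0, 0, 1000000000, 0, 0, 0, ⟨0, 0⟩, 0⟩ 0 0) (.cut .d (-131072) (.void 1 ⟨0, 0, 0, 0, 0, 1000000000, 0, 0, 0, ⟨0, 0⟩, 0⟩ 0 0) (.cut .d (-65536) (.void 1 ⟨0, 0, 0, 0, 0, 1000000000, 0, 0, 0, ⟨0, 0⟩, 0⟩ 0 0) (.cut .d (-32768) (.void 1 ⟨0, 0, 0, 0, 0, 1000000000, 0, 0, 0, ⟨0, 0⟩, 0⟩ 0 0) (.cut .d (-16384) (.void 1 ⟨0, 0, 0, 0, 0, 1000000000, 0, 0, 0, ⟨0, 0⟩, 0⟩ 0 0) (.cut .d (-8192) (.void 1 ⟨0, 0, 0, 0, 0, 1000000000, 0, 0, 0, ⟨0, 0⟩, 0⟩ 0 0) (.cut .v 8388608 (.void 2 ⟨0, 0, 1000000000, 0, 0, 0, 0, 0, 0, ⟨0, 0⟩, 0⟩ 0 0) (.pos 3 .mm ⟨167772160000, 0, 0, 0, 0, 0,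 0, 0, 0, ⟨0, 0⟩, 0⟩ 0 0))))))))))))) (.cut .v 4294967296 (.cut .v 268435456 (.cut .d (-8388608) (.void 10 ⟨0, 0, 0, 0, 0, 1000000000, 0, 0, 0, ⟨0, 0⟩, 0⟩ 0 0) (.cut .d (-4194304) (.void 10 ⟨1000000000, 0, 0, 0, 0, 0, 0, 0, 0, ⟨0, 0⟩, 0⟩ 0 0) (.cut .d (-2097152) (.void 10 ⟨1000000000, 0, 0, 0, 0, 0, 0, 0, 0, ⟨0, 0⟩, 0⟩ 0 0) (.cut .d (-1048576) (.void 10 ⟨1000000000, 0, 0, 0, 0, 0, 0, 0, 0, ⟨0, 0⟩, 0⟩ 0 0) (.cut .d (-524288) (.void 10 ⟨1000000000, 0, 0, 0, 0, 0, 0, 0, 0, ⟨0, 0⟩, 0⟩ 0 0) (.cut .d (-262144) (.void 10 ⟨1000000000, 0, 0, 0, 0, 0, 0, 0, 0, ⟨0, 0⟩, 0⟩ 0 0) (.cut .d (-131072) (.void 10 ⟨1000000000, 0, 0, 0, 0, 0, 0, 0, 0, ⟨0, 0⟩, 0⟩ 0 0) (.cut .d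 (-65536) (.void 10 ⟨1000000000, 0, 0, 0, 0, 0, 0, 0, 0, ⟨0, 0⟩, 0⟩ 0 0) (.cut .d (-32768) (.void 10 ⟨1000000000, 0, 0, 0, 0, 0, 0, 0, 0, ⟨0, 0⟩, 0⟩ 0 0) (.cut .d (-16384) (.void 10 ⟨1000000000, 0, 0, 0, 0, 0, 0, 0, 0, ⟨0, 0⟩, 0⟩ 0 0) (.cut .d (-8192) (.void 10 ⟨1000000000, 0, 0, 0, 0, 0, 0, 0, 0, ⟨0, 0⟩, 0⟩ 0 0) (.cut .d (-4096) (.void 10 ⟨1000000000, 0, 0, 0, 0, 0, 0, 0, 0, ⟨0, 0⟩, 0⟩ 0 0) (.pos 10 .mp ⟨167772160000, 0, 0, 0, 0, 0, 0, 0, 0, ⟨0, 0⟩, 0⟩ 0 0))))))))))))) (.void 59 ⟨100000, 0, 0, 0, 0, 0, 0, 0, 0, ⟨0, 0⟩, 0⟩ 0 0)) (.void 144 ⟨100000, 0, 0, 0, 0, 0, 0, 0, 0, ⟨0, 0⟩, 0⟩ 0 0))) (.cut .v 16777216 (.pos 1 .pm ⟨0, 0, 0, 419189, 0, 0, 0, 0, 0, ⟨0,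 0⟩, 0⟩ 0 0) (.cut .v 4294967296 (.cut .v 268435456 (.pos 10 .pp ⟨0, 0, 0, 0, 0, 0, 0, 0, 0, ⟨0, 0⟩, 0⟩ 0 0) (.cut .s 16771072 (.void 59 ⟨0, 0, 0, 100000, 0, 0, 0, 0, 0, ⟨0, 0⟩, 0⟩ 0 0) (.void 59 ⟨0, 0, 0, 100000, 0, 0, 0, 0, 0, ⟨0, 0⟩, 0⟩ 0 0))) (.void 144 ⟨0, 0, 0, 100000, 0, 0, 0, 0, 0, ⟨0, 0⟩, 0⟩ 0 0)))),
    by decide +kernel⟩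

end Vale.Agent.P237.Petty.Cor.Grid.N18.High
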