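import Vale.Agent.P237.Petty.Cor.Grid.N18.LowCert

/-!
# P237: a cell in dimension 18, subdivisions
-/

namespace Vale.Agent.P237.Petty.Cor.Grid.N18.Low

def covers0 : cell.Covers table row0.1 :=
  ⟨(.cut .d 0 (.cut .v 16777216 (.cut .v 8388608 (.cut .v 4194304 (.cut .v 2097152 (.void 6 ⟨0, 0, 100000, 0, 0, 0, 0, 0, 0, ⟨0, 0⟩, 0⟩ 0 0) (.pos 7 .mm ⟨0, 0, 0, 0, 4275926, 0, 0, 0, 0, ⟨0, 0⟩, 0⟩ 0 0)) (.pos 5 .mm ⟨0, 0, 0, 0, 0, 104703, 0, 0, 0, ⟨0, 0⟩, 0⟩ 0 0)) (.cut .d (-8388608) (.cut .v 12582912 (.pos 8 .mm ⟨0, 0, 0, 0, 0, 0, 0, 0, 0, ⟨0, 0⟩, 0⟩ 0 0) (.pos 9 .mm ⟨0, 0, 0, 0, 0, 0, 0, 0, 0, ⟨0, 0⟩, 0⟩ 0 0)) (.cut .v 12582912 (.cut .d (-4194304) (.pos 8 .mm ⟨0,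 0, 0, 0, 0, 4029, 0, 0, 0, ⟨0, 0⟩, 0⟩ 0 0) (.pos 8 .mm ⟨0, 0, 0, 0, 1635810, 0, 0, 0, 0, ⟨0, 0⟩, 0⟩ 0 0)) (.cut .d (-4194304) (.cut .v 14680064 (.pos 12 .mm ⟨0, 0, 0, 0, 0, 43406, 0, 0, 0, ⟨0, 0⟩, 0⟩ 0 0) (.pos 13 .mm ⟨0, 0, 0, 0, 0, 24134, 0, 0, 0, ⟨0, 0⟩, 0⟩ 0 0)) (.cut .d (-2097152) (.cut .v 14680064 (.cut .d (-3145728) (.pos 12 .mm ⟨0, 0, 0, 0, 0, 72675, 0, 0, 0, ⟨0, 0⟩, 0⟩ 0 0) (.pos 12 .mm ⟨0, 0, 0, 0, 445602, 0, 0, 0, 0, ⟨0, 0⟩, 0⟩ 0 0)) (.cut .v 15728640 (.pos 16 .mm ⟨0, 0, 0, 0, 0, 92250, 0, 0, 0, ⟨0, 0⟩, 0⟩ 0 0) (.pos 17 .mm ⟨0, 0, 0, 0, 0, 72000, 0, 0, 0, ⟨0, 0⟩, 0⟩ 0 0))) (.cut .v 14680064 (.pos 12 .mm ⟨0, 0, 0, 0, 3166748, 810669, 0, 0, 0, ⟨0,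 0⟩, 0⟩ 0 0) (.cut .d (-1048576) (.cut .v 15728640 (.cut .d (-1572864) (.pos 16 .mm ⟨0, 0, 0, 0, 0, 101845, 0, 0, 0, ⟨0, 0⟩, 0⟩ 0 0) (.pos 16 .mm ⟨0, 0, 0, 0, 117070, 69591, 0, 0, 0, ⟨0, 0⟩, 0⟩ 0 0)) (.pos 17 .mm ⟨0, 0, 0, 0, 0, 83583, 0, 0, 0, ⟨0, 0⟩, 0⟩ 0 0)) (.cut .v 15728640 (.pos 16 .mm ⟨0, 0, 0, 0, 0, 868574, 0, 0, 0, ⟨0, 0⟩, 0⟩ 0 0) (.cut .d (-524288) (.cut .v 16252928 (.cut .s 851968 (.pos 20 .mm ⟨0, 0, 0, 0, 0, 0, 0, 0, 0, ⟨0, 0⟩, 0⟩ 0 0) (.pos 20 .mm ⟨0, 0, 0, 0, 0, 358680, 0, 0, 0, ⟨0, 0⟩, 0⟩ 0 0)) (.pos 21 .mm ⟨0, 0, 0, 0, 0, 267047, 0, 0, 0, ⟨0, 0⟩, 0⟩ 0 0)) (.cut .v 16252928 (.pos 20 .mm ⟨0, 0, 0, 0, 0, 0, 0, 0, 0, ⟨0, 0⟩, 0⟩ 0 0) (.cut .l 708371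 (.cut .l 456712 (.cut .d (-262144) (.cut .v 16515072 (.pos 24 .mm ⟨0, 0, 0, 0, 0, 0, 0, 0, 0, ⟨0, 0⟩, 0⟩ 0 0) (.pos 25 .mm ⟨0, 0, 0, 0, 0, 0, 0, 0, 0, ⟨0, 0⟩, 0⟩ 0 0)) (.cut .s 851968 (.pos 21 .mm ⟨0, 0, 0, 0, 0, 0, 0, 0, 0, ⟨0, 0⟩, 0⟩ 0 0) (.cut .v 16515072 (.pos 24 .mm ⟨0, 0, 0, 0, 0, 0, 0, 0, 0, ⟨0, 0⟩, 0⟩ 0 0) (.cut .d (-131072) (.pos 25 .mm ⟨0, 0, 0, 0, 0, 0, 0, 0, 0, ⟨0, 0⟩, 0⟩ 0 0) (.pos 25 .mm ⟨0, 0, 0, 0, 0, 0, 0, 0, 0, ⟨0, 0⟩, 0⟩ 0 0))))) (.pos 21 .mm ⟨0, 0, 0, 0, 0, 0, 0, 0, 0, ⟨0, 0⟩, 0⟩ 0 0)) (.pos 21 .mm ⟨0, 0, 0, 0, 0, 0, 0, 0, 0, ⟨0, 0⟩, 0⟩ 0 0)))))))))))) (.cut .v 25165824 (.cut .v 20971520 (.cut .v 18874368 (.cut .v 17825792 (.cut .s 851968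 (.cut .s 425984 (.cut .d (-8388608) (.pos 35 .mp ⟨0, 0, 0, 0, 0, 0, 0, 0, 0, ⟨0, 0⟩, 0⟩ 0 0) (.cut .v 17301504 (.pos 37 .mp ⟨0, 0, 0, 0, 0, 0, 0, 0, 0, ⟨0, 0⟩, 0⟩ 0 0) (.pos 38 .mp ⟨2654477, 0, 0, 0, 0, 0, 0, 0, 0, ⟨0, 0⟩, 0⟩ 0 0))) (.pos 35 .mp ⟨872354, 0, 0, 0, 0, 0, 0, 0, 0, ⟨0, 0⟩, 0⟩ 0 0)) (.pos 35 .mp ⟨415063, 0, 0, 0, 0, 0, 0, 0, 0, ⟨0, 0⟩, 0⟩ 0 0)) (.pos 36 .mp ⟨2758131, 0, 0, 0, 0, 0, 0, 0, 0, ⟨0, 0⟩, 0⟩ 0 0)) (.void 34 ⟨100000, 0, 0, 0, 0, 0, 0, 0, 0, ⟨0, 0⟩, 0⟩ 0 0)) (.void 32 ⟨0, 0, 0, 0, 0, 0, 100000, 0, 0, ⟨0, 0⟩, 0⟩ 0 0)) (.void 30 ⟨0, 0, 0, 0, 0, 0, 100000, 0, 0, ⟨0, 0⟩, 0⟩ 0 0))) (.cut .v 16777216 (.cut .v 8388608 (.cut .v 4194304 (.cut .v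 2097152 (.void 6 ⟨0, 0, 100000, 0, 0, 0, 0, 0, 0, ⟨0, 0⟩, 0⟩ 0 0) (.pos 7 .pm ⟨0, 0, 0, 0, 1986842, 0, 0, 0, 0, ⟨0, 0⟩, 0⟩ 0 0)) (.pos 5 .pm ⟨0, 0, 0, 0, 1888722, 0, 0, 0, 0, ⟨0, 0⟩, 0⟩ 0 0)) (.cut .s 851968 (.pos 3 .pm ⟨0, 0, 0, 0, 0, 0, 0, 276966, 0, ⟨(-1), 16615185⟩, 0⟩ 0 15) (.cut .s 1277952 (.pos 3 .pm ⟨0, 0, 0, 0, 0, 0, 0, 466937, 0, ⟨27736, 16109056⟩, 0⟩ 13 22) (.cut .s 1490944 (.pos 3 .pm ⟨0, 0, 0, 0, 0, 0, 0, 438027, 76340, ⟨60789, 15699419⟩, 14107901⟩ 19 26) (.cut .d 958567 (.cut .d 479283 (.cut .d 239641 (.cut .d 119820 (.cut .d 59910 (.cut .d 29955 (.cut .v 12582912 (.void 8 ⟨0, 0, 0, 0, 100000, 0, 0, 0, 0, ⟨0, 0⟩, 0⟩ 0 0) (.cut .v 14680064 (.void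 12 ⟨0, 0, 0, 0, 100000, 0, 0, 0, 0, ⟨0, 0⟩, 0⟩ 0 0) (.cut .v 15728640 (.pos 16 .pm ⟨0, 0, 0, 0, 0, 0, 0, 0, 1958906, ⟨0, 0⟩, 15966684⟩ 0 0) (.pos 17 .pm ⟨0, 0, 0, 0, 0, 0, 0, 0, 0, ⟨0, 0⟩, 0⟩ 0 0)))) (.pos 3 .pm ⟨0, 0, 0, 0, 0, 0, 0, 0, 0, ⟨0, 0⟩, 0⟩ 0 0)) (.pos 3 .pm ⟨0, 0, 0, 0, 0, 0, 0, 0, 0, ⟨0, 0⟩, 0⟩ 0 0)) (.pos 3 .pm ⟨0, 0, 0, 0, 0, 0, 0, 0, 0, ⟨0, 0⟩, 0⟩ 0 0)) (.pos 3 .pm ⟨0, 0, 0, 0, 0, 0, 0, 0, 0, ⟨0, 0⟩, 0⟩ 0 0)) (.pos 3 .pm ⟨0, 0, 0, 0, 0, 0, 0, 1975501, 0, ⟨88963, 15410073⟩, 0⟩ 23 28)) (.pos 3 .pm ⟨0, 0, 0, 0, 0, 0, 0, 1975501, 0, ⟨99560, 15305472⟩, 0⟩ 24 29)))))) (.cut .v 25165824 (.cut .v 20971520 (.cut .v 18874368 (.cut .d 958567 (.cut .v 17825792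 (.cut .d 479283 (.cut .v 17301504 (.cut .l 708371 (.cut .l 456712 (.cut .d 239641 (.cut .v 17039360 (.cut .d 119820 (.pos 39 .pp ⟨0, 0, 0, 0, 0, 0, 0, 0, 0, ⟨0, 0⟩, 0⟩ 0 0) (.cut .s 851968 (.cut .d 179730 (.pos 39 .pp ⟨0, 0, 0, 0, 0, 0, 102307, 0, 0, ⟨0, 0⟩, 0⟩ 0 0) (.pos 39 .pp ⟨4340, 0, 0, 0, 0, 0, 276271, 0, 0, ⟨0, 0⟩, 0⟩ 0 0)) (.pos 39 .pp ⟨0, 0, 0, 0, 0, 0, 0, 0, 0, ⟨0, 0⟩, 0⟩ 0 0))) (.pos 40 .pp ⟨1773374, 0, 0, 0, 0, 0, 0, 0, 0, ⟨0, 0⟩, 0⟩ 0 0)) (.cut .v 17039360 (.cut .s 851968 (.pos 39 .pp ⟨1102460, 0, 0, 0, 0, 0, 92841, 0, 0, ⟨0, 0⟩, 0⟩ 0 0) (.cut .s 1277952 (.pos 39 .pp ⟨497813, 0, 0, 0, 0, 0, 0, 758574, 0, ⟨25756, 16148032⟩, 0⟩ 13 21) (.pos 39 .pp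 ⟨0, 0, 0, 0, 0, 0, 0, 622337, 0, ⟨64413, 15650592⟩, 0⟩ 19 27))) (.cut .d 359462 (.pos 40 .pp ⟨1566358, 0, 0, 0, 0, 0, 0, 232073, 0, ⟨(-1), 16261338⟩, 0⟩ 0 27) (.pos 40 .pp ⟨1700298, 0, 0, 0, 0, 0, 0, 80352, 0, ⟨(-1), 16261338⟩, 0⟩ 0 27)))) (.pos 37 .pp ⟨0, 0, 0, 0, 0, 0, 0, 0, 0, ⟨0, 0⟩, 0⟩ 0 0)) (.pos 37 .pp ⟨0, 0, 0, 0, 0, 0, 0, 0, 0, ⟨0, 0⟩, 0⟩ 0 0)) (.pos 38 .pp ⟨1971181, 0, 0, 0, 0, 0, 0, 0, 0, ⟨0, 0⟩, 0⟩ 0 0)) (.cut .v 17301504 (.pos 37 .pp ⟨1793072, 0, 0, 0, 0, 0, 0, 0, 0, ⟨0, 0⟩, 0⟩ 0 0) (.cut .d 718925 (.pos 38 .pp ⟨2039746, 0, 0, 0, 0, 0, 0, 0, 0, ⟨0, 0⟩, 0⟩ 0 0) (.pos 38 .pp ⟨2226640, 0, 0, 0, 0, 0, 0, 0, 0, ⟨0, 0⟩, 0⟩ 0 0)))) (.pos 36 .pp ⟨2578204,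 0, 0, 0, 0, 0, 0, 0, 0, ⟨0, 0⟩, 0⟩ 0 0)) (.cut .v 17825792 (.cut .d 1437850 (.cut .s 851968 (.pos 35 .pp ⟨2737691, 0, 0, 0, 0, 0, 0, 0, 0, ⟨0, 0⟩, 0⟩ 0 0) (.pos 35 .pp ⟨2151716, 0, 0, 0, 0, 0, 0, 0, 0, ⟨0, 0⟩, 0⟩ 0 0)) (.pos 35 .pp ⟨2561485, 0, 0, 0, 0, 0, 0, 1232350, 0, ⟨(-1), 16184355⟩, 0⟩ 0 29)) (.cut .v 18350080 (.cut .l 708371 (.void 47 ⟨81393, 0, 0, 0, 0, 0, 0, 18607, 0, ⟨(-1), 16184355⟩, 0⟩ 0 29) (.cut .d 1437850 (.cut .d 1198208 (.pos 47 .pp ⟨2797396, 0, 0, 0, 0, 0, 0, 0, 0, ⟨0, 0⟩, 0⟩ 0 0) (.cut .s 851968 (.pos 47 .pp ⟨4584558, 0, 0, 0, 0, 0, 0, 0, 0, ⟨0, 0⟩, 0⟩ 0 0) (.cut .d 1318029 (.pos 47 .pp ⟨2947825, 0, 0, 0, 0, 0, 0, 0, 0, ⟨0, 0⟩, 0⟩ 0 0) (.cut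 .s 1277952 (.pos 47 .pp ⟨3870384, 0, 0, 0, 0, 0, 0, 1810813, 0, ⟨30695, 16074624⟩, 0⟩ 14 22) (.pos 47 .pp ⟨2671583, 0, 0, 0, 0, 0, 0, 1157791, 0, ⟨82569, 15455456⟩, 0⟩ 21 29))))) (.cut .s 851968 (.pos 47 .pp ⟨6481422, 0, 0, 0, 0, 0, 0, 2229198, 0, ⟨(-1), 16615185⟩, 0⟩ 0 15) (.cut .s 1277952 (.void 47 ⟨0, 0, 0, 0, 0, 0, 0, 100000, 0, ⟨30695, 16074624⟩, 0⟩ 14 22) (.void 47 ⟨0, 0, 0, 0, 0, 0, 0, 100000, 0, ⟨82569, 15455456⟩, 0⟩ 21 29))))) (.void 48 ⟨81393, 0, 0, 0, 0, 0, 0, 18607, 0, ⟨(-1), 16184355⟩, 0⟩ 0 29)))) (.void 34 ⟨81793, 0, 0, 0, 0, 0, 0, 18207, 0, ⟨(-1), 16184355⟩, 0⟩ 0 29)) (.void 32 ⟨0, 0, 0, 0, 0, 0, 100000, 0, 0, ⟨0, 0⟩, 0⟩ 0 0)) (.void 30 ⟨0,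 0, 0, 0, 0, 0, 100000, 0, 0, ⟨0, 0⟩, 0⟩ 0 0)))),
    by decide +kernel⟩

def covers1 : cell.Covers table row1.1 :=
  ⟨(.cut .d 0 (.cut .v 16777216 (.cut .v 8388608 (.void 2 ⟨0, 0, 0, 0, 50000, 50000, 0, 0, 0, ⟨0, 0⟩, 0⟩ 0 0) (.cut .v 12582912 (.void 8 ⟨0, 0, 0, 0, 50000, 50000, 0, 0, 0, ⟨0, 0⟩, 0⟩ 0 0) (.cut .d (-8388608) (.void 9 ⟨0, 0, 0, 0, 0, 100000, 0, 0, 0, ⟨0, 0⟩, 0⟩ 0 0) (.cut .d (-4194304) (.void 9 ⟨0, 0, 0, 0, 0, 100000, 0, 0, 0, ⟨0, 0⟩, 0⟩ 0 0) (.cut .d (-2097152) (.cut .v 14680064 (.pos 12 .mm ⟨0, 0, 0, 0, 0, 2704525, 0, 0, 0, ⟨0, 0⟩, 0⟩ 0 0) (.pos 13 .mm ⟨0, 0, 0, 0, 0, 848441, 0, 0, 0, ⟨0, 0⟩, 0⟩ 0 0)) (.cut .v 14680064 (.pos 12 .mm ⟨0, 0, 0,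 0, 0, 149521, 0, 0, 0, ⟨0, 0⟩, 0⟩ 0 0) (.cut .d (-1048576) (.cut .v 15728640 (.pos 16 .mm ⟨0, 0, 0, 0, 0, 848441, 0, 0, 0, ⟨0, 0⟩, 0⟩ 0 0) (.pos 17 .mm ⟨0, 0, 0, 0, 0, 887007, 0, 0, 0, ⟨0, 0⟩, 0⟩ 0 0)) (.cut .v 15728640 (.cut .d (-524288) (.pos 16 .mm ⟨0, 0, 0, 0, 0, 556423, 0, 0, 0, ⟨0, 0⟩, 0⟩ 0 0) (.pos 16 .mm ⟨0, 0, 0, 0, 0, 136616, 0, 0, 0, ⟨0, 0⟩, 0⟩ 0 0)) (.cut .d (-524288) (.cut .v 16252928 (.pos 20 .mm ⟨0, 0, 0, 0, 0, 475697, 0, 0, 0, ⟨0, 0⟩, 0⟩ 0 0) (.pos 21 .mm ⟨0, 0, 0, 0, 0, 550546, 0, 0, 0, ⟨0, 0⟩, 0⟩ 0 0)) (.cut .v 16252928 (.cut .d (-262144) (.pos 20 .mm ⟨0, 0, 0, 0, 0, 195621, 0, 0, 0, ⟨0, 0⟩, 0⟩ 0 0) (.pos 20 .mm ⟨0, 0, 0, 0, 0, 0, 0, 0, 0,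 ⟨0, 0⟩, 0⟩ 0 0)) (.cut .d (-262144) (.cut .v 16515072 (.pos 24 .mm ⟨0, 0, 0, 0, 0, 84662, 0, 0, 0, ⟨0, 0⟩, 0⟩ 0 0) (.pos 25 .mm ⟨0, 0, 0, 0, 0, 0, 0, 0, 0, ⟨0, 0⟩, 0⟩ 0 0)) (.cut .v 16515072 (.cut .d (-131072) (.pos 24 .mm ⟨0, 0, 0, 0, 0, 0, 0, 0, 0, ⟨0, 0⟩, 0⟩ 0 0) (.pos 24 .mm ⟨0, 0, 0, 0, 0, 0, 0, 0, 0, ⟨0, 0⟩, 0⟩ 0 0)) (.cut .d (-131072) (.pos 25 .mm ⟨0, 0, 0, 0, 0, 0, 0, 0, 0, ⟨0, 0⟩, 0⟩ 0 0) (.pos 25 .mm ⟨0, 0, 0, 0, 0, 0, 0, 0, 0, ⟨0, 0⟩, 0⟩ 0 0)))))))))))))) (.cut .v 25165824 (.cut .v 20971520 (.cut .v 18874368 (.pos 33 .mp ⟨385732, 0, 0, 0, 0, 0, 0, 0, 0, ⟨0, 0⟩, 0⟩ 0 0) (.void 34 ⟨100000, 0, 0, 0, 0, 0, 0, 0, 0, ⟨0, 0⟩, 0⟩ 0 0)) (.void 32 ⟨100000,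 0, 0, 0, 0, 0, 0, 0, 0, ⟨0, 0⟩, 0⟩ 0 0)) (.void 30 ⟨0, 0, 0, 0, 0, 0, 100000, 0, 0, ⟨0, 0⟩, 0⟩ 0 0))) (.cut .v 16777216 (.cut .v 8388608 (.void 2 ⟨0, 0, 0, 0, 100000, 0, 0, 0, 0, ⟨0, 0⟩, 0⟩ 0 0) (.cut .v 12582912 (.void 8 ⟨0, 0, 0, 0, 100000, 0, 0, 0, 0, ⟨0, 0⟩, 0⟩ 0 0) (.cut .d 1663721 (.cut .v 14680064 (.pos 12 .pm ⟨0, 0, 0, 0, 0, 0, 0, 0, 137215, ⟨0, 0⟩, 15100357⟩ 0 0) (.cut .d 831860 (.cut .v 15728640 (.pos 16 .pm ⟨0, 0, 0, 0, 0, 0, 0, 0, 0, ⟨0, 0⟩, 0⟩ 0 0) (.cut .d 415930 (.cut .d 207965 (.cut .v 16252928 (.pos 20 .pm ⟨0, 0, 0, 0, 0, 0, 0, 0, 0, ⟨0, 0⟩, 0⟩ 0 0) (.cut .v 16515072 (.pos 24 .pm ⟨0, 0, 0, 0, 0, 0, 0, 0, 0, ⟨0, 0⟩, 0⟩ 0 0) (.cut .s 2359296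 (.pos 25 .pm ⟨0, 0, 0, 0, 0, 0, 0, 0, 0, ⟨0, 0⟩, 0⟩ 0 0) (.cut .d 103982 (.cut .d 51991 (.pos 25 .pm ⟨0, 0, 0, 0, 0, 0, 0, 0, 0, ⟨0, 0⟩, 0⟩ 0 0) (.pos 25 .pm ⟨0, 0, 0, 0, 0, 0, 0, 0, 0, ⟨0, 0⟩, 0⟩ 0 0)) (.pos 25 .pm ⟨0, 0, 0, 0, 0, 0, 0, 0, 0, ⟨0, 0⟩, 0⟩ 0 0))))) (.pos 17 .pm ⟨0, 0, 0, 0, 0, 0, 0, 0, 0, ⟨0, 0⟩, 0⟩ 0 0)) (.pos 17 .pm ⟨0, 0, 0, 0, 0, 0, 0, 148818, 0, ⟨243780, 13897661⟩, 0⟩ 26 49))) (.pos 13 .pm ⟨0, 0, 0, 0, 0, 0, 0, 148818, 0, ⟨271698, 13685226⟩, 0⟩ 27 51))) (.void 9 ⟨0, 0, 0, 0, 0, 0, 0, 0, 100000, ⟨0, 0⟩, 15612959⟩ 0 0)))) (.cut .v 25165824 (.cut .v 20971520 (.cut .d 1663721 (.cut .v 18874368 (.cut .d 831860 (.cut .v 17825792 (.cut .d 415930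 (.cut .v 17301504 (.cut .d 207965 (.cut .v 17039360 (.cut .d 103982 (.pos 39 .pp ⟨0, 0, 0, 0, 0, 0, 0, 0, 0, ⟨0, 0⟩, 0⟩ 0 0) (.pos 39 .pp ⟨0, 0, 0, 0, 0, 0, 0, 0, 0, ⟨0, 0⟩, 0⟩ 0 0)) (.pos 40 .pp ⟨480668, 0, 0, 0, 0, 0, 0, 0, 0, ⟨0, 0⟩, 0⟩ 0 0)) (.cut .v 17039360 (.cut .d 311947 (.pos 39 .pp ⟨0, 0, 0, 0, 0, 0, 0, 0, 0, ⟨0, 0⟩, 0⟩ 0 0) (.pos 39 .pp ⟨0, 0, 0, 0, 0, 0, 0, 159413, 0, ⟨236388, 13970443⟩, 0⟩ 26 48)) (.cut .s 2359296 (.cut .s 2031616 (.pos 40 .pp ⟨612426, 0, 0, 0, 0, 0, 0, 783510, 0, ⟨128988, 15027925⟩, 0⟩ 26 32) (.pos 40 .pp ⟨142004, 0, 0, 0, 0, 0, 0, 749338, 0, ⟨204031, 14417621⟩, 0⟩ 31 37)) (.pos 40 .pp ⟨0, 0, 0, 0, 0, 0, 0, 170666, 0, ⟨363623,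 13291861⟩, 0⟩ 36 48)))) (.pos 38 .pp ⟨655964, 0, 0, 0, 0, 0, 0, 0, 0, ⟨0, 0⟩, 0⟩ 0 0)) (.cut .v 17301504 (.cut .d 623895 (.cut .s 2359296 (.pos 37 .pp ⟨2132, 0, 0, 0, 0, 0, 0, 967014, 0, ⟨166619, 14657408⟩, 0⟩ 26 38) (.pos 37 .pp ⟨0, 0, 0, 0, 0, 0, 0, 150368, 0, ⟨363623, 13291861⟩, 0⟩ 36 48)) (.pos 37 .pp ⟨0, 0, 0, 0, 0, 0, 0, 327346, 0, ⟨243780, 13897661⟩, 0⟩ 26 49)) (.cut .l 708371 (.cut .v 17563648 (.cut .s 2359296 (.cut .s 2031616 (.pos 45 .pp ⟨90555, 0, 0, 0, 0, 0, 0, 1788448, 0, ⟨135012, 14968612⟩, 0⟩ 26 33) (.pos 45 .pp ⟨0, 0, 0, 0, 0, 0, 0, 1165738, 0, ⟨212086, 14351104⟩, 0⟩ 31 38)) (.pos 45 .pp ⟨0, 0, 0, 0, 0, 0, 0, 344177, 0, ⟨374390, 13215291⟩,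 0⟩ 36 49)) (.pos 46 .pp ⟨973225, 0, 0, 0, 0, 0, 0, 384178, 0, ⟨243780, 13897661⟩, 0⟩ 26 49)) (.pos 38 .pp ⟨0, 0, 0, 0, 0, 0, 0, 0, 0, ⟨0, 0⟩, 0⟩ 0 0)))) (.pos 36 .pp ⟨1174859, 0, 0, 0, 0, 0, 0, 0, 0, ⟨0, 0⟩, 0⟩ 0 0)) (.cut .v 17825792 (.cut .d 1247790 (.cut .v 17301504 (.pos 37 .pp ⟨0, 0, 0, 0, 0, 0, 0, 258788, 0, ⟨263846, 13759677⟩, 0⟩ 27 50) (.cut .s 2359296 (.pos 38 .pp ⟨0, 0, 0, 0, 0, 0, 0, 1570672, 0, ⟨182317, 14532693⟩, 0⟩ 27 39) (.pos 38 .pp ⟨0, 0, 0, 0, 0, 0, 0, 422810, 0, ⟨399533, 13064960⟩, 0⟩ 37 50))) (.pos 35 .pp ⟨0, 0, 0, 0, 0, 0, 0, 1193450, 0, ⟨271698, 13685226⟩, 0⟩ 27 51)) (.cut .d 1247790 (.cut .s 2359296 (.cut .v 18350080 (.pos 47 .pp ⟨782290,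 0, 0, 0, 0, 0, 0, 1028333, 0, ⟨182317, 14532693⟩, 0⟩ 27 39) (.pos 48 .pp ⟨2592485, 0, 0, 0, 0, 0, 0, 0, 0, ⟨0, 0⟩, 0⟩ 0 0)) (.pos 36 .pp ⟨0, 0, 0, 0, 0, 0, 0, 777222, 0, ⟨399533, 13064960⟩, 0⟩ 37 50)) (.cut .l 708371 (.pos 36 .pp ⟨2890081, 0, 0, 0, 0, 0, 0, 1764698, 0, ⟨271698, 13685226⟩, 0⟩ 27 51) (.cut .s 2359296 (.cut .l 960029 (.pos 36 .pp ⟨3446390, 0, 0, 0, 0, 0, 0, 2111078, 0, ⟨189316, 14466323⟩, 0⟩ 27 40) (.cut .v 18350080 (.cut .d 1455755 (.pos 47 .pp ⟨1197865, 0, 0, 0, 0, 0, 0, 1126252, 0, ⟨189316, 14466323⟩, 0⟩ 27 40) (.pos 47 .pp ⟨0, 0, 0, 0, 0, 0, 0, 2358986, 0, ⟨198880, 14405120⟩, 0⟩ 28 40)) (.cut .d 1455755 (.pos 48 .pp ⟨2507499, 0, 0, 0, 0,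 0, 0, 1145507, 0, ⟨189316, 14466323⟩, 0⟩ 27 40) (.cut .s 2031616 (.void 48 ⟨0, 0, 0, 0, 0, 0, 0, 100000, 0, ⟨163292, 14730496⟩, 0⟩ 28 35) (.pos 48 .pp ⟨1462922, 0, 0, 0, 0, 0, 0, 2965926, 0, ⟨248994, 14084388⟩, 0⟩ 33 40))))) (.cut .d 1455755 (.pos 36 .pp ⟨0, 0, 0, 0, 0, 0, 0, 897953, 0, ⟨413970, 12991040⟩, 0⟩ 38 50) (.pos 36 .pp ⟨0, 0, 0, 0, 0, 0, 0, 1955237, 0, ⟨440529, 12837760⟩, 0⟩ 39 51))))))) (.pos 34 .pp ⟨3726721, 0, 0, 0, 0, 0, 0, 1267607, 0, ⟨258760, 13750169⟩, 0⟩ 26 51)) (.cut .s 2359296 (.void 31 ⟨0, 0, 0, 0, 0, 0, 0, 100000, 0, ⟨229018, 14129568⟩, 0⟩ 28 44) (.cut .s 2686976 (.void 31 ⟨0, 0, 0, 0, 0, 0, 0, 100000, 0, ⟨428551, 12916386⟩, 0⟩ 39 50)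 (.void 31 ⟨0, 0, 0, 0, 0, 0, 0, 100000, 0, ⟨604557, 11966417⟩, 0⟩ 45 56)))) (.void 32 ⟨0, 0, 0, 0, 0, 0, 100000, 0, 0, ⟨0, 0⟩, 0⟩ 0 0)) (.void 30 ⟨0, 0, 0, 0, 0, 0, 100000, 0, 0, ⟨0, 0⟩, 0⟩ 0 0)))),
    by decide +kernel⟩

def covers2 : cell.Covers table row2.1 :=
  ⟨(.cut .d 0 (.cut .v 16777216 (.cut .v 8388608 (.void 2 ⟨0, 0, 0, 0, 50000, 50000, 0, 0, 0, ⟨0, 0⟩, 0⟩ 0 0) (.cut .v 12582912 (.pos 8 .mm ⟨0, 0, 0, 0, 0, 18935163, 0, 0, 0, ⟨0, 0⟩, 0⟩ 0 0) (.cut .d (-8388608) (.void 9 ⟨0, 0, 0, 0, 0, 100000, 0, 0, 0, ⟨0, 0⟩, 0⟩ 0 0) (.cut .d (-4194304) (.void 9 ⟨0, 0, 0, 0, 0, 100000, 0, 0, 0, ⟨0, 0⟩, 0⟩ 0 0) (.cut .d (-2097152) (.void 9 ⟨0, 0, 0, 0, 0, 100000,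 0, 0, 0, ⟨0, 0⟩, 0⟩ 0 0) (.cut .v 14680064 (.pos 12 .mm ⟨0, 0, 0, 0, 0, 133683, 0, 0, 0, ⟨0, 0⟩, 0⟩ 0 0) (.cut .d (-1048576) (.cut .v 15728640 (.pos 16 .mm ⟨0, 0, 0, 0, 0, 140049, 0, 0, 0, ⟨0, 0⟩, 0⟩ 0 0) (.pos 17 .mm ⟨0, 0, 0, 0, 0, 143231, 0, 0, 0, ⟨0, 0⟩, 0⟩ 0 0)) (.cut .v 15728640 (.cut .d (-524288) (.pos 16 .mm ⟨0, 0, 0, 0, 0, 143231, 0, 0, 0, ⟨0, 0⟩, 0⟩ 0 0) (.pos 16 .mm ⟨0, 0, 0, 0, 0, 143231, 0, 0, 0, ⟨0, 0⟩, 0⟩ 0 0)) (.cut .d (-524288) (.cut .v 16252928 (.pos 20 .mm ⟨0, 0, 0, 0, 0, 146414, 0, 0, 0, ⟨0, 0⟩, 0⟩ 0 0) (.pos 21 .mm ⟨0, 0, 0, 0, 0, 148006, 0, 0, 0, ⟨0, 0⟩, 0⟩ 0 0)) (.cut .v 16252928 (.cut .d (-262144) (.pos 20 .mm ⟨0, 0, 0, 0, 0, 146414,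 0, 0, 0, ⟨0, 0⟩, 0⟩ 0 0) (.pos 20 .mm ⟨0, 0, 0, 0, 0, 0, 0, 0, 0, ⟨0, 0⟩, 0⟩ 0 0)) (.cut .d (-262144) (.pos 21 .mm ⟨0, 0, 0, 0, 0, 149597, 0, 0, 0, ⟨0, 0⟩, 0⟩ 0 0) (.cut .v 16515072 (.cut .d (-131072) (.pos 24 .mm ⟨0, 0, 0, 0, 0, 0, 0, 0, 0, ⟨0, 0⟩, 0⟩ 0 0) (.pos 24 .mm ⟨0, 0, 0, 0, 0, 0, 0, 0, 0, ⟨0, 0⟩, 0⟩ 0 0)) (.pos 25 .mm ⟨0, 0, 0, 0, 0, 0, 0, 0, 0, ⟨0, 0⟩, 0⟩ 0 0))))))))))))) (.cut .v 25165824 (.cut .v 20971520 (.pos 31 .mp ⟨305552, 0, 0, 0, 0, 0, 0, 0, 0, ⟨0, 0⟩, 0⟩ 0 0) (.void 32 ⟨100000, 0, 0, 0, 0, 0, 0, 0, 0, ⟨0, 0⟩, 0⟩ 0 0)) (.void 30 ⟨0, 0, 0, 0, 0, 0, 100000, 0, 0, ⟨0, 0⟩, 0⟩ 0 0))) (.cut .v 16777216 (.cut .v 8388608 (.void 2 ⟨0, 0, 0, 0, 100000,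 0, 0, 0, 0, ⟨0, 0⟩, 0⟩ 0 0) (.cut .v 12582912 (.void 8 ⟨0, 0, 0, 0, 0, 0, 0, 0, 100000, ⟨0, 0⟩, 13128881⟩ 0 0) (.cut .d 2328432 (.cut .d 1164216 (.cut .v 14680064 (.pos 12 .pm ⟨0, 0, 0, 0, 0, 0, 0, 0, 0, ⟨0, 0⟩, 0⟩ 0 0) (.cut .d 582108 (.cut .v 15728640 (.pos 16 .pm ⟨0, 0, 0, 0, 0, 0, 0, 0, 0, ⟨0, 0⟩, 0⟩ 0 0) (.cut .d 291054 (.cut .v 16252928 (.pos 20 .pm ⟨0, 0, 0, 0, 0, 0, 0, 0, 0, ⟨0, 0⟩, 0⟩ 0 0) (.cut .v 16515072 (.cut .d 145527 (.pos 24 .pm ⟨0, 0, 0, 0, 0, 0, 0, 0, 0, ⟨0, 0⟩, 0⟩ 0 0) (.pos 24 .pm ⟨0, 0, 0, 0, 0, 0, 0, 0, 0, ⟨0, 0⟩, 0⟩ 0 0)) (.cut .d 145527 (.cut .l 708371 (.cut .v 16646144 (.cut .s 3407872 (.cut .d 72763 (.pos 26 .pm ⟨0, 0, 0, 0, 0, 0,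 0, 0, 0, ⟨0, 0⟩, 0⟩ 0 0) (.pos 26 .pm ⟨0, 0, 0, 0, 0, 0, 0, 0, 0, ⟨0, 0⟩, 0⟩ 0 0)) (.pos 26 .pm ⟨0, 0, 0, 0, 0, 0, 0, 0, 0, ⟨0, 0⟩, 0⟩ 0 0)) (.cut .s 3407872 (.pos 27 .pm ⟨0, 0, 0, 0, 0, 0, 0, 0, 0, ⟨0, 0⟩, 0⟩ 0 0) (.pos 27 .pm ⟨0, 0, 0, 0, 0, 0, 0, 0, 0, ⟨0, 0⟩, 0⟩ 0 0))) (.pos 25 .pm ⟨0, 0, 0, 0, 0, 0, 0, 0, 0, ⟨0, 0⟩, 0⟩ 0 0)) (.cut .v 16646144 (.pos 26 .pm ⟨0, 0, 0, 0, 0, 0, 0, 0, 0, ⟨0, 0⟩, 0⟩ 0 0) (.cut .l 708371 (.cut .l 456712 (.cut .s 3407872 (.cut .d 218290 (.pos 27 .pm ⟨0, 0, 0, 0, 0, 0, 0, 0, 0, ⟨0, 0⟩, 0⟩ 0 0) (.pos 27 .pm ⟨0, 0, 0, 0, 0, 0, 0, 0, 0, ⟨0, 0⟩, 0⟩ 0 0)) (.cut .d 218290 (.pos 27 .pm ⟨0, 0, 0, 0, 0, 0, 0, 0, 0, ⟨0, 0⟩, 0⟩ 0 0) (.pos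 27 .pm ⟨0, 0, 0, 0, 0, 0, 0, 0, 0, ⟨0, 0⟩, 0⟩ 0 0))) (.pos 27 .pm ⟨0, 0, 0, 0, 0, 0, 0, 0, 0, ⟨0, 0⟩, 0⟩ 0 0)) (.pos 27 .pm ⟨0, 0, 0, 0, 0, 0, 0, 0, 0, ⟨0, 0⟩, 0⟩ 0 0)))))) (.pos 17 .pm ⟨0, 0, 0, 0, 0, 0, 0, 0, 0, ⟨0, 0⟩, 0⟩ 0 0))) (.pos 13 .pm ⟨0, 0, 0, 0, 0, 0, 0, 125083, 0, ⟨747614, 11218112⟩, 0⟩ 47 63))) (.pos 9 .pm ⟨0, 0, 0, 0, 0, 0, 0, 201856, 0, ⟨853450, 10712448⟩, 0⟩ 49 67)) (.void 9 ⟨0, 0, 0, 0, 0, 0, 0, 0, 100000, ⟨0, 0⟩, 15612959⟩ 0 0)))) (.cut .v 25165824 (.cut .v 20971520 (.cut .d 2328432 (.cut .v 18874368 (.cut .d 1164216 (.cut .v 17825792 (.cut .d 582108 (.cut .v 17301504 (.cut .d 291054 (.cut .d 145527 (.pos 37 .pp ⟨0, 0, 0, 0, 0, 0, 0, 0,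 0, ⟨0, 0⟩, 0⟩ 0 0) (.cut .s 3407872 (.cut .v 17039360 (.pos 39 .pp ⟨0, 0, 0, 0, 0, 0, 0, 0, 0, ⟨0, 0⟩, 0⟩ 0 0) (.pos 40 .pp ⟨0, 0, 0, 0, 0, 0, 0, 138127, 0, ⟨577843, 12132571⟩, 0⟩ 46 53)) (.pos 37 .pp ⟨0, 0, 0, 0, 0, 0, 0, 137584, 0, ⟨798288, 11056704⟩, 0⟩ 52 60))) (.cut .v 17039360 (.cut .d 436581 (.cut .s 3407872 (.pos 39 .pp ⟨0, 0, 0, 0, 0, 0, 0, 0, 0, ⟨0, 0⟩, 0⟩ 0 0) (.pos 39 .pp ⟨0, 0, 0, 0, 0, 0, 0, 145757, 0, ⟨798288, 11056704⟩, 0⟩ 52 60)) (.pos 39 .pp ⟨0, 0, 0, 0, 0, 0, 0, 0, 0, ⟨0, 0⟩, 0⟩ 0 0)) (.cut .s 3407872 (.pos 40 .pp ⟨0, 0, 0, 0, 0, 0, 0, 124099, 0, ⟨592545, 12050752⟩, 0⟩ 46 54) (.pos 40 .pp ⟨0, 0, 0, 0, 0, 0, 0, 138293, 0, ⟨815513, 10971904⟩,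 0⟩ 52 61)))) (.pos 38 .pp ⟨0, 0, 0, 0, 0, 0, 0, 115041, 0, ⟨697124, 11468748⟩, 0⟩ 46 61)) (.cut .v 17301504 (.pos 37 .pp ⟨0, 0, 0, 0, 0, 0, 0, 93566, 0, ⟨747614, 11218112⟩, 0⟩ 47 63) (.cut .d 873162 (.pos 38 .pp ⟨0, 0, 0, 0, 0, 0, 0, 130142, 0, ⟨732102, 11302604⟩, 0⟩ 47 62) (.pos 38 .pp ⟨0, 0, 0, 0, 0, 0, 0, 106974, 0, ⟨767927, 11135573⟩, 0⟩ 48 63)))) (.cut .d 582108 (.pos 36 .pp ⟨250267, 0, 0, 0, 0, 0, 0, 0, 0, ⟨0, 0⟩, 0⟩ 0 0) (.pos 36 .pp ⟨0, 0, 0, 0, 0, 0, 0, 165772, 0, ⟨747614, 11218112⟩, 0⟩ 47 63))) (.cut .d 1746324 (.cut .v 17825792 (.pos 35 .pp ⟨0, 0, 0, 0, 0, 0, 0, 165772, 0, ⟨820856, 10882736⟩, 0⟩ 49 65) (.pos 36 .pp ⟨0, 0, 0, 0, 0, 0, 0, 169022,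 0, ⟨820856, 10882736⟩, 0⟩ 49 65)) (.pos 33 .pp ⟨0, 0, 0, 0, 0, 0, 0, 909839, 0, ⟨875353, 10628758⟩, 0⟩ 50 67))) (.cut .d 1164216 (.pos 34 .pp ⟨5063147, 0, 0, 0, 0, 0, 0, 0, 0, ⟨0, 0⟩, 0⟩ 0 0) (.cut .d 1746324 (.pos 34 .pp ⟨104244, 0, 0, 0, 0, 0, 0, 2131750, 0, ⟨820856, 10882736⟩, 0⟩ 49 65) (.pos 34 .pp ⟨0, 0, 0, 0, 0, 0, 0, 6634918, 0, ⟨875353, 10628758⟩, 0⟩ 50 67)))) (.void 31 ⟨0, 0, 0, 0, 0, 0, 0, 100000, 0, ⟨1058032, 9777964⟩, 0⟩ 52 75)) (.void 32 ⟨0, 0, 0, 0, 0, 0, 100000, 0, 0, ⟨0, 0⟩, 0⟩ 0 0)) (.void 30 ⟨0, 0, 0, 0, 0, 0, 100000, 0, 0, ⟨0, 0⟩, 0⟩ 0 0)))),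
    by decide +kernel⟩

def covers3 : cell.Covers table row3.1 :=
  ⟨(.cut .d 0 (.cut .v 16777216 (.cut .v 8388608 (.void 2 ⟨0, 0, 0, 0, 50000, 50000, 0, 0, 0, ⟨0, 0⟩, 0⟩ 0 0) (.cut .v 12582912 (.pos 8 .mm ⟨0, 0, 0, 0, 0, 13234997, 0, 0, 0, ⟨0, 0⟩, 0⟩ 0 0) (.cut .v 14680064 (.pos 12 .mm ⟨0, 0, 0, 0, 0, 9666711, 0, 0, 0, ⟨0, 0⟩, 0⟩ 0 0) (.cut .d (-8388608) (.void 13 ⟨0, 0, 0, 0, 0, 100000, 0, 0, 0, ⟨0, 0⟩, 0⟩ 0 0) (.cut .d (-4194304) (.void 13 ⟨0, 0, 0, 0, 0, 100000, 0, 0, 0, ⟨0, 0⟩, 0⟩ 0 0) (.cut .d (-2097152) (.void 13 ⟨0, 0, 0, 0, 0, 100000, 0, 0, 0, ⟨0, 0⟩, 0⟩ 0 0) (.cut .d (-1048576) (.void 13 ⟨0, 0, 0, 0, 0, 100000, 0, 0, 0, ⟨0, 0⟩, 0⟩ 0 0) (.cut .v 15728640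 (.cut .d (-524288) (.pos 16 .mm ⟨0, 0, 0, 0, 0, 232181, 0, 0, 0, ⟨0, 0⟩, 0⟩ 0 0) (.pos 16 .mm ⟨0, 0, 0, 0, 0, 143875, 0, 0, 0, ⟨0, 0⟩, 0⟩ 0 0)) (.cut .d (-524288) (.pos 17 .mm ⟨0, 0, 0, 0, 0, 237340, 0, 0, 0, ⟨0, 0⟩, 0⟩ 0 0) (.cut .v 16252928 (.cut .d (-262144) (.pos 20 .mm ⟨0, 0, 0, 0, 0, 143714, 0, 0, 0, ⟨0, 0⟩, 0⟩ 0 0) (.pos 20 .mm ⟨0, 0, 0, 0, 0, 70186, 0, 0, 0, ⟨0, 0⟩, 0⟩ 0 0)) (.cut .d (-262144) (.pos 21 .mm ⟨0, 0, 0, 0, 0, 153240, 0, 0, 0, ⟨0, 0⟩, 0⟩ 0 0) (.cut .d (-131072) (.pos 21 .mm ⟨0, 0, 0, 0, 0, 72833, 0, 0, 0, ⟨0, 0⟩, 0⟩ 0 0) (.cut .v 16515072 (.cut .s 4161536 (.pos 24 .mm ⟨0, 0, 0, 0, 0, 0, 0, 0, 0, ⟨0, 0⟩, 0⟩ 0 0) (.pos 24 .mm ⟨0, 0, 0, 0,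 0, 0, 0, 0, 0, ⟨0, 0⟩, 0⟩ 0 0)) (.pos 25 .mm ⟨0, 0, 0, 0, 0, 0, 0, 0, 0, ⟨0, 0⟩, 0⟩ 0 0)))))))))))))) (.cut .v 25165824 (.cut .v 20971520 (.pos 31 .mp ⟨0, 0, 0, 0, 0, 0, 0, 0, 0, ⟨0, 0⟩, 0⟩ 0 0) (.void 32 ⟨100000, 0, 0, 0, 0, 0, 0, 0, 0, ⟨0, 0⟩, 0⟩ 0 0)) (.void 30 ⟨100000, 0, 0, 0, 0, 0, 0, 0, 0, ⟨0, 0⟩, 0⟩ 0 0))) (.cut .v 16777216 (.cut .v 8388608 (.void 2 ⟨0, 0, 0, 0, 100000, 0, 0, 0, 0, ⟨0, 0⟩, 0⟩ 0 0) (.cut .d 3101627 (.cut .v 12582912 (.pos 8 .pm ⟨0, 0, 0, 0, 0, 0, 0, 0, 119511, ⟨0, 0⟩, 13128881⟩ 0 0) (.cut .d 1550813 (.cut .v 14680064 (.pos 12 .pm ⟨0, 0, 0, 0, 0, 0, 0, 0, 0, ⟨0, 0⟩, 0⟩ 0 0) (.cut .d 775406 (.cut .v 15728640 (.pos 16 .pm ⟨0, 0, 0, 0,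 0, 0, 0, 0, 0, ⟨0, 0⟩, 0⟩ 0 0) (.cut .v 16252928 (.pos 20 .pm ⟨0, 0, 0, 0, 0, 0, 0, 0, 0, ⟨0, 0⟩, 0⟩ 0 0) (.cut .d 387703 (.cut .d 193851 (.cut .v 16515072 (.cut .s 4161536 (.cut .d 96925 (.pos 24 .pm ⟨0, 0, 0, 0, 0, 0, 0, 0, 0, ⟨0, 0⟩, 0⟩ 0 0) (.pos 24 .pm ⟨0, 0, 0, 0, 0, 0, 0, 0, 0, ⟨0, 0⟩, 0⟩ 0 0)) (.cut .d 96925 (.pos 24 .pm ⟨0, 0, 0, 0, 0, 0, 0, 0, 0, ⟨0, 0⟩, 0⟩ 0 0) (.pos 24 .pm ⟨0, 0, 0, 0, 0, 0, 0, 0, 0, ⟨0, 0⟩, 0⟩ 0 0))) (.cut .s 4161536 (.cut .l 708371 (.cut .v 16646144 (.cut .d 96925 (.pos 26 .pm ⟨0, 0, 0, 0, 0, 0, 0, 0, 0, ⟨0, 0⟩, 0⟩ 0 0) (.cut .s 3981312 (.pos 26 .pm ⟨0, 0, 0, 0, 0, 0, 0, 0, 0, ⟨0, 0⟩, 0⟩ 0 0) (.cut .d 145388 (.pos 26 .pm ⟨0,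 0, 0, 0, 0, 0, 0, 0, 0, ⟨0, 0⟩, 0⟩ 0 0) (.pos 26 .pm ⟨0, 0, 0, 0, 0, 0, 0, 0, 0, ⟨0, 0⟩, 0⟩ 0 0)))) (.cut .s 3981312 (.pos 27 .pm ⟨0, 0, 0, 0, 0, 0, 0, 0, 0, ⟨0, 0⟩, 0⟩ 0 0) (.pos 27 .pm ⟨0, 0, 0, 0, 0, 0, 0, 0, 0, ⟨0, 0⟩, 0⟩ 0 0))) (.pos 25 .pm ⟨0, 0, 0, 0, 0, 0, 0, 0, 0, ⟨0, 0⟩, 0⟩ 0 0)) (.cut .s 4341760 (.cut .d 96925 (.pos 25 .pm ⟨0, 0, 0, 0, 0, 0, 0, 0, 0, ⟨0, 0⟩, 0⟩ 0 0) (.cut .v 16646144 (.pos 26 .pm ⟨0, 0, 0, 0, 0, 0, 0, 0, 0, ⟨0, 0⟩, 0⟩ 0 0) (.pos 27 .pm ⟨0, 0, 0, 0, 0, 0, 0, 0, 0, ⟨0, 0⟩, 0⟩ 0 0))) (.pos 25 .pm ⟨0, 0, 0, 0, 0, 0, 0, 0, 0, ⟨0, 0⟩, 0⟩ 0 0)))) (.cut .v 16515072 (.cut .s 4161536 (.pos 24 .pm ⟨0, 0, 0, 0, 0, 0, 0, 0, 0, ⟨0, 0⟩, 0⟩ 0 0)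 (.pos 24 .pm ⟨0, 0, 0, 0, 0, 0, 0, 0, 0, ⟨0, 0⟩, 0⟩ 0 0)) (.cut .s 4161536 (.cut .l 708371 (.cut .d 290777 (.cut .l 456712 (.cut .v 16646144 (.cut .s 3981312 (.pos 26 .pm ⟨0, 0, 0, 0, 0, 0, 0, 0, 0, ⟨0, 0⟩, 0⟩ 0 0) (.pos 26 .pm ⟨0, 0, 0, 0, 0, 0, 0, 0, 0, ⟨0, 0⟩, 0⟩ 0 0)) (.cut .s 3981312 (.pos 27 .pm ⟨0, 0, 0, 0, 0, 0, 0, 0, 0, ⟨0, 0⟩, 0⟩ 0 0) (.pos 27 .pm ⟨0, 0, 0, 0, 0, 0, 0, 0, 0, ⟨0, 0⟩, 0⟩ 0 0))) (.pos 25 .pm ⟨0, 0, 0, 0, 0, 0, 0, 0, 0, ⟨0, 0⟩, 0⟩ 0 0)) (.cut .s 3981312 (.pos 25 .pm ⟨0, 0, 0, 0, 0, 0, 0, 0, 0, ⟨0, 0⟩, 0⟩ 0 0) (.pos 25 .pm ⟨0, 0, 0, 0, 0, 0, 0, 0, 0, ⟨0, 0⟩, 0⟩ 0 0))) (.pos 25 .pm ⟨0, 0, 0, 0, 0, 0, 0, 0, 0, ⟨0, 0⟩, 0⟩ 0 0)) (.cut .v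 16646144 (.pos 26 .pm ⟨0, 0, 0, 0, 0, 0, 0, 0, 0, ⟨0, 0⟩, 0⟩ 0 0) (.pos 27 .pm ⟨0, 0, 0, 0, 0, 0, 0, 0, 0, ⟨0, 0⟩, 0⟩ 0 0))))) (.cut .s 4161536 (.pos 21 .pm ⟨0, 0, 0, 0, 0, 0, 0, 120987, 0, ⟨1075321, 9864704⟩, 0⟩ 59 67) (.pos 21 .pm ⟨0, 0, 0, 0, 0, 0, 0, 108766, 0, ⟨1315652, 8923477⟩, 0⟩ 64 73))))) (.pos 13 .pm ⟨0, 0, 0, 0, 0, 0, 0, 45427, 0, ⟨1277680, 9011296⟩, 0⟩ 60 76))) (.pos 9 .pm ⟨0, 0, 0, 0, 0, 0, 0, 45427, 0, ⟨1477115, 8253790⟩, 0⟩ 63 82))) (.void 3 ⟨0, 0, 0, 0, 0, 0, 0, 100000, 0, ⟨1885106, 6804754⟩, 0⟩ 68 95))) (.cut .v 25165824 (.cut .d 3101627 (.cut .v 20971520 (.cut .d 1550813 (.cut .v 18874368 (.cut .d 775406 (.cut .v 17825792 (.cut .v 17301504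 (.cut .d 387703 (.cut .d 193851 (.pos 37 .pp ⟨0, 0, 0, 0, 0, 0, 0, 0, 0, ⟨0, 0⟩, 0⟩ 0 0) (.cut .s 4161536 (.cut .d 290777 (.pos 37 .pp ⟨0, 0, 0, 0, 0, 0, 0, 0, 0, ⟨0, 0⟩, 0⟩ 0 0) (.cut .s 3981312 (.pos 37 .pp ⟨0, 0, 0, 0, 0, 0, 0, 146712, 0, ⟨996275, 10207680⟩, 0⟩ 59 63) (.pos 37 .pp ⟨0, 0, 0, 0, 0, 0, 0, 122658, 0, ⟨1079292, 9864896⟩, 0⟩ 61 65))) (.pos 37 .pp ⟨0, 0, 0, 0, 0, 0, 0, 0, 0, ⟨0, 0⟩, 0⟩ 0 0))) (.cut .s 4161536 (.cut .v 17039360 (.pos 39 .pp ⟨0, 0, 0, 0, 0, 0, 0, 121617, 0, ⟨1075321, 9864704⟩, 0⟩ 59 67) (.pos 40 .pp ⟨0, 0, 0, 0, 0, 0, 0, 122877, 0, ⟨1075321, 9864704⟩, 0⟩ 59 67)) (.pos 37 .pp ⟨0, 0, 0, 0, 0, 0, 0, 109899, 0, ⟨1315652, 8923477⟩, 0⟩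 64 73))) (.pos 38 .pp ⟨0, 0, 0, 0, 0, 0, 0, 69061, 0, ⟨1169200, 9437064⟩, 0⟩ 58 73)) (.pos 36 .pp ⟨0, 0, 0, 0, 0, 0, 0, 136145, 0, ⟨1169200, 9437064⟩, 0⟩ 58 73)) (.cut .v 17825792 (.cut .v 17301504 (.pos 37 .pp ⟨0, 0, 0, 0, 0, 0, 0, 46373, 0, ⟨1277680, 9011296⟩, 0⟩ 60 76) (.pos 38 .pp ⟨0, 0, 0, 0, 0, 0, 0, 74536, 0, ⟨1277680, 9011296⟩, 0⟩ 60 76)) (.pos 36 .pp ⟨0, 0, 0, 0, 0, 0, 0, 125071, 0, ⟨1277680, 9011296⟩, 0⟩ 60 76))) (.pos 34 .pp ⟨0, 0, 0, 0, 0, 0, 0, 227036, 0, ⟨1226941, 9182208⟩, 0⟩ 58 76)) (.cut .v 18874368 (.pos 33 .pp ⟨0, 0, 0, 0, 0, 0, 0, 295036, 0, ⟨1477115, 8253790⟩, 0⟩ 63 82) (.cut .d 2326220 (.pos 34 .pp ⟨0, 0, 0, 0, 0, 0, 0, 2210190, 0, ⟨1415780,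 8503024⟩, 0⟩ 63 79) (.void 34 ⟨0, 0, 0, 0, 0, 0, 0, 100000, 0, ⟨1558418, 7999968⟩, 0⟩ 66 82)))) (.pos 32 .pp ⟨1916117, 0, 0, 0, 0, 0, 1388607, 6376430, 0, ⟨1341029, 8678645⟩, 0⟩ 58 82)) (.void 29 ⟨0, 0, 0, 0, 0, 0, 0, 100000, 0, ⟨1885106, 6804754⟩, 0⟩ 68 95)) (.void 30 ⟨0, 0, 0, 0, 0, 0, 100000, 0, 0, ⟨0, 0⟩, 0⟩ 0 0)))),
    by decide +kernel⟩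

def covers4 : cell.Covers table row4.1 :=
  ⟨(.cut .d 0 (.cut .v 16777216 (.cut .v 8388608 (.void 2 ⟨0, 0, 0, 0, 50000, 50000, 0, 0, 0, ⟨0, 0⟩, 0⟩ 0 0) (.cut .v 12582912 (.pos 8 .mm ⟨0, 0, 0, 0, 0, 10126679, 0, 0, 0, ⟨0, 0⟩, 0⟩ 0 0) (.cut .v 14680064 (.pos 12 .mm ⟨0, 0, 0, 0, 0, 7304395, 0, 0, 0, ⟨0, 0⟩, 0⟩ 0 0) (.cut .d (-8388608) (.void 13 ⟨0, 0, 0, 0, 0, 100000, 0, 0, 0, ⟨0, 0⟩, 0⟩ 0 0) (.cut .d (-4194304) (.void 13 ⟨0, 0, 0, 0, 0, 100000, 0, 0, 0, ⟨0, 0⟩, 0⟩ 0 0) (.cut .d (-2097152) (.void 13 ⟨0, 0, 0, 0, 0, 100000, 0, 0, 0, ⟨0, 0⟩, 0⟩ 0 0) (.cut .d (-1048576) (.void 13 ⟨0, 0, 0, 0, 0, 100000, 0, 0, 0, ⟨0, 0⟩, 0⟩ 0 0) (.cut .v 15728640 (.cut .d (-524288)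 (.pos 16 .mm ⟨0, 0, 0, 0, 0, 1521859, 0, 0, 0, ⟨0, 0⟩, 0⟩ 0 0) (.pos 16 .mm ⟨0, 0, 0, 0, 0, 1006541, 0, 0, 0, ⟨0, 0⟩, 0⟩ 0 0)) (.cut .d (-524288) (.cut .v 16252928 (.pos 20 .mm ⟨0, 0, 0, 0, 0, 1661845, 0, 0, 0, ⟨0, 0⟩, 0⟩ 0 0) (.pos 21 .mm ⟨0, 0, 0, 0, 0, 1796426, 0, 0, 0, ⟨0, 0⟩, 0⟩ 0 0)) (.cut .v 16252928 (.cut .s 4882432 (.cut .d (-262144) (.pos 20 .mm ⟨0, 0, 0, 0, 0, 497232, 0, 0, 0, ⟨0, 0⟩, 0⟩ 0 0) (.cut .d (-131072) (.pos 20 .mm ⟨0, 0, 0, 0, 0, 375557, 0, 0, 0, ⟨0, 0⟩, 0⟩ 0 0) (.pos 20 .mm ⟨0, 0, 0, 0, 0, 306201, 0, 0, 0, ⟨0, 0⟩, 0⟩ 0 0))) (.cut .d (-262144) (.cut .s 5062656 (.pos 20 .mm ⟨0, 0, 0, 0, 0, 1023974, 0, 0, 0, ⟨0, 0⟩, 0⟩ 0 0) (.pos 20 .mm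 ⟨0, 0, 0, 0, 0, 1541317, 0, 0, 0, ⟨0, 0⟩, 0⟩ 0 0)) (.cut .d (-131072) (.cut .s 5062656 (.pos 20 .mm ⟨0, 0, 0, 0, 0, 919657, 0, 0, 0, ⟨0, 0⟩, 0⟩ 0 0) (.pos 20 .mm ⟨0, 0, 0, 0, 0, 1396031, 0, 0, 0, ⟨0, 0⟩, 0⟩ 0 0)) (.pos 20 .mm ⟨0, 0, 0, 0, 0, 899174, 0, 0, 0, ⟨0, 0⟩, 0⟩ 0 0)))) (.cut .l 708371 (.cut .d (-262144) (.pos 21 .mm ⟨0, 0, 0, 0, 0, 1546105, 0, 0, 0, ⟨0, 0⟩, 0⟩ 0 0) (.cut .s 4882432 (.cut .v 16515072 (.cut .d (-131072) (.pos 24 .mm ⟨0, 0, 0, 0, 0, 445496, 0, 0, 0, ⟨0, 0⟩, 0⟩ 0 0) (.cut .v 16384000 (.pos 51 .mm ⟨0, 0, 0, 0, 0, 305902, 0, 0, 0, ⟨0, 0⟩, 0⟩ 0 0) (.pos 52 .mm ⟨0, 0, 0, 0, 0, 265832, 0, 0, 0, ⟨0, 0⟩, 0⟩ 0 0))) (.pos 25 .mm ⟨0, 0, 0, 0, 0,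 265464, 0, 0, 0, ⟨0, 0⟩, 0⟩ 0 0)) (.cut .v 16515072 (.cut .l 456712 (.cut .d (-131072) (.cut .s 5062656 (.pos 24 .mm ⟨0, 0, 0, 0, 0, 1063810, 0, 0, 0, ⟨0, 0⟩, 0⟩ 0 0) (.cut .s 5152768 (.pos 24 .mm ⟨0, 0, 0, 0, 0, 1410581, 0, 0, 0, ⟨0, 0⟩, 0⟩ 0 0) (.pos 24 .mm ⟨0, 0, 0, 0, 0, 1681977, 0, 0, 0, ⟨0, 0⟩, 0⟩ 0 0))) (.cut .d (-65536) (.cut .l 330883 (.cut .s 5062656 (.cut .v 16384000 (.pos 51 .mm ⟨0, 0, 0, 0, 0, 894925, 0, 0, 0, ⟨0, 0⟩, 0⟩ 0 0) (.pos 52 .mm ⟨0, 0, 0, 0, 0, 862613, 0, 0, 0, ⟨0, 0⟩, 0⟩ 0 0)) (.cut .v 16384000 (.pos 51 .mm ⟨0, 0, 0, 0, 0, 1363206, 0, 0, 0, ⟨0, 0⟩, 0⟩ 0 0) (.cut .s 5152768 (.pos 52 .mm ⟨0, 0, 0, 0, 0, 1168183, 0, 0, 0, ⟨0, 0⟩, 0⟩ 0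 0) (.pos 52 .mm ⟨0, 0, 0, 0, 0, 1451884, 0, 0, 0, ⟨0, 0⟩, 0⟩ 0 0)))) (.pos 24 .mm ⟨0, 0, 0, 0, 0, 631934, 0, 0, 0, ⟨0, 0⟩, 0⟩ 0 0)) (.pos 24 .mm ⟨0, 0, 0, 0, 0, 0, 0, 0, 0, ⟨0, 0⟩, 0⟩ 0 0))) (.cut .s 5062656 (.pos 24 .mm ⟨0, 0, 0, 0, 0, 316193, 0, 0, 0, ⟨0, 0⟩, 0⟩ 0 0) (.pos 24 .mm ⟨0, 0, 0, 0, 0, 921432, 0, 0, 0, ⟨0, 0⟩, 0⟩ 0 0))) (.cut .s 5062656 (.pos 25 .mm ⟨0, 0, 0, 0, 0, 758231, 0, 0, 0, ⟨0, 0⟩, 0⟩ 0 0) (.cut .s 5152768 (.pos 25 .mm ⟨0, 0, 0, 0, 0, 1148777, 0, 0, 0, ⟨0, 0⟩, 0⟩ 0 0) (.pos 25 .mm ⟨0, 0, 0, 0, 0, 1461819, 0, 0, 0, ⟨0, 0⟩, 0⟩ 0 0)))))) (.cut .d (-262144) (.pos 21 .mm ⟨0, 0, 0, 0, 0, 597767, 0, 0, 0, ⟨0, 0⟩, 0⟩ 0 0) (.pos 21 .mm ⟨0, 0, 0,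 0, 0, 0, 0, 0, 0, ⟨0, 0⟩, 0⟩ 0 0))))))))))))) (.cut .v 25165824 (.cut .v 20971520 (.cut .s 4882432 (.pos 31 .mp ⟨0, 0, 0, 0, 0, 0, 0, 0, 0, ⟨0, 0⟩, 0⟩ 0 0) (.pos 31 .mp ⟨0, 0, 0, 0, 0, 1011419, 0, 0, 0, ⟨0, 0⟩, 0⟩ 0 0)) (.void 32 ⟨100000, 0, 0, 0, 0, 0, 0, 0, 0, ⟨0, 0⟩, 0⟩ 0 0)) (.void 30 ⟨100000, 0, 0, 0, 0, 0, 0, 0, 0, ⟨0, 0⟩, 0⟩ 0 0))) (.cut .v 16777216 (.cut .v 8388608 (.void 2 ⟨0, 0, 0, 0, 100000, 0, 0, 0, 0, ⟨0, 0⟩, 0⟩ 0 0) (.cut .d 4260401 (.cut .v 12582912 (.pos 8 .pm ⟨0, 0, 0, 0, 0, 0, 0, 0, 0, ⟨0, 0⟩, 0⟩ 0 0) (.cut .d 2130200 (.cut .v 14680064 (.pos 12 .pm ⟨0, 0, 0, 0, 0, 0, 0, 0, 0, ⟨0, 0⟩, 0⟩ 0 0) (.cut .d 1065100 (.cut .v 15728640 (.pos 16 .pm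 ⟨0, 0, 0, 0, 0, 0, 0, 0, 0, ⟨0, 0⟩, 0⟩ 0 0) (.cut .d 532550 (.cut .v 16252928 (.pos 20 .pm ⟨0, 0, 0, 0, 0, 0, 0, 0, 0, ⟨0, 0⟩, 0⟩ 0 0) (.cut .d 266275 (.cut .v 16515072 (.pos 24 .pm ⟨0, 0, 0, 0, 0, 0, 0, 0, 0, ⟨0, 0⟩, 0⟩ 0 0) (.pos 25 .pm ⟨0, 0, 0, 0, 0, 0, 0, 0, 0, ⟨0, 0⟩, 0⟩ 0 0)) (.pos 21 .pm ⟨0, 0, 0, 0, 0, 0, 0, 0, 0, ⟨0, 0⟩, 0⟩ 0 0))) (.pos 17 .pm ⟨0, 0, 0, 0, 0, 0, 0, 145574, 0, ⟨1782149, 7258248⟩, 0⟩ 71 86))) (.pos 13 .pm ⟨0, 0, 0, 0, 0, 0, 0, 145574, 0, ⟨1948717, 6703416⟩, 0⟩ 73 91))) (.pos 9 .pm ⟨0, 0, 0, 0, 0, 0, 0, 145574, 0, ⟨2281676, 5654688⟩, 0⟩ 77 101))) (.void 3 ⟨0, 0, 0, 0, 0, 0, 0, 100000, 0, ⟨2946949, 3790935⟩, 0⟩ 86 121))) (.cut .v 25165824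 (.cut .d 4260401 (.cut .v 20971520 (.cut .d 2130200 (.cut .v 18874368 (.cut .d 1065100 (.cut .v 17825792 (.cut .d 532550 (.cut .d 266275 (.pos 35 .pp ⟨0, 0, 0, 0, 0, 0, 0, 0, 0, ⟨0, 0⟩, 0⟩ 0 0) (.pos 35 .pp ⟨0, 0, 0, 0, 0, 0, 0, 148607, 0, ⟨1688284, 7582621⟩, 0⟩ 70 83)) (.pos 35 .pp ⟨0, 0, 0, 0, 0, 0, 0, 148607, 0, ⟨1782149, 7258248⟩, 0⟩ 71 86)) (.pos 36 .pp ⟨329333, 0, 0, 0, 0, 0, 0, 0, 0, ⟨0, 0⟩, 0⟩ 0 0)) (.pos 33 .pp ⟨0, 0, 0, 0, 0, 0, 0, 151640, 0, ⟨1948717, 6703416⟩, 0⟩ 73 91)) (.pos 34 .pp ⟨351059, 0, 0, 0, 0, 0, 0, 0, 0, ⟨0, 0⟩, 0⟩ 0 0)) (.cut .v 18874368 (.pos 33 .pp ⟨0, 0, 0, 0, 0, 0, 0, 157706, 0, ⟨2281676, 5654688⟩, 0⟩ 77 101) (.pos 34 .pp ⟨0, 0,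 0, 0, 0, 0, 0, 4951025, 0, ⟨2281676, 5654688⟩, 0⟩ 77 101))) (.cut .d 2130200 (.pos 32 .pp ⟨0, 0, 0, 0, 0, 0, 0, 181968, 0, ⟨1832790, 7029538⟩, 0⟩ 69 91) (.pos 32 .pp ⟨0, 0, 0, 0, 0, 0, 0, 16986747, 0, ⟨2281676, 5654688⟩, 0⟩ 77 101))) (.void 29 ⟨0, 0, 0, 0, 0, 0, 0, 100000, 0, ⟨2946949, 3790935⟩, 0⟩ 86 121)) (.void 30 ⟨0, 0, 0, 0, 0, 0, 100000, 0, 0, ⟨0, 0⟩, 0⟩ 0 0)))),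
    by decide +kernel⟩

def covers5 : cell.Covers table row5.1 :=
  ⟨(.cut .d 0 (.cut .v 16777216 (.cut .d (-8388608) (.void 1 ⟨0, 0, 0, 0, 0, 100000, 0, 0, 0, ⟨0, 0⟩, 0⟩ 0 0) (.cut .d (-4194304) (.void 1 ⟨0, 0, 0, 0, 0, 100000, 0, 0, 0, ⟨0, 0⟩, 0⟩ 0 0) (.cut .d (-2097152) (.void 1 ⟨0, 0, 0, 0, 0, 100000, 0, 0, 0, ⟨0, 0⟩, 0⟩ 0 0) (.cut .d (-1048576) (.void 1 ⟨0, 0, 0, 0, 0, 100000, 0, 0, 0, ⟨0, 0⟩, 0⟩ 0 0) (.cut .d (-524288) (.void 1 ⟨0, 0, 0, 0, 0, 100000, 0, 0, 0, ⟨0, 0⟩, 0⟩ 0 0) (.cut .v 8388608 (.cut .v 4194304 (.void 4 ⟨0, 0, 55126, 0, 44874, 0, 0, 0, 0, ⟨0, 0⟩, 0⟩ 0 0) (.void 5 ⟨0, 0, 0, 0, 0, 54321, 0, 0, 45679, ⟨0, 0⟩, 9975792⟩ 0 0)) (.cut .v 12582912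 (.pos 8 .mm ⟨0, 0, 0, 0, 0, 7296093, 0, 0, 0, ⟨0, 0⟩, 0⟩ 0 0) (.cut .v 14680064 (.pos 12 .mm ⟨0, 0, 0, 0, 0, 4412920, 0, 0, 0, ⟨0, 0⟩, 0⟩ 0 0) (.cut .v 15728640 (.cut .s 5636096 (.pos 16 .mm ⟨0, 0, 0, 0, 0, 2831085, 0, 0, 0, ⟨0, 0⟩, 0⟩ 0 0) (.pos 16 .mm ⟨0, 0, 0, 0, 0, 5294375, 0, 0, 0, ⟨0, 0⟩, 0⟩ 0 0)) (.cut .s 5636096 (.cut .v 16252928 (.cut .s 5439488 (.cut .d (-262144) (.pos 20 .mm ⟨0, 0, 0, 0, 0, 2232590, 0, 0, 0, ⟨0, 0⟩, 0⟩ 0 0) (.cut .s 5341184 (.pos 20 .mm ⟨0, 0, 0, 0, 0, 1875547, 0, 0, 0, ⟨0, 0⟩, 0⟩ 0 0) (.pos 20 .mm ⟨0, 0, 0, 0, 0, 2255927, 0, 0, 0, ⟨0, 0⟩, 0⟩ 0 0))) (.cut .v 15990784 (.pos 22 .mm ⟨0, 0, 0, 0, 0, 3075309, 0, 0, 0, ⟨0, 0⟩, 0⟩ 0 0)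 (.cut .d (-262144) (.cut .s 5537792 (.pos 23 .mm ⟨0, 0, 0, 0, 0, 2876153, 0, 0, 0, ⟨0, 0⟩, 0⟩ 0 0) (.pos 23 .mm ⟨0, 0, 0, 0, 0, 3411381, 0, 0, 0, ⟨0, 0⟩, 0⟩ 0 0)) (.cut .s 5537792 (.pos 23 .mm ⟨0, 0, 0, 0, 0, 2719354, 0, 0, 0, ⟨0, 0⟩, 0⟩ 0 0) (.pos 23 .mm ⟨0, 0, 0, 0, 0, 3242910, 0, 0, 0, ⟨0, 0⟩, 0⟩ 0 0))))) (.cut .s 5439488 (.cut .d (-262144) (.cut .s 5341184 (.pos 21 .mm ⟨0, 0, 0, 0, 0, 2058478, 0, 0, 0, ⟨0, 0⟩, 0⟩ 0 0) (.pos 21 .mm ⟨0, 0, 0, 0, 0, 2473105, 0, 0, 0, ⟨0, 0⟩, 0⟩ 0 0)) (.cut .l 708371 (.cut .v 16515072 (.cut .d (-131072) (.cut .s 5341184 (.pos 24 .mm ⟨0, 0, 0, 0, 0, 1961190, 0, 0, 0, ⟨0, 0⟩, 0⟩ 0 0) (.cut .s 5390336 (.pos 24 .mm ⟨0, 0, 0, 0,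 0, 2300619, 0, 0, 0, ⟨0, 0⟩, 0⟩ 0 0) (.pos 24 .mm ⟨0, 0, 0, 0, 0, 2511989, 0, 0, 0, ⟨0, 0⟩, 0⟩ 0 0))) (.cut .d (-65536) (.cut .l 456712 (.cut .l 330883 (.cut .s 5341184 (.cut .v 16384000 (.pos 51 .mm ⟨0, 0, 0, 0, 0, 1889692, 0, 0, 0, ⟨0, 0⟩, 0⟩ 0 0) (.pos 52 .mm ⟨0, 0, 0, 0, 0, 1863254, 0, 0, 0, ⟨0, 0⟩, 0⟩ 0 0)) (.cut .v 16384000 (.pos 51 .mm ⟨0, 0, 0, 0, 0, 2313022, 0, 0, 0, ⟨0, 0⟩, 0⟩ 0 0) (.pos 52 .mm ⟨0, 0, 0, 0, 0, 2286008, 0, 0, 0, ⟨0, 0⟩, 0⟩ 0 0))) (.pos 24 .mm ⟨0, 0, 0, 0, 0, 1699540, 0, 0, 0, ⟨0, 0⟩, 0⟩ 0 0)) (.pos 24 .mm ⟨0, 0, 0, 0, 0, 0, 0, 0, 0, ⟨0, 0⟩, 0⟩ 0 0)) (.pos 24 .mm ⟨0, 0, 0, 0, 0, 0, 0, 0, 0, ⟨0, 0⟩, 0⟩ 0 0))) (.cut .d (-131072) (.pos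 25 .mm ⟨0, 0, 0, 0, 0, 2168449, 0, 0, 0, ⟨0, 0⟩, 0⟩ 0 0) (.cut .s 5341184 (.pos 25 .mm ⟨0, 0, 0, 0, 0, 1622072, 0, 0, 0, ⟨0, 0⟩, 0⟩ 0 0) (.pos 25 .mm ⟨0, 0, 0, 0, 0, 2095982, 0, 0, 0, ⟨0, 0⟩, 0⟩ 0 0)))) (.pos 21 .mm ⟨0, 0, 0, 0, 0, 1197444, 0, 0, 0, ⟨0, 0⟩, 0⟩ 0 0))) (.cut .d (-262144) (.cut .s 5537792 (.pos 21 .mm ⟨0, 0, 0, 0, 0, 2941465, 0, 0, 0, ⟨0, 0⟩, 0⟩ 0 0) (.cut .s 5586944 (.pos 21 .mm ⟨0, 0, 0, 0, 0, 3298889, 0, 0, 0, ⟨0, 0⟩, 0⟩ 0 0) (.pos 21 .mm ⟨0, 0, 0, 0, 0, 3571324, 0, 0, 0, ⟨0, 0⟩, 0⟩ 0 0))) (.cut .l 708371 (.cut .s 5537792 (.cut .v 16515072 (.cut .d (-131072) (.cut .s 5488640 (.pos 24 .mm ⟨0, 0, 0, 0, 0, 2736915, 0, 0, 0, ⟨0, 0⟩, 0⟩ 0 0) (.pos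 24 .mm ⟨0, 0, 0, 0, 0, 2975676, 0, 0, 0, ⟨0, 0⟩, 0⟩ 0 0)) (.cut .d (-65536) (.cut .s 5488640 (.pos 24 .mm ⟨0, 0, 0, 0, 0, 2664566, 0, 0, 0, ⟨0, 0⟩, 0⟩ 0 0) (.pos 24 .mm ⟨0, 0, 0, 0, 0, 2903856, 0, 0, 0, ⟨0, 0⟩, 0⟩ 0 0)) (.pos 24 .mm ⟨0, 0, 0, 0, 0, 0, 0, 0, 0, ⟨0, 0⟩, 0⟩ 0 0))) (.cut .d (-131072) (.pos 25 .mm ⟨0, 0, 0, 0, 0, 2867308, 0, 0, 0, ⟨0, 0⟩, 0⟩ 0 0) (.pos 25 .mm ⟨0, 0, 0, 0, 0, 2612947, 0, 0, 0, ⟨0, 0⟩, 0⟩ 0 0))) (.cut .v 16515072 (.cut .d (-131072) (.cut .s 5586944 (.pos 24 .mm ⟨0, 0, 0, 0, 0, 3228551, 0, 0, 0, ⟨0, 0⟩, 0⟩ 0 0) (.pos 24 .mm ⟨0, 0, 0, 0, 0, 3502401, 0, 0, 0, ⟨0, 0⟩, 0⟩ 0 0)) (.cut .s 5586944 (.pos 24 .mm ⟨0, 0, 0, 0, 0, 3126167, 0,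 0, 0, ⟨0, 0⟩, 0⟩ 0 0) (.pos 24 .mm ⟨0, 0, 0, 0, 0, 3414586, 0, 0, 0, ⟨0, 0⟩, 0⟩ 0 0))) (.cut .d (-131072) (.pos 25 .mm ⟨0, 0, 0, 0, 0, 3378762, 0, 0, 0, ⟨0, 0⟩, 0⟩ 0 0) (.cut .s 5586944 (.pos 25 .mm ⟨0, 0, 0, 0, 0, 3010725, 0, 0, 0, ⟨0, 0⟩, 0⟩ 0 0) (.pos 25 .mm ⟨0, 0, 0, 0, 0, 3304240, 0, 0, 0, ⟨0, 0⟩, 0⟩ 0 0))))) (.cut .s 5537792 (.pos 21 .mm ⟨0, 0, 0, 0, 0, 2089991, 0, 0, 0, ⟨0, 0⟩, 0⟩ 0 0) (.pos 21 .mm ⟨0, 0, 0, 0, 0, 2712941, 0, 0, 0, ⟨0, 0⟩, 0⟩ 0 0)))))) (.cut .s 5832704 (.cut .v 16252928 (.cut .v 15990784 (.pos 22 .mm ⟨0, 0, 0, 0, 0, 4353317, 0, 0, 0, ⟨0, 0⟩, 0⟩ 0 0) (.cut .s 5734400 (.cut .d (-262144) (.pos 23 .mm ⟨0, 0, 0, 0, 0, 4018219, 0, 0, 0, ⟨0,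 0⟩, 0⟩ 0 0) (.pos 23 .mm ⟨0, 0, 0, 0, 0, 3827528, 0, 0, 0, ⟨0, 0⟩, 0⟩ 0 0)) (.cut .d (-262144) (.pos 23 .mm ⟨0, 0, 0, 0, 0, 4686965, 0, 0, 0, ⟨0, 0⟩, 0⟩ 0 0) (.pos 23 .mm ⟨0, 0, 0, 0, 0, 4474097, 0, 0, 0, ⟨0, 0⟩, 0⟩ 0 0)))) (.cut .d (-262144) (.cut .d (-393216) (.pos 21 .mm ⟨0, 0, 0, 0, 0, 6045470, 0, 0, 0, ⟨0, 0⟩, 0⟩ 0 0) (.cut .l 708371 (.void 21 ⟨0, 0, 0, 0, 0, 100000, 0, 0, 0, ⟨0, 0⟩, 0⟩ 0 0) (.cut .s 5734400 (.pos 21 .mm ⟨0, 0, 0, 0, 0, 3850062, 0, 0, 0, ⟨0, 0⟩, 0⟩ 0 0) (.cut .s 5783552 (.pos 21 .mm ⟨0, 0, 0, 0, 0, 4364017, 0, 0, 0, ⟨0, 0⟩, 0⟩ 0 0) (.pos 21 .mm ⟨0, 0, 0, 0, 0, 4693266, 0, 0, 0, ⟨0, 0⟩, 0⟩ 0 0))))) (.cut .s 5734400 (.cut .v 16515072 (.cut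 .l 708371 (.cut .d (-131072) (.cut .s 5685248 (.pos 24 .mm ⟨0, 0, 0, 0, 0, 3800597, 0, 0, 0, ⟨0, 0⟩, 0⟩ 0 0) (.pos 24 .mm ⟨0, 0, 0, 0, 0, 4114373, 0, 0, 0, ⟨0, 0⟩, 0⟩ 0 0)) (.cut .s 5685248 (.pos 24 .mm ⟨0, 0, 0, 0, 0, 3707197, 0, 0, 0, ⟨0, 0⟩, 0⟩ 0 0) (.pos 24 .mm ⟨0, 0, 0, 0, 0, 4008364, 0, 0, 0, ⟨0, 0⟩, 0⟩ 0 0))) (.pos 24 .mm ⟨0, 0, 0, 0, 0, 3401821, 0, 0, 0, ⟨0, 0⟩, 0⟩ 0 0)) (.cut .l 708371 (.cut .l 456712 (.cut .d (-131072) (.pos 25 .mm ⟨0, 0, 0, 0, 0, 4189060, 0, 0, 0, ⟨0, 0⟩, 0⟩ 0 0) (.cut .s 5685248 (.pos 25 .mm ⟨0, 0, 0, 0, 0, 3613150, 0, 0, 0, ⟨0, 0⟩, 0⟩ 0 0) (.cut .d (-65536) (.pos 25 .mm ⟨0, 0, 0, 0, 0, 4053395, 0, 0, 0, ⟨0, 0⟩, 0⟩ 0 0) (.pos 25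 .mm ⟨0, 0, 0, 0, 0, 3807116, 0, 0, 0, ⟨0, 0⟩, 0⟩ 0 0)))) (.pos 25 .mm ⟨0, 0, 0, 0, 0, 3663681, 0, 0, 0, ⟨0, 0⟩, 0⟩ 0 0)) (.pos 25 .mm ⟨0, 0, 0, 0, 0, 3319736, 0, 0, 0, ⟨0, 0⟩, 0⟩ 0 0))) (.cut .l 708371 (.cut .v 16515072 (.cut .s 5783552 (.cut .d (-131072) (.pos 24 .mm ⟨0, 0, 0, 0, 0, 4443836, 0, 0, 0, ⟨0, 0⟩, 0⟩ 0 0) (.pos 24 .mm ⟨0, 0, 0, 0, 0, 4333858, 0, 0, 0, ⟨0, 0⟩, 0⟩ 0 0)) (.cut .d (-131072) (.pos 24 .mm ⟨0, 0, 0, 0, 0, 4789095, 0, 0, 0, ⟨0, 0⟩, 0⟩ 0 0) (.pos 24 .mm ⟨0, 0, 0, 0, 0, 4676978, 0, 0, 0, ⟨0, 0⟩, 0⟩ 0 0))) (.cut .d (-131072) (.cut .s 5783552 (.pos 25 .mm ⟨0, 0, 0, 0, 0, 4459200, 0, 0, 0, ⟨0, 0⟩, 0⟩ 0 0) (.pos 25 .mm ⟨0, 0, 0, 0, 0, 4815550,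 0, 0, 0, ⟨0, 0⟩, 0⟩ 0 0)) (.cut .d (-65536) (.cut .l 456712 (.cut .s 5783552 (.pos 25 .mm ⟨0, 0, 0, 0, 0, 4382505, 0, 0, 0, ⟨0, 0⟩, 0⟩ 0 0) (.cut .s 5808128 (.pos 25 .mm ⟨0, 0, 0, 0, 0, 4661880, 0, 0, 0, ⟨0, 0⟩, 0⟩ 0 0) (.pos 25 .mm ⟨0, 0, 0, 0, 0, 4839038, 0, 0, 0, ⟨0, 0⟩, 0⟩ 0 0))) (.pos 25 .mm ⟨0, 0, 0, 0, 0, 0, 0, 0, 0, ⟨0, 0⟩, 0⟩ 0 0)) (.pos 25 .mm ⟨0, 0, 0, 0, 0, 4241574, 0, 0, 0, ⟨0, 0⟩, 0⟩ 0 0)))) (.cut .v 16515072 (.pos 24 .mm ⟨0, 0, 0, 0, 0, 4150477, 0, 0, 0, ⟨0, 0⟩, 0⟩ 0 0) (.pos 25 .mm ⟨0, 0, 0, 0, 0, 4085492, 0, 0, 0, ⟨0, 0⟩, 0⟩ 0 0)))))) (.cut .v 16252928 (.cut .v 15990784 (.pos 22 .mm ⟨0, 0, 0, 0, 0, 5878327, 0, 0, 0, ⟨0, 0⟩, 0⟩ 0 0) (.cut .s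 5931008 (.cut .s 5881856 (.pos 23 .mm ⟨0, 0, 0, 0, 0, 5071034, 0, 0, 0, ⟨0, 0⟩, 0⟩ 0 0) (.pos 23 .mm ⟨0, 0, 0, 0, 0, 5431124, 0, 0, 0, ⟨0, 0⟩, 0⟩ 0 0)) (.cut .s 5980160 (.pos 23 .mm ⟨0, 0, 0, 0, 0, 5807617, 0, 0, 0, ⟨0, 0⟩, 0⟩ 0 0) (.pos 23 .mm ⟨0, 0, 0, 0, 0, 6200826, 0, 0, 0, ⟨0, 0⟩, 0⟩ 0 0)))) (.cut .s 5931008 (.cut .d (-262144) (.cut .l 708371 (.void 21 ⟨0, 0, 0, 0, 0, 100000, 0, 0, 0, ⟨0, 0⟩, 0⟩ 0 0) (.cut .d (-393216) (.void 21 ⟨0, 0, 0, 0, 0, 100000, 0, 0, 0, ⟨0, 0⟩, 0⟩ 0 0) (.cut .v 16515072 (.pos 24 .mm ⟨0, 0, 0, 0, 0, 5257882, 0, 0, 0, ⟨0, 0⟩, 0⟩ 0 0) (.pos 25 .mm ⟨0, 0, 0, 0, 0, 5286615, 0, 0, 0, ⟨0, 0⟩, 0⟩ 0 0)))) (.cut .l 708371 (.cut .v 16515072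 (.cut .s 5881856 (.cut .d (-131072) (.pos 24 .mm ⟨0, 0, 0, 0, 0, 5153466, 0, 0, 0, ⟨0, 0⟩, 0⟩ 0 0) (.pos 24 .mm ⟨0, 0, 0, 0, 0, 5036117, 0, 0, 0, ⟨0, 0⟩, 0⟩ 0 0)) (.cut .d (-131072) (.pos 24 .mm ⟨0, 0, 0, 0, 0, 5534317, 0, 0, 0, ⟨0, 0⟩, 0⟩ 0 0) (.pos 24 .mm ⟨0, 0, 0, 0, 0, 5411375, 0, 0, 0, ⟨0, 0⟩, 0⟩ 0 0))) (.cut .s 5881856 (.cut .d (-131072) (.cut .s 5857280 (.pos 25 .mm ⟨0, 0, 0, 0, 0, 5075170, 0, 0, 0, ⟨0, 0⟩, 0⟩ 0 0) (.pos 25 .mm ⟨0, 0, 0, 0, 0, 5254065, 0, 0, 0, ⟨0, 0⟩, 0⟩ 0 0)) (.cut .d (-65536) (.cut .v 16646144 (.cut .s 5857280 (.pos 26 .mm ⟨0, 0, 0, 0, 0, 5000754, 0, 0, 0, ⟨0, 0⟩, 0⟩ 0 0) (.pos 26 .mm ⟨0, 0, 0, 0, 0, 5187021, 0, 0, 0, ⟨0, 0⟩, 0⟩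 0 0)) (.pos 27 .mm ⟨0, 0, 0, 0, 0, 5060600, 0, 0, 0, ⟨0, 0⟩, 0⟩ 0 0)) (.pos 25 .mm ⟨0, 0, 0, 0, 0, 4934298, 0, 0, 0, ⟨0, 0⟩, 0⟩ 0 0))) (.cut .d (-131072) (.cut .s 5906432 (.pos 25 .mm ⟨0, 0, 0, 0, 0, 5437102, 0, 0, 0, ⟨0, 0⟩, 0⟩ 0 0) (.pos 25 .mm ⟨0, 0, 0, 0, 0, 5624322, 0, 0, 0, ⟨0, 0⟩, 0⟩ 0 0)) (.cut .l 456712 (.cut .v 16646144 (.cut .s 5906432 (.pos 26 .mm ⟨0, 0, 0, 0, 0, 5355255, 0, 0, 0, ⟨0, 0⟩, 0⟩ 0 0) (.pos 26 .mm ⟨0, 0, 0, 0, 0, 5551018, 0, 0, 0, ⟨0, 0⟩, 0⟩ 0 0)) (.cut .s 5906432 (.pos 27 .mm ⟨0, 0, 0, 0, 0, 5373563, 0, 0, 0, ⟨0, 0⟩, 0⟩ 0 0) (.pos 27 .mm ⟨0, 0, 0, 0, 0, 5568889, 0, 0, 0, ⟨0, 0⟩, 0⟩ 0 0))) (.pos 25 .mm ⟨0, 0, 0, 0, 0, 0, 0, 0, 0, ⟨0,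 0⟩, 0⟩ 0 0))))) (.cut .v 16515072 (.pos 24 .mm ⟨0, 0, 0, 0, 0, 4930001, 0, 0, 0, ⟨0, 0⟩, 0⟩ 0 0) (.pos 25 .mm ⟨0, 0, 0, 0, 0, 4879469, 0, 0, 0, ⟨0, 0⟩, 0⟩ 0 0)))) (.cut .d (-262144) (.cut .l 708371 (.void 21 ⟨0, 0, 0, 0, 0, 100000, 0, 0, 0, ⟨0, 0⟩, 0⟩ 0 0) (.cut .d (-393216) (.void 21 ⟨0, 0, 0, 0, 0, 100000, 0, 0, 0, ⟨0, 0⟩, 0⟩ 0 0) (.cut .v 16515072 (.cut .s 5980160 (.pos 24 .mm ⟨0, 0, 0, 0, 0, 5832156, 0, 0, 0, ⟨0, 0⟩, 0⟩ 0 0) (.pos 24 .mm ⟨0, 0, 0, 0, 0, 6251245, 0, 0, 0, ⟨0, 0⟩, 0⟩ 0 0)) (.cut .s 5980160 (.pos 25 .mm ⟨0, 0, 0, 0, 0, 5858583, 0, 0, 0, ⟨0, 0⟩, 0⟩ 0 0) (.pos 25 .mm ⟨0, 0, 0, 0, 0, 6290531, 0, 0, 0, ⟨0, 0⟩, 0⟩ 0 0))))) (.cut .s 5980160 (.cut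 .v 16515072 (.cut .d (-131072) (.cut .s 5955584 (.pos 24 .mm ⟨0, 0, 0, 0, 0, 5758431, 0, 0, 0, ⟨0, 0⟩, 0⟩ 0 0) (.pos 24 .mm ⟨0, 0, 0, 0, 0, 5956682, 0, 0, 0, ⟨0, 0⟩, 0⟩ 0 0)) (.pos 24 .mm ⟨0, 0, 0, 0, 0, 5755830, 0, 0, 0, ⟨0, 0⟩, 0⟩ 0 0)) (.cut .l 708371 (.cut .d (-131072) (.cut .d (-196608) (.pos 25 .mm ⟨0, 0, 0, 0, 0, 6099760, 0, 0, 0, ⟨0, 0⟩, 0⟩ 0 0) (.cut .v 16646144 (.cut .s 5955584 (.pos 26 .mm ⟨0, 0, 0, 0, 0, 5809807, 0, 0, 0, ⟨0, 0⟩, 0⟩ 0 0) (.pos 26 .mm ⟨0, 0, 0, 0, 0, 6011687, 0, 0, 0, ⟨0, 0⟩, 0⟩ 0 0)) (.pos 27 .mm ⟨0, 0, 0, 0, 0, 5947102, 0, 0, 0, ⟨0, 0⟩, 0⟩ 0 0))) (.cut .l 456712 (.cut .s 5955584 (.cut .v 16646144 (.pos 26 .mm ⟨0, 0, 0, 0, 0, 5754228,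 0, 0, 0, ⟨0, 0⟩, 0⟩ 0 0) (.pos 27 .mm ⟨0, 0, 0, 0, 0, 5758847, 0, 0, 0, ⟨0, 0⟩, 0⟩ 0 0)) (.cut .v 16646144 (.pos 26 .mm ⟨0, 0, 0, 0, 0, 5961437, 0, 0, 0, ⟨0, 0⟩, 0⟩ 0 0) (.pos 27 .mm ⟨0, 0, 0, 0, 0, 5961366, 0, 0, 0, ⟨0, 0⟩, 0⟩ 0 0))) (.pos 25 .mm ⟨0, 0, 0, 0, 0, 0, 0, 0, 0, ⟨0, 0⟩, 0⟩ 0 0))) (.pos 25 .mm ⟨0, 0, 0, 0, 0, 5521410, 0, 0, 0, ⟨0, 0⟩, 0⟩ 0 0))) (.cut .v 16515072 (.cut .d (-131072) (.cut .s 6004736 (.pos 24 .mm ⟨0, 0, 0, 0, 0, 6159119, 0, 0, 0, ⟨0, 0⟩, 0⟩ 0 0) (.pos 24 .mm ⟨0, 0, 0, 0, 0, 6365766, 0, 0, 0, ⟨0, 0⟩, 0⟩ 0 0)) (.pos 24 .mm ⟨0, 0, 0, 0, 0, 6156184, 0, 0, 0, ⟨0, 0⟩, 0⟩ 0 0)) (.cut .l 708371 (.cut .d (-131072) (.cut .d (-196608) (.pos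 25 .mm ⟨0, 0, 0, 0, 0, 6508684, 0, 0, 0, ⟨0, 0⟩, 0⟩ 0 0) (.cut .l 456712 (.pos 25 .mm ⟨0, 0, 0, 0, 0, 6515031, 0, 0, 0, ⟨0, 0⟩, 0⟩ 0 0) (.cut .s 6004736 (.pos 25 .mm ⟨0, 0, 0, 0, 0, 6148663, 0, 0, 0, ⟨0, 0⟩, 0⟩ 0 0) (.cut .s 6017024 (.pos 25 .mm ⟨0, 0, 0, 0, 0, 6323895, 0, 0, 0, ⟨0, 0⟩, 0⟩ 0 0) (.pos 25 .mm ⟨0, 0, 0, 0, 0, 6430478, 0, 0, 0, ⟨0, 0⟩, 0⟩ 0 0))))) (.cut .l 456712 (.cut .s 6004736 (.cut .v 16646144 (.cut .s 5992448 (.pos 26 .mm ⟨0, 0, 0, 0, 0, 6130483, 0, 0, 0, ⟨0, 0⟩, 0⟩ 0 0) (.pos 26 .mm ⟨0, 0, 0, 0, 0, 6238696, 0, 0, 0, ⟨0, 0⟩, 0⟩ 0 0)) (.pos 27 .mm ⟨0, 0, 0, 0, 0, 6171611, 0, 0, 0, ⟨0, 0⟩, 0⟩ 0 0)) (.cut .v 16646144 (.cut .s 6017024 (.pos 26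 .mm ⟨0, 0, 0, 0, 0, 6341541, 0, 0, 0, ⟨0, 0⟩, 0⟩ 0 0) (.pos 26 .mm ⟨0, 0, 0, 0, 0, 6444579, 0, 0, 0, ⟨0, 0⟩, 0⟩ 0 0)) (.cut .d (-65536) (.pos 27 .mm ⟨0, 0, 0, 0, 0, 6417076, 0, 0, 0, ⟨0, 0⟩, 0⟩ 0 0) (.pos 27 .mm ⟨0, 0, 0, 0, 0, 6348163, 0, 0, 0, ⟨0, 0⟩, 0⟩ 0 0)))) (.pos 25 .mm ⟨0, 0, 0, 0, 0, 0, 0, 0, 0, ⟨0, 0⟩, 0⟩ 0 0))) (.cut .s 6004736 (.pos 25 .mm ⟨0, 0, 0, 0, 0, 5865783, 0, 0, 0, ⟨0, 0⟩, 0⟩ 0 0) (.pos 25 .mm ⟨0, 0, 0, 0, 0, 6101217, 0, 0, 0, ⟨0, 0⟩, 0⟩ 0 0))))))))))))))))))) (.cut .v 25165824 (.cut .v 20971520 (.cut .d (-8388608) (.void 31 ⟨0, 0, 0, 0, 0, 100000, 0, 0, 0, ⟨0, 0⟩, 0⟩ 0 0) (.cut .d (-4194304) (.void 31 ⟨0, 0, 0, 0, 0, 100000, 0, 0, 0, ⟨0,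 0⟩, 0⟩ 0 0) (.cut .d (-2097152) (.void 31 ⟨0, 0, 0, 0, 0, 100000, 0, 0, 0, ⟨0, 0⟩, 0⟩ 0 0) (.cut .d (-1048576) (.void 31 ⟨0, 0, 0, 0, 0, 100000, 0, 0, 0, ⟨0, 0⟩, 0⟩ 0 0) (.cut .d (-524288) (.void 31 ⟨0, 0, 0, 0, 0, 100000, 0, 0, 0, ⟨0, 0⟩, 0⟩ 0 0) (.cut .v 18874368 (.cut .v 17825792 (.cut .v 17301504 (.cut .s 5636096 (.cut .s 5439488 (.pos 37 .mp ⟨0, 0, 0, 0, 0, 1888495, 0, 0, 0, ⟨0, 0⟩, 0⟩ 0 0) (.pos 37 .mp ⟨0, 0, 0, 0, 0, 2875341, 0, 0, 0, ⟨0, 0⟩, 0⟩ 0 0)) (.cut .s 5832704 (.cut .s 5734400 (.pos 37 .mp ⟨0, 0, 0, 0, 0, 3808073, 0, 0, 0, ⟨0, 0⟩, 0⟩ 0 0) (.cut .s 5783552 (.pos 37 .mp ⟨0, 0, 0, 0, 0, 4306485, 0, 0, 0, ⟨0, 0⟩, 0⟩ 0 0) (.pos 37 .mp ⟨0, 0, 0, 0,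 0, 4698458, 0, 0, 0, ⟨0, 0⟩, 0⟩ 0 0))) (.cut .d (-262144) (.pos 37 .mp ⟨0, 0, 0, 0, 0, 6276784, 0, 0, 0, ⟨0, 0⟩, 0⟩ 0 0) (.cut .v 17039360 (.cut .l 708371 (.cut .s 5931008 (.pos 39 .mp ⟨0, 0, 0, 0, 0, 5180791, 0, 0, 0, ⟨0, 0⟩, 0⟩ 0 0) (.cut .s 5980160 (.pos 39 .mp ⟨0, 0, 0, 0, 0, 5840118, 0, 0, 0, ⟨0, 0⟩, 0⟩ 0 0) (.cut .s 6004736 (.pos 39 .mp ⟨0, 0, 0, 0, 0, 6188470, 0, 0, 0, ⟨0, 0⟩, 0⟩ 0 0) (.pos 39 .mp ⟨0, 0, 0, 0, 0, 6404007, 0, 0, 0, ⟨0, 0⟩, 0⟩ 0 0)))) (.pos 39 .mp ⟨0, 0, 0, 0, 0, 5081182, 0, 0, 0, ⟨0, 0⟩, 0⟩ 0 0)) (.pos 40 .mp ⟨6602310, 0, 0, 0, 0, 0, 0, 0, 0, ⟨0, 0⟩, 0⟩ 0 0))))) (.pos 38 .mp ⟨5555661, 0, 0, 0, 0, 0, 0, 0, 0, ⟨0, 0⟩, 0⟩ 0 0)) (.pos 36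 .mp ⟨5797115, 0, 0, 0, 0, 0, 0, 0, 0, ⟨0, 0⟩, 0⟩ 0 0)) (.void 34 ⟨100000, 0, 0, 0, 0, 0, 0, 0, 0, ⟨0, 0⟩, 0⟩ 0 0))))))) (.void 32 ⟨100000, 0, 0, 0, 0, 0, 0, 0, 0, ⟨0, 0⟩, 0⟩ 0 0)) (.void 30 ⟨100000, 0, 0, 0, 0, 0, 0, 0, 0, ⟨0, 0⟩, 0⟩ 0 0))) (.cut .v 16777216 (.cut .d 6110252 (.cut .v 8388608 (.cut .v 4194304 (.void 4 ⟨0, 0, 50000, 0, 50000, 0, 0, 0, 0, ⟨0, 0⟩, 0⟩ 0 0) (.void 5 ⟨0, 0, 0, 0, 0, 0, 0, 0, 100000, ⟨0, 0⟩, 9975792⟩ 0 0)) (.cut .v 12582912 (.pos 8 .pm ⟨0, 0, 0, 0, 0, 0, 0, 0, 0, ⟨0, 0⟩, 0⟩ 0 0) (.cut .v 14680064 (.pos 12 .pm ⟨0, 0, 0, 0, 0, 0, 0, 0, 0, ⟨0, 0⟩, 0⟩ 0 0) (.cut .v 15728640 (.pos 16 .pm ⟨0, 0, 0, 0, 0, 0, 0, 0, 0, ⟨0, 0⟩, 0⟩ 0 0) (.cut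 .v 16252928 (.pos 20 .pm ⟨0, 0, 0, 0, 0, 0, 0, 0, 0, ⟨0, 0⟩, 0⟩ 0 0) (.pos 21 .pm ⟨0, 0, 0, 0, 0, 0, 0, 0, 0, ⟨0, 0⟩, 0⟩ 0 0)))))) (.void 1 ⟨0, 0, 0, 0, 0, 0, 0, 100000, 0, ⟨4080775, 1271973⟩, 0⟩ 109 160)) (.cut .d 6110252 (.cut .v 25165824 (.cut .v 20971520 (.cut .d 3055126 (.cut .v 18874368 (.cut .d 1527563 (.pos 33 .pp ⟨0, 0, 0, 0, 0, 0, 0, 455348, 0, ⟨2371476, 5427078⟩, 0⟩ 80 101) (.pos 33 .pp ⟨0, 0, 0, 0, 0, 0, 0, 961056, 0, ⟨2747038, 4404421⟩, 0⟩ 87 109)) (.pos 34 .pp ⟨0, 0, 0, 0, 0, 0, 0, 1037941, 0, ⟨2536624, 4898604⟩, 0⟩ 80 109)) (.pos 31 .pp ⟨0, 0, 0, 0, 0, 0, 0, 17650700, 0, ⟨3269803, 3054672⟩, 0⟩ 94 126)) (.cut .d 3055126 (.pos 32 .pp ⟨1366158,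 0, 0, 0, 0, 0, 205495, 0, 0, ⟨0, 0⟩, 0⟩ 0 0) (.pos 32 .pp ⟨0, 0, 0, 0, 0, 0, 0, 22567519, 0, ⟨3269803, 3054672⟩, 0⟩ 94 126))) (.pos 30 .pp ⟨0, 0, 0, 0, 0, 0, 22304800, 0, 0, ⟨0, 0⟩, 0⟩ 0 0)) (.void 28 ⟨0, 0, 0, 0, 0, 0, 0, 100000, 0, ⟨4080775, 1271973⟩, 0⟩ 109 160)))),
    by decide +kernel⟩

def covers6 : cell.Covers table row6.1 :=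
  ⟨(.cut .d 0 (.cut .v 16777216 (.cut .d (-8388608) (.void 1 ⟨0, 0, 0, 0, 0, 100000, 0, 0, 0, ⟨0, 0⟩, 0⟩ 0 0) (.cut .d (-4194304) (.void 1 ⟨0, 0, 0, 0, 0, 100000, 0, 0, 0, ⟨0, 0⟩, 0⟩ 0 0) (.cut .d (-2097152) (.void 1 ⟨0, 0, 0, 0, 0, 100000, 0, 0, 0, ⟨0, 0⟩, 0⟩ 0 0) (.cut .d (-1048576) (.void 1 ⟨0, 0, 0, 0, 0, 100000, 0, 0, 0, ⟨0, 0⟩, 0⟩ 0 0) (.cut .d (-524288) (.void 1 ⟨0, 0, 0, 0, 0, 100000, 0, 0, 0, ⟨0, 0⟩, 0⟩ 0 0) (.cut .v 8388608 (.cut .v 4194304 (.void 4 ⟨0, 0, 100000, 0, 0, 0, 0, 0, 0, ⟨0, 0⟩, 0⟩ 0 0) (.pos 5 .mm ⟨0, 0, 0, 0, 0, 12888561, 0, 0, 0, ⟨0, 0⟩, 0⟩ 0 0)) (.cut .v 12582912 (.pos 8 .mm ⟨0, 0, 0, 0, 0, 10201520, 0, 0, 0, ⟨0, 0⟩, 0⟩ 0 0) (.cut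 .v 14680064 (.pos 12 .mm ⟨0, 0, 0, 0, 0, 10644190, 0, 0, 0, ⟨0, 0⟩, 0⟩ 0 0) (.cut .s 6422528 (.cut .v 15728640 (.pos 16 .mm ⟨0, 0, 0, 0, 0, 8710279, 0, 0, 0, ⟨0, 0⟩, 0⟩ 0 0) (.cut .s 6225920 (.cut .s 6127616 (.cut .v 16252928 (.pos 20 .mm ⟨0, 0, 0, 0, 0, 6958657, 0, 0, 0, ⟨0, 0⟩, 0⟩ 0 0) (.cut .s 6078464 (.cut .d (-262144) (.cut .d (-393216) (.void 21 ⟨0, 0, 0, 0, 0, 100000, 0, 0, 0, ⟨0, 0⟩, 0⟩ 0 0) (.cut .l 708371 (.void 21 ⟨0, 0, 0, 0, 0, 100000, 0, 0, 0, ⟨0, 0⟩, 0⟩ 0 0) (.cut .v 16515072 (.pos 24 .mm ⟨0, 0, 0, 0, 0, 6603338, 0, 0, 0, ⟨0, 0⟩, 0⟩ 0 0) (.pos 25 .mm ⟨0, 0, 0, 0, 0, 6623832, 0, 0, 0, ⟨0, 0⟩, 0⟩ 0 0)))) (.cut .v 16515072 (.cut .s 6053888 (.cut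 .s 6041600 (.pos 24 .mm ⟨0, 0, 0, 0, 0, 6492694, 0, 0, 0, ⟨0, 0⟩, 0⟩ 0 0) (.pos 24 .mm ⟨0, 0, 0, 0, 0, 6615221, 0, 0, 0, ⟨0, 0⟩, 0⟩ 0 0)) (.pos 24 .mm ⟨0, 0, 0, 0, 0, 6773599, 0, 0, 0, ⟨0, 0⟩, 0⟩ 0 0)) (.cut .l 708371 (.cut .d (-131072) (.cut .s 6053888 (.cut .d (-196608) (.pos 25 .mm ⟨0, 0, 0, 0, 0, 6684773, 0, 0, 0, ⟨0, 0⟩, 0⟩ 0 0) (.cut .v 16646144 (.cut .s 6041600 (.pos 26 .mm ⟨0, 0, 0, 0, 0, 6557887, 0, 0, 0, ⟨0, 0⟩, 0⟩ 0 0) (.pos 26 .mm ⟨0, 0, 0, 0, 0, 6680509, 0, 0, 0, ⟨0, 0⟩, 0⟩ 0 0)) (.cut .s 6041600 (.pos 27 .mm ⟨0, 0, 0, 0, 0, 6572510, 0, 0, 0, ⟨0, 0⟩, 0⟩ 0 0) (.pos 27 .mm ⟨0, 0, 0, 0, 0, 6701073, 0, 0, 0, ⟨0, 0⟩, 0⟩ 0 0)))) (.cut .s 6066176 (.pos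 25 .mm ⟨0, 0, 0, 0, 0, 6815926, 0, 0, 0, ⟨0, 0⟩, 0⟩ 0 0) (.pos 25 .mm ⟨0, 0, 0, 0, 0, 6951760, 0, 0, 0, ⟨0, 0⟩, 0⟩ 0 0))) (.cut .l 456712 (.cut .s 6053888 (.cut .v 16646144 (.cut .s 6041600 (.pos 26 .mm ⟨0, 0, 0, 0, 0, 6531726, 0, 0, 0, ⟨0, 0⟩, 0⟩ 0 0) (.pos 26 .mm ⟨0, 0, 0, 0, 0, 6654659, 0, 0, 0, ⟨0, 0⟩, 0⟩ 0 0)) (.cut .d (-65536) (.cut .s 6041600 (.pos 27 .mm ⟨0, 0, 0, 0, 0, 6560322, 0, 0, 0, ⟨0, 0⟩, 0⟩ 0 0) (.pos 27 .mm ⟨0, 0, 0, 0, 0, 6682106, 0, 0, 0, ⟨0, 0⟩, 0⟩ 0 0)) (.pos 27 .mm ⟨0, 0, 0, 0, 0, 6505771, 0, 0, 0, ⟨0, 0⟩, 0⟩ 0 0))) (.cut .v 16646144 (.pos 26 .mm ⟨0, 0, 0, 0, 0, 6816504, 0, 0, 0, ⟨0, 0⟩, 0⟩ 0 0) (.pos 27 .mm ⟨0, 0, 0, 0, 0, 6812676, 0,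 0, 0, ⟨0, 0⟩, 0⟩ 0 0))) (.pos 25 .mm ⟨0, 0, 0, 0, 0, 0, 0, 0, 0, ⟨0, 0⟩, 0⟩ 0 0))) (.cut .s 6053888 (.pos 25 .mm ⟨0, 0, 0, 0, 0, 6277390, 0, 0, 0, ⟨0, 0⟩, 0⟩ 0 0) (.pos 25 .mm ⟨0, 0, 0, 0, 0, 6524368, 0, 0, 0, ⟨0, 0⟩, 0⟩ 0 0))))) (.cut .d (-262144) (.cut .v 16515072 (.pos 24 .mm ⟨0, 0, 0, 0, 0, 7283295, 0, 0, 0, ⟨0, 0⟩, 0⟩ 0 0) (.pos 25 .mm ⟨0, 0, 0, 0, 0, 7319856, 0, 0, 0, ⟨0, 0⟩, 0⟩ 0 0)) (.cut .v 16515072 (.cut .s 6103040 (.pos 24 .mm ⟨0, 0, 0, 0, 0, 7026633, 0, 0, 0, ⟨0, 0⟩, 0⟩ 0 0) (.pos 24 .mm ⟨0, 0, 0, 0, 0, 7286280, 0, 0, 0, ⟨0, 0⟩, 0⟩ 0 0)) (.cut .l 708371 (.cut .d (-131072) (.cut .s 6103040 (.pos 25 .mm ⟨0, 0, 0, 0, 0, 7138628, 0, 0, 0, ⟨0, 0⟩, 0⟩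 0 0) (.pos 25 .mm ⟨0, 0, 0, 0, 0, 7414420, 0, 0, 0, ⟨0, 0⟩, 0⟩ 0 0)) (.cut .s 6103040 (.cut .v 16646144 (.pos 26 .mm ⟨0, 0, 0, 0, 0, 7056618, 0, 0, 0, ⟨0, 0⟩, 0⟩ 0 0) (.pos 27 .mm ⟨0, 0, 0, 0, 0, 7061317, 0, 0, 0, ⟨0, 0⟩, 0⟩ 0 0)) (.pos 25 .mm ⟨0, 0, 0, 0, 0, 7322009, 0, 0, 0, ⟨0, 0⟩, 0⟩ 0 0))) (.pos 25 .mm ⟨0, 0, 0, 0, 0, 6840906, 0, 0, 0, ⟨0, 0⟩, 0⟩ 0 0)))))) (.cut .v 16252928 (.pos 20 .mm ⟨0, 0, 0, 0, 0, 8049511, 0, 0, 0, ⟨0, 0⟩, 0⟩ 0 0) (.cut .s 6176768 (.cut .d (-262144) (.cut .s 6152192 (.pos 21 .mm ⟨0, 0, 0, 0, 0, 7701623, 0, 0, 0, ⟨0, 0⟩, 0⟩ 0 0) (.pos 21 .mm ⟨0, 0, 0, 0, 0, 7980158, 0, 0, 0, ⟨0, 0⟩, 0⟩ 0 0)) (.cut .v 16515072 (.pos 24 .mm ⟨0, 0, 0,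 0, 0, 7662832, 0, 0, 0, ⟨0, 0⟩, 0⟩ 0 0) (.cut .l 708371 (.cut .d (-131072) (.pos 25 .mm ⟨0, 0, 0, 0, 0, 7833824, 0, 0, 0, ⟨0, 0⟩, 0⟩ 0 0) (.cut .s 6152192 (.pos 25 .mm ⟨0, 0, 0, 0, 0, 7588348, 0, 0, 0, ⟨0, 0⟩, 0⟩ 0 0) (.pos 25 .mm ⟨0, 0, 0, 0, 0, 7858557, 0, 0, 0, ⟨0, 0⟩, 0⟩ 0 0))) (.pos 25 .mm ⟨0, 0, 0, 0, 0, 7361027, 0, 0, 0, ⟨0, 0⟩, 0⟩ 0 0)))) (.cut .d (-262144) (.pos 21 .mm ⟨0, 0, 0, 0, 0, 8447239, 0, 0, 0, ⟨0, 0⟩, 0⟩ 0 0) (.cut .v 16515072 (.pos 24 .mm ⟨0, 0, 0, 0, 0, 8223843, 0, 0, 0, ⟨0, 0⟩, 0⟩ 0 0) (.cut .s 6201344 (.pos 25 .mm ⟨0, 0, 0, 0, 0, 8163915, 0, 0, 0, ⟨0, 0⟩, 0⟩ 0 0) (.pos 25 .mm ⟨0, 0, 0, 0, 0, 8447414, 0, 0, 0, ⟨0, 0⟩, 0⟩ 0 0))))))) (.cut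 .s 6324224 (.cut .v 16252928 (.pos 20 .mm ⟨0, 0, 0, 0, 0, 9198098, 0, 0, 0, ⟨0, 0⟩, 0⟩ 0 0) (.cut .s 6275072 (.cut .d (-262144) (.pos 21 .mm ⟨0, 0, 0, 0, 0, 9050310, 0, 0, 0, ⟨0, 0⟩, 0⟩ 0 0) (.cut .s 6250496 (.pos 21 .mm ⟨0, 0, 0, 0, 0, 8717366, 0, 0, 0, ⟨0, 0⟩, 0⟩ 0 0) (.pos 21 .mm ⟨0, 0, 0, 0, 0, 9029403, 0, 0, 0, ⟨0, 0⟩, 0⟩ 0 0))) (.cut .s 6299648 (.cut .s 6287360 (.pos 21 .mm ⟨0, 0, 0, 0, 0, 9322998, 0, 0, 0, ⟨0, 0⟩, 0⟩ 0 0) (.pos 21 .mm ⟨0, 0, 0, 0, 0, 9461652, 0, 0, 0, ⟨0, 0⟩, 0⟩ 0 0)) (.pos 21 .mm ⟨0, 0, 0, 0, 0, 9698708, 0, 0, 0, ⟨0, 0⟩, 0⟩ 0 0)))) (.cut .v 16252928 (.pos 20 .mm ⟨0, 0, 0, 0, 0, 10453697, 0, 0, 0, ⟨0, 0⟩, 0⟩ 0 0) (.cut .d (-262144)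 (.pos 21 .mm ⟨0, 0, 0, 0, 0, 10919552, 0, 0, 0, ⟨0, 0⟩, 0⟩ 0 0) (.cut .l 708371 (.cut .v 16515072 (.pos 24 .mm ⟨0, 0, 0, 0, 0, 10413074, 0, 0, 0, ⟨0, 0⟩, 0⟩ 0 0) (.cut .s 6373376 (.cut .s 6348800 (.pos 25 .mm ⟨0, 0, 0, 0, 0, 9969106, 0, 0, 0, ⟨0, 0⟩, 0⟩ 0 0) (.pos 25 .mm ⟨0, 0, 0, 0, 0, 10291437, 0, 0, 0, ⟨0, 0⟩, 0⟩ 0 0)) (.cut .s 6397952 (.pos 25 .mm ⟨0, 0, 0, 0, 0, 10620344, 0, 0, 0, ⟨0, 0⟩, 0⟩ 0 0) (.pos 25 .mm ⟨0, 0, 0, 0, 0, 10955754, 0, 0, 0, ⟨0, 0⟩, 0⟩ 0 0)))) (.pos 21 .mm ⟨0, 0, 0, 0, 0, 10012967, 0, 0, 0, ⟨0, 0⟩, 0⟩ 0 0))))))) (.cut .v 15728640 (.pos 16 .mm ⟨0, 0, 0, 0, 0, 13930435, 0, 0, 0, ⟨0, 0⟩, 0⟩ 0 0) (.cut .d (-262144) (.cut .s 6619136 (.cut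 .s 6520832 (.pos 17 .mm ⟨0, 0, 0, 0, 0, 12486348, 0, 0, 0, ⟨0, 0⟩, 0⟩ 0 0) (.pos 17 .mm ⟨0, 0, 0, 0, 0, 14078234, 0, 0, 0, ⟨0, 0⟩, 0⟩ 0 0)) (.pos 17 .mm ⟨0, 0, 0, 0, 0, 17350625, 0, 0, 0, ⟨0, 0⟩, 0⟩ 0 0)) (.cut .s 6619136 (.cut .v 16252928 (.pos 20 .mm ⟨0, 0, 0, 0, 0, 11975574, 0, 0, 0, ⟨0, 0⟩, 0⟩ 0 0) (.cut .s 6520832 (.cut .v 16515072 (.pos 24 .mm ⟨0, 0, 0, 0, 0, 11631981, 0, 0, 0, ⟨0, 0⟩, 0⟩ 0 0) (.cut .s 6471680 (.cut .s 6447104 (.pos 25 .mm ⟨0, 0, 0, 0, 0, 11297592, 0, 0, 0, ⟨0, 0⟩, 0⟩ 0 0) (.pos 25 .mm ⟨0, 0, 0, 0, 0, 11645784, 0, 0, 0, ⟨0, 0⟩, 0⟩ 0 0)) (.cut .s 6496256 (.pos 25 .mm ⟨0, 0, 0, 0, 0, 12000259, 0, 0, 0, ⟨0, 0⟩, 0⟩ 0 0) (.pos 25 .mm ⟨0,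 0, 0, 0, 0, 12360946, 0, 0, 0, ⟨0, 0⟩, 0⟩ 0 0)))) (.cut .v 16515072 (.pos 24 .mm ⟨0, 0, 0, 0, 0, 13101901, 0, 0, 0, ⟨0, 0⟩, 0⟩ 0 0) (.cut .s 6569984 (.cut .s 6545408 (.pos 25 .mm ⟨0, 0, 0, 0, 0, 12737309, 0, 0, 0, ⟨0, 0⟩, 0⟩ 0 0) (.pos 25 .mm ⟨0, 0, 0, 0, 0, 13120689, 0, 0, 0, ⟨0, 0⟩, 0⟩ 0 0)) (.cut .s 6594560 (.pos 25 .mm ⟨0, 0, 0, 0, 0, 13510162, 0, 0, 0, ⟨0, 0⟩, 0⟩ 0 0) (.pos 25 .mm ⟨0, 0, 0, 0, 0, 13905659, 0, 0, 0, ⟨0, 0⟩, 0⟩ 0 0)))))) (.cut .v 16252928 (.pos 20 .mm ⟨0, 0, 0, 0, 0, 15023759, 0, 0, 0, ⟨0, 0⟩, 0⟩ 0 0) (.cut .s 6717440 (.cut .v 16515072 (.pos 24 .mm ⟨0, 0, 0, 0, 0, 14678067, 0, 0, 0, ⟨0, 0⟩, 0⟩ 0 0) (.cut .s 6668288 (.cut .s 6643712 (.pos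 25 .mm ⟨0, 0, 0, 0, 0, 14307113, 0, 0, 0, ⟨0, 0⟩, 0⟩ 0 0) (.pos 25 .mm ⟨0, 0, 0, 0, 0, 14714460, 0, 0, 0, ⟨0, 0⟩, 0⟩ 0 0)) (.cut .s 6692864 (.pos 25 .mm ⟨0, 0, 0, 0, 0, 15127634, 0, 0, 0, ⟨0, 0⟩, 0⟩ 0 0) (.pos 25 .mm ⟨0, 0, 0, 0, 0, 15546571, 0, 0, 0, ⟨0, 0⟩, 0⟩ 0 0)))) (.cut .v 16515072 (.pos 24 .mm ⟨0, 0, 0, 0, 0, 16360000, 0, 0, 0, ⟨0, 0⟩, 0⟩ 0 0) (.cut .l 708371 (.cut .d (-131072) (.pos 25 .mm ⟨0, 0, 0, 0, 0, 17319504, 0, 0, 0, ⟨0, 0⟩, 0⟩ 0 0) (.cut .s 6766592 (.pos 25 .mm ⟨0, 0, 0, 0, 0, 16138112, 0, 0, 0, ⟨0, 0⟩, 0⟩ 0 0) (.pos 25 .mm ⟨0, 0, 0, 0, 0, 17002954, 0, 0, 0, ⟨0, 0⟩, 0⟩ 0 0))) (.pos 25 .mm ⟨0, 0, 0, 0, 0, 16178941, 0, 0, 0, ⟨0, 0⟩, 0⟩ 0 0)))))))))))))))))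 (.cut .v 33554432 (.cut .v 25165824 (.cut .d (-8388608) (.void 29 ⟨0, 0, 0, 0, 0, 100000, 0, 0, 0, ⟨0, 0⟩, 0⟩ 0 0) (.cut .v 20971520 (.cut .d (-4194304) (.void 31 ⟨0, 0, 0, 0, 0, 100000, 0, 0, 0, ⟨0, 0⟩, 0⟩ 0 0) (.cut .d (-2097152) (.void 31 ⟨0, 0, 0, 0, 0, 100000, 0, 0, 0, ⟨0, 0⟩, 0⟩ 0 0) (.cut .d (-1048576) (.void 31 ⟨0, 0, 0, 0, 0, 100000, 0, 0, 0, ⟨0, 0⟩, 0⟩ 0 0) (.cut .d (-524288) (.void 31 ⟨0, 0, 0, 0, 0, 100000, 0, 0, 0, ⟨0, 0⟩, 0⟩ 0 0) (.cut .v 18874368 (.cut .v 17825792 (.cut .s 6422528 (.cut .v 17301504 (.cut .s 6225920 (.cut .v 17039360 (.cut .s 6127616 (.cut .d (-262144) (.pos 39 .mp ⟨0, 0, 0, 0, 0, 7246481, 0, 0, 0, ⟨0, 0⟩, 0⟩ 0 0) (.cut .l 708371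 (.cut .v 16908288 (.cut .s 6078464 (.cut .s 6053888 (.pos 41 .mp ⟨0, 0, 0, 0, 0, 6611129, 0, 0, 0, ⟨0, 0⟩, 0⟩ 0 0) (.pos 41 .mp ⟨0, 0, 0, 0, 0, 6854862, 0, 0, 0, ⟨0, 0⟩, 0⟩ 0 0)) (.cut .s 6103040 (.pos 41 .mp ⟨0, 0, 0, 0, 0, 7105408, 0, 0, 0, ⟨0, 0⟩, 0⟩ 0 0) (.pos 41 .mp ⟨0, 0, 0, 0, 0, 7362766, 0, 0, 0, ⟨0, 0⟩, 0⟩ 0 0))) (.pos 42 .mp ⟨5264375, 0, 0, 0, 0, 2608717, 0, 0, 0, ⟨0, 0⟩, 0⟩ 0 0)) (.pos 39 .mp ⟨0, 0, 0, 0, 0, 6426726, 0, 0, 0, ⟨0, 0⟩, 0⟩ 0 0))) (.cut .d (-262144) (.pos 39 .mp ⟨0, 0, 0, 0, 0, 8395743, 0, 0, 0, ⟨0, 0⟩, 0⟩ 0 0) (.cut .l 708371 (.cut .s 6176768 (.cut .s 6152192 (.pos 39 .mp ⟨0, 0, 0, 0, 0, 7626934, 0, 0, 0, ⟨0, 0⟩, 0⟩ 0 0) (.pos 39 .mp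 ⟨0, 0, 0, 0, 0, 7897909, 0, 0, 0, ⟨0, 0⟩, 0⟩ 0 0)) (.cut .s 6201344 (.pos 39 .mp ⟨0, 0, 0, 0, 0, 8167324, 0, 0, 0, ⟨0, 0⟩, 0⟩ 0 0) (.pos 39 .mp ⟨0, 0, 0, 0, 0, 8429355, 0, 0, 0, ⟨0, 0⟩, 0⟩ 0 0))) (.pos 39 .mp ⟨0, 0, 0, 0, 0, 7542894, 0, 0, 0, ⟨0, 0⟩, 0⟩ 0 0)))) (.pos 40 .mp ⟨8776211, 0, 0, 0, 0, 360255, 0, 0, 0, ⟨0, 0⟩, 0⟩ 0 0)) (.cut .s 6324224 (.cut .d (-262144) (.pos 37 .mp ⟨0, 0, 0, 0, 0, 9670062, 0, 0, 0, ⟨0, 0⟩, 0⟩ 0 0) (.cut .v 17039360 (.cut .l 708371 (.cut .s 6275072 (.cut .s 6250496 (.pos 39 .mp ⟨0, 0, 0, 0, 0, 8698252, 0, 0, 0, ⟨0, 0⟩, 0⟩ 0 0) (.pos 39 .mp ⟨130519, 0, 0, 0, 0, 8899762, 0, 0, 0, ⟨0, 0⟩, 0⟩ 0 0)) (.cut .s 6299648 (.pos 39 .mp ⟨265649,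 0, 0, 0, 0, 9104334, 0, 0, 0, ⟨0, 0⟩, 0⟩ 0 0) (.pos 39 .mp ⟨403387, 0, 0, 0, 0, 9312992, 0, 0, 0, ⟨0, 0⟩, 0⟩ 0 0))) (.pos 39 .mp ⟨0, 0, 0, 0, 0, 8726136, 0, 0, 0, ⟨0, 0⟩, 0⟩ 0 0)) (.pos 40 .mp ⟨10182371, 0, 0, 0, 0, 0, 0, 0, 0, ⟨0, 0⟩, 0⟩ 0 0))) (.cut .d (-262144) (.pos 37 .mp ⟨0, 0, 0, 0, 0, 11142402, 0, 0, 0, ⟨0, 0⟩, 0⟩ 0 0) (.cut .v 17039360 (.cut .s 6373376 (.cut .s 6348800 (.pos 39 .mp ⟨400169, 0, 0, 0, 0, 9634160, 0, 0, 0, ⟨0, 0⟩, 0⟩ 0 0) (.cut .s 6361088 (.pos 39 .mp ⟨614909, 0, 0, 0, 0, 9691147, 0, 0, 0, ⟨0, 0⟩, 0⟩ 0 0) (.pos 39 .mp ⟨686733, 0, 0, 0, 0, 9800245, 0, 0, 0, ⟨0, 0⟩, 0⟩ 0 0))) (.cut .l 708371 (.cut .d (-131072) (.pos 39 .mp ⟨0, 0, 0, 0,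 0, 11147258, 0, 0, 0, ⟨0, 0⟩, 0⟩ 0 0) (.cut .s 6397952 (.pos 39 .mp ⟨730574, 0, 0, 0, 0, 9981579, 0, 0, 0, ⟨0, 0⟩, 0⟩ 0 0) (.pos 39 .mp ⟨779479, 0, 0, 0, 0, 10286465, 0, 0, 0, ⟨0, 0⟩, 0⟩ 0 0))) (.pos 39 .mp ⟨0, 0, 0, 0, 0, 10472572, 0, 0, 0, ⟨0, 0⟩, 0⟩ 0 0))) (.pos 40 .mp ⟨11486837, 0, 0, 0, 0, 0, 0, 0, 0, ⟨0, 0⟩, 0⟩ 0 0))))) (.pos 38 .mp ⟨11353111, 0, 0, 0, 0, 0, 0, 0, 0, ⟨0, 0⟩, 0⟩ 0 0)) (.cut .v 17301504 (.cut .d (-262144) (.cut .d (-393216) (.void 37 ⟨0, 0, 0, 0, 0, 100000, 0, 0, 0, ⟨0, 0⟩, 0⟩ 0 0) (.cut .l 708371 (.void 37 ⟨0, 0, 0, 0, 0, 100000, 0, 0, 0, ⟨0, 0⟩, 0⟩ 0 0) (.cut .d (-327680) (.void 37 ⟨0, 0, 0, 0, 0, 100000, 0, 0, 0, ⟨0, 0⟩, 0⟩ 0 0) (.cut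 .l 960029 (.void 37 ⟨0, 0, 0, 0, 0, 100000, 0, 0, 0, ⟨0, 0⟩, 0⟩ 0 0) (.cut .s 6619136 (.cut .s 6520832 (.pos 37 .mp ⟨0, 0, 0, 0, 0, 12185642, 0, 0, 0, ⟨0, 0⟩, 0⟩ 0 0) (.pos 37 .mp ⟨0, 0, 0, 0, 0, 13822631, 0, 0, 0, ⟨0, 0⟩, 0⟩ 0 0)) (.cut .s 6717440 (.pos 37 .mp ⟨58772, 0, 0, 0, 0, 15635551, 0, 0, 0, ⟨0, 0⟩, 0⟩ 0 0) (.cut .s 6766592 (.pos 37 .mp ⟨168576, 0, 0, 0, 0, 17077485, 0, 0, 0, ⟨0, 0⟩, 0⟩ 0 0) (.pos 37 .mp ⟨574453, 0, 0, 0, 0, 17629386, 0, 0, 0, ⟨0, 0⟩, 0⟩ 0 0)))))))) (.cut .s 6619136 (.cut .v 17039360 (.cut .s 6520832 (.cut .s 6471680 (.cut .l 708371 (.cut .d (-131072) (.pos 39 .mp ⟨0, 0, 0, 0, 0, 11915478, 0, 0, 0, ⟨0, 0⟩, 0⟩ 0 0) (.cut .d (-65536)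 (.cut .s 6447104 (.pos 39 .mp ⟨750365, 0, 0, 0, 0, 10732095, 0, 0, 0, ⟨0, 0⟩, 0⟩ 0 0) (.pos 39 .mp ⟨749179, 0, 0, 0, 0, 11091572, 0, 0, 0, ⟨0, 0⟩, 0⟩ 0 0)) (.pos 39 .mp ⟨1381409, 0, 0, 0, 0, 10029973, 0, 0, 0, ⟨0, 0⟩, 0⟩ 0 0))) (.pos 39 .mp ⟨0, 0, 0, 0, 0, 11180583, 0, 0, 0, ⟨0, 0⟩, 0⟩ 0 0)) (.cut .l 708371 (.cut .d (-131072) (.pos 39 .mp ⟨0, 0, 0, 0, 0, 12721502, 0, 0, 0, ⟨0, 0⟩, 0⟩ 0 0) (.cut .v 16908288 (.cut .l 456712 (.cut .d (-65536) (.cut .s 6496256 (.pos 41 .mp ⟨729965, 0, 0, 0, 0, 11513748, 0, 0, 0, ⟨0, 0⟩, 0⟩ 0 0) (.pos 41 .mp ⟨828530, 0, 0, 0, 0, 11800767, 0, 0, 0, ⟨0, 0⟩, 0⟩ 0 0)) (.pos 41 .mp ⟨1166930, 0, 0, 0, 0, 10986689, 0, 0, 0, ⟨0, 0⟩, 0⟩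 0 0)) (.pos 41 .mp ⟨429817, 0, 0, 0, 0, 11495865, 0, 0, 0, ⟨0, 0⟩, 0⟩ 0 0)) (.pos 42 .mp ⟨12675336, 0, 0, 0, 0, 0, 0, 0, 0, ⟨0, 0⟩, 0⟩ 0 0))) (.pos 39 .mp ⟨73840, 0, 0, 0, 0, 11854777, 0, 0, 0, ⟨0, 0⟩, 0⟩ 0 0))) (.cut .s 6569984 (.cut .l 708371 (.cut .s 6545408 (.cut .d (-131072) (.pos 39 .mp ⟨216331, 0, 0, 0, 0, 13022033, 0, 0, 0, ⟨0, 0⟩, 0⟩ 0 0) (.cut .d (-65536) (.cut .s 6533120 (.pos 39 .mp ⟨1281097, 0, 0, 0, 0, 11638017, 0, 0, 0, ⟨0, 0⟩, 0⟩ 0 0) (.pos 39 .mp ⟨1350037, 0, 0, 0, 0, 11763095, 0, 0, 0, ⟨0, 0⟩, 0⟩ 0 0)) (.pos 39 .mp ⟨1822718, 0, 0, 0, 0, 11029480, 0, 0, 0, ⟨0, 0⟩, 0⟩ 0 0))) (.cut .d (-131072) (.pos 39 .mp ⟨372587, 0, 0, 0, 0, 13261588, 0,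 0, 0, ⟨0, 0⟩, 0⟩ 0 0) (.cut .v 16908288 (.cut .s 6557696 (.pos 41 .mp ⟨1315781, 0, 0, 0, 0, 11928406, 0, 0, 0, ⟨0, 0⟩, 0⟩ 0 0) (.pos 41 .mp ⟨1349438, 0, 0, 0, 0, 12092522, 0, 0, 0, ⟨0, 0⟩, 0⟩ 0 0)) (.pos 42 .mp ⟨13489856, 0, 0, 0, 0, 0, 0, 0, 0, ⟨0, 0⟩, 0⟩ 0 0)))) (.pos 39 .mp ⟨362970, 0, 0, 0, 0, 12398452, 0, 0, 0, ⟨0, 0⟩, 0⟩ 0 0)) (.cut .s 6594560 (.cut .l 708371 (.cut .d (-131072) (.pos 39 .mp ⟨531461, 0, 0, 0, 0, 13505359, 0, 0, 0, ⟨0, 0⟩, 0⟩ 0 0) (.cut .v 16908288 (.cut .s 6582272 (.pos 41 .mp ⟨1384548, 0, 0, 0, 0, 12256924, 0, 0, 0, ⟨0, 0⟩, 0⟩ 0 0) (.cut .s 6588416 (.pos 41 .mp ⟨1592319, 0, 0, 0, 0, 12226657, 0, 0, 0, ⟨0, 0⟩, 0⟩ 0 0) (.pos 41 .mp ⟨1628410,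 0, 0, 0, 0, 12294626, 0, 0, 0, ⟨0, 0⟩, 0⟩ 0 0))) (.pos 42 .mp ⟨13855045, 0, 0, 0, 0, 0, 0, 0, 0, ⟨0, 0⟩, 0⟩ 0 0))) (.pos 39 .mp ⟨626963, 0, 0, 0, 0, 12828869, 0, 0, 0, ⟨0, 0⟩, 0⟩ 0 0)) (.cut .l 708371 (.cut .d (-131072) (.pos 39 .mp ⟨692967, 0, 0, 0, 0, 13753384, 0, 0, 0, ⟨0, 0⟩, 0⟩ 0 0) (.cut .v 16908288 (.cut .d (-65536) (.cut .s 6606848 (.pos 41 .mp ⟨1343808, 0, 0, 0, 0, 12742638, 0, 0, 0, ⟨0, 0⟩, 0⟩ 0 0) (.pos 41 .mp ⟨1385700, 0, 0, 0, 0, 12906446, 0, 0, 0, ⟨0, 0⟩, 0⟩ 0 0)) (.pos 41 .mp ⟨1788928, 0, 0, 0, 0, 12257521, 0, 0, 0, ⟨0, 0⟩, 0⟩ 0 0)) (.pos 42 .mp ⟨14225972, 0, 0, 0, 0, 0, 0, 0, 0, ⟨0, 0⟩, 0⟩ 0 0))) (.pos 39 .mp ⟨764149, 0, 0, 0, 0, 13122153,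 0, 0, 0, ⟨0, 0⟩, 0⟩ 0 0))))) (.pos 40 .mp ⟨14214464, 0, 0, 0, 0, 0, 0, 0, 0, ⟨0, 0⟩, 0⟩ 0 0)) (.cut .v 17039360 (.cut .s 6717440 (.cut .s 6668288 (.cut .s 6643712 (.cut .l 708371 (.cut .d (-131072) (.pos 39 .mp ⟨857117, 0, 0, 0, 0, 14005702, 0, 0, 0, ⟨0, 0⟩, 0⟩ 0 0) (.cut .v 16908288 (.cut .l 456712 (.cut .d (-65536) (.cut .s 6631424 (.pos 41 .mp ⟨1589848, 0, 0, 0, 0, 12943851, 0, 0, 0, ⟨0, 0⟩, 0⟩ 0 0) (.pos 41 .mp ⟨1649095, 0, 0, 0, 0, 13095138, 0, 0, 0, ⟨0, 0⟩, 0⟩ 0 0)) (.cut .s 6631424 (.pos 41 .mp ⟨1869557, 0, 0, 0, 0, 12572881, 0, 0, 0, ⟨0, 0⟩, 0⟩ 0 0) (.pos 41 .mp ⟨1950831, 0, 0, 0, 0, 12700356, 0, 0, 0, ⟨0, 0⟩, 0⟩ 0 0))) (.pos 41 .mp ⟨1263096, 0, 0,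 0, 0, 13070607, 0, 0, 0, ⟨0, 0⟩, 0⟩ 0 0)) (.pos 42 .mp ⟨14602666, 0, 0, 0, 0, 0, 0, 0, 0, ⟨0, 0⟩, 0⟩ 0 0))) (.pos 39 .mp ⟨902253, 0, 0, 0, 0, 13419946, 0, 0, 0, ⟨0, 0⟩, 0⟩ 0 0)) (.cut .l 708371 (.cut .d (-131072) (.cut .s 6656000 (.pos 39 .mp ⟨1023925, 0, 0, 0, 0, 14105284, 0, 0, 0, ⟨0, 0⟩, 0⟩ 0 0) (.pos 39 .mp ⟨1108330, 0, 0, 0, 0, 14233509, 0, 0, 0, ⟨0, 0⟩, 0⟩ 0 0)) (.cut .v 16908288 (.cut .l 456712 (.cut .d (-65536) (.cut .s 6656000 (.pos 41 .mp ⟨1714579, 0, 0, 0, 0, 13240097, 0, 0, 0, ⟨0, 0⟩, 0⟩ 0 0) (.pos 41 .mp ⟨1738044, 0, 0, 0, 0, 13426189, 0, 0, 0, ⟨0, 0⟩, 0⟩ 0 0)) (.cut .s 6656000 (.pos 41 .mp ⟨2032753, 0, 0, 0, 0, 12828744, 0, 0, 0, ⟨0, 0⟩, 0⟩ 0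 0) (.pos 41 .mp ⟨2115323, 0, 0, 0, 0, 12958041, 0, 0, 0, ⟨0, 0⟩, 0⟩ 0 0))) (.pos 41 .mp ⟨1437956, 0, 0, 0, 0, 13332709, 0, 0, 0, ⟨0, 0⟩, 0⟩ 0 0)) (.pos 42 .mp ⟨14985157, 0, 0, 0, 0, 0, 0, 0, 0, ⟨0, 0⟩, 0⟩ 0 0))) (.pos 39 .mp ⟨1042565, 0, 0, 0, 0, 13721157, 0, 0, 0, ⟨0, 0⟩, 0⟩ 0 0))) (.cut .s 6692864 (.cut .s 6680576 (.cut .l 708371 (.cut .d (-131072) (.pos 39 .mp ⟨1193404, 0, 0, 0, 0, 14362832, 0, 0, 0, ⟨0, 0⟩, 0⟩ 0 0) (.cut .v 16908288 (.cut .s 6674432 (.pos 41 .mp ⟨1940030, 0, 0, 0, 0, 13336555, 0, 0, 0, ⟨0, 0⟩, 0⟩ 0 0) (.cut .s 6677504 (.pos 41 .mp ⟨2073479, 0, 0, 0, 0, 13298488, 0, 0, 0, ⟨0, 0⟩, 0⟩ 0 0) (.pos 41 .mp ⟨2086846, 0, 0, 0, 0, 13338751, 0, 0,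 0, ⟨0, 0⟩, 0⟩ 0 0))) (.pos 42 .mp ⟨15229627, 0, 0, 0, 0, 0, 0, 0, 0, ⟨0, 0⟩, 0⟩ 0 0))) (.pos 39 .mp ⟨1185096, 0, 0, 0, 0, 13944509, 0, 0, 0, ⟨0, 0⟩, 0⟩ 0 0)) (.cut .l 708371 (.cut .d (-131072) (.pos 39 .mp ⟨1279150, 0, 0, 0, 0, 14493258, 0, 0, 0, ⟨0, 0⟩, 0⟩ 0 0) (.cut .v 16908288 (.cut .d (-65536) (.cut .s 6686720 (.pos 41 .mp ⟨1941242, 0, 0, 0, 0, 13574220, 0, 0, 0, ⟨0, 0⟩, 0⟩ 0 0) (.pos 41 .mp ⟨1967086, 0, 0, 0, 0, 13656861, 0, 0, 0, ⟨0, 0⟩, 0⟩ 0 0)) (.pos 41 .mp ⟨2282415, 0, 0, 0, 0, 13202985, 0, 0, 0, ⟨0, 0⟩, 0⟩ 0 0)) (.pos 42 .mp ⟨15424639, 0, 0, 0, 0, 0, 0, 0, 0, ⟨0, 0⟩, 0⟩ 0 0))) (.pos 39 .mp ⟨1257197, 0, 0, 0, 0, 14097315, 0, 0, 0, ⟨0, 0⟩, 0⟩ 0 0)))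 (.cut .s 6705152 (.cut .l 708371 (.cut .d (-131072) (.pos 39 .mp ⟨1365568, 0, 0, 0, 0, 14624791, 0, 0, 0, ⟨0, 0⟩, 0⟩ 0 0) (.cut .v 16908288 (.cut .d (-65536) (.cut .s 6699008 (.pos 41 .mp ⟨1993439, 0, 0, 0, 0, 13739421, 0, 0, 0, ⟨0, 0⟩, 0⟩ 0 0) (.pos 41 .mp ⟨2020307, 0, 0, 0, 0, 13821893, 0, 0, 0, ⟨0, 0⟩, 0⟩ 0 0)) (.pos 41 .mp ⟨2366941, 0, 0, 0, 0, 13333041, 0, 0, 0, ⟨0, 0⟩, 0⟩ 0 0)) (.pos 42 .mp ⟨15621124, 0, 0, 0, 0, 0, 0, 0, 0, ⟨0, 0⟩, 0⟩ 0 0))) (.pos 39 .mp ⟨1329856, 0, 0, 0, 0, 14250924, 0, 0, 0, ⟨0, 0⟩, 0⟩ 0 0)) (.cut .l 708371 (.cut .d (-131072) (.pos 39 .mp ⟨1452662, 0, 0, 0, 0, 14757437, 0, 0, 0, ⟨0, 0⟩, 0⟩ 0 0) (.cut .v 16908288 (.cut .d (-65536)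 (.cut .s 6711296 (.pos 41 .mp ⟨2047698, 0, 0, 0, 0, 13904268, 0, 0, 0, ⟨0, 0⟩, 0⟩ 0 0) (.pos 41 .mp ⟨2075619, 0, 0, 0, 0, 13986538, 0, 0, 0, ⟨0, 0⟩, 0⟩ 0 0)) (.pos 41 .mp ⟨2452122, 0, 0, 0, 0, 13464058, 0, 0, 0, ⟨0, 0⟩, 0⟩ 0 0)) (.pos 42 .mp ⟨15819084, 0, 0, 0, 0, 0, 0, 0, 0, ⟨0, 0⟩, 0⟩ 0 0))) (.pos 39 .mp ⟨1403077, 0, 0, 0, 0, 14405325, 0, 0, 0, ⟨0, 0⟩, 0⟩ 0 0))))) (.cut .s 6766592 (.cut .s 6742016 (.cut .s 6729728 (.cut .l 708371 (.cut .d (-131072) (.pos 39 .mp ⟨1540432, 0, 0, 0, 0, 14891200, 0, 0, 0, ⟨0, 0⟩, 0⟩ 0 0) (.cut .v 16908288 (.cut .d (-65536) (.cut .s 6723584 (.pos 41 .mp ⟨2104077, 0, 0, 0, 0, 14068697, 0, 0, 0, ⟨0, 0⟩, 0⟩ 0 0) (.pos 41 .mp ⟨2133079,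 0, 0, 0, 0, 14150736, 0, 0, 0, ⟨0, 0⟩, 0⟩ 0 0)) (.pos 41 .mp ⟨2537959, 0, 0, 0, 0, 13595000, 0, 0, 0, ⟨0, 0⟩, 0⟩ 0 0)) (.pos 42 .mp ⟨16018525, 0, 0, 0, 0, 0, 0, 0, 0, ⟨0, 0⟩, 0⟩ 0 0))) (.pos 39 .mp ⟨1476859, 0, 0, 0, 0, 14560507, 0, 0, 0, ⟨0, 0⟩, 0⟩ 0 0)) (.cut .l 708371 (.cut .d (-131072) (.cut .s 6735872 (.pos 39 .mp ⟨1628880, 0, 0, 0, 0, 14941898, 0, 0, 0, ⟨0, 0⟩, 0⟩ 0 0) (.pos 39 .mp ⟨1673358, 0, 0, 0, 0, 15009327, 0, 0, 0, ⟨0, 0⟩, 0⟩ 0 0)) (.cut .v 16908288 (.cut .d (-65536) (.cut .s 6735872 (.pos 41 .mp ⟨2145219, 0, 0, 0, 0, 14252060, 0, 0, 0, ⟨0, 0⟩, 0⟩ 0 0) (.pos 41 .mp ⟨2171040, 0, 0, 0, 0, 14339407, 0, 0, 0, ⟨0, 0⟩, 0⟩ 0 0)) (.pos 41 .mp ⟨2624456,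 0, 0, 0, 0, 13726669, 0, 0, 0, ⟨0, 0⟩, 0⟩ 0 0)) (.pos 42 .mp ⟨16219449, 0, 0, 0, 0, 0, 0, 0, 0, ⟨0, 0⟩, 0⟩ 0 0))) (.pos 39 .mp ⟨1551204, 0, 0, 0, 0, 14716457, 0, 0, 0, ⟨0, 0⟩, 0⟩ 0 0))) (.cut .s 6754304 (.cut .l 708371 (.cut .d (-131072) (.cut .s 6748160 (.pos 39 .mp ⟨1718007, 0, 0, 0, 0, 15077040, 0, 0, 0, ⟨0, 0⟩, 0⟩ 0 0) (.pos 39 .mp ⟨1762827, 0, 0, 0, 0, 15145035, 0, 0, 0, ⟨0, 0⟩, 0⟩ 0 0)) (.cut .v 16908288 (.cut .d (-65536) (.cut .s 6748160 (.pos 41 .mp ⟨2203261, 0, 0, 0, 0, 14420394, 0, 0, 0, ⟨0, 0⟩, 0⟩ 0 0) (.pos 41 .mp ⟨2235968, 0, 0, 0, 0, 14501299, 0, 0, 0, ⟨0, 0⟩, 0⟩ 0 0)) (.pos 41 .mp ⟨2711613, 0, 0, 0, 0, 13859466, 0, 0, 0, ⟨0, 0⟩, 0⟩ 0 0)) (.pos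 42 .mp ⟨16421861, 0, 0, 0, 0, 0, 0, 0, 0, ⟨0, 0⟩, 0⟩ 0 0))) (.cut .s 6748160 (.pos 39 .mp ⟨1626114, 0, 0, 0, 0, 14830959, 0, 0, 0, ⟨0, 0⟩, 0⟩ 0 0) (.pos 39 .mp ⟨1663782, 0, 0, 0, 0, 14909432, 0, 0, 0, ⟨0, 0⟩, 0⟩ 0 0))) (.cut .l 708371 (.cut .d (-131072) (.cut .s 6760448 (.pos 39 .mp ⟨1807817, 0, 0, 0, 0, 15213315, 0, 0, 0, ⟨0, 0⟩, 0⟩ 0 0) (.pos 39 .mp ⟨1852978, 0, 0, 0, 0, 15281879, 0, 0, 0, ⟨0, 0⟩, 0⟩ 0 0)) (.cut .v 16908288 (.cut .l 456712 (.cut .d (-65536) (.cut .s 6760448 (.pos 41 .mp ⟨2400372, 0, 0, 0, 0, 14467624, 0, 0, 0, ⟨0, 0⟩, 0⟩ 0 0) (.pos 41 .mp ⟨2430145, 0, 0, 0, 0, 14550815, 0, 0, 0, ⟨0, 0⟩, 0⟩ 0 0)) (.pos 41 .mp ⟨2799432, 0, 0, 0, 0, 14024538,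 0, 0, 0, ⟨0, 0⟩, 0⟩ 0 0)) (.pos 41 .mp ⟨2165212, 0, 0, 0, 0, 14579234, 0, 0, 0, ⟨0, 0⟩, 0⟩ 0 0)) (.pos 42 .mp ⟨16625764, 0, 0, 0, 0, 0, 0, 0, 0, ⟨0, 0⟩, 0⟩ 0 0))) (.cut .s 6760448 (.pos 39 .mp ⟨1701591, 0, 0, 0, 0, 14988091, 0, 0, 0, ⟨0, 0⟩, 0⟩ 0 0) (.pos 39 .mp ⟨1739542, 0, 0, 0, 0, 15066935, 0, 0, 0, ⟨0, 0⟩, 0⟩ 0 0))))) (.cut .s 6791168 (.cut .s 6778880 (.cut .l 708371 (.cut .d (-131072) (.cut .s 6772736 (.pos 39 .mp ⟨1898310, 0, 0, 0, 0, 15350728, 0, 0, 0, ⟨0, 0⟩, 0⟩ 0 0) (.pos 39 .mp ⟨1943814, 0, 0, 0, 0, 15419863, 0, 0, 0, ⟨0, 0⟩, 0⟩ 0 0)) (.cut .v 16908288 (.cut .l 456712 (.cut .d (-65536) (.cut .s 6772736 (.pos 41 .mp ⟨2467630, 0, 0, 0, 0, 14627366,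 0, 0, 0, ⟨0, 0⟩, 0⟩ 0 0) (.pos 41 .mp ⟨2516379, 0, 0, 0, 0, 14694024, 0, 0, 0, ⟨0, 0⟩, 0⟩ 0 0)) (.pos 41 .mp ⟨2887915, 0, 0, 0, 0, 14161788, 0, 0, 0, ⟨0, 0⟩, 0⟩ 0 0)) (.pos 41 .mp ⟨2259278, 0, 0, 0, 0, 14716886, 0, 0, 0, ⟨0, 0⟩, 0⟩ 0 0)) (.pos 42 .mp ⟨16831163, 0, 0, 0, 0, 0, 0, 0, 0, ⟨0, 0⟩, 0⟩ 0 0))) (.cut .s 6772736 (.pos 39 .mp ⟨1777635, 0, 0, 0, 0, 15145961, 0, 0, 0, ⟨0, 0⟩, 0⟩ 0 0) (.pos 39 .mp ⟨1815871, 0, 0, 0, 0, 15225170, 0, 0, 0, ⟨0, 0⟩, 0⟩ 0 0))) (.cut .l 708371 (.cut .d (-131072) (.cut .s 6785024 (.pos 39 .mp ⟨1989489, 0, 0, 0, 0, 15489284, 0, 0, 0, ⟨0, 0⟩, 0⟩ 0 0) (.pos 39 .mp ⟨2035336, 0, 0, 0, 0, 15558993, 0, 0, 0, ⟨0, 0⟩, 0⟩ 0 0)) (.cut .v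 16908288 (.cut .l 456712 (.cut .d (-65536) (.cut .s 6785024 (.pos 41 .mp ⟨2565310, 0, 0, 0, 0, 14760881, 0, 0, 0, ⟨0, 0⟩, 0⟩ 0 0) (.pos 41 .mp ⟨2614425, 0, 0, 0, 0, 14827935, 0, 0, 0, ⟨0, 0⟩, 0⟩ 0 0)) (.pos 41 .mp ⟨2977064, 0, 0, 0, 0, 14299896, 0, 0, 0, ⟨0, 0⟩, 0⟩ 0 0)) (.pos 41 .mp ⟨2354052, 0, 0, 0, 0, 14855078, 0, 0, 0, ⟨0, 0⟩, 0⟩ 0 0)) (.pos 42 .mp ⟨17038061, 0, 0, 0, 0, 0, 0, 0, 0, ⟨0, 0⟩, 0⟩ 0 0))) (.cut .s 6785024 (.pos 39 .mp ⟨1854249, 0, 0, 0, 0, 15304558, 0, 0, 0, ⟨0, 0⟩, 0⟩ 0 0) (.pos 39 .mp ⟨1892769, 0, 0, 0, 0, 15384126, 0, 0, 0, ⟨0, 0⟩, 0⟩ 0 0)))) (.cut .s 6803456 (.cut .d (-131072) (.cut .d (-196608) (.pos 39 .mp ⟨1640902, 0, 0, 0, 0, 16170728,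 0, 0, 0, ⟨0, 0⟩, 0⟩ 0 0) (.cut .l 708371 (.cut .s 6797312 (.pos 39 .mp ⟨2081354, 0, 0, 0, 0, 15628989, 0, 0, 0, ⟨0, 0⟩, 0⟩ 0 0) (.pos 39 .mp ⟨2127546, 0, 0, 0, 0, 15699274, 0, 0, 0, ⟨0, 0⟩, 0⟩ 0 0)) (.pos 39 .mp ⟨2081354, 0, 0, 0, 0, 15432099, 0, 0, 0, ⟨0, 0⟩, 0⟩ 0 0))) (.cut .v 16908288 (.cut .l 708371 (.cut .l 456712 (.cut .d (-65536) (.cut .s 6797312 (.pos 41 .mp ⟨2663724, 0, 0, 0, 0, 14895187, 0, 0, 0, ⟨0, 0⟩, 0⟩ 0 0) (.pos 41 .mp ⟨2713206, 0, 0, 0, 0, 14962635, 0, 0, 0, ⟨0, 0⟩, 0⟩ 0 0)) (.pos 41 .mp ⟨3066879, 0, 0, 0, 0, 14438857, 0, 0, 0, ⟨0, 0⟩, 0⟩ 0 0)) (.pos 41 .mp ⟨2449536, 0, 0, 0, 0, 14993797, 0, 0, 0, ⟨0, 0⟩, 0⟩ 0 0)) (.pos 41 .mp ⟨0, 0, 0, 0,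 0, 0, 0, 0, 0, ⟨0, 0⟩, 0⟩ 0 0)) (.pos 42 .mp ⟨17168505, 0, 0, 0, 0, 0, 0, 0, 0, ⟨0, 0⟩, 0⟩ 0 0))) (.cut .d (-131072) (.cut .d (-196608) (.pos 39 .mp ⟨1734344, 0, 0, 0, 0, 16313383, 0, 0, 0, ⟨0, 0⟩, 0⟩ 0 0) (.cut .l 708371 (.cut .s 6809600 (.pos 39 .mp ⟨2173909, 0, 0, 0, 0, 15769848, 0, 0, 0, ⟨0, 0⟩, 0⟩ 0 0) (.pos 39 .mp ⟨2220445, 0, 0, 0, 0, 15840712, 0, 0, 0, ⟨0, 0⟩, 0⟩ 0 0)) (.pos 39 .mp ⟨2173909, 0, 0, 0, 0, 15582285, 0, 0, 0, ⟨0, 0⟩, 0⟩ 0 0))) (.cut .v 16908288 (.cut .l 708371 (.cut .l 456712 (.cut .d (-65536) (.cut .s 6809600 (.pos 41 .mp ⟨2762872, 0, 0, 0, 0, 15030278, 0, 0, 0, ⟨0, 0⟩, 0⟩ 0 0) (.pos 41 .mp ⟨2812723, 0, 0, 0, 0, 15098117, 0, 0, 0, ⟨0,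 0⟩, 0⟩ 0 0)) (.pos 41 .mp ⟨3157365, 0, 0, 0, 0, 14578665, 0, 0, 0, ⟨0, 0⟩, 0⟩ 0 0)) (.pos 41 .mp ⟨2545733, 0, 0, 0, 0, 15133031, 0, 0, 0, ⟨0, 0⟩, 0⟩ 0 0)) (.pos 41 .mp ⟨0, 0, 0, 0, 0, 0, 0, 0, 0, ⟨0, 0⟩, 0⟩ 0 0)) (.pos 42 .mp ⟨17377765, 0, 0, 0, 0, 0, 0, 0, 0, ⟨0, 0⟩, 0⟩ 0 0))))))) (.pos 40 .mp ⟨17471413, 0, 0, 0, 0, 0, 0, 0, 0, ⟨0, 0⟩, 0⟩ 0 0)))) (.pos 38 .mp ⟨18500004, 0, 0, 0, 0, 0, 0, 0, 0, ⟨0, 0⟩, 0⟩ 0 0))) (.pos 36 .mp ⟨17961060, 0, 0, 0, 0, 0, 0, 0, 0, ⟨0, 0⟩, 0⟩ 0 0)) (.void 34 ⟨100000, 0, 0, 0, 0, 0, 0, 0, 0, ⟨0, 0⟩, 0⟩ 0 0)))))) (.void 32 ⟨100000, 0, 0, 0, 0, 0, 0, 0, 0, ⟨0, 0⟩, 0⟩ 0 0))) (.void 30 ⟨100000, 0, 0, 0, 0, 0, 0, 0, 0, ⟨0, 0⟩, 0⟩ 0 0))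 (.void 71 ⟨100000, 0, 0, 0, 0, 0, 0, 0, 0, ⟨0, 0⟩, 0⟩ 0 0))) (.cut .v 16777216 (.cut .v 8388608 (.cut .v 4194304 (.void 4 ⟨0, 0, 50000, 0, 50000, 0, 0, 0, 0, ⟨0, 0⟩, 0⟩ 0 0) (.pos 5 .pm ⟨0, 0, 0, 0, 0, 0, 0, 0, 0, ⟨0, 0⟩, 0⟩ 0 0)) (.cut .v 12582912 (.pos 8 .pm ⟨0, 0, 0, 0, 0, 0, 0, 0, 0, ⟨0, 0⟩, 0⟩ 0 0) (.pos 9 .pm ⟨0, 0, 0, 0, 0, 0, 0, 0, 0, ⟨0, 0⟩, 0⟩ 0 0))) (.cut .v 33554432 (.cut .d 14953607 (.cut .d 7476803 (.cut .v 25165824 (.cut .v 20971520 (.pos 31 .pp ⟨5517842, 0, 0, 0, 0, 0, 0, 0, 0, ⟨0, 0⟩, 0⟩ 0 0) (.pos 32 .pp ⟨3279282, 0, 0, 0, 0, 0, 567594, 0, 0, ⟨0, 0⟩, 0⟩ 0 0)) (.pos 30 .pp ⟨0, 0, 0, 0, 0, 0, 3643631, 0, 0, ⟨0, 0⟩, 0⟩ 0 0)) (.pos 28 .pp ⟨0,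 0, 0, 0, 0, 0, 0, 221520082, 0, ⟨4650728, 307676⟩, 0⟩ 133 202)) (.cut .d 22430410 (.pos 28 .pp ⟨0, 21926897, 0, 0, 0, 0, 0, 502482372, 1970373, ⟨4875805, 12506⟩, 19951585⟩ 174 301) (.void 28 ⟨0, 0, 0, 7216, 0, 0, 0, 0, 92784, ⟨0, 0⟩, 19951585⟩ 0 0))) (.cut .d 14953607 (.pos 71 .pp ⟨0, 0, 0, 0, 0, 0, 201278976, 0, 0, ⟨0, 0⟩, 0⟩ 0 0) (.cut .d 22430410 (.cut .v 50331648 (.cut .v 41943040 (.pos 76 .pp ⟨0, 26917867, 0, 0, 0, 0, 108051750, 93843184, 0, ⟨4875805, 12506⟩, 0⟩ 174 301) (.void 77 ⟨0, 0, 0, 0, 0, 0, 100000, 0, 0, ⟨0, 0⟩, 0⟩ 0 0)) (.void 75 ⟨0, 0, 0, 0, 0, 0, 100000, 0, 0, ⟨0, 0⟩, 0⟩ 0 0)) (.void 71 ⟨0, 84262, 0, 0, 0, 0, 0, 0, 15738, ⟨0, 0⟩, 28215802⟩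 0 0)))))),
    by decide +kernel⟩

theorem covers7 : cell.Covers table row7.1 :=
  ⟨(.cut .d 0 (.cut .v 16777216 (.cut .d (-8388608) (.void 1 ⟨0, 0, 0, 0, 0, 100000, 0, 0, 0, ⟨0, 0⟩, 0⟩ 0 0) (.cut .d (-4194304) (.void 1 ⟨0, 0, 0, 0, 0, 100000, 0, 0, 0, ⟨0, 0⟩, 0⟩ 0 0) (.cut .d (-2097152) (.void 1 ⟨0, 0, 0, 0, 0, 100000, 0, 0, 0, ⟨0, 0⟩, 0⟩ 0 0) (.cut .d (-1048576) (.void 1 ⟨0, 0, 0, 0, 0, 100000, 0, 0, 0, ⟨0, 0⟩, 0⟩ 0 0) (.cut .d (-524288) (.void 1 ⟨0, 0, 0, 0, 0, 100000, 0, 0, 0, ⟨0, 0⟩, 0⟩ 0 0) (.cut .v 8388608 (.cut .v 4194304 (.void 4 ⟨0, 0, 100000, 0, 0, 0, 0, 0, 0, ⟨0, 0⟩, 0⟩ 0 0) (.pos 5 .mm ⟨0, 0, 0, 0, 0, 18468428, 0, 0, 0, ⟨0, 0⟩, 0⟩ 0 0)) (.cut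 .v 12582912 (.pos 8 .mm ⟨0, 0, 0, 0, 0, 19411975, 0, 0, 0, ⟨0, 0⟩, 0⟩ 0 0) (.cut .v 14680064 (.pos 12 .mm ⟨0, 0, 0, 0, 0, 23053155, 0, 0, 0, ⟨0, 0⟩, 0⟩ 0 0) (.cut .d (-262144) (.cut .s 7176192 (.pos 13 .mm ⟨0, 0, 0, 0, 0, 25181044, 0, 0, 0, ⟨0, 0⟩, 0⟩ 0 0) (.void 13 ⟨0, 0, 0, 0, 0, 100000, 0, 0, 0, ⟨0, 0⟩, 0⟩ 0 0)) (.cut .v 15728640 (.pos 16 .mm ⟨0, 0, 0, 0, 0, 21724270, 0, 0, 0, ⟨0, 0⟩, 0⟩ 0 0) (.cut .s 7176192 (.cut .v 16252928 (.pos 20 .mm ⟨0, 0, 0, 0, 0, 19891930, 0, 0, 0, ⟨0, 0⟩, 0⟩ 0 0) (.cut .s 6995968 (.cut .s 6905856 (.cut .s 6860800 (.pos 21 .mm ⟨0, 0, 0, 0, 0, 18015193, 0, 0, 0, ⟨0, 0⟩, 0⟩ 0 0) (.pos 21 .mm ⟨0, 0, 0, 0, 0, 18905988, 0, 0, 0, ⟨0,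 0⟩, 0⟩ 0 0)) (.cut .s 6950912 (.pos 21 .mm ⟨0, 0, 0, 0, 0, 19811304, 0, 0, 0, ⟨0, 0⟩, 0⟩ 0 0) (.pos 21 .mm ⟨0, 0, 0, 0, 0, 20747321, 0, 0, 0, ⟨0, 0⟩, 0⟩ 0 0))) (.cut .v 16515072 (.pos 24 .mm ⟨0, 0, 0, 0, 0, 22724767, 0, 0, 0, ⟨0, 0⟩, 0⟩ 0 0) (.cut .s 7086080 (.cut .s 7041024 (.pos 25 .mm ⟨0, 0, 0, 0, 0, 21718202, 0, 0, 0, ⟨0, 0⟩, 0⟩ 0 0) (.pos 25 .mm ⟨0, 0, 0, 0, 0, 22723285, 0, 0, 0, ⟨0, 0⟩, 0⟩ 0 0)) (.cut .s 7131136 (.pos 25 .mm ⟨0, 0, 0, 0, 0, 23761922, 0, 0, 0, ⟨0, 0⟩, 0⟩ 0 0) (.pos 25 .mm ⟨0, 0, 0, 0, 0, 24833482, 0, 0, 0, ⟨0, 0⟩, 0⟩ 0 0)))))) (.cut .v 16252928 (.pos 20 .mm ⟨0, 0, 0, 0, 0, 28547971, 0, 0, 0, ⟨0, 0⟩, 0⟩ 0 0) (.cut .s 7356416 (.cut .v 16515072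 (.pos 24 .mm ⟨0, 0, 0, 0, 0, 27180789, 0, 0, 0, ⟨0, 0⟩, 0⟩ 0 0) (.cut .s 7266304 (.cut .s 7221248 (.pos 25 .mm ⟨0, 0, 0, 0, 0, 25937350, 0, 0, 0, ⟨0, 0⟩, 0⟩ 0 0) (.pos 25 .mm ⟨0, 0, 0, 0, 0, 27072928, 0, 0, 0, ⟨0, 0⟩, 0⟩ 0 0)) (.cut .s 7311360 (.pos 25 .mm ⟨0, 0, 0, 0, 0, 28239630, 0, 0, 0, ⟨0, 0⟩, 0⟩ 0 0) (.pos 25 .mm ⟨0, 0, 0, 0, 0, 29436885, 0, 0, 0, ⟨0, 0⟩, 0⟩ 0 0)))) (.cut .s 7446528 (.cut .s 7401472 (.pos 21 .mm ⟨0, 0, 0, 0, 0, 30664137, 0, 0, 0, ⟨0, 0⟩, 0⟩ 0 0) (.pos 21 .mm ⟨0, 0, 0, 0, 0, 31920842, 0, 0, 0, ⟨0, 0⟩, 0⟩ 0 0)) (.pos 21 .mm ⟨0, 0, 0, 0, 0, 34309545, 0, 0, 0, ⟨0, 0⟩, 0⟩ 0 0))))))))))))))) (.cut .v 33554432 (.cut .v 25165824 (.cut .d (-8388608)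 (.void 29 ⟨0, 0, 0, 0, 0, 100000, 0, 0, 0, ⟨0, 0⟩, 0⟩ 0 0) (.cut .d (-4194304) (.void 29 ⟨0, 0, 0, 0, 0, 100000, 0, 0, 0, ⟨0, 0⟩, 0⟩ 0 0) (.cut .d (-2097152) (.void 29 ⟨0, 0, 0, 0, 0, 100000, 0, 0, 0, ⟨0, 0⟩, 0⟩ 0 0) (.cut .d (-1048576) (.void 29 ⟨0, 0, 0, 0, 0, 100000, 0, 0, 0, ⟨0, 0⟩, 0⟩ 0 0) (.cut .d (-524288) (.void 29 ⟨0, 0, 0, 0, 0, 100000, 0, 0, 0, ⟨0, 0⟩, 0⟩ 0 0) (.cut .v 20971520 (.cut .v 18874368 (.cut .v 17825792 (.cut .d (-262144) (.cut .s 7176192 (.cut .d (-393216) (.void 35 ⟨0, 0, 0, 0, 0, 100000, 0, 0, 0, ⟨0, 0⟩, 0⟩ 0 0) (.cut .d (-327680) (.void 35 ⟨0, 0, 0, 0, 0, 100000, 0, 0, 0, ⟨0, 0⟩, 0⟩ 0 0) (.cut .d (-294912) (.void 35 ⟨0, 0, 0, 0, 0,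 100000, 0, 0, 0, ⟨0, 0⟩, 0⟩ 0 0) (.cut .v 17301504 (.cut .l 708371 (.void 37 ⟨0, 0, 0, 0, 0, 100000, 0, 0, 0, ⟨0, 0⟩, 0⟩ 0 0) (.cut .l 960029 (.void 37 ⟨0, 0, 0, 0, 0, 100000, 0, 0, 0, ⟨0, 0⟩, 0⟩ 0 0) (.cut .l 1085858 (.void 37 ⟨0, 0, 0, 0, 0, 100000, 0, 0, 0, ⟨0, 0⟩, 0⟩ 0 0) (.cut .s 6995968 (.cut .s 6905856 (.pos 37 .mp ⟨1032213, 0, 0, 0, 0, 18525410, 0, 0, 0, ⟨0, 0⟩, 0⟩ 0 0) (.pos 37 .mp ⟨1792759, 0, 0, 0, 0, 20201526, 0, 0, 0, ⟨0, 0⟩, 0⟩ 0 0)) (.cut .s 7086080 (.pos 37 .mp ⟨2735798, 0, 0, 0, 0, 21655369, 0, 0, 0, ⟨0, 0⟩, 0⟩ 0 0) (.void 37 ⟨0, 0, 0, 0, 0, 100000, 0, 0, 0, ⟨0, 0⟩, 0⟩ 0 0)))))) (.void 38 ⟨100000, 0, 0, 0, 0, 0, 0, 0, 0, ⟨0, 0⟩, 0⟩ 0 0)))))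 (.void 35 ⟨0, 0, 0, 0, 0, 100000, 0, 0, 0, ⟨0, 0⟩, 0⟩ 0 0)) (.cut .v 17301504 (.cut .s 7176192 (.cut .s 6995968 (.cut .v 17039360 (.cut .s 6905856 (.cut .s 6860800 (.cut .s 6838272 (.cut .s 6827008 (.cut .d (-131072) (.cut .d (-196608) (.pos 39 .mp ⟨1827184, 0, 0, 0, 0, 16445740, 0, 0, 0, ⟨0, 0⟩, 0⟩ 0 0) (.cut .l 708371 (.cut .s 6821376 (.pos 39 .mp ⟨2265712, 0, 0, 0, 0, 15906524, 0, 0, 0, ⟨0, 0⟩, 0⟩ 0 0) (.pos 39 .mp ⟨2308718, 0, 0, 0, 0, 15975594, 0, 0, 0, ⟨0, 0⟩, 0⟩ 0 0)) (.pos 39 .mp ⟨2265712, 0, 0, 0, 0, 15721882, 0, 0, 0, ⟨0, 0⟩, 0⟩ 0 0))) (.cut .v 16908288 (.cut .l 708371 (.cut .l 456712 (.cut .d (-65536) (.cut .s 6821376 (.pos 41 .mp ⟨2857263, 0, 0,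 0, 0, 15168869, 0, 0, 0, ⟨0, 0⟩, 0⟩ 0 0) (.pos 41 .mp ⟨2903426, 0, 0, 0, 0, 15233003, 0, 0, 0, ⟨0, 0⟩, 0⟩ 0 0)) (.pos 41 .mp ⟨3239622, 0, 0, 0, 0, 14729968, 0, 0, 0, ⟨0, 0⟩, 0⟩ 0 0)) (.pos 41 .mp ⟨2633280, 0, 0, 0, 0, 15282011, 0, 0, 0, ⟨0, 0⟩, 0⟩ 0 0)) (.pos 41 .mp ⟨0, 0, 0, 0, 0, 0, 0, 0, 0, ⟨0, 0⟩, 0⟩ 0 0)) (.pos 42 .mp ⟨17582482, 0, 0, 0, 0, 0, 0, 0, 0, ⟨0, 0⟩, 0⟩ 0 0))) (.cut .d (-131072) (.cut .d (-196608) (.pos 39 .mp ⟨1913987, 0, 0, 0, 0, 16586414, 0, 0, 0, ⟨0, 0⟩, 0⟩ 0 0) (.cut .l 708371 (.cut .s 6832640 (.pos 39 .mp ⟨2351881, 0, 0, 0, 0, 16045013, 0, 0, 0, ⟨0, 0⟩, 0⟩ 0 0) (.pos 39 .mp ⟨2395202, 0, 0, 0, 0, 16114781, 0, 0, 0, ⟨0, 0⟩, 0⟩ 0 0)) (.pos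 39 .mp ⟨2351881, 0, 0, 0, 0, 15862748, 0, 0, 0, ⟨0, 0⟩, 0⟩ 0 0))) (.cut .v 16908288 (.cut .l 708371 (.cut .l 456712 (.cut .d (-65536) (.cut .s 6832640 (.pos 41 .mp ⟨2949759, 0, 0, 0, 0, 15297495, 0, 0, 0, ⟨0, 0⟩, 0⟩ 0 0) (.pos 41 .mp ⟨2996262, 0, 0, 0, 0, 15362344, 0, 0, 0, ⟨0, 0⟩, 0⟩ 0 0)) (.pos 41 .mp ⟨3324040, 0, 0, 0, 0, 14862936, 0, 0, 0, ⟨0, 0⟩, 0⟩ 0 0)) (.pos 41 .mp ⟨2722926, 0, 0, 0, 0, 15411075, 0, 0, 0, ⟨0, 0⟩, 0⟩ 0 0)) (.pos 41 .mp ⟨0, 0, 0, 0, 0, 0, 0, 0, 0, ⟨0, 0⟩, 0⟩ 0 0)) (.pos 42 .mp ⟨17784111, 0, 0, 0, 0, 0, 0, 0, 0, ⟨0, 0⟩, 0⟩ 0 0)))) (.cut .s 6849536 (.cut .d (-131072) (.cut .d (-196608) (.pos 39 .mp ⟨2001442, 0, 0, 0, 0, 16728478, 0, 0,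 0, ⟨0, 0⟩, 0⟩ 0 0) (.cut .l 708371 (.cut .s 6843904 (.pos 39 .mp ⟨2438681, 0, 0, 0, 0, 16184899, 0, 0, 0, ⟨0, 0⟩, 0⟩ 0 0) (.pos 39 .mp ⟨2482318, 0, 0, 0, 0, 16255368, 0, 0, 0, ⟨0, 0⟩, 0⟩ 0 0)) (.pos 39 .mp ⟨2429163, 0, 0, 0, 0, 16012923, 0, 0, 0, ⟨0, 0⟩, 0⟩ 0 0))) (.cut .v 16908288 (.cut .l 708371 (.cut .l 456712 (.cut .d (-65536) (.cut .s 6843904 (.pos 41 .mp ⟨3042936, 0, 0, 0, 0, 15427551, 0, 0, 0, ⟨0, 0⟩, 0⟩ 0 0) (.pos 41 .mp ⟨3089782, 0, 0, 0, 0, 15493114, 0, 0, 0, ⟨0, 0⟩, 0⟩ 0 0)) (.pos 41 .mp ⟨3409061, 0, 0, 0, 0, 14996426, 0, 0, 0, ⟨0, 0⟩, 0⟩ 0 0)) (.pos 41 .mp ⟨2813228, 0, 0, 0, 0, 15541690, 0, 0, 0, ⟨0, 0⟩, 0⟩ 0 0)) (.pos 41 .mp ⟨0, 0, 0, 0, 0, 0,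 0, 0, 0, ⟨0, 0⟩, 0⟩ 0 0)) (.pos 42 .mp ⟨17987440, 0, 0, 0, 0, 0, 0, 0, 0, ⟨0, 0⟩, 0⟩ 0 0))) (.cut .d (-131072) (.cut .d (-196608) (.pos 39 .mp ⟨2089550, 0, 0, 0, 0, 16871939, 0, 0, 0, ⟨0, 0⟩, 0⟩ 0 0) (.cut .l 708371 (.cut .s 6855168 (.pos 39 .mp ⟨2526113, 0, 0, 0, 0, 16326188, 0, 0, 0, ⟨0, 0⟩, 0⟩ 0 0) (.pos 39 .mp ⟨2570067, 0, 0, 0, 0, 16397361, 0, 0, 0, ⟨0, 0⟩, 0⟩ 0 0)) (.pos 39 .mp ⟨2503446, 0, 0, 0, 0, 16167659, 0, 0, 0, ⟨0, 0⟩, 0⟩ 0 0))) (.cut .v 16908288 (.cut .l 708371 (.cut .l 456712 (.cut .d (-65536) (.cut .s 6855168 (.pos 41 .mp ⟨3132005, 0, 0, 0, 0, 15563842, 0, 0, 0, ⟨0, 0⟩, 0⟩ 0 0) (.pos 41 .mp ⟨3173130, 0, 0, 0, 0, 15636203, 0, 0, 0, ⟨0, 0⟩, 0⟩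 0 0)) (.pos 41 .mp ⟨3494685, 0, 0, 0, 0, 15131399, 0, 0, 0, ⟨0, 0⟩, 0⟩ 0 0)) (.pos 41 .mp ⟨2904188, 0, 0, 0, 0, 15673841, 0, 0, 0, ⟨0, 0⟩, 0⟩ 0 0)) (.pos 41 .mp ⟨0, 0, 0, 0, 0, 0, 0, 0, 0, ⟨0, 0⟩, 0⟩ 0 0)) (.pos 42 .mp ⟨18192473, 0, 0, 0, 0, 0, 0, 0, 0, ⟨0, 0⟩, 0⟩ 0 0))))) (.cut .s 6883328 (.cut .d (-131072) (.cut .l 708371 (.cut .d (-196608) (.void 39 ⟨0, 0, 0, 0, 0, 100000, 0, 0, 0, ⟨0, 0⟩, 0⟩ 0 0) (.cut .d (-163840) (.void 39 ⟨0, 0, 0, 0, 0, 100000, 0, 0, 0, ⟨0, 0⟩, 0⟩ 0 0) (.cut .d (-147456) (.pos 39 .mp ⟨2644319, 0, 0, 0, 0, 16766870, 0, 0, 0, ⟨0, 0⟩, 0⟩ 0 0) (.cut .v 16908288 (.pos 41 .mp ⟨2625377, 0, 0, 0, 0, 16659830, 0, 0, 0, ⟨0, 0⟩, 0⟩ 0 0) (.cut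 .s 6872064 (.pos 42 .mp ⟨3342022, 0, 0, 0, 0, 15745649, 0, 0, 0, ⟨0, 0⟩, 0⟩ 0 0) (.pos 42 .mp ⟨3440234, 0, 0, 0, 0, 15879766, 0, 0, 0, ⟨0, 0⟩, 0⟩ 0 0)))))) (.cut .s 6872064 (.pos 39 .mp ⟨2403025, 0, 0, 0, 0, 16537585, 0, 0, 0, ⟨0, 0⟩, 0⟩ 0 0) (.pos 39 .mp ⟨2475746, 0, 0, 0, 0, 16698894, 0, 0, 0, ⟨0, 0⟩, 0⟩ 0 0))) (.cut .l 708371 (.cut .v 16908288 (.cut .d (-65536) (.cut .v 16842752 (.pos 72 .mp ⟨0, 0, 0, 0, 0, 19053482, 0, 0, 0, ⟨0, 0⟩, 0⟩ 0 0) (.cut .l 456712 (.cut .d (-98304) (.pos 73 .mp ⟨3066478, 0, 0, 0, 0, 16281469, 0, 0, 0, ⟨0, 0⟩, 0⟩ 0 0) (.cut .s 6872064 (.pos 73 .mp ⟨3437833, 0, 0, 0, 0, 15539703, 0, 0, 0, ⟨0, 0⟩, 0⟩ 0 0) (.pos 73 .mp ⟨3529217, 0,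 0, 0, 0, 15677926, 0, 0, 0, ⟨0, 0⟩, 0⟩ 0 0))) (.cut .s 6872064 (.pos 73 .mp ⟨2978221, 0, 0, 0, 0, 15901415, 0, 0, 0, ⟨0, 0⟩, 0⟩ 0 0) (.pos 73 .mp ⟨3061858, 0, 0, 0, 0, 16047451, 0, 0, 0, ⟨0, 0⟩, 0⟩ 0 0)))) (.cut .d (-32768) (.cut .d (-49152) (.cut .l 456712 (.cut .s 6872064 (.pos 41 .mp ⟨3580914, 0, 0, 0, 0, 15288464, 0, 0, 0, ⟨0, 0⟩, 0⟩ 0 0) (.pos 41 .mp ⟨3667750, 0, 0, 0, 0, 15430173, 0, 0, 0, ⟨0, 0⟩, 0⟩ 0 0)) (.pos 41 .mp ⟨0, 0, 0, 0, 0, 0, 0, 0, 0, ⟨0, 0⟩, 0⟩ 0 0)) (.pos 41 .mp ⟨3634634, 0, 0, 0, 0, 15155931, 0, 0, 0, ⟨0, 0⟩, 0⟩ 0 0)) (.pos 41 .mp ⟨3175120, 0, 0, 0, 0, 0, 0, 0, 0, ⟨0, 0⟩, 0⟩ 0 0))) (.pos 42 .mp ⟨18635084, 0, 0, 0, 0, 0, 0, 0, 0, ⟨0, 0⟩,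 0⟩ 0 0)) (.pos 39 .mp ⟨0, 0, 0, 0, 0, 0, 0, 0, 0, ⟨0, 0⟩, 0⟩ 0 0))) (.cut .d (-131072) (.cut .l 708371 (.cut .d (-196608) (.void 39 ⟨0, 0, 0, 0, 0, 100000, 0, 0, 0, ⟨0, 0⟩, 0⟩ 0 0) (.cut .d (-163840) (.void 39 ⟨0, 0, 0, 0, 0, 100000, 0, 0, 0, ⟨0, 0⟩, 0⟩ 0 0) (.cut .v 16908288 (.pos 41 .mp ⟨2802733, 0, 0, 0, 0, 16956500, 0, 0, 0, ⟨0, 0⟩, 0⟩ 0 0) (.pos 42 .mp ⟨3676737, 0, 0, 0, 0, 16068534, 0, 0, 0, ⟨0, 0⟩, 0⟩ 0 0)))) (.cut .s 6894592 (.pos 39 .mp ⟨2548712, 0, 0, 0, 0, 16862134, 0, 0, 0, ⟨0, 0⟩, 0⟩ 0 0) (.pos 39 .mp ⟨2621979, 0, 0, 0, 0, 17027249, 0, 0, 0, ⟨0, 0⟩, 0⟩ 0 0))) (.cut .l 708371 (.cut .v 16908288 (.cut .d (-65536) (.cut .v 16842752 (.pos 72 .mp ⟨0,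 0, 0, 0, 0, 19532442, 0, 0, 0, ⟨0, 0⟩, 0⟩ 0 0) (.cut .l 456712 (.cut .d (-98304) (.pos 73 .mp ⟨3242030, 0, 0, 0, 0, 16582678, 0, 0, 0, ⟨0, 0⟩, 0⟩ 0 0) (.cut .s 6894592 (.pos 73 .mp ⟨3621250, 0, 0, 0, 0, 15817572, 0, 0, 0, ⟨0, 0⟩, 0⟩ 0 0) (.pos 73 .mp ⟨3713935, 0, 0, 0, 0, 15958641, 0, 0, 0, ⟨0, 0⟩, 0⟩ 0 0))) (.cut .s 6894592 (.pos 73 .mp ⟨3145735, 0, 0, 0, 0, 16195382, 0, 0, 0, ⟨0, 0⟩, 0⟩ 0 0) (.pos 73 .mp ⟨3229917, 0, 0, 0, 0, 16345135, 0, 0, 0, ⟨0, 0⟩, 0⟩ 0 0)))) (.cut .d (-32768) (.cut .d (-49152) (.cut .l 456712 (.cut .s 6894592 (.pos 41 .mp ⟨3755194, 0, 0, 0, 0, 15573333, 0, 0, 0, ⟨0, 0⟩, 0⟩ 0 0) (.pos 41 .mp ⟨3843248, 0, 0, 0, 0, 15717948, 0, 0, 0, ⟨0,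 0⟩, 0⟩ 0 0)) (.pos 41 .mp ⟨0, 0, 0, 0, 0, 0, 0, 0, 0, ⟨0, 0⟩, 0⟩ 0 0)) (.pos 41 .mp ⟨3806469, 0, 0, 0, 0, 15442994, 0, 0, 0, ⟨0, 0⟩, 0⟩ 0 0)) (.pos 41 .mp ⟨3346228, 0, 0, 0, 0, 0, 0, 0, 0, ⟨0, 0⟩, 0⟩ 0 0))) (.pos 42 .mp ⟨19060192, 0, 0, 0, 0, 0, 0, 0, 0, ⟨0, 0⟩, 0⟩ 0 0)) (.pos 39 .mp ⟨2143498, 0, 0, 0, 0, 0, 0, 0, 0, ⟨0, 0⟩, 0⟩ 0 0))))) (.cut .s 6950912 (.cut .s 6928384 (.cut .d (-131072) (.cut .l 708371 (.cut .s 6917120 (.cut .s 6911488 (.pos 39 .mp ⟨2972812, 0, 0, 0, 0, 17053913, 0, 0, 0, ⟨0, 0⟩, 0⟩ 0 0) (.pos 39 .mp ⟨3018361, 0, 0, 0, 0, 17128655, 0, 0, 0, ⟨0, 0⟩, 0⟩ 0 0)) (.pos 39 .mp ⟨3064070, 0, 0, 0, 0, 17299500, 0, 0, 0, ⟨0, 0⟩, 0⟩ 0 0)) (.cut .s 6917120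 (.pos 39 .mp ⟨2695600, 0, 0, 0, 0, 17194182, 0, 0, 0, ⟨0, 0⟩, 0⟩ 0 0) (.pos 39 .mp ⟨2769631, 0, 0, 0, 0, 17362876, 0, 0, 0, ⟨0, 0⟩, 0⟩ 0 0))) (.cut .l 708371 (.cut .v 16908288 (.cut .d (-65536) (.cut .v 16842752 (.pos 72 .mp ⟨0, 0, 0, 0, 0, 20020569, 0, 0, 0, ⟨0, 0⟩, 0⟩ 0 0) (.cut .l 456712 (.cut .d (-98304) (.pos 73 .mp ⟨3420075, 0, 0, 0, 0, 16889667, 0, 0, 0, ⟨0, 0⟩, 0⟩ 0 0) (.cut .s 6917120 (.pos 73 .mp ⟨3807274, 0, 0, 0, 0, 16101130, 0, 0, 0, ⟨0, 0⟩, 0⟩ 0 0) (.pos 73 .mp ⟨3901268, 0, 0, 0, 0, 16245039, 0, 0, 0, ⟨0, 0⟩, 0⟩ 0 0))) (.cut .s 6917120 (.pos 73 .mp ⟨3314475, 0, 0, 0, 0, 16496636, 0, 0, 0, ⟨0, 0⟩, 0⟩ 0 0) (.pos 73 .mp ⟨3399473, 0, 0, 0, 0, 16649812,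 0, 0, 0, ⟨0, 0⟩, 0⟩ 0 0)))) (.cut .d (-32768) (.cut .d (-49152) (.cut .l 456712 (.cut .s 6917120 (.pos 41 .mp ⟨3931913, 0, 0, 0, 0, 15864019, 0, 0, 0, ⟨0, 0⟩, 0⟩ 0 0) (.cut .s 6922752 (.pos 41 .mp ⟨3976475, 0, 0, 0, 0, 16025486, 0, 0, 0, ⟨0, 0⟩, 0⟩ 0 0) (.pos 41 .mp ⟨4021190, 0, 0, 0, 0, 16099678, 0, 0, 0, ⟨0, 0⟩, 0⟩ 0 0))) (.pos 41 .mp ⟨0, 0, 0, 0, 0, 0, 0, 0, 0, ⟨0, 0⟩, 0⟩ 0 0)) (.pos 41 .mp ⟨3980674, 0, 0, 0, 0, 15735870, 0, 0, 0, ⟨0, 0⟩, 0⟩ 0 0)) (.pos 41 .mp ⟨3519662, 0, 0, 0, 0, 0, 0, 0, 0, ⟨0, 0⟩, 0⟩ 0 0))) (.pos 42 .mp ⟨5673876, 0, 0, 0, 0, 14445490, 0, 0, 0, ⟨0, 0⟩, 0⟩ 0 0)) (.pos 39 .mp ⟨2332790, 0, 0, 0, 0, 0, 0, 0, 0, ⟨0, 0⟩, 0⟩ 0 0))) (.cut .d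 (-131072) (.cut .l 708371 (.cut .s 6939648 (.pos 39 .mp ⟨3155971, 0, 0, 0, 0, 17452120, 0, 0, 0, ⟨0, 0⟩, 0⟩ 0 0) (.pos 39 .mp ⟨3248517, 0, 0, 0, 0, 17606197, 0, 0, 0, ⟨0, 0⟩, 0⟩ 0 0)) (.cut .s 6939648 (.pos 39 .mp ⟨2844126, 0, 0, 0, 0, 17533273, 0, 0, 0, ⟨0, 0⟩, 0⟩ 0 0) (.pos 39 .mp ⟨2919139, 0, 0, 0, 0, 17705317, 0, 0, 0, ⟨0, 0⟩, 0⟩ 0 0))) (.cut .l 708371 (.cut .v 16908288 (.cut .d (-65536) (.cut .v 16842752 (.pos 72 .mp ⟨0, 0, 0, 0, 0, 20517947, 0, 0, 0, ⟨0, 0⟩, 0⟩ 0 0) (.cut .l 456712 (.cut .d (-98304) (.pos 73 .mp ⟨3600625, 0, 0, 0, 0, 17202490, 0, 0, 0, ⟨0, 0⟩, 0⟩ 0 0) (.cut .s 6939648 (.pos 73 .mp ⟨3995918, 0, 0, 0, 0, 16390366, 0, 0, 0, ⟨0, 0⟩, 0⟩ 0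 0) (.pos 73 .mp ⟨4091227, 0, 0, 0, 0, 16537110, 0, 0, 0, ⟨0, 0⟩, 0⟩ 0 0))) (.cut .s 6939648 (.pos 73 .mp ⟨3484981, 0, 0, 0, 0, 16804592, 0, 0, 0, ⟨0, 0⟩, 0⟩ 0 0) (.pos 73 .mp ⟨3571064, 0, 0, 0, 0, 16960901, 0, 0, 0, ⟨0, 0⟩, 0⟩ 0 0)))) (.cut .d (-32768) (.cut .d (-49152) (.cut .l 456712 (.cut .l 330883 (.cut .s 6939648 (.pos 41 .mp ⟨4111082, 0, 0, 0, 0, 16201319, 0, 0, 0, ⟨0, 0⟩, 0⟩ 0 0) (.pos 41 .mp ⟨4201590, 0, 0, 0, 0, 16351764, 0, 0, 0, ⟨0, 0⟩, 0⟩ 0 0)) (.pos 41 .mp ⟨3630419, 0, 0, 0, 0, 0, 0, 0, 0, ⟨0, 0⟩, 0⟩ 0 0)) (.pos 41 .mp ⟨0, 0, 0, 0, 0, 0, 0, 0, 0, ⟨0, 0⟩, 0⟩ 0 0)) (.pos 41 .mp ⟨4157262, 0, 0, 0, 0, 16033807, 0, 0, 0, ⟨0, 0⟩, 0⟩ 0 0)) (.pos 41 .mp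 ⟨3695432, 0, 0, 0, 0, 0, 0, 0, 0, ⟨0, 0⟩, 0⟩ 0 0))) (.pos 42 .mp ⟨5934556, 0, 0, 0, 0, 14665249, 0, 0, 0, ⟨0, 0⟩, 0⟩ 0 0)) (.pos 39 .mp ⟨2524722, 0, 0, 0, 0, 0, 0, 0, 0, ⟨0, 0⟩, 0⟩ 0 0)))) (.cut .s 6973440 (.cut .d (-131072) (.cut .l 708371 (.cut .s 6962176 (.pos 39 .mp ⟨3341709, 0, 0, 0, 0, 17761738, 0, 0, 0, ⟨0, 0⟩, 0⟩ 0 0) (.pos 39 .mp ⟨3435549, 0, 0, 0, 0, 17918749, 0, 0, 0, ⟨0, 0⟩, 0⟩ 0 0)) (.cut .s 6962176 (.pos 39 .mp ⟨2990169, 0, 0, 0, 0, 17884553, 0, 0, 0, ⟨0, 0⟩, 0⟩ 0 0) (.pos 39 .mp ⟨3043655, 0, 0, 0, 0, 18087714, 0, 0, 0, ⟨0, 0⟩, 0⟩ 0 0))) (.cut .l 708371 (.cut .v 16908288 (.cut .d (-65536) (.cut .v 16842752 (.pos 72 .mp ⟨0, 0, 0, 0, 0, 21024660,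 0, 0, 0, ⟨0, 0⟩, 0⟩ 0 0) (.cut .l 456712 (.cut .d (-98304) (.pos 73 .mp ⟨3783693, 0, 0, 0, 0, 17521199, 0, 0, 0, ⟨0, 0⟩, 0⟩ 0 0) (.cut .s 6962176 (.pos 73 .mp ⟨4187195, 0, 0, 0, 0, 16685271, 0, 0, 0, ⟨0, 0⟩, 0⟩ 0 0) (.pos 73 .mp ⟨4283825, 0, 0, 0, 0, 16834846, 0, 0, 0, ⟨0, 0⟩, 0⟩ 0 0))) (.cut .s 6962176 (.pos 73 .mp ⟨3657788, 0, 0, 0, 0, 17118666, 0, 0, 0, ⟨0, 0⟩, 0⟩ 0 0) (.pos 73 .mp ⟨3745221, 0, 0, 0, 0, 17277815, 0, 0, 0, ⟨0, 0⟩, 0⟩ 0 0)))) (.cut .d (-32768) (.cut .d (-49152) (.cut .l 456712 (.cut .l 330883 (.cut .s 6962176 (.pos 41 .mp ⟨4292714, 0, 0, 0, 0, 16503665, 0, 0, 0, ⟨0, 0⟩, 0⟩ 0 0) (.pos 41 .mp ⟨4384458, 0, 0, 0, 0, 16657021, 0, 0, 0, ⟨0, 0⟩,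 0⟩ 0 0)) (.pos 41 .mp ⟨3812843, 0, 0, 0, 0, 0, 0, 0, 0, ⟨0, 0⟩, 0⟩ 0 0)) (.pos 41 .mp ⟨0, 0, 0, 0, 0, 0, 0, 0, 0, ⟨0, 0⟩, 0⟩ 0 0)) (.pos 41 .mp ⟨4336244, 0, 0, 0, 0, 16336684, 0, 0, 0, ⟨0, 0⟩, 0⟩ 0 0)) (.pos 41 .mp ⟨3873551, 0, 0, 0, 0, 0, 0, 0, 0, ⟨0, 0⟩, 0⟩ 0 0))) (.pos 42 .mp ⟨6197807, 0, 0, 0, 0, 14890452, 0, 0, 0, ⟨0, 0⟩, 0⟩ 0 0)) (.pos 39 .mp ⟨2719306, 0, 0, 0, 0, 0, 0, 0, 0, ⟨0, 0⟩, 0⟩ 0 0))) (.cut .d (-131072) (.cut .l 708371 (.cut .s 6984704 (.pos 39 .mp ⟨3530039, 0, 0, 0, 0, 18077238, 0, 0, 0, ⟨0, 0⟩, 0⟩ 0 0) (.pos 39 .mp ⟨3625180, 0, 0, 0, 0, 18237211, 0, 0, 0, ⟨0, 0⟩, 0⟩ 0 0)) (.cut .s 6984704 (.pos 39 .mp ⟨3097914, 0, 0, 0, 0, 18292296, 0, 0,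 0, ⟨0, 0⟩, 0⟩ 0 0) (.pos 39 .mp ⟨3153031, 0, 0, 0, 0, 18498205, 0, 0, 0, ⟨0, 0⟩, 0⟩ 0 0))) (.cut .l 708371 (.cut .v 16908288 (.cut .d (-65536) (.cut .v 16842752 (.pos 72 .mp ⟨0, 0, 0, 0, 0, 21540795, 0, 0, 0, ⟨0, 0⟩, 0⟩ 0 0) (.cut .l 456712 (.cut .d (-98304) (.pos 73 .mp ⟨3969291, 0, 0, 0, 0, 17845848, 0, 0, 0, ⟨0, 0⟩, 0⟩ 0 0) (.cut .s 6984704 (.pos 73 .mp ⟨4381119, 0, 0, 0, 0, 16985834, 0, 0, 0, ⟨0, 0⟩, 0⟩ 0 0) (.pos 73 .mp ⟨4479077, 0, 0, 0, 0, 17138234, 0, 0, 0, ⟨0, 0⟩, 0⟩ 0 0))) (.cut .s 6984704 (.pos 73 .mp ⟨3833428, 0, 0, 0, 0, 17438275, 0, 0, 0, ⟨0, 0⟩, 0⟩ 0 0) (.pos 73 .mp ⟨3922475, 0, 0, 0, 0, 17599973, 0, 0, 0, ⟨0, 0⟩, 0⟩ 0 0)))) (.cut .d (-32768)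 (.cut .d (-49152) (.cut .l 456712 (.cut .l 330883 (.cut .s 6984704 (.pos 41 .mp ⟨4476822, 0, 0, 0, 0, 16811831, 0, 0, 0, ⟨0, 0⟩, 0⟩ 0 0) (.pos 41 .mp ⟨4569808, 0, 0, 0, 0, 16968094, 0, 0, 0, ⟨0, 0⟩, 0⟩ 0 0)) (.pos 41 .mp ⟨3997723, 0, 0, 0, 0, 0, 0, 0, 0, ⟨0, 0⟩, 0⟩ 0 0)) (.pos 41 .mp ⟨0, 0, 0, 0, 0, 0, 0, 0, 0, ⟨0, 0⟩, 0⟩ 0 0)) (.pos 41 .mp ⟨4517632, 0, 0, 0, 0, 16645495, 0, 0, 0, ⟨0, 0⟩, 0⟩ 0 0)) (.pos 41 .mp ⟨4054030, 0, 0, 0, 0, 0, 0, 0, 0, ⟨0, 0⟩, 0⟩ 0 0))) (.pos 42 .mp ⟨6464402, 0, 0, 0, 0, 15120353, 0, 0, 0, ⟨0, 0⟩, 0⟩ 0 0)) (.pos 39 .mp ⟨2916555, 0, 0, 0, 0, 0, 0, 0, 0, ⟨0, 0⟩, 0⟩ 0 0)))))) (.pos 40 .mp ⟨20950881, 0, 0, 0, 0, 0, 0, 0, 0, ⟨0, 0⟩, 0⟩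 0 0)) (.cut .v 17039360 (.cut .s 7086080 (.cut .s 7041024 (.cut .d (-131072) (.cut .l 708371 (.cut .d (-196608) (.void 39 ⟨0, 0, 0, 0, 0, 100000, 0, 0, 0, ⟨0, 0⟩, 0⟩ 0 0) (.cut .d (-163840) (.void 39 ⟨0, 0, 0, 0, 0, 100000, 0, 0, 0, ⟨0, 0⟩, 0⟩ 0 0) (.cut .d (-147456) (.pos 39 .mp ⟨3774058, 0, 0, 0, 0, 19173447, 0, 0, 0, ⟨0, 0⟩, 0⟩ 0 0) (.cut .l 456712 (.void 39 ⟨0, 0, 0, 0, 0, 100000, 0, 0, 0, ⟨0, 0⟩, 0⟩ 0 0) (.cut .s 7018496 (.cut .s 7007232 (.pos 39 .mp ⟨3720974, 0, 0, 0, 0, 18346695, 0, 0, 0, ⟨0, 0⟩, 0⟩ 0 0) (.pos 39 .mp ⟨3817422, 0, 0, 0, 0, 18510012, 0, 0, 0, ⟨0, 0⟩, 0⟩ 0 0)) (.pos 39 .mp ⟨3914526, 0, 0, 0, 0, 18840729, 0, 0, 0, ⟨0, 0⟩, 0⟩ 0 0)))))) (.cut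 .v 16908288 (.pos 41 .mp ⟨0, 0, 0, 0, 0, 21877965, 0, 0, 0, ⟨0, 0⟩, 0⟩ 0 0) (.cut .s 7018496 (.cut .s 7007232 (.pos 42 .mp ⟨3218474, 0, 0, 0, 0, 18720405, 0, 0, 0, ⟨0, 0⟩, 0⟩ 0 0) (.pos 42 .mp ⟨3288061, 0, 0, 0, 0, 18914070, 0, 0, 0, ⟨0, 0⟩, 0⟩ 0 0)) (.cut .s 7029760 (.pos 42 .mp ⟨3358617, 0, 0, 0, 0, 19108919, 0, 0, 0, ⟨0, 0⟩, 0⟩ 0 0) (.pos 42 .mp ⟨3430208, 0, 0, 0, 0, 19304881, 0, 0, 0, ⟨0, 0⟩, 0⟩ 0 0))))) (.cut .l 708371 (.cut .s 7018496 (.cut .v 16908288 (.cut .d (-65536) (.cut .v 16842752 (.pos 72 .mp ⟨0, 0, 0, 0, 0, 22066437, 0, 0, 0, ⟨0, 0⟩, 0⟩ 0 0) (.cut .l 456712 (.cut .d (-98304) (.pos 73 .mp ⟨4157431, 0, 0, 0, 0, 18176490, 0, 0, 0, ⟨0, 0⟩, 0⟩ 0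 0) (.cut .s 7007232 (.pos 73 .mp ⟨4577701, 0, 0, 0, 0, 17292045, 0, 0, 0, ⟨0, 0⟩, 0⟩ 0 0) (.pos 73 .mp ⟨4676994, 0, 0, 0, 0, 17447265, 0, 0, 0, ⟨0, 0⟩, 0⟩ 0 0))) (.cut .s 7007232 (.pos 73 .mp ⟨4012427, 0, 0, 0, 0, 17762835, 0, 0, 0, ⟨0, 0⟩, 0⟩ 0 0) (.pos 73 .mp ⟨4103349, 0, 0, 0, 0, 17926789, 0, 0, 0, ⟨0, 0⟩, 0⟩ 0 0)))) (.cut .d (-32768) (.cut .d (-49152) (.cut .l 456712 (.cut .l 330883 (.cut .s 7007232 (.pos 41 .mp ⟨4663418, 0, 0, 0, 0, 17125809, 0, 0, 0, ⟨0, 0⟩, 0⟩ 0 0) (.pos 41 .mp ⟨4757652, 0, 0, 0, 0, 17284974, 0, 0, 0, ⟨0, 0⟩, 0⟩ 0 0)) (.pos 41 .mp ⟨4185072, 0, 0, 0, 0, 0, 0, 0, 0, ⟨0, 0⟩, 0⟩ 0 0)) (.pos 41 .mp ⟨0, 0, 0, 0, 0, 0, 0, 0, 0, ⟨0, 0⟩, 0⟩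 0 0)) (.pos 41 .mp ⟨4701439, 0, 0, 0, 0, 16960273, 0, 0, 0, ⟨0, 0⟩, 0⟩ 0 0)) (.pos 41 .mp ⟨4236882, 0, 0, 0, 0, 0, 0, 0, 0, ⟨0, 0⟩, 0⟩ 0 0))) (.pos 42 .mp ⟨6735117, 0, 0, 0, 0, 15354192, 0, 0, 0, ⟨0, 0⟩, 0⟩ 0 0)) (.cut .v 16908288 (.cut .d (-65536) (.cut .v 16842752 (.pos 72 .mp ⟨0, 0, 0, 0, 0, 22601674, 0, 0, 0, ⟨0, 0⟩, 0⟩ 0 0) (.cut .l 456712 (.cut .d (-98304) (.pos 73 .mp ⟨4348128, 0, 0, 0, 0, 18513180, 0, 0, 0, ⟨0, 0⟩, 0⟩ 0 0) (.cut .s 7029760 (.pos 73 .mp ⟨4776957, 0, 0, 0, 0, 17603892, 0, 0, 0, ⟨0, 0⟩, 0⟩ 0 0) (.pos 73 .mp ⟨4877591, 0, 0, 0, 0, 17761926, 0, 0, 0, ⟨0, 0⟩, 0⟩ 0 0))) (.cut .s 7029760 (.pos 73 .mp ⟨4195307, 0, 0, 0, 0, 18091761, 0, 0, 0,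 ⟨0, 0⟩, 0⟩ 0 0) (.pos 73 .mp ⟨4288365, 0, 0, 0, 0, 18257680, 0, 0, 0, ⟨0, 0⟩, 0⟩ 0 0)))) (.cut .d (-32768) (.cut .d (-49152) (.cut .l 456712 (.cut .l 330883 (.cut .s 7029760 (.pos 41 .mp ⟨4852514, 0, 0, 0, 0, 17445588, 0, 0, 0, ⟨0, 0⟩, 0⟩ 0 0) (.pos 41 .mp ⟨4948003, 0, 0, 0, 0, 17607650, 0, 0, 0, ⟨0, 0⟩, 0⟩ 0 0)) (.pos 41 .mp ⟨4374902, 0, 0, 0, 0, 0, 0, 0, 0, ⟨0, 0⟩, 0⟩ 0 0)) (.pos 41 .mp ⟨0, 0, 0, 0, 0, 0, 0, 0, 0, ⟨0, 0⟩, 0⟩ 0 0)) (.pos 41 .mp ⟨4887676, 0, 0, 0, 0, 17281051, 0, 0, 0, ⟨0, 0⟩, 0⟩ 0 0)) (.pos 41 .mp ⟨4769891, 0, 0, 0, 0, 0, 0, 0, 0, ⟨0, 0⟩, 0⟩ 0 0))) (.pos 42 .mp ⟨7010730, 0, 0, 0, 0, 15591206, 0, 0, 0, ⟨0, 0⟩, 0⟩ 0 0))) (.pos 39 .mp ⟨3319105,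 0, 0, 0, 0, 0, 0, 0, 0, ⟨0, 0⟩, 0⟩ 0 0))) (.cut .d (-131072) (.cut .l 708371 (.cut .d (-196608) (.void 39 ⟨0, 0, 0, 0, 0, 100000, 0, 0, 0, ⟨0, 0⟩, 0⟩ 0 0) (.cut .d (-163840) (.void 39 ⟨0, 0, 0, 0, 0, 100000, 0, 0, 0, ⟨0, 0⟩, 0⟩ 0 0) (.cut .d (-147456) (.pos 39 .mp ⟨4172051, 0, 0, 0, 0, 19873781, 0, 0, 0, ⟨0, 0⟩, 0⟩ 0 0) (.cut .l 456712 (.void 39 ⟨0, 0, 0, 0, 0, 100000, 0, 0, 0, ⟨0, 0⟩, 0⟩ 0 0) (.cut .s 7063552 (.pos 39 .mp ⟨4110710, 0, 0, 0, 0, 19180823, 0, 0, 0, ⟨0, 0⟩, 0⟩ 0 0) (.pos 39 .mp ⟨4309537, 0, 0, 0, 0, 19526964, 0, 0, 0, ⟨0, 0⟩, 0⟩ 0 0)))))) (.cut .v 16908288 (.pos 41 .mp ⟨0, 0, 0, 0, 0, 22919660, 0, 0, 0, ⟨0, 0⟩, 0⟩ 0 0) (.cut .s 7063552 (.cut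 .s 7052288 (.pos 42 .mp ⟨3502899, 0, 0, 0, 0, 19501881, 0, 0, 0, ⟨0, 0⟩, 0⟩ 0 0) (.pos 42 .mp ⟨3576753, 0, 0, 0, 0, 19699847, 0, 0, 0, ⟨0, 0⟩, 0⟩ 0 0)) (.cut .s 7074816 (.pos 42 .mp ⟨3668465, 0, 0, 0, 0, 19881065, 0, 0, 0, ⟨0, 0⟩, 0⟩ 0 0) (.pos 42 .mp ⟨3761790, 0, 0, 0, 0, 20062730, 0, 0, 0, ⟨0, 0⟩, 0⟩ 0 0))))) (.cut .l 708371 (.cut .s 7063552 (.cut .v 16908288 (.cut .d (-65536) (.cut .v 16842752 (.pos 72 .mp ⟨0, 0, 0, 0, 0, 23146593, 0, 0, 0, ⟨0, 0⟩, 0⟩ 0 0) (.cut .l 456712 (.cut .s 7052288 (.pos 73 .mp ⟨4628562, 0, 0, 0, 0, 18327882, 0, 0, 0, ⟨0, 0⟩, 0⟩ 0 0) (.pos 73 .mp ⟨4721188, 0, 0, 0, 0, 18499501, 0, 0, 0, ⟨0, 0⟩, 0⟩ 0 0)) (.cut .s 7052288 (.pos 73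 .mp ⟨4382588, 0, 0, 0, 0, 18424470, 0, 0, 0, ⟨0, 0⟩, 0⟩ 0 0) (.pos 73 .mp ⟨4478040, 0, 0, 0, 0, 18592061, 0, 0, 0, ⟨0, 0⟩, 0⟩ 0 0)))) (.cut .d (-32768) (.cut .l 456712 (.cut .d (-49152) (.cut .l 330883 (.cut .s 7052288 (.pos 41 .mp ⟨5044122, 0, 0, 0, 0, 17771159, 0, 0, 0, ⟨0, 0⟩, 0⟩ 0 0) (.pos 41 .mp ⟨5140873, 0, 0, 0, 0, 17936114, 0, 0, 0, ⟨0, 0⟩, 0⟩ 0 0)) (.pos 41 .mp ⟨4567226, 0, 0, 0, 0, 0, 0, 0, 0, ⟨0, 0⟩, 0⟩ 0 0)) (.pos 41 .mp ⟨5076357, 0, 0, 0, 0, 17635667, 0, 0, 0, ⟨0, 0⟩, 0⟩ 0 0)) (.pos 41 .mp ⟨0, 0, 0, 0, 0, 0, 0, 0, 0, ⟨0, 0⟩, 0⟩ 0 0)) (.pos 41 .mp ⟨4962010, 0, 0, 0, 0, 0, 0, 0, 0, ⟨0, 0⟩, 0⟩ 0 0))) (.pos 42 .mp ⟨7292020, 0, 0, 0, 0, 15830618, 0,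 0, 0, ⟨0, 0⟩, 0⟩ 0 0)) (.cut .v 16908288 (.cut .d (-65536) (.cut .v 16842752 (.pos 72 .mp ⟨0, 0, 0, 0, 0, 23701282, 0, 0, 0, ⟨0, 0⟩, 0⟩ 0 0) (.cut .l 456712 (.cut .s 7074816 (.pos 73 .mp ⟨4814418, 0, 0, 0, 0, 18672587, 0, 0, 0, ⟨0, 0⟩, 0⟩ 0 0) (.pos 73 .mp ⟨4908256, 0, 0, 0, 0, 18847137, 0, 0, 0, ⟨0, 0⟩, 0⟩ 0 0)) (.cut .s 7074816 (.pos 73 .mp ⟨4574784, 0, 0, 0, 0, 18760377, 0, 0, 0, ⟨0, 0⟩, 0⟩ 0 0) (.pos 73 .mp ⟨4672885, 0, 0, 0, 0, 18929347, 0, 0, 0, ⟨0, 0⟩, 0⟩ 0 0)))) (.cut .d (-32768) (.cut .l 456712 (.cut .l 330883 (.cut .d (-49152) (.cut .s 7074816 (.pos 41 .mp ⟨5238257, 0, 0, 0, 0, 18102512, 0, 0, 0, ⟨0, 0⟩, 0⟩ 0 0) (.pos 41 .mp ⟨5336276, 0, 0, 0, 0,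 18270353, 0, 0, 0, ⟨0, 0⟩, 0⟩ 0 0)) (.pos 41 .mp ⟨5267493, 0, 0, 0, 0, 18005989, 0, 0, 0, ⟨0, 0⟩, 0⟩ 0 0)) (.pos 41 .mp ⟨4762057, 0, 0, 0, 0, 0, 0, 0, 0, ⟨0, 0⟩, 0⟩ 0 0)) (.pos 41 .mp ⟨0, 0, 0, 0, 0, 0, 0, 0, 0, ⟨0, 0⟩, 0⟩ 0 0)) (.pos 41 .mp ⟨5156449, 0, 0, 0, 0, 0, 0, 0, 0, ⟨0, 0⟩, 0⟩ 0 0))) (.pos 42 .mp ⟨7579769, 0, 0, 0, 0, 16071646, 0, 0, 0, ⟨0, 0⟩, 0⟩ 0 0))) (.pos 39 .mp ⟨3732480, 0, 0, 0, 0, 0, 0, 0, 0, ⟨0, 0⟩, 0⟩ 0 0)))) (.cut .s 7131136 (.cut .d (-131072) (.cut .l 708371 (.cut .s 7108608 (.pos 39 .mp ⟨4511023, 0, 0, 0, 0, 20004469, 0, 0, 0, ⟨0, 0⟩, 0⟩ 0 0) (.pos 39 .mp ⟨4715181, 0, 0, 0, 0, 20366369, 0, 0, 0, ⟨0, 0⟩, 0⟩ 0 0)) (.cut .v 16908288 (.pos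 41 .mp ⟨0, 0, 0, 0, 0, 23995015, 0, 0, 0, ⟨0, 0⟩, 0⟩ 0 0) (.cut .s 7108608 (.cut .s 7097344 (.pos 42 .mp ⟨3855727, 0, 0, 0, 0, 20245898, 0, 0, 0, ⟨0, 0⟩, 0⟩ 0 0) (.pos 42 .mp ⟨3950279, 0, 0, 0, 0, 20430565, 0, 0, 0, ⟨0, 0⟩, 0⟩ 0 0)) (.cut .s 7119872 (.pos 42 .mp ⟨4045446, 0, 0, 0, 0, 20616725, 0, 0, 0, ⟨0, 0⟩, 0⟩ 0 0) (.pos 42 .mp ⟨4141231, 0, 0, 0, 0, 20804373, 0, 0, 0, ⟨0, 0⟩, 0⟩ 0 0))))) (.cut .l 708371 (.cut .v 16908288 (.cut .d (-65536) (.cut .s 7108608 (.cut .v 16842752 (.pos 72 .mp ⟨0, 0, 0, 0, 0, 24265829, 0, 0, 0, ⟨0, 0⟩, 0⟩ 0 0) (.cut .l 456712 (.cut .s 7097344 (.pos 73 .mp ⟨5002701, 0, 0, 0, 0, 19023144, 0, 0, 0, ⟨0, 0⟩, 0⟩ 0 0) (.pos 73 .mp ⟨5097756,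 0, 0, 0, 0, 19200604, 0, 0, 0, ⟨0, 0⟩, 0⟩ 0 0)) (.cut .s 7097344 (.pos 73 .mp ⟨4772406, 0, 0, 0, 0, 19098897, 0, 0, 0, ⟨0, 0⟩, 0⟩ 0 0) (.pos 73 .mp ⟨4873411, 0, 0, 0, 0, 19268954, 0, 0, 0, ⟨0, 0⟩, 0⟩ 0 0)))) (.cut .v 16842752 (.pos 72 .mp ⟨0, 0, 0, 0, 0, 24840324, 0, 0, 0, ⟨0, 0⟩, 0⟩ 0 0) (.cut .l 456712 (.cut .s 7119872 (.pos 73 .mp ⟨5193422, 0, 0, 0, 0, 19379512, 0, 0, 0, ⟨0, 0⟩, 0⟩ 0 0) (.pos 73 .mp ⟨5289701, 0, 0, 0, 0, 19559863, 0, 0, 0, ⟨0, 0⟩, 0⟩ 0 0)) (.cut .s 7119872 (.pos 73 .mp ⟨4975962, 0, 0, 0, 0, 19439444, 0, 0, 0, ⟨0, 0⟩, 0⟩ 0 0) (.pos 73 .mp ⟨5080123, 0, 0, 0, 0, 19610296, 0, 0, 0, ⟨0, 0⟩, 0⟩ 0 0))))) (.cut .d (-32768) (.cut .l 456712 (.cut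 .l 330883 (.cut .s 7108608 (.cut .d (-49152) (.cut .s 7097344 (.pos 41 .mp ⟨5434931, 0, 0, 0, 0, 18439634, 0, 0, 0, ⟨0, 0⟩, 0⟩ 0 0) (.pos 41 .mp ⟨5534224, 0, 0, 0, 0, 18610356, 0, 0, 0, ⟨0, 0⟩, 0⟩ 0 0)) (.pos 41 .mp ⟨5461098, 0, 0, 0, 0, 18342216, 0, 0, 0, ⟨0, 0⟩, 0⟩ 0 0)) (.cut .d (-49152) (.cut .s 7119872 (.pos 41 .mp ⟨5634157, 0, 0, 0, 0, 18782516, 0, 0, 0, ⟨0, 0⟩, 0⟩ 0 0) (.pos 41 .mp ⟨5734731, 0, 0, 0, 0, 18956112, 0, 0, 0, ⟨0, 0⟩, 0⟩ 0 0)) (.pos 41 .mp ⟨5657184, 0, 0, 0, 0, 18684209, 0, 0, 0, ⟨0, 0⟩, 0⟩ 0 0))) (.pos 41 .mp ⟨5551608, 0, 0, 0, 0, 0, 0, 0, 0, ⟨0, 0⟩, 0⟩ 0 0)) (.pos 41 .mp ⟨0, 0, 0, 0, 0, 0, 0, 0, 0, ⟨0, 0⟩, 0⟩ 0 0)) (.pos 41 .mp ⟨5514485,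 0, 0, 0, 0, 0, 0, 0, 0, ⟨0, 0⟩, 0⟩ 0 0))) (.cut .s 7108608 (.pos 42 .mp ⟨7874760, 0, 0, 0, 0, 16313497, 0, 0, 0, ⟨0, 0⟩, 0⟩ 0 0) (.pos 42 .mp ⟨8177780, 0, 0, 0, 0, 16555369, 0, 0, 0, ⟨0, 0⟩, 0⟩ 0 0))) (.pos 39 .mp ⟨4156792, 0, 0, 0, 0, 0, 0, 0, 0, ⟨0, 0⟩, 0⟩ 0 0))) (.cut .d (-131072) (.cut .l 708371 (.cut .s 7153664 (.pos 39 .mp ⟨4922023, 0, 0, 0, 0, 20734622, 0, 0, 0, ⟨0, 0⟩, 0⟩ 0 0) (.pos 39 .mp ⟨5131565, 0, 0, 0, 0, 21109284, 0, 0, 0, ⟨0, 0⟩, 0⟩ 0 0)) (.cut .v 16908288 (.pos 41 .mp ⟨0, 0, 0, 0, 0, 25103410, 0, 0, 0, ⟨0, 0⟩, 0⟩ 0 0) (.cut .s 7153664 (.cut .s 7142400 (.pos 42 .mp ⟨4237636, 0, 0, 0, 0, 20993505, 0, 0, 0, ⟨0, 0⟩, 0⟩ 0 0) (.pos 42 .mp ⟨4334661,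 0, 0, 0, 0, 21184115, 0, 0, 0, ⟨0, 0⟩, 0⟩ 0 0)) (.cut .s 7164928 (.pos 42 .mp ⟨4432308, 0, 0, 0, 0, 21376198, 0, 0, 0, ⟨0, 0⟩, 0⟩ 0 0) (.pos 42 .mp ⟨4530580, 0, 0, 0, 0, 21569749, 0, 0, 0, ⟨0, 0⟩, 0⟩ 0 0))))) (.cut .l 708371 (.cut .v 16908288 (.cut .d (-65536) (.cut .s 7153664 (.cut .v 16842752 (.pos 72 .mp ⟨0, 0, 0, 0, 0, 25424858, 0, 0, 0, ⟨0, 0⟩, 0⟩ 0 0) (.cut .l 456712 (.cut .s 7142400 (.pos 73 .mp ⟨5386595, 0, 0, 0, 0, 19741652, 0, 0, 0, ⟨0, 0⟩, 0⟩ 0 0) (.pos 73 .mp ⟨5489914, 0, 0, 0, 0, 19918650, 0, 0, 0, ⟨0, 0⟩, 0⟩ 0 0)) (.pos 73 .mp ⟨5021197, 0, 0, 0, 0, 20038697, 0, 0, 0, ⟨0, 0⟩, 0⟩ 0 0))) (.cut .v 16842752 (.pos 72 .mp ⟨0, 0, 0, 0, 0, 26019520, 0,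 0, 0, ⟨0, 0⟩, 0⟩ 0 0) (.cut .l 456712 (.cut .s 7164928 (.pos 73 .mp ⟨5601964, 0, 0, 0, 0, 20088364, 0, 0, 0, ⟨0, 0⟩, 0⟩ 0 0) (.pos 73 .mp ⟨5715468, 0, 0, 0, 0, 20258579, 0, 0, 0, ⟨0, 0⟩, 0⟩ 0 0)) (.pos 73 .mp ⟨5208985, 0, 0, 0, 0, 20415358, 0, 0, 0, ⟨0, 0⟩, 0⟩ 0 0)))) (.cut .d (-32768) (.cut .l 456712 (.cut .l 330883 (.cut .s 7153664 (.cut .s 7142400 (.pos 41 .mp ⟨5807786, 0, 0, 0, 0, 19100745, 0, 0, 0, ⟨0, 0⟩, 0⟩ 0 0) (.pos 41 .mp ⟨5900971, 0, 0, 0, 0, 19284664, 0, 0, 0, ⟨0, 0⟩, 0⟩ 0 0)) (.cut .s 7164928 (.pos 41 .mp ⟨5994740, 0, 0, 0, 0, 19470032, 0, 0, 0, ⟨0, 0⟩, 0⟩ 0 0) (.pos 41 .mp ⟨6089094, 0, 0, 0, 0, 19656844, 0, 0, 0, ⟨0, 0⟩, 0⟩ 0 0))) (.pos 41 .mp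 ⟨5952427, 0, 0, 0, 0, 0, 0, 0, 0, ⟨0, 0⟩, 0⟩ 0 0)) (.pos 41 .mp ⟨0, 0, 0, 0, 0, 0, 0, 0, 0, ⟨0, 0⟩, 0⟩ 0 0)) (.pos 41 .mp ⟨5933834, 0, 0, 0, 0, 0, 0, 0, 0, ⟨0, 0⟩, 0⟩ 0 0))) (.cut .s 7153664 (.pos 42 .mp ⟨8489617, 0, 0, 0, 0, 16796450, 0, 0, 0, ⟨0, 0⟩, 0⟩ 0 0) (.pos 42 .mp ⟨8811061, 0, 0, 0, 0, 17035920, 0, 0, 0, ⟨0, 0⟩, 0⟩ 0 0))) (.pos 39 .mp ⟨4592154, 0, 0, 0, 0, 0, 0, 0, 0, ⟨0, 0⟩, 0⟩ 0 0))))) (.pos 40 .mp ⟨24273418, 0, 0, 0, 0, 1026593, 0, 0, 0, ⟨0, 0⟩, 0⟩ 0 0))) (.cut .s 7356416 (.cut .v 17039360 (.cut .s 7266304 (.cut .s 7221248 (.cut .d (-131072) (.cut .l 708371 (.cut .s 7198720 (.pos 39 .mp ⟨5343821, 0, 0, 0, 0, 21490413, 0, 0, 0, ⟨0, 0⟩, 0⟩ 0 0) (.pos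 39 .mp ⟨5558804, 0, 0, 0, 0, 21878068, 0, 0, 0, ⟨0, 0⟩, 0⟩ 0 0)) (.cut .v 16908288 (.pos 41 .mp ⟨0, 0, 0, 0, 0, 26244241, 0, 0, 0, ⟨0, 0⟩, 0⟩ 0 0) (.cut .s 7198720 (.cut .s 7187456 (.pos 42 .mp ⟨4629477, 0, 0, 0, 0, 21764764, 0, 0, 0, ⟨0, 0⟩, 0⟩ 0 0) (.pos 42 .mp ⟨4729001, 0, 0, 0, 0, 21961236, 0, 0, 0, ⟨0, 0⟩, 0⟩ 0 0)) (.cut .s 7209984 (.pos 42 .mp ⟨4829155, 0, 0, 0, 0, 22159161, 0, 0, 0, ⟨0, 0⟩, 0⟩ 0 0) (.pos 42 .mp ⟨4929939, 0, 0, 0, 0, 22358533, 0, 0, 0, ⟨0, 0⟩, 0⟩ 0 0))))) (.cut .l 708371 (.cut .v 16908288 (.cut .d (-65536) (.cut .s 7198720 (.cut .v 16842752 (.pos 72 .mp ⟨0, 0, 0, 0, 0, 26624403, 0, 0, 0, ⟨0, 0⟩, 0⟩ 0 0) (.cut .l 456712 (.cut .s 7187456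 (.pos 73 .mp ⟨5830467, 0, 0, 0, 0, 20429241, 0, 0, 0, ⟨0, 0⟩, 0⟩ 0 0) (.pos 73 .mp ⟨5947006, 0, 0, 0, 0, 20600299, 0, 0, 0, ⟨0, 0⟩, 0⟩ 0 0)) (.pos 73 .mp ⟨5399136, 0, 0, 0, 0, 20797824, 0, 0, 0, ⟨0, 0⟩, 0⟩ 0 0))) (.cut .s 7209984 (.cut .s 7204352 (.pos 41 .mp ⟨5988049, 0, 0, 0, 0, 20701173, 0, 0, 0, ⟨0, 0⟩, 0⟩ 0 0) (.pos 41 .mp ⟨6045772, 0, 0, 0, 0, 20788239, 0, 0, 0, ⟨0, 0⟩, 0⟩ 0 0)) (.pos 41 .mp ⟨5872070, 0, 0, 0, 0, 21211090, 0, 0, 0, ⟨0, 0⟩, 0⟩ 0 0))) (.cut .d (-32768) (.cut .l 456712 (.cut .l 330883 (.cut .s 7198720 (.cut .s 7187456 (.pos 41 .mp ⟨6184035, 0, 0, 0, 0, 19845095, 0, 0, 0, ⟨0, 0⟩, 0⟩ 0 0) (.pos 41 .mp ⟨6279565, 0, 0, 0, 0, 20034780, 0, 0,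 0, ⟨0, 0⟩, 0⟩ 0 0)) (.cut .s 7209984 (.pos 41 .mp ⟨6375686, 0, 0, 0, 0, 20225895, 0, 0, 0, ⟨0, 0⟩, 0⟩ 0 0) (.pos 41 .mp ⟨6472398, 0, 0, 0, 0, 20418434, 0, 0, 0, ⟨0, 0⟩, 0⟩ 0 0))) (.pos 41 .mp ⟨6363413, 0, 0, 0, 0, 0, 0, 0, 0, ⟨0, 0⟩, 0⟩ 0 0)) (.pos 41 .mp ⟨0, 0, 0, 0, 0, 0, 0, 0, 0, ⟨0, 0⟩, 0⟩ 0 0)) (.pos 41 .mp ⟨6362435, 0, 0, 0, 0, 0, 0, 0, 0, ⟨0, 0⟩, 0⟩ 0 0))) (.cut .s 7198720 (.pos 42 .mp ⟨9142906, 0, 0, 0, 0, 17272949, 0, 0, 0, ⟨0, 0⟩, 0⟩ 0 0) (.pos 42 .mp ⟨9485947, 0, 0, 0, 0, 17506697, 0, 0, 0, ⟨0, 0⟩, 0⟩ 0 0))) (.pos 39 .mp ⟨5038684, 0, 0, 0, 0, 0, 0, 0, 0, ⟨0, 0⟩, 0⟩ 0 0))) (.cut .d (-131072) (.cut .l 708371 (.pos 39 .mp ⟨5776529, 0, 0, 0, 0, 22852288,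 0, 0, 0, ⟨0, 0⟩, 0⟩ 0 0) (.cut .v 16908288 (.pos 41 .mp ⟨0, 0, 0, 0, 0, 27416917, 0, 0, 0, ⟨0, 0⟩, 0⟩ 0 0) (.cut .s 7243776 (.cut .s 7232512 (.pos 42 .mp ⟨5031355, 0, 0, 0, 0, 22559348, 0, 0, 0, ⟨0, 0⟩, 0⟩ 0 0) (.pos 42 .mp ⟨5133405, 0, 0, 0, 0, 22761600, 0, 0, 0, ⟨0, 0⟩, 0⟩ 0 0)) (.cut .s 7255040 (.pos 42 .mp ⟨5236091, 0, 0, 0, 0, 22965283, 0, 0, 0, ⟨0, 0⟩, 0⟩ 0 0) (.pos 42 .mp ⟨5339414, 0, 0, 0, 0, 23170392, 0, 0, 0, ⟨0, 0⟩, 0⟩ 0 0))))) (.cut .l 708371 (.cut .v 16908288 (.cut .d (-65536) (.cut .s 7243776 (.cut .s 7232512 (.pos 41 .mp ⟨5993421, 0, 0, 0, 0, 21383493, 0, 0, 0, ⟨0, 0⟩, 0⟩ 0 0) (.pos 41 .mp ⟨6116718, 0, 0, 0, 0, 21555880, 0, 0, 0, ⟨0, 0⟩, 0⟩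 0 0)) (.cut .s 7255040 (.pos 41 .mp ⟨6242014, 0, 0, 0, 0, 21728189, 0, 0, 0, ⟨0, 0⟩, 0⟩ 0 0) (.pos 41 .mp ⟨6369359, 0, 0, 0, 0, 21900358, 0, 0, 0, ⟨0, 0⟩, 0⟩ 0 0))) (.cut .d (-32768) (.cut .l 456712 (.cut .l 330883 (.cut .v 16842752 (.cut .s 7243776 (.cut .s 7232512 (.pos 72 .mp ⟨6469140, 0, 0, 0, 0, 20698885, 0, 0, 0, ⟨0, 0⟩, 0⟩ 0 0) (.pos 72 .mp ⟨6612455, 0, 0, 0, 0, 20842697, 0, 0, 0, ⟨0, 0⟩, 0⟩ 0 0)) (.pos 72 .mp ⟨6364204, 0, 0, 0, 0, 21532529, 0, 0, 0, ⟨0, 0⟩, 0⟩ 0 0)) (.pos 73 .mp ⟨12329535, 0, 0, 0, 0, 15476046, 0, 0, 0, ⟨0, 0⟩, 0⟩ 0 0)) (.pos 41 .mp ⟨6784675, 0, 0, 0, 0, 0, 0, 0, 0, ⟨0, 0⟩, 0⟩ 0 0)) (.pos 41 .mp ⟨0, 0, 0, 0, 0, 0, 0, 0, 0, ⟨0, 0⟩,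 0⟩ 0 0)) (.pos 41 .mp ⟨6781105, 0, 0, 0, 0, 0, 0, 0, 0, ⟨0, 0⟩, 0⟩ 0 0))) (.pos 42 .mp ⟨12127749, 0, 0, 0, 0, 15775462, 0, 0, 0, ⟨0, 0⟩, 0⟩ 0 0)) (.pos 39 .mp ⟨5496499, 0, 0, 0, 0, 0, 0, 0, 0, ⟨0, 0⟩, 0⟩ 0 0)))) (.cut .d (-131072) (.cut .l 708371 (.cut .s 7311360 (.pos 39 .mp ⟨6220265, 0, 0, 0, 0, 23683484, 0, 0, 0, ⟨0, 0⟩, 0⟩ 0 0) (.pos 39 .mp ⟨6675145, 0, 0, 0, 0, 24541787, 0, 0, 0, ⟨0, 0⟩, 0⟩ 0 0)) (.cut .v 16908288 (.pos 41 .mp ⟨0, 0, 0, 0, 0, 29437883, 0, 0, 0, ⟨0, 0⟩, 0⟩ 0 0) (.cut .s 7311360 (.cut .s 7288832 (.cut .s 7277568 (.pos 42 .mp ⟨5443377, 0, 0, 0, 0, 23376923, 0, 0, 0, ⟨0, 0⟩, 0⟩ 0 0) (.pos 42 .mp ⟨5547980, 0, 0, 0, 0, 23584869, 0, 0, 0, ⟨0,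 0⟩, 0⟩ 0 0)) (.pos 42 .mp ⟨5653226, 0, 0, 0, 0, 23952505, 0, 0, 0, ⟨0, 0⟩, 0⟩ 0 0)) (.cut .s 7333888 (.pos 42 .mp ⟨5865652, 0, 0, 0, 0, 24378248, 0, 0, 0, ⟨0, 0⟩, 0⟩ 0 0) (.pos 42 .mp ⟨6080668, 0, 0, 0, 0, 24809537, 0, 0, 0, ⟨0, 0⟩, 0⟩ 0 0))))) (.cut .l 708371 (.cut .s 7311360 (.cut .v 16908288 (.cut .d (-65536) (.cut .v 16842752 (.pos 72 .mp ⟨0, 0, 0, 0, 0, 29290837, 0, 0, 0, ⟨0, 0⟩, 0⟩ 0 0) (.cut .s 7288832 (.cut .s 7277568 (.pos 73 .mp ⟨6572578, 0, 0, 0, 0, 22008700, 0, 0, 0, ⟨0, 0⟩, 0⟩ 0 0) (.pos 73 .mp ⟨6708287, 0, 0, 0, 0, 22176757, 0, 0, 0, ⟨0, 0⟩, 0⟩ 0 0)) (.cut .s 7300096 (.pos 73 .mp ⟨6846420, 0, 0, 0, 0, 22344287, 0, 0, 0, ⟨0, 0⟩, 0⟩ 0 0) (.pos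 73 .mp ⟨6987037, 0, 0, 0, 0, 22511221, 0, 0, 0, ⟨0, 0⟩, 0⟩ 0 0)))) (.cut .d (-32768) (.cut .l 456712 (.cut .l 330883 (.cut .s 7288832 (.cut .s 7277568 (.pos 41 .mp ⟨7101327, 0, 0, 0, 0, 21225682, 0, 0, 0, ⟨0, 0⟩, 0⟩ 0 0) (.pos 41 .mp ⟨7211059, 0, 0, 0, 0, 21410103, 0, 0, 0, ⟨0, 0⟩, 0⟩ 0 0)) (.pos 41 .mp ⟨7166085, 0, 0, 0, 0, 21939118, 0, 0, 0, ⟨0, 0⟩, 0⟩ 0 0)) (.pos 41 .mp ⟨7175569, 0, 0, 0, 0, 14948966, 0, 0, 0, ⟨0, 0⟩, 0⟩ 0 0)) (.pos 41 .mp ⟨0, 0, 0, 0, 0, 0, 0, 0, 0, ⟨0, 0⟩, 0⟩ 0 0)) (.pos 41 .mp ⟨7201335, 0, 0, 0, 0, 0, 0, 0, 0, ⟨0, 0⟩, 0⟩ 0 0))) (.pos 42 .mp ⟨12973515, 0, 0, 0, 0, 16123349, 0, 0, 0, ⟨0, 0⟩, 0⟩ 0 0)) (.cut .v 16908288 (.cut .d (-65536)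 (.cut .v 16842752 (.pos 72 .mp ⟨0, 0, 0, 0, 0, 30622873, 0, 0, 0, ⟨0, 0⟩, 0⟩ 0 0) (.cut .s 7333888 (.cut .s 7322624 (.pos 73 .mp ⟨7130197, 0, 0, 0, 0, 22677488, 0, 0, 0, ⟨0, 0⟩, 0⟩ 0 0) (.pos 73 .mp ⟨7275958, 0, 0, 0, 0, 22843018, 0, 0, 0, ⟨0, 0⟩, 0⟩ 0 0)) (.pos 73 .mp ⟨6851350, 0, 0, 0, 0, 23802927, 0, 0, 0, ⟨0, 0⟩, 0⟩ 0 0))) (.cut .d (-32768) (.cut .s 7333888 (.cut .s 7322624 (.pos 41 .mp ⟨7544267, 0, 0, 0, 0, 21969491, 0, 0, 0, ⟨0, 0⟩, 0⟩ 0 0) (.pos 41 .mp ⟨7656680, 0, 0, 0, 0, 22157952, 0, 0, 0, ⟨0, 0⟩, 0⟩ 0 0)) (.pos 41 .mp ⟨7883531, 0, 0, 0, 0, 22320881, 0, 0, 0, ⟨0, 0⟩, 0⟩ 0 0)) (.pos 41 .mp ⟨7631654, 0, 0, 0, 0, 0, 0, 0, 0, ⟨0, 0⟩, 0⟩ 0 0))) (.pos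 42 .mp ⟨13877061, 0, 0, 0, 0, 16443096, 0, 0, 0, ⟨0, 0⟩, 0⟩ 0 0))) (.pos 39 .mp ⟨6446474, 0, 0, 0, 0, 0, 0, 0, 0, ⟨0, 0⟩, 0⟩ 0 0)))) (.pos 40 .mp ⟨29976380, 0, 0, 0, 0, 0, 0, 0, 0, ⟨0, 0⟩, 0⟩ 0 0)) (.cut .v 17039360 (.cut .s 7446528 (.cut .d (-131072) (.cut .l 708371 (.pos 39 .mp ⟨7141292, 0, 0, 0, 0, 26742472, 0, 0, 0, ⟨0, 0⟩, 0⟩ 0 0) (.cut .v 16908288 (.pos 41 .mp ⟨0, 0, 0, 0, 0, 32060982, 0, 0, 0, ⟨0, 0⟩, 0⟩ 0 0) (.cut .s 7401472 (.cut .s 7378944 (.pos 42 .mp ⟨6298291, 0, 0, 0, 0, 25246329, 0, 0, 0, ⟨0, 0⟩, 0⟩ 0 0) (.pos 42 .mp ⟨6518532, 0, 0, 0, 0, 25688577, 0, 0, 0, ⟨0, 0⟩, 0⟩ 0 0)) (.cut .s 7424000 (.pos 42 .mp ⟨6741408, 0, 0, 0, 0, 26136236, 0, 0, 0,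 ⟨0, 0⟩, 0⟩ 0 0) (.pos 42 .mp ⟨6966932, 0, 0, 0, 0, 26589260, 0, 0, 0, ⟨0, 0⟩, 0⟩ 0 0))))) (.cut .l 708371 (.cut .v 16908288 (.cut .s 7401472 (.cut .d (-65536) (.cut .s 7378944 (.pos 41 .mp ⟨7106130, 0, 0, 0, 0, 24178511, 0, 0, 0, ⟨0, 0⟩, 0⟩ 0 0) (.pos 41 .mp ⟨7406634, 0, 0, 0, 0, 24520079, 0, 0, 0, ⟨0, 0⟩, 0⟩ 0 0)) (.cut .d (-32768) (.cut .s 7378944 (.pos 41 .mp ⟨8113096, 0, 0, 0, 0, 22726524, 0, 0, 0, ⟨0, 0⟩, 0⟩ 0 0) (.pos 41 .mp ⟨8345389, 0, 0, 0, 0, 23138207, 0, 0, 0, ⟨0, 0⟩, 0⟩ 0 0)) (.pos 41 .mp ⟨8072174, 0, 0, 0, 0, 0, 0, 0, 0, ⟨0, 0⟩, 0⟩ 0 0))) (.cut .d (-65536) (.cut .s 7424000 (.pos 41 .mp ⟨7717940, 0, 0, 0, 0, 24857925, 0, 0, 0, ⟨0, 0⟩, 0⟩ 0 0) (.pos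 41 .mp ⟨8031520, 0, 0, 0, 0, 25199418, 0, 0, 0, ⟨0, 0⟩, 0⟩ 0 0)) (.cut .s 7424000 (.cut .s 7412736 (.pos 41 .mp ⟨8462563, 0, 0, 0, 0, 23302064, 0, 0, 0, ⟨0, 0⟩, 0⟩ 0 0) (.pos 41 .mp ⟨8580426, 0, 0, 0, 0, 23494437, 0, 0, 0, ⟨0, 0⟩, 0⟩ 0 0)) (.pos 41 .mp ⟨8818222, 0, 0, 0, 0, 23678553, 0, 0, 0, ⟨0, 0⟩, 0⟩ 0 0)))) (.pos 42 .mp ⟨19987736, 0, 0, 0, 0, 12235107, 0, 0, 0, ⟨0, 0⟩, 0⟩ 0 0)) (.pos 39 .mp ⟨8107882, 0, 0, 0, 0, 0, 0, 0, 0, ⟨0, 0⟩, 0⟩ 0 0))) (.cut .d (-131072) (.cut .d (-196608) (.pos 39 .mp ⟨7077514, 0, 0, 0, 0, 29438587, 0, 0, 0, ⟨0, 0⟩, 0⟩ 0 0) (.cut .l 708371 (.pos 39 .mp ⟨8107882, 0, 0, 0, 0, 28689466, 0, 0, 0, ⟨0, 0⟩, 0⟩ 0 0) (.cut .s 7491584 (.pos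 39 .mp ⟨7876723, 0, 0, 0, 0, 26325245, 0, 0, 0, ⟨0, 0⟩, 0⟩ 0 0) (.pos 39 .mp ⟨8324126, 0, 0, 0, 0, 27292189, 0, 0, 0, ⟨0, 0⟩, 0⟩ 0 0)))) (.cut .l 708371 (.cut .v 16908288 (.cut .s 7491584 (.cut .l 456712 (.cut .d (-65536) (.pos 41 .mp ⟨8396936, 0, 0, 0, 0, 26131457, 0, 0, 0, ⟨0, 0⟩, 0⟩ 0 0) (.cut .s 7469056 (.pos 41 .mp ⟨9058792, 0, 0, 0, 0, 24067491, 0, 0, 0, ⟨0, 0⟩, 0⟩ 0 0) (.pos 41 .mp ⟨9302153, 0, 0, 0, 0, 24459728, 0, 0, 0, ⟨0, 0⟩, 0⟩ 0 0))) (.pos 41 .mp ⟨8107152, 0, 0, 0, 0, 25338514, 0, 0, 0, ⟨0, 0⟩, 0⟩ 0 0)) (.cut .d (-65536) (.pos 41 .mp ⟨8292558, 0, 0, 0, 0, 27437664, 0, 0, 0, ⟨0, 0⟩, 0⟩ 0 0) (.cut .s 7514112 (.pos 41 .mp ⟨9548320, 0, 0, 0, 0, 24855162,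 0, 0, 0, ⟨0, 0⟩, 0⟩ 0 0) (.pos 41 .mp ⟨9797309, 0, 0, 0, 0, 25253695, 0, 0, 0, ⟨0, 0⟩, 0⟩ 0 0)))) (.pos 42 .mp ⟨22510837, 0, 0, 0, 0, 12287725, 0, 0, 0, ⟨0, 0⟩, 0⟩ 0 0)) (.pos 39 .mp ⟨9121054, 0, 0, 0, 0, 0, 0, 0, 0, ⟨0, 0⟩, 0⟩ 0 0)))) (.pos 40 .mp ⟨34793217, 0, 0, 0, 0, 0, 0, 0, 0, ⟨0, 0⟩, 0⟩ 0 0)))) (.cut .s 7176192 (.pos 38 .mp ⟨24133044, 0, 0, 0, 0, 0, 0, 0, 0, ⟨0, 0⟩, 0⟩ 0 0) (.pos 38 .mp ⟨33310189, 0, 0, 0, 0, 0, 0, 0, 0, ⟨0, 0⟩, 0⟩ 0 0)))) (.pos 36 .mp ⟨36624415, 0, 0, 0, 0, 0, 0, 0, 0, ⟨0, 0⟩, 0⟩ 0 0)) (.void 34 ⟨100000, 0, 0, 0, 0, 0, 0, 0, 0, ⟨0, 0⟩, 0⟩ 0 0)) (.void 32 ⟨100000, 0, 0, 0, 0, 0, 0, 0, 0, ⟨0, 0⟩, 0⟩ 0 0))))))) (.void 30 ⟨100000, 0, 0,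 0, 0, 0, 0, 0, 0, ⟨0, 0⟩, 0⟩ 0 0)) (.void 71 ⟨100000, 0, 0, 0, 0, 0, 0, 0, 0, ⟨0, 0⟩, 0⟩ 0 0))) (.cut .v 16777216 (.cut .v 8388608 (.cut .v 4194304 (.void 4 ⟨0, 0, 50000, 0, 50000, 0, 0, 0, 0, ⟨0, 0⟩, 0⟩ 0 0) (.pos 5 .pm ⟨0, 0, 0, 0, 0, 0, 0, 0, 0, ⟨0, 0⟩, 0⟩ 0 0)) (.cut .d 12260274 (.pos 3 .pm ⟨0, 0, 0, 0, 0, 0, 0, 0, 0, ⟨0, 0⟩, 0⟩ 0 0) (.void 3 ⟨0, 0, 0, 0, 0, 0, 0, 0, 100000, ⟨0, 0⟩, 14107901⟩ 0 0))) (.cut .d 12260274 (.cut .v 33554432 (.cut .v 25165824 (.cut .v 20971520 (.pos 31 .pp ⟨11483246, 0, 0, 0, 0, 0, 0, 0, 0, ⟨0, 0⟩, 0⟩ 0 0) (.pos 32 .pp ⟨12276051, 0, 0, 0, 0, 0, 0, 0, 0, ⟨0, 0⟩, 0⟩ 0 0)) (.pos 30 .pp ⟨11022603, 0, 0, 0, 0, 0, 1825674, 0, 0, ⟨0,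 0⟩, 0⟩ 0 0)) (.cut .d 6130137 (.pos 71 .pp ⟨39403418, 0, 0, 0, 0, 0, 38011061, 0, 0, ⟨0, 0⟩, 0⟩ 0 0) (.pos 71 .pp ⟨0, 0, 0, 0, 0, 0, 64897441, 0, 0, ⟨0, 0⟩, 0⟩ 0 0))) (.cut .d 18390411 (.cut .v 33554432 (.pos 28 .pp ⟨0, 13434554, 0, 0, 0, 0, 0, 0, 4144690, ⟨0, 0⟩, 19951585⟩ 0 0) (.cut .v 50331648 (.pos 74 .pp ⟨0, 25520247, 0, 0, 0, 0, 63633375, 0, 0, ⟨0, 0⟩, 0⟩ 0 0) (.void 75 ⟨0, 60270, 0, 0, 0, 0, 39730, 0, 0, ⟨0, 0⟩, 0⟩ 0 0))) (.void 70 ⟨0, 88357, 0, 0, 0, 0, 0, 0, 11643, ⟨0, 0⟩, 23726566⟩ 0 0))))),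
    by decide +kernel⟩

def covers8 : cell.Covers table row8.1 :=
  ⟨(.cut .d 0 (.cut .v 16777216 (.cut .d (-8388608) (.void 1 ⟨0, 0, 0, 0, 0, 100000, 0, 0, 0, ⟨0, 0⟩, 0⟩ 0 0) (.cut .d (-4194304) (.void 1 ⟨0, 0, 0, 0, 0, 100000, 0, 0, 0, ⟨0, 0⟩, 0⟩ 0 0) (.cut .d (-2097152) (.void 1 ⟨0, 0, 0, 0, 0, 100000, 0, 0, 0, ⟨0, 0⟩, 0⟩ 0 0) (.cut .d (-1048576) (.void 1 ⟨0, 0, 0, 0, 0, 100000, 0, 0, 0, ⟨0, 0⟩, 0⟩ 0 0) (.cut .d (-524288) (.void 1 ⟨0, 0, 0, 0, 0, 100000, 0, 0, 0, ⟨0, 0⟩, 0⟩ 0 0) (.cut .d (-262144) (.void 1 ⟨0, 0, 0, 0, 0, 100000, 0, 0, 0, ⟨0, 0⟩, 0⟩ 0 0) (.cut .v 8388608 (.cut .v 4194304 (.void 4 ⟨0, 0, 100000, 0, 0, 0, 0, 0, 0, ⟨0, 0⟩, 0⟩ 0 0) (.pos 5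 .mm ⟨0, 0, 0, 0, 0, 25337416, 0, 0, 0, ⟨0, 0⟩, 0⟩ 0 0)) (.cut .v 12582912 (.pos 8 .mm ⟨0, 0, 0, 0, 0, 28899486, 0, 0, 0, ⟨0, 0⟩, 0⟩ 0 0) (.cut .v 14680064 (.pos 12 .mm ⟨0, 0, 0, 0, 0, 35485537, 0, 0, 0, ⟨0, 0⟩, 0⟩ 0 0) (.cut .v 15728640 (.pos 16 .mm ⟨0, 0, 0, 0, 0, 40041840, 0, 0, 0, ⟨0, 0⟩, 0⟩ 0 0) (.cut .s 7798784 (.cut .v 16252928 (.pos 20 .mm ⟨0, 0, 0, 0, 0, 38250930, 0, 0, 0, ⟨0, 0⟩, 0⟩ 0 0) (.cut .v 16515072 (.pos 24 .mm ⟨0, 0, 0, 0, 0, 39213513, 0, 0, 0, ⟨0, 0⟩, 0⟩ 0 0) (.cut .s 7667712 (.cut .s 7602176 (.pos 25 .mm ⟨0, 0, 0, 0, 0, 36432592, 0, 0, 0, ⟨0, 0⟩, 0⟩ 0 0) (.pos 25 .mm ⟨0, 0, 0, 0, 0, 38521775, 0, 0, 0, ⟨0, 0⟩, 0⟩ 0 0)) (.cut .s 7733248 (.pos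 25 .mm ⟨0, 0, 0, 0, 0, 40707107, 0, 0, 0, ⟨0, 0⟩, 0⟩ 0 0) (.pos 25 .mm ⟨0, 0, 0, 0, 0, 42986171, 0, 0, 0, ⟨0, 0⟩, 0⟩ 0 0))))) (.cut .v 16252928 (.pos 20 .mm ⟨0, 0, 0, 0, 0, 47344971, 0, 0, 0, ⟨0, 0⟩, 0⟩ 0 0) (.cut .v 16515072 (.pos 24 .mm ⟨0, 0, 0, 0, 0, 48532121, 0, 0, 0, ⟨0, 0⟩, 0⟩ 0 0) (.cut .s 7929856 (.cut .s 7864320 (.pos 25 .mm ⟨0, 0, 0, 0, 0, 45356629, 0, 0, 0, ⟨0, 0⟩, 0⟩ 0 0) (.pos 25 .mm ⟨0, 0, 0, 0, 0, 47816222, 0, 0, 0, ⟨0, 0⟩, 0⟩ 0 0)) (.cut .s 7995392 (.pos 25 .mm ⟨0, 0, 0, 0, 0, 50362764, 0, 0, 0, ⟨0, 0⟩, 0⟩ 0 0) (.pos 25 .mm ⟨0, 0, 0, 0, 0, 52994141, 0, 0, 0, ⟨0, 0⟩, 0⟩ 0 0)))))))))))))))) (.cut .v 33554432 (.cut .v 25165824 (.cut .d (-8388608)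 (.void 29 ⟨0, 0, 0, 0, 0, 100000, 0, 0, 0, ⟨0, 0⟩, 0⟩ 0 0) (.cut .v 20971520 (.cut .d (-4194304) (.void 31 ⟨0, 0, 0, 0, 0, 100000, 0, 0, 0, ⟨0, 0⟩, 0⟩ 0 0) (.cut .d (-2097152) (.void 31 ⟨0, 0, 0, 0, 0, 100000, 0, 0, 0, ⟨0, 0⟩, 0⟩ 0 0) (.cut .d (-1048576) (.void 31 ⟨0, 0, 0, 0, 0, 100000, 0, 0, 0, ⟨0, 0⟩, 0⟩ 0 0) (.cut .d (-524288) (.void 31 ⟨0, 0, 0, 0, 0, 100000, 0, 0, 0, ⟨0, 0⟩, 0⟩ 0 0) (.cut .d (-262144) (.void 31 ⟨0, 0, 0, 0, 0, 100000, 0, 0, 0, ⟨0, 0⟩, 0⟩ 0 0) (.cut .v 18874368 (.cut .v 17825792 (.cut .v 17301504 (.cut .s 7798784 (.cut .s 7667712 (.cut .v 17039360 (.cut .d (-131072) (.cut .d (-196608) (.pos 39 .mp ⟨8135942, 0, 0, 0, 0, 32793733, 0, 0,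 0, ⟨0, 0⟩, 0⟩ 0 0) (.cut .l 708371 (.pos 39 .mp ⟨9120002, 0, 0, 0, 0, 41391777, 0, 0, 0, ⟨0, 0⟩, 0⟩ 0 0) (.cut .s 7602176 (.pos 39 .mp ⟨8780689, 0, 0, 0, 0, 28801081, 0, 0, 0, ⟨0, 0⟩, 0⟩ 0 0) (.cut .s 7634944 (.pos 39 .mp ⟨9486312, 0, 0, 0, 0, 29591727, 0, 0, 0, ⟨0, 0⟩, 0⟩ 0 0) (.pos 39 .mp ⟨9173858, 0, 0, 0, 0, 31123749, 0, 0, 0, ⟨0, 0⟩, 0⟩ 0 0))))) (.cut .l 708371 (.cut .v 16908288 (.cut .s 7602176 (.cut .d (-65536) (.cut .s 7569408 (.pos 41 .mp ⟨9477352, 0, 0, 0, 0, 27382640, 0, 0, 0, ⟨0, 0⟩, 0⟩ 0 0) (.pos 41 .mp ⟨9681735, 0, 0, 0, 0, 28182410, 0, 0, 0, ⟨0, 0⟩, 0⟩ 0 0)) (.cut .s 7569408 (.pos 41 .mp ⟨10166324, 0, 0, 0, 0, 25714156, 0, 0, 0, ⟨0, 0⟩, 0⟩ 0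 0) (.cut .s 7585792 (.pos 41 .mp ⟨10353157, 0, 0, 0, 0, 26284817, 0, 0, 0, ⟨0, 0⟩, 0⟩ 0 0) (.pos 41 .mp ⟨10541497, 0, 0, 0, 0, 26592598, 0, 0, 0, ⟨0, 0⟩, 0⟩ 0 0)))) (.cut .d (-65536) (.cut .s 7634944 (.pos 41 .mp ⟨9897509, 0, 0, 0, 0, 28995008, 0, 0, 0, ⟨0, 0⟩, 0⟩ 0 0) (.pos 41 .mp ⟨10126042, 0, 0, 0, 0, 29818741, 0, 0, 0, ⟨0, 0⟩, 0⟩ 0 0)) (.cut .d (-32768) (.cut .s 7634944 (.pos 41 .mp ⟨10611318, 0, 0, 0, 0, 27689073, 0, 0, 0, ⟨0, 0⟩, 0⟩ 0 0) (.pos 41 .mp ⟨11004514, 0, 0, 0, 0, 28284856, 0, 0, 0, ⟨0, 0⟩, 0⟩ 0 0)) (.pos 41 .mp ⟨10896018, 0, 0, 0, 0, 0, 0, 0, 0, ⟨0, 0⟩, 0⟩ 0 0)))) (.pos 42 .mp ⟨30171921, 0, 0, 0, 0, 7995891, 0, 0, 0, ⟨0, 0⟩, 0⟩ 0 0)) (.pos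 39 .mp ⟨10704679, 0, 0, 0, 0, 25010166, 0, 0, 0, ⟨0, 0⟩, 0⟩ 0 0))) (.pos 40 .mp ⟨40418062, 0, 0, 0, 0, 0, 0, 0, 0, ⟨0, 0⟩, 0⟩ 0 0)) (.cut .v 17039360 (.cut .d (-131072) (.cut .d (-196608) (.pos 39 .mp ⟨9812193, 0, 0, 0, 0, 35537667, 0, 0, 0, ⟨0, 0⟩, 0⟩ 0 0) (.cut .l 708371 (.void 39 ⟨0, 0, 0, 0, 0, 100000, 0, 0, 0, ⟨0, 0⟩, 0⟩ 0 0) (.cut .v 16908288 (.pos 41 .mp ⟨0, 0, 0, 0, 0, 43014424, 0, 0, 0, ⟨0, 0⟩, 0⟩ 0 0) (.cut .s 7733248 (.cut .s 7700480 (.pos 42 .mp ⟨11477385, 0, 0, 0, 0, 29528448, 0, 0, 0, ⟨0, 0⟩, 0⟩ 0 0) (.pos 42 .mp ⟨11951839, 0, 0, 0, 0, 30125946, 0, 0, 0, ⟨0, 0⟩, 0⟩ 0 0)) (.cut .s 7766016 (.pos 42 .mp ⟨12434235, 0, 0, 0, 0, 30739396, 0, 0, 0,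 ⟨0, 0⟩, 0⟩ 0 0) (.pos 42 .mp ⟨12924641, 0, 0, 0, 0, 31368713, 0, 0, 0, ⟨0, 0⟩, 0⟩ 0 0)))))) (.cut .l 708371 (.cut .s 7733248 (.cut .v 16908288 (.cut .d (-65536) (.cut .s 7700480 (.pos 41 .mp ⟨10342275, 0, 0, 0, 0, 30676018, 0, 0, 0, ⟨0, 0⟩, 0⟩ 0 0) (.pos 41 .mp ⟨10576479, 0, 0, 0, 0, 31538933, 0, 0, 0, ⟨0, 0⟩, 0⟩ 0 0)) (.cut .d (-32768) (.cut .l 456712 (.cut .s 7700480 (.pos 41 .mp ⟨11403940, 0, 0, 0, 0, 28966838, 0, 0, 0, ⟨0, 0⟩, 0⟩ 0 0) (.cut .s 7716864 (.pos 41 .mp ⟨11606007, 0, 0, 0, 0, 29629128, 0, 0, 0, ⟨0, 0⟩, 0⟩ 0 0) (.pos 41 .mp ⟨11809653, 0, 0, 0, 0, 29955378, 0, 0, 0, ⟨0, 0⟩, 0⟩ 0 0))) (.pos 41 .mp ⟨0, 0, 0, 0, 0, 0, 0, 0, 0, ⟨0, 0⟩, 0⟩ 0 0)) (.pos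 41 .mp ⟨11649691, 0, 0, 0, 0, 0, 0, 0, 0, ⟨0, 0⟩, 0⟩ 0 0))) (.pos 42 .mp ⟨23421435, 0, 0, 0, 0, 17706947, 0, 0, 0, ⟨0, 0⟩, 0⟩ 0 0)) (.cut .v 16908288 (.cut .d (-65536) (.cut .l 456712 (.pos 41 .mp ⟨11497496, 0, 0, 0, 0, 32981452, 0, 0, 0, ⟨0, 0⟩, 0⟩ 0 0) (.cut .s 7766016 (.pos 41 .mp ⟨10601082, 0, 0, 0, 0, 32365808, 0, 0, 0, ⟨0, 0⟩, 0⟩ 0 0) (.pos 41 .mp ⟨10984134, 0, 0, 0, 0, 33112482, 0, 0, 0, ⟨0, 0⟩, 0⟩ 0 0))) (.cut .d (-32768) (.cut .l 456712 (.cut .l 330883 (.cut .d (-49152) (.pos 41 .mp ⟨11886900, 0, 0, 0, 0, 32463769, 0, 0, 0, ⟨0, 0⟩, 0⟩ 0 0) (.cut .s 7766016 (.pos 41 .mp ⟨12271911, 0, 0, 0, 0, 30107470, 0, 0, 0, ⟨0, 0⟩, 0⟩ 0 0) (.pos 41 .mp ⟨12673673,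 0, 0, 0, 0, 30800970, 0, 0, 0, ⟨0, 0⟩, 0⟩ 0 0))) (.pos 41 .mp ⟨12322505, 0, 0, 0, 0, 29911715, 0, 0, 0, ⟨0, 0⟩, 0⟩ 0 0)) (.pos 41 .mp ⟨0, 0, 0, 0, 0, 0, 0, 0, 0, ⟨0, 0⟩, 0⟩ 0 0)) (.pos 41 .mp ⟨12426407, 0, 0, 0, 0, 0, 0, 0, 0, ⟨0, 0⟩, 0⟩ 0 0))) (.pos 42 .mp ⟨24327701, 0, 0, 0, 0, 18909796, 0, 0, 0, ⟨0, 0⟩, 0⟩ 0 0))) (.pos 39 .mp ⟨12395101, 0, 0, 0, 0, 27425830, 0, 0, 0, ⟨0, 0⟩, 0⟩ 0 0))) (.pos 40 .mp ⟨44483982, 0, 0, 0, 0, 0, 0, 0, 0, ⟨0, 0⟩, 0⟩ 0 0))) (.cut .s 7929856 (.cut .v 17039360 (.cut .d (-131072) (.cut .l 708371 (.void 39 ⟨0, 0, 0, 0, 0, 100000, 0, 0, 0, ⟨0, 0⟩, 0⟩ 0 0) (.cut .d (-196608) (.cut .s 7864320 (.pos 39 .mp ⟨11602434, 0, 0, 0, 0, 36150922,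 0, 0, 0, ⟨0, 0⟩, 0⟩ 0 0) (.pos 39 .mp ⟨12541545, 0, 0, 0, 0, 37709933, 0, 0, 0, ⟨0, 0⟩, 0⟩ 0 0)) (.cut .v 16908288 (.pos 41 .mp ⟨0, 0, 0, 0, 0, 47890110, 0, 0, 0, ⟨0, 0⟩, 0⟩ 0 0) (.cut .s 7864320 (.cut .s 7831552 (.pos 42 .mp ⟨13423129, 0, 0, 0, 0, 32013809, 0, 0, 0, ⟨0, 0⟩, 0⟩ 0 0) (.cut .s 7847936 (.pos 42 .mp ⟨13675426, 0, 0, 0, 0, 32649466, 0, 0, 0, ⟨0, 0⟩, 0⟩ 0 0) (.pos 42 .mp ⟨13929770, 0, 0, 0, 0, 32984465, 0, 0, 0, ⟨0, 0⟩, 0⟩ 0 0))) (.cut .s 7897088 (.cut .s 7880704 (.pos 42 .mp ⟨14186169, 0, 0, 0, 0, 33323395, 0, 0, 0, ⟨0, 0⟩, 0⟩ 0 0) (.pos 42 .mp ⟨14444634, 0, 0, 0, 0, 33666245, 0, 0, 0, ⟨0, 0⟩, 0⟩ 0 0)) (.cut .s 7913472 (.pos 42 .mp ⟨14705174, 0,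 0, 0, 0, 34013002, 0, 0, 0, ⟨0, 0⟩, 0⟩ 0 0) (.pos 42 .mp ⟨14967797, 0, 0, 0, 0, 34363654, 0, 0, 0, ⟨0, 0⟩, 0⟩ 0 0))))))) (.cut .l 708371 (.cut .s 7864320 (.cut .v 16908288 (.cut .d (-65536) (.cut .l 456712 (.pos 41 .mp ⟨12286383, 0, 0, 0, 0, 34511534, 0, 0, 0, ⟨0, 0⟩, 0⟩ 0 0) (.cut .s 7831552 (.pos 41 .mp ⟨11372920, 0, 0, 0, 0, 33876725, 0, 0, 0, ⟨0, 0⟩, 0⟩ 0 0) (.pos 41 .mp ⟨11767491, 0, 0, 0, 0, 34658370, 0, 0, 0, ⟨0, 0⟩, 0⟩ 0 0))) (.cut .d (-32768) (.cut .l 456712 (.cut .l 330883 (.cut .d (-49152) (.pos 41 .mp ⟨12657650, 0, 0, 0, 0, 34033943, 0, 0, 0, ⟨0, 0⟩, 0⟩ 0 0) (.cut .v 16842752 (.cut .s 7831552 (.pos 72 .mp ⟨12233871, 0, 0, 0, 0, 32644949, 0, 0,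 0, ⟨0, 0⟩, 0⟩ 0 0) (.pos 72 .mp ⟨12619574, 0, 0, 0, 0, 33416178, 0, 0, 0, ⟨0, 0⟩, 0⟩ 0 0)) (.pos 73 .mp ⟨42230097, 0, 0, 0, 0, 0, 0, 0, 0, ⟨0, 0⟩, 0⟩ 0 0))) (.pos 41 .mp ⟨13368574, 0, 0, 0, 0, 31022474, 0, 0, 0, ⟨0, 0⟩, 0⟩ 0 0)) (.pos 41 .mp ⟨0, 0, 0, 0, 0, 0, 0, 0, 0, ⟨0, 0⟩, 0⟩ 0 0)) (.pos 41 .mp ⟨13226579, 0, 0, 0, 0, 0, 0, 0, 0, ⟨0, 0⟩, 0⟩ 0 0))) (.pos 42 .mp ⟨25395169, 0, 0, 0, 0, 20040436, 0, 0, 0, ⟨0, 0⟩, 0⟩ 0 0)) (.cut .v 16908288 (.cut .d (-65536) (.cut .l 456712 (.pos 41 .mp ⟨13099436, 0, 0, 0, 0, 36127978, 0, 0, 0, ⟨0, 0⟩, 0⟩ 0 0) (.cut .s 7897088 (.pos 41 .mp ⟨12167899, 0, 0, 0, 0, 35457244, 0, 0, 0, ⟨0, 0⟩, 0⟩ 0 0) (.pos 41 .mp ⟨12574196, 0, 0,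 0, 0, 36273176, 0, 0, 0, ⟨0, 0⟩, 0⟩ 0 0))) (.cut .d (-32768) (.cut .l 456712 (.cut .s 7897088 (.cut .s 7880704 (.pos 41 .mp ⟨13714631, 0, 0, 0, 0, 33089179, 0, 0, 0, ⟨0, 0⟩, 0⟩ 0 0) (.pos 41 .mp ⟨13934446, 0, 0, 0, 0, 33459185, 0, 0, 0, ⟨0, 0⟩, 0⟩ 0 0)) (.cut .s 7913472 (.pos 41 .mp ⟨14155918, 0, 0, 0, 0, 33833521, 0, 0, 0, ⟨0, 0⟩, 0⟩ 0 0) (.pos 41 .mp ⟨14379055, 0, 0, 0, 0, 34212179, 0, 0, 0, ⟨0, 0⟩, 0⟩ 0 0))) (.pos 41 .mp ⟨0, 0, 0, 0, 0, 0, 0, 0, 0, ⟨0, 0⟩, 0⟩ 0 0)) (.pos 41 .mp ⟨14050630, 0, 0, 0, 0, 0, 0, 0, 0, ⟨0, 0⟩, 0⟩ 0 0))) (.pos 42 .mp ⟨26651972, 0, 0, 0, 0, 21066491, 0, 0, 0, ⟨0, 0⟩, 0⟩ 0 0))) (.cut .s 7864320 (.pos 39 .mp ⟨13281126, 0, 0, 0, 0,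 30811051, 0, 0, 0, ⟨0, 0⟩, 0⟩ 0 0) (.pos 39 .mp ⟨14195007, 0, 0, 0, 0, 32217435, 0, 0, 0, ⟨0, 0⟩, 0⟩ 0 0)))) (.pos 40 .mp ⟨48816887, 0, 0, 0, 0, 0, 0, 0, 0, ⟨0, 0⟩, 0⟩ 0 0)) (.cut .v 17039360 (.cut .d (-131072) (.cut .d (-196608) (.pos 39 .mp ⟨13510680, 0, 0, 0, 0, 42018565, 0, 0, 0, ⟨0, 0⟩, 0⟩ 0 0) (.cut .l 708371 (.void 39 ⟨0, 0, 0, 0, 0, 100000, 0, 0, 0, ⟨0, 0⟩, 0⟩ 0 0) (.cut .v 16908288 (.pos 41 .mp ⟨0, 0, 0, 0, 0, 53196956, 0, 0, 0, ⟨0, 0⟩, 0⟩ 0 0) (.cut .s 7995392 (.cut .s 7962624 (.cut .s 7946240 (.pos 42 .mp ⟨15232514, 0, 0, 0, 0, 34718187, 0, 0, 0, ⟨0, 0⟩, 0⟩ 0 0) (.pos 42 .mp ⟨15499333, 0, 0, 0, 0, 35076588, 0, 0, 0, ⟨0, 0⟩, 0⟩ 0 0)) (.cut .s 7979008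 (.pos 42 .mp ⟨15768264, 0, 0, 0, 0, 35438844, 0, 0, 0, ⟨0, 0⟩, 0⟩ 0 0) (.pos 42 .mp ⟨16039317, 0, 0, 0, 0, 35804940, 0, 0, 0, ⟨0, 0⟩, 0⟩ 0 0))) (.cut .s 8028160 (.cut .s 8011776 (.pos 42 .mp ⟨16312501, 0, 0, 0, 0, 36174864, 0, 0, 0, ⟨0, 0⟩, 0⟩ 0 0) (.pos 42 .mp ⟨16587826, 0, 0, 0, 0, 36548599, 0, 0, 0, ⟨0, 0⟩, 0⟩ 0 0)) (.pos 42 .mp ⟨17144940, 0, 0, 0, 0, 36963083, 0, 0, 0, ⟨0, 0⟩, 0⟩ 0 0)))))) (.cut .l 708371 (.cut .s 7995392 (.cut .v 16908288 (.cut .d (-65536) (.cut .l 456712 (.pos 41 .mp ⟨13937091, 0, 0, 0, 0, 37833140, 0, 0, 0, ⟨0, 0⟩, 0⟩ 0 0) (.cut .s 7962624 (.pos 41 .mp ⟨12986438, 0, 0, 0, 0, 37105987, 0, 0, 0, ⟨0, 0⟩, 0⟩ 0 0) (.pos 41 .mp ⟨13404678,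 0, 0, 0, 0, 37955499, 0, 0, 0, ⟨0, 0⟩, 0⟩ 0 0))) (.cut .d (-32768) (.cut .l 456712 (.cut .s 7962624 (.cut .s 7946240 (.pos 41 .mp ⟨14603864, 0, 0, 0, 0, 34595148, 0, 0, 0, ⟨0, 0⟩, 0⟩ 0 0) (.pos 41 .mp ⟨14830352, 0, 0, 0, 0, 34982419, 0, 0, 0, ⟨0, 0⟩, 0⟩ 0 0)) (.cut .s 7979008 (.pos 41 .mp ⟨15058528, 0, 0, 0, 0, 35373983, 0, 0, 0, ⟨0, 0⟩, 0⟩ 0 0) (.pos 41 .mp ⟨15288400, 0, 0, 0, 0, 35769829, 0, 0, 0, ⟨0, 0⟩, 0⟩ 0 0))) (.pos 41 .mp ⟨0, 0, 0, 0, 0, 0, 0, 0, 0, ⟨0, 0⟩, 0⟩ 0 0)) (.pos 41 .mp ⟨14898999, 0, 0, 0, 0, 23971742, 0, 0, 0, ⟨0, 0⟩, 0⟩ 0 0))) (.pos 42 .mp ⟨28126735, 0, 0, 0, 0, 21954307, 0, 0, 0, ⟨0, 0⟩, 0⟩ 0 0)) (.cut .v 16908288 (.cut .d (-65536) (.cut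 .l 456712 (.pos 41 .mp ⟨14799800, 0, 0, 0, 0, 39629429, 0, 0, 0, ⟨0, 0⟩, 0⟩ 0 0) (.cut .s 8028160 (.pos 41 .mp ⟨13828971, 0, 0, 0, 0, 38821529, 0, 0, 0, ⟨0, 0⟩, 0⟩ 0 0) (.pos 41 .mp ⟨14259375, 0, 0, 0, 0, 39703893, 0, 0, 0, ⟨0, 0⟩, 0⟩ 0 0))) (.cut .d (-32768) (.cut .l 456712 (.cut .l 330883 (.cut .d (-49152) (.pos 41 .mp ⟨14849024, 0, 0, 0, 0, 39782264, 0, 0, 0, ⟨0, 0⟩, 0⟩ 0 0) (.cut .s 8028160 (.pos 41 .mp ⟨15423675, 0, 0, 0, 0, 36507696, 0, 0, 0, ⟨0, 0⟩, 0⟩ 0 0) (.pos 41 .mp ⟨15882744, 0, 0, 0, 0, 37331929, 0, 0, 0, ⟨0, 0⟩, 0⟩ 0 0))) (.pos 41 .mp ⟨15841720, 0, 0, 0, 0, 35803828, 0, 0, 0, ⟨0, 0⟩, 0⟩ 0 0)) (.pos 41 .mp ⟨15459121, 0, 0, 0, 0, 0, 0, 0, 0, ⟨0,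 0⟩, 0⟩ 0 0)) (.pos 41 .mp ⟨15447593, 0, 0, 0, 0, 35316566, 0, 0, 0, ⟨0, 0⟩, 0⟩ 0 0))) (.pos 42 .mp ⟨29848615, 0, 0, 0, 0, 22668895, 0, 0, 0, ⟨0, 0⟩, 0⟩ 0 0))) (.cut .s 7995392 (.pos 39 .mp ⟨15137251, 0, 0, 0, 0, 33669247, 0, 0, 0, ⟨0, 0⟩, 0⟩ 0 0) (.pos 39 .mp ⟨16108381, 0, 0, 0, 0, 35163249, 0, 0, 0, ⟨0, 0⟩, 0⟩ 0 0)))) (.pos 40 .mp ⟨53384623, 0, 0, 0, 0, 0, 0, 0, 0, ⟨0, 0⟩, 0⟩ 0 0)))) (.pos 38 .mp ⟨48267524, 0, 0, 0, 0, 0, 0, 0, 0, ⟨0, 0⟩, 0⟩ 0 0)) (.pos 36 .mp ⟨51994697, 0, 0, 0, 0, 0, 0, 0, 0, ⟨0, 0⟩, 0⟩ 0 0)) (.void 34 ⟨100000, 0, 0, 0, 0, 0, 0, 0, 0, ⟨0, 0⟩, 0⟩ 0 0))))))) (.void 32 ⟨100000, 0, 0, 0, 0, 0, 0, 0, 0, ⟨0, 0⟩, 0⟩ 0 0))) (.void 30 ⟨100000, 0,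 0, 0, 0, 0, 0, 0, 0, ⟨0, 0⟩, 0⟩ 0 0)) (.void 71 ⟨100000, 0, 0, 0, 0, 0, 0, 0, 0, ⟨0, 0⟩, 0⟩ 0 0))) (.cut .v 16777216 (.cut .v 8388608 (.cut .v 4194304 (.void 4 ⟨0, 0, 32105, 0, 0, 0, 0, 0, 67895, ⟨0, 0⟩, 3966728⟩ 0 0) (.pos 5 .pm ⟨0, 0, 0, 0, 0, 0, 0, 0, 0, ⟨0, 0⟩, 0⟩ 0 0)) (.cut .d 10285164 (.pos 3 .pm ⟨0, 0, 0, 0, 0, 0, 0, 0, 0, ⟨0, 0⟩, 0⟩ 0 0) (.cut .d 15427746 (.pos 3 .pm ⟨0, 0, 0, 0, 0, 0, 0, 0, 17464442, ⟨0, 0⟩, 14107901⟩ 0 0) (.void 3 ⟨0, 0, 0, 0, 0, 0, 0, 0, 100000, ⟨0, 0⟩, 14107901⟩ 0 0)))) (.cut .d 10285164 (.cut .d 5142582 (.cut .v 33554432 (.cut .v 25165824 (.cut .v 20971520 (.pos 31 .pp ⟨18598183, 0, 0, 0, 0, 0, 0, 0, 0, ⟨0, 0⟩, 0⟩ 0 0) (.pos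 32 .pp ⟨32366663, 0, 0, 0, 0, 0, 0, 0, 0, ⟨0, 0⟩, 0⟩ 0 0)) (.pos 30 .pp ⟨42292048, 0, 0, 0, 0, 0, 465171, 0, 0, ⟨0, 0⟩, 0⟩ 0 0)) (.cut .d 2571291 (.pos 71 .pp ⟨217035698, 0, 0, 0, 0, 0, 0, 0, 0, ⟨0, 0⟩, 0⟩ 0 0) (.pos 71 .pp ⟨0, 0, 0, 0, 0, 0, 3075858, 0, 0, ⟨0, 0⟩, 0⟩ 0 0))) (.cut .v 33554432 (.pos 28 .pp ⟨0, 0, 0, 0, 0, 0, 0, 11206591, 0, ⟨4783314, 134413⟩, 0⟩ 150 205) (.pos 71 .pp ⟨0, 0, 0, 0, 0, 0, 3075858, 0, 0, ⟨0, 0⟩, 0⟩ 0 0))) (.cut .v 33554432 (.cut .d 15427746 (.pos 28 .pp ⟨0, 20200522, 0, 0, 0, 0, 0, 20031790, 0, ⟨4883028, 5045⟩, 0⟩ 185 281) (.pos 28 .pp ⟨0, 73160783, 0, 0, 0, 0, 0, 0, 4881075, ⟨0, 0⟩, 19951585⟩ 0 0)) (.pos 71 .pp ⟨0, 59955007, 0,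 0, 0, 0, 3075858, 0, 0, ⟨0, 0⟩, 0⟩ 0 0))))),
    by decide +kernel⟩

def covers9 : cell.Covers table row9.1 :=
  ⟨(.cut .d 0 (.cut .v 16777216 (.cut .d (-8388608) (.void 1 ⟨0, 0, 0, 0, 0, 100000, 0, 0, 0, ⟨0, 0⟩, 0⟩ 0 0) (.cut .d (-4194304) (.void 1 ⟨0, 0, 0, 0, 0, 100000, 0, 0, 0, ⟨0, 0⟩, 0⟩ 0 0) (.cut .d (-2097152) (.void 1 ⟨0, 0, 0, 0, 0, 100000, 0, 0, 0, ⟨0, 0⟩, 0⟩ 0 0) (.cut .d (-1048576) (.void 1 ⟨0, 0, 0, 0, 0, 100000, 0, 0, 0, ⟨0, 0⟩, 0⟩ 0 0) (.cut .d (-524288) (.void 1 ⟨0, 0, 0, 0, 0, 100000, 0, 0, 0, ⟨0, 0⟩, 0⟩ 0 0) (.cut .d (-262144) (.void 1 ⟨0, 0, 0, 0, 0, 100000, 0, 0, 0, ⟨0, 0⟩, 0⟩ 0 0) (.cut .v 8388608 (.cut .v 4194304 (.void 4 ⟨0, 0, 100000,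 0, 0, 0, 0, 0, 0, ⟨0, 0⟩, 0⟩ 0 0) (.pos 5 .mm ⟨0, 0, 0, 0, 0, 34801623, 0, 0, 0, ⟨0, 0⟩, 0⟩ 0 0)) (.cut .v 12582912 (.pos 8 .mm ⟨0, 0, 0, 0, 0, 44079430, 0, 0, 0, ⟨0, 0⟩, 0⟩ 0 0) (.cut .v 14680064 (.pos 12 .mm ⟨0, 0, 0, 0, 0, 54440368, 0, 0, 0, ⟨0, 0⟩, 0⟩ 0 0) (.cut .v 15728640 (.pos 16 .mm ⟨0, 0, 0, 0, 0, 61103621, 0, 0, 0, ⟨0, 0⟩, 0⟩ 0 0) (.cut .s 8323072 (.cut .d (-131072) (.pos 17 .mm ⟨0, 0, 0, 0, 0, 64724542, 0, 0, 0, ⟨0, 0⟩, 0⟩ 0 0) (.cut .l 708371 (.cut .v 16252928 (.pos 20 .mm ⟨0, 0, 0, 0, 0, 56418901, 0, 0, 0, ⟨0, 0⟩, 0⟩ 0 0) (.cut .v 16515072 (.pos 24 .mm ⟨0, 0, 0, 0, 0, 58161295, 0, 0, 0, ⟨0, 0⟩, 0⟩ 0 0) (.cut .v 16646144 (.pos 26 .mm ⟨0, 0, 0,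 0, 0, 59055289, 0, 0, 0, ⟨0, 0⟩, 0⟩ 0 0) (.cut .s 8192000 (.cut .s 8126464 (.pos 27 .mm ⟨0, 0, 0, 0, 0, 54980762, 0, 0, 0, ⟨0, 0⟩, 0⟩ 0 0) (.pos 27 .mm ⟨0, 0, 0, 0, 0, 57787596, 0, 0, 0, ⟨0, 0⟩, 0⟩ 0 0)) (.cut .s 8257536 (.pos 27 .mm ⟨0, 0, 0, 0, 0, 60713333, 0, 0, 0, ⟨0, 0⟩, 0⟩ 0 0) (.pos 27 .mm ⟨0, 0, 0, 0, 0, 63755177, 0, 0, 0, ⟨0, 0⟩, 0⟩ 0 0)))))) (.pos 17 .mm ⟨0, 0, 0, 0, 0, 54741189, 0, 0, 0, ⟨0, 0⟩, 0⟩ 0 0))) (.cut .d (-131072) (.pos 17 .mm ⟨0, 0, 0, 0, 0, 78617133, 0, 0, 0, ⟨0, 0⟩, 0⟩ 0 0) (.cut .s 8454144 (.cut .s 8388608 (.pos 17 .mm ⟨0, 0, 0, 0, 0, 66910421, 0, 0, 0, ⟨0, 0⟩, 0⟩ 0 0) (.pos 17 .mm ⟨0, 0, 0, 0, 0, 70176441, 0, 0, 0, ⟨0, 0⟩, 0⟩ 0 0))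 (.pos 17 .mm ⟨0, 0, 0, 0, 0, 76215902, 0, 0, 0, ⟨0, 0⟩, 0⟩ 0 0)))))))))))))) (.cut .v 67108864 (.cut .v 33554432 (.cut .v 25165824 (.cut .d (-8388608) (.void 29 ⟨0, 0, 0, 0, 0, 100000, 0, 0, 0, ⟨0, 0⟩, 0⟩ 0 0) (.cut .v 20971520 (.cut .d (-4194304) (.void 31 ⟨0, 0, 0, 0, 0, 100000, 0, 0, 0, ⟨0, 0⟩, 0⟩ 0 0) (.cut .d (-2097152) (.void 31 ⟨0, 0, 0, 0, 0, 100000, 0, 0, 0, ⟨0, 0⟩, 0⟩ 0 0) (.cut .d (-1048576) (.void 31 ⟨0, 0, 0, 0, 0, 100000, 0, 0, 0, ⟨0, 0⟩, 0⟩ 0 0) (.cut .d (-524288) (.void 31 ⟨0, 0, 0, 0, 0, 100000, 0, 0, 0, ⟨0, 0⟩, 0⟩ 0 0) (.cut .d (-262144) (.void 31 ⟨0, 0, 0, 0, 0, 100000, 0, 0, 0, ⟨0, 0⟩, 0⟩ 0 0) (.cut .v 18874368 (.cut .v 17825792 (.cut .v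 17301504 (.cut .s 8323072 (.cut .d (-131072) (.cut .d (-196608) (.void 37 ⟨0, 0, 0, 0, 0, 100000, 0, 0, 0, ⟨0, 0⟩, 0⟩ 0 0) (.cut .v 17039360 (.cut .l 708371 (.void 39 ⟨0, 0, 0, 0, 0, 100000, 0, 0, 0, ⟨0, 0⟩, 0⟩ 0 0) (.cut .s 8192000 (.cut .v 16908288 (.pos 41 .mp ⟨0, 0, 0, 0, 0, 59349182, 0, 0, 0, ⟨0, 0⟩, 0⟩ 0 0) (.cut .s 8126464 (.cut .s 8093696 (.pos 42 .mp ⟨17716718, 0, 0, 0, 0, 37815553, 0, 0, 0, ⟨0, 0⟩, 0⟩ 0 0) (.cut .s 8110080 (.pos 42 .mp ⟨15139553, 0, 0, 0, 0, 42012441, 0, 0, 0, ⟨0, 0⟩, 0⟩ 0 0) (.pos 42 .mp ⟨15376793, 0, 0, 0, 0, 42453008, 0, 0, 0, ⟨0, 0⟩, 0⟩ 0 0))) (.cut .l 960029 (.pos 42 .mp ⟨16415775, 0, 0, 0, 0, 44125409, 0, 0, 0, ⟨0, 0⟩, 0⟩ 0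 0) (.cut .s 8159232 (.pos 42 .mp ⟨18060731, 0, 0, 0, 0, 40042026, 0, 0, 0, ⟨0, 0⟩, 0⟩ 0 0) (.cut .s 8175616 (.pos 42 .mp ⟨18349051, 0, 0, 0, 0, 40837857, 0, 0, 0, ⟨0, 0⟩, 0⟩ 0 0) (.pos 42 .mp ⟨18639522, 0, 0, 0, 0, 41245793, 0, 0, 0, ⟨0, 0⟩, 0⟩ 0 0)))))) (.cut .v 16908288 (.pos 41 .mp ⟨0, 0, 0, 0, 0, 65508720, 0, 0, 0, ⟨0, 0⟩, 0⟩ 0 0) (.cut .s 8257536 (.cut .l 960029 (.pos 42 .mp ⟨17422780, 0, 0, 0, 0, 46059257, 0, 0, 0, ⟨0, 0⟩, 0⟩ 0 0) (.cut .d (-163840) (.cut .s 8224768 (.pos 42 .mp ⟨17180396, 0, 0, 0, 0, 44810304, 0, 0, 0, ⟨0, 0⟩, 0⟩ 0 0) (.pos 42 .mp ⟨17712535, 0, 0, 0, 0, 45755099, 0, 0, 0, ⟨0, 0⟩, 0⟩ 0 0)) (.pos 42 .mp ⟨19126113, 0, 0, 0, 0, 41569751,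 0, 0, 0, ⟨0, 0⟩, 0⟩ 0 0))) (.cut .l 960029 (.pos 42 .mp ⟨18457874, 0, 0, 0, 0, 48084795, 0, 0, 0, ⟨0, 0⟩, 0⟩ 0 0) (.cut .d (-163840) (.cut .s 8290304 (.pos 42 .mp ⟨18252142, 0, 0, 0, 0, 46724196, 0, 0, 0, ⟨0, 0⟩, 0⟩ 0 0) (.pos 42 .mp ⟨18799290, 0, 0, 0, 0, 47717512, 0, 0, 0, ⟨0, 0⟩, 0⟩ 0 0)) (.pos 42 .mp ⟨20267024, 0, 0, 0, 0, 43339188, 0, 0, 0, ⟨0, 0⟩, 0⟩ 0 0))))))) (.pos 40 .mp ⟨59533003, 0, 0, 0, 0, 0, 0, 0, 0, ⟨0, 0⟩, 0⟩ 0 0))) (.cut .v 17039360 (.cut .s 8192000 (.cut .l 708371 (.cut .d (-65536) (.cut .l 456712 (.cut .s 8126464 (.pos 39 .mp ⟨16017081, 0, 0, 0, 0, 41835951, 0, 0, 0, ⟨0, 0⟩, 0⟩ 0 0) (.pos 39 .mp ⟨16926584, 0, 0, 0, 0, 43735793, 0, 0, 0,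 ⟨0, 0⟩, 0⟩ 0 0)) (.cut .d (-98304) (.cut .s 8126464 (.pos 39 .mp ⟨15509875, 0, 0, 0, 0, 42160465, 0, 0, 0, ⟨0, 0⟩, 0⟩ 0 0) (.pos 39 .mp ⟨16400892, 0, 0, 0, 0, 44099307, 0, 0, 0, ⟨0, 0⟩, 0⟩ 0 0)) (.cut .v 16908288 (.cut .v 16842752 (.pos 72 .mp ⟨0, 0, 0, 0, 0, 57599393, 0, 0, 0, ⟨0, 0⟩, 0⟩ 0 0) (.cut .l 582541 (.cut .s 8126464 (.pos 73 .mp ⟨15346195, 0, 0, 0, 0, 40663266, 0, 0, 0, ⟨0, 0⟩, 0⟩ 0 0) (.pos 73 .mp ⟨16250749, 0, 0, 0, 0, 42482127, 0, 0, 0, ⟨0, 0⟩, 0⟩ 0 0)) (.pos 73 .mp ⟨17765009, 0, 0, 0, 0, 37153496, 0, 0, 0, ⟨0, 0⟩, 0⟩ 0 0))) (.pos 42 .mp ⟨52700145, 0, 0, 0, 0, 0, 0, 0, 0, ⟨0, 0⟩, 0⟩ 0 0)))) (.cut .v 16908288 (.cut .l 456712 (.cut .d (-32768) (.cut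 .s 8126464 (.cut .s 8093696 (.cut .s 8077312 (.pos 41 .mp ⟨16465395, 0, 0, 0, 0, 37838639, 0, 0, 0, ⟨0, 0⟩, 0⟩ 0 0) (.pos 41 .mp ⟨16706252, 0, 0, 0, 0, 38230913, 0, 0, 0, ⟨0, 0⟩, 0⟩ 0 0)) (.cut .s 8110080 (.pos 41 .mp ⟨16948768, 0, 0, 0, 0, 38629348, 0, 0, 0, ⟨0, 0⟩, 0⟩ 0 0) (.pos 41 .mp ⟨17192951, 0, 0, 0, 0, 39033937, 0, 0, 0, ⟨0, 0⟩, 0⟩ 0 0))) (.cut .s 8159232 (.cut .s 8142848 (.pos 41 .mp ⟨17438810, 0, 0, 0, 0, 39444674, 0, 0, 0, ⟨0, 0⟩, 0⟩ 0 0) (.pos 41 .mp ⟨17686352, 0, 0, 0, 0, 39861549, 0, 0, 0, ⟨0, 0⟩, 0⟩ 0 0)) (.cut .s 8175616 (.pos 41 .mp ⟨17935586, 0, 0, 0, 0, 40284557, 0, 0, 0, ⟨0, 0⟩, 0⟩ 0 0) (.pos 41 .mp ⟨18186520, 0, 0, 0, 0, 40713689, 0, 0,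 0, ⟨0, 0⟩, 0⟩ 0 0)))) (.cut .s 8126464 (.pos 41 .mp ⟨16673818, 0, 0, 0, 0, 36666006, 0, 0, 0, ⟨0, 0⟩, 0⟩ 0 0) (.pos 41 .mp ⟨17598096, 0, 0, 0, 0, 38339766, 0, 0, 0, ⟨0, 0⟩, 0⟩ 0 0))) (.pos 41 .mp ⟨17351850, 0, 0, 0, 0, 0, 0, 0, 0, ⟨0, 0⟩, 0⟩ 0 0)) (.pos 42 .mp ⟨51488360, 0, 0, 0, 0, 0, 0, 0, 0, ⟨0, 0⟩, 0⟩ 0 0))) (.cut .d (-65536) (.cut .s 8126464 (.pos 39 .mp ⟨17118681, 0, 0, 0, 0, 37245221, 0, 0, 0, ⟨0, 0⟩, 0⟩ 0 0) (.cut .s 8159232 (.pos 39 .mp ⟨17634006, 0, 0, 0, 0, 39223776, 0, 0, 0, ⟨0, 0⟩, 0⟩ 0 0) (.pos 39 .mp ⟨18156683, 0, 0, 0, 0, 40040971, 0, 0, 0, ⟨0, 0⟩, 0⟩ 0 0))) (.pos 39 .mp ⟨0, 0, 0, 0, 0, 0, 0, 0, 0, ⟨0, 0⟩, 0⟩ 0 0))) (.cut .s 8257536 (.cut .l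 708371 (.cut .d (-65536) (.cut .d (-98304) (.pos 39 .mp ⟨17358094, 0, 0, 0, 0, 46258400, 0, 0, 0, ⟨0, 0⟩, 0⟩ 0 0) (.cut .l 456712 (.pos 39 .mp ⟨17860659, 0, 0, 0, 0, 45756710, 0, 0, 0, ⟨0, 0⟩, 0⟩ 0 0) (.cut .s 8224768 (.pos 39 .mp ⟨18714100, 0, 0, 0, 0, 41147376, 0, 0, 0, ⟨0, 0⟩, 0⟩ 0 0) (.pos 39 .mp ⟨18894331, 0, 0, 0, 0, 42557504, 0, 0, 0, ⟨0, 0⟩, 0⟩ 0 0)))) (.cut .v 16908288 (.cut .l 456712 (.cut .d (-32768) (.cut .s 8224768 (.cut .d (-49152) (.pos 41 .mp ⟨17468570, 0, 0, 0, 0, 43405078, 0, 0, 0, ⟨0, 0⟩, 0⟩ 0 0) (.cut .s 8208384 (.pos 41 .mp ⟨18234371, 0, 0, 0, 0, 41317922, 0, 0, 0, ⟨0, 0⟩, 0⟩ 0 0) (.pos 41 .mp ⟨18477906, 0, 0, 0, 0, 41770625, 0, 0, 0,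 ⟨0, 0⟩, 0⟩ 0 0))) (.cut .d (-49152) (.pos 41 .mp ⟨17929027, 0, 0, 0, 0, 44390844, 0, 0, 0, ⟨0, 0⟩, 0⟩ 0 0) (.cut .s 8241152 (.pos 41 .mp ⟨18723056, 0, 0, 0, 0, 42230011, 0, 0, 0, ⟨0, 0⟩, 0⟩ 0 0) (.pos 41 .mp ⟨18969829, 0, 0, 0, 0, 42696093, 0, 0, 0, ⟨0, 0⟩, 0⟩ 0 0)))) (.cut .s 8224768 (.pos 41 .mp ⟨18069271, 0, 0, 0, 0, 40545853, 0, 0, 0, ⟨0, 0⟩, 0⟩ 0 0) (.pos 41 .mp ⟨18546549, 0, 0, 0, 0, 41457055, 0, 0, 0, ⟨0, 0⟩, 0⟩ 0 0))) (.pos 41 .mp ⟨18335771, 0, 0, 0, 0, 0, 0, 0, 0, ⟨0, 0⟩, 0⟩ 0 0)) (.pos 42 .mp ⟨54833775, 0, 0, 0, 0, 0, 0, 0, 0, ⟨0, 0⟩, 0⟩ 0 0))) (.cut .d (-65536) (.cut .s 8224768 (.pos 39 .mp ⟨18686784, 0, 0, 0, 0, 40881882, 0, 0, 0, ⟨0, 0⟩, 0⟩ 0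 0) (.pos 39 .mp ⟨18882678, 0, 0, 0, 0, 42194011, 0, 0, 0, ⟨0, 0⟩, 0⟩ 0 0)) (.pos 39 .mp ⟨0, 0, 0, 0, 0, 0, 0, 0, 0, ⟨0, 0⟩, 0⟩ 0 0))) (.cut .l 708371 (.cut .d (-65536) (.cut .d (-98304) (.pos 39 .mp ⟨18367211, 0, 0, 0, 0, 48302056, 0, 0, 0, ⟨0, 0⟩, 0⟩ 0 0) (.cut .l 456712 (.pos 39 .mp ⟨18819789, 0, 0, 0, 0, 47902168, 0, 0, 0, ⟨0, 0⟩, 0⟩ 0 0) (.cut .s 8290304 (.pos 39 .mp ⟨19443400, 0, 0, 0, 0, 43439612, 0, 0, 0, ⟨0, 0⟩, 0⟩ 0 0) (.pos 39 .mp ⟨19999998, 0, 0, 0, 0, 44345043, 0, 0, 0, ⟨0, 0⟩, 0⟩ 0 0)))) (.cut .v 16908288 (.cut .l 456712 (.cut .d (-32768) (.cut .s 8290304 (.cut .d (-49152) (.pos 41 .mp ⟨18409760, 0, 0, 0, 0, 45382242, 0, 0, 0, ⟨0, 0⟩, 0⟩ 0 0)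 (.cut .s 8273920 (.pos 41 .mp ⟨19218233, 0, 0, 0, 0, 43168881, 0, 0, 0, ⟨0, 0⟩, 0⟩ 0 0) (.pos 41 .mp ⟨19287923, 0, 0, 0, 0, 43903849, 0, 0, 0, ⟨0, 0⟩, 0⟩ 0 0))) (.cut .d (-49152) (.pos 41 .mp ⟨18911889, 0, 0, 0, 0, 46377584, 0, 0, 0, ⟨0, 0⟩, 0⟩ 0 0) (.cut .s 8306688 (.pos 41 .mp ⟨19543318, 0, 0, 0, 0, 44385130, 0, 0, 0, ⟨0, 0⟩, 0⟩ 0 0) (.pos 41 .mp ⟨19800389, 0, 0, 0, 0, 44873111, 0, 0, 0, ⟨0, 0⟩, 0⟩ 0 0)))) (.cut .s 8290304 (.pos 41 .mp ⟨19029992, 0, 0, 0, 0, 42387234, 0, 0, 0, ⟨0, 0⟩, 0⟩ 0 0) (.pos 41 .mp ⟨19519662, 0, 0, 0, 0, 43335918, 0, 0, 0, ⟨0, 0⟩, 0⟩ 0 0))) (.pos 41 .mp ⟨19345814, 0, 0, 0, 0, 0, 0, 0, 0, ⟨0, 0⟩, 0⟩ 0 0)) (.pos 42 .mp ⟨57241903, 0,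 0, 0, 0, 0, 0, 0, 0, ⟨0, 0⟩, 0⟩ 0 0))) (.cut .d (-65536) (.cut .s 8290304 (.pos 39 .mp ⟨19443052, 0, 0, 0, 0, 43063149, 0, 0, 0, ⟨0, 0⟩, 0⟩ 0 0) (.pos 39 .mp ⟨20011247, 0, 0, 0, 0, 43955430, 0, 0, 0, ⟨0, 0⟩, 0⟩ 0 0)) (.pos 39 .mp ⟨0, 0, 0, 0, 0, 0, 0, 0, 0, ⟨0, 0⟩, 0⟩ 0 0))))) (.pos 40 .mp ⟨56204549, 0, 0, 0, 0, 0, 0, 0, 0, ⟨0, 0⟩, 0⟩ 0 0))) (.cut .d (-131072) (.cut .v 17039360 (.cut .d (-196608) (.void 39 ⟨0, 0, 0, 0, 0, 100000, 0, 0, 0, ⟨0, 0⟩, 0⟩ 0 0) (.cut .l 708371 (.void 39 ⟨0, 0, 0, 0, 0, 100000, 0, 0, 0, ⟨0, 0⟩, 0⟩ 0 0) (.cut .s 8454144 (.cut .v 16908288 (.pos 41 .mp ⟨0, 0, 0, 0, 0, 72230522, 0, 0, 0, ⟨0, 0⟩, 0⟩ 0 0) (.cut .s 8388608 (.cut .d (-163840)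 (.pos 42 .mp ⟨19354054, 0, 0, 0, 0, 50222088, 0, 0, 0, ⟨0, 0⟩, 0⟩ 0 0) (.cut .s 8355840 (.pos 42 .mp ⟨21635600, 0, 0, 0, 0, 45006360, 0, 0, 0, ⟨0, 0⟩, 0⟩ 0 0) (.pos 42 .mp ⟨22255124, 0, 0, 0, 0, 45943892, 0, 0, 0, ⟨0, 0⟩, 0⟩ 0 0))) (.cut .s 8421376 (.pos 42 .mp ⟨19662463, 0, 0, 0, 0, 51493751, 0, 0, 0, ⟨0, 0⟩, 0⟩ 0 0) (.pos 42 .mp ⟨20199077, 0, 0, 0, 0, 52625272, 0, 0, 0, ⟨0, 0⟩, 0⟩ 0 0)))) (.cut .s 8519680 (.cut .s 8486912 (.pos 39 .mp ⟨20627203, 0, 0, 0, 0, 53906775, 0, 0, 0, ⟨0, 0⟩, 0⟩ 0 0) (.pos 39 .mp ⟨21175642, 0, 0, 0, 0, 55092282, 0, 0, 0, ⟨0, 0⟩, 0⟩ 0 0)) (.pos 39 .mp ⟨21731265, 0, 0, 0, 0, 57522095, 0, 0, 0, ⟨0, 0⟩, 0⟩ 0 0))))) (.pos 40 .mp ⟨74958121,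 0, 0, 0, 0, 0, 0, 0, 0, ⟨0, 0⟩, 0⟩ 0 0)) (.cut .v 17039360 (.cut .s 8454144 (.cut .s 8388608 (.cut .l 708371 (.cut .v 16908288 (.cut .d (-65536) (.cut .s 8355840 (.cut .s 8339456 (.pos 41 .mp ⟨18802655, 0, 0, 0, 0, 47751144, 0, 0, 0, ⟨0, 0⟩, 0⟩ 0 0) (.pos 41 .mp ⟨19041923, 0, 0, 0, 0, 48300456, 0, 0, 0, ⟨0, 0⟩, 0⟩ 0 0)) (.pos 41 .mp ⟨18933663, 0, 0, 0, 0, 49787784, 0, 0, 0, ⟨0, 0⟩, 0⟩ 0 0)) (.cut .l 456712 (.cut .d (-32768) (.cut .s 8355840 (.cut .s 8339456 (.pos 41 .mp ⟨20522807, 0, 0, 0, 0, 44850028, 0, 0, 0, ⟨0, 0⟩, 0⟩ 0 0) (.pos 41 .mp ⟨20791206, 0, 0, 0, 0, 45339911, 0, 0, 0, ⟨0, 0⟩, 0⟩ 0 0)) (.cut .s 8372224 (.pos 41 .mp ⟨19673403, 0, 0, 0, 0, 47826378,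 0, 0, 0, ⟨0, 0⟩, 0⟩ 0 0) (.pos 41 .mp ⟨19947450, 0, 0, 0, 0, 48327257, 0, 0, 0, ⟨0, 0⟩, 0⟩ 0 0))) (.cut .s 8355840 (.pos 41 .mp ⟨20015621, 0, 0, 0, 0, 44302640, 0, 0, 0, ⟨0, 0⟩, 0⟩ 0 0) (.pos 41 .mp ⟨20517933, 0, 0, 0, 0, 45286936, 0, 0, 0, ⟨0, 0⟩, 0⟩ 0 0))) (.pos 41 .mp ⟨20382505, 0, 0, 0, 0, 0, 0, 0, 0, ⟨0, 0⟩, 0⟩ 0 0))) (.pos 42 .mp ⟨66350249, 0, 0, 0, 0, 0, 0, 0, 0, ⟨0, 0⟩, 0⟩ 0 0)) (.cut .d (-65536) (.cut .s 8355840 (.pos 39 .mp ⟨20587342, 0, 0, 0, 0, 44870761, 0, 0, 0, ⟨0, 0⟩, 0⟩ 0 0) (.pos 39 .mp ⟨21171417, 0, 0, 0, 0, 45809041, 0, 0, 0, ⟨0, 0⟩, 0⟩ 0 0)) (.pos 39 .mp ⟨0, 0, 0, 0, 0, 0, 0, 0, 0, ⟨0, 0⟩, 0⟩ 0 0))) (.cut .l 708371 (.cut .v 16908288 (.cut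 .d (-65536) (.cut .s 8421376 (.pos 41 .mp ⟨19434965, 0, 0, 0, 0, 50898104, 0, 0, 0, ⟨0, 0⟩, 0⟩ 0 0) (.pos 41 .mp ⟨20004920, 0, 0, 0, 0, 51961616, 0, 0, 0, ⟨0, 0⟩, 0⟩ 0 0)) (.cut .l 456712 (.cut .d (-32768) (.cut .s 8421376 (.cut .s 8404992 (.pos 41 .mp ⟨20227696, 0, 0, 0, 0, 48827824, 0, 0, 0, ⟨0, 0⟩, 0⟩ 0 0) (.pos 41 .mp ⟨20514280, 0, 0, 0, 0, 49327863, 0, 0, 0, ⟨0, 0⟩, 0⟩ 0 0)) (.cut .s 8437760 (.pos 41 .mp ⟨20807340, 0, 0, 0, 0, 49827159, 0, 0, 0, ⟨0, 0⟩, 0⟩ 0 0) (.pos 41 .mp ⟨21107013, 0, 0, 0, 0, 50325495, 0, 0, 0, ⟨0, 0⟩, 0⟩ 0 0))) (.cut .s 8421376 (.pos 41 .mp ⟨21026663, 0, 0, 0, 0, 46288345, 0, 0, 0, ⟨0, 0⟩, 0⟩ 0 0) (.pos 41 .mp ⟨21541879, 0, 0, 0,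 0, 47306409, 0, 0, 0, ⟨0, 0⟩, 0⟩ 0 0))) (.pos 41 .mp ⟨20716583, 0, 0, 0, 0, 43487551, 0, 0, 0, ⟨0, 0⟩, 0⟩ 0 0))) (.pos 42 .mp ⟨69074935, 0, 0, 0, 0, 0, 0, 0, 0, ⟨0, 0⟩, 0⟩ 0 0)) (.cut .s 8421376 (.pos 39 .mp ⟨22027400, 0, 0, 0, 0, 45971893, 0, 0, 0, ⟨0, 0⟩, 0⟩ 0 0) (.pos 39 .mp ⟨22611552, 0, 0, 0, 0, 46936180, 0, 0, 0, ⟨0, 0⟩, 0⟩ 0 0)))) (.cut .s 8519680 (.cut .l 708371 (.cut .v 16908288 (.cut .d (-65536) (.cut .s 8486912 (.pos 41 .mp ⟨20729185, 0, 0, 0, 0, 52870423, 0, 0, 0, ⟨0, 0⟩, 0⟩ 0 0) (.pos 41 .mp ⟨21264634, 0, 0, 0, 0, 54081021, 0, 0, 0, ⟨0, 0⟩, 0⟩ 0 0)) (.cut .d (-32768) (.cut .l 456712 (.cut .s 8486912 (.cut .s 8470528 (.pos 41 .mp ⟨21413438, 0,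 0, 0, 0, 50822654, 0, 0, 0, ⟨0, 0⟩, 0⟩ 0 0) (.pos 41 .mp ⟨21726752, 0, 0, 0, 0, 51318420, 0, 0, 0, ⟨0, 0⟩, 0⟩ 0 0)) (.pos 41 .mp ⟨21248745, 0, 0, 0, 0, 53444987, 0, 0, 0, ⟨0, 0⟩, 0⟩ 0 0)) (.pos 41 .mp ⟨21587282, 0, 0, 0, 0, 49158976, 0, 0, 0, ⟨0, 0⟩, 0⟩ 0 0)) (.pos 41 .mp ⟨22592032, 0, 0, 0, 0, 47835051, 0, 0, 0, ⟨0, 0⟩, 0⟩ 0 0))) (.pos 42 .mp ⟨71866158, 0, 0, 0, 0, 0, 0, 0, 0, ⟨0, 0⟩, 0⟩ 0 0)) (.cut .s 8486912 (.pos 39 .mp ⟨23203739, 0, 0, 0, 0, 47914920, 0, 0, 0, ⟨0, 0⟩, 0⟩ 0 0) (.pos 39 .mp ⟨23804044, 0, 0, 0, 0, 48907628, 0, 0, 0, ⟨0, 0⟩, 0⟩ 0 0))) (.cut .l 708371 (.cut .v 16908288 (.cut .d (-65536) (.cut .s 8552448 (.pos 41 .mp ⟨21629301, 0, 0, 0, 0,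 55579675, 0, 0, 0, ⟨0, 0⟩, 0⟩ 0 0) (.pos 41 .mp ⟨22154934, 0, 0, 0, 0, 56894305, 0, 0, 0, ⟨0, 0⟩, 0⟩ 0 0)) (.cut .d (-32768) (.cut .s 8552448 (.pos 41 .mp ⟨24154624, 0, 0, 0, 0, 51104313, 0, 0, 0, ⟨0, 0⟩, 0⟩ 0 0) (.pos 41 .mp ⟨24741459, 0, 0, 0, 0, 52256706, 0, 0, 0, ⟨0, 0⟩, 0⟩ 0 0)) (.pos 41 .mp ⟨23668945, 0, 0, 0, 0, 49933564, 0, 0, 0, ⟨0, 0⟩, 0⟩ 0 0))) (.pos 42 .mp ⟨74719939, 0, 0, 0, 0, 0, 0, 0, 0, ⟨0, 0⟩, 0⟩ 0 0)) (.cut .s 8552448 (.pos 39 .mp ⟨24412549, 0, 0, 0, 0, 49913817, 0, 0, 0, ⟨0, 0⟩, 0⟩ 0 0) (.pos 39 .mp ⟨25029342, 0, 0, 0, 0, 50933003, 0, 0, 0, ⟨0, 0⟩, 0⟩ 0 0))))) (.pos 40 .mp ⟨66673461, 0, 0, 0, 0, 0, 0, 0, 0, ⟨0, 0⟩, 0⟩ 0 0)))) (.pos 38 .mp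 ⟨68943465, 0, 0, 0, 0, 0, 0, 0, 0, ⟨0, 0⟩, 0⟩ 0 0)) (.pos 36 .mp ⟨73960878, 0, 0, 0, 0, 0, 0, 0, 0, ⟨0, 0⟩, 0⟩ 0 0)) (.void 34 ⟨100000, 0, 0, 0, 0, 0, 0, 0, 0, ⟨0, 0⟩, 0⟩ 0 0))))))) (.void 32 ⟨100000, 0, 0, 0, 0, 0, 0, 0, 0, ⟨0, 0⟩, 0⟩ 0 0))) (.void 30 ⟨100000, 0, 0, 0, 0, 0, 0, 0, 0, ⟨0, 0⟩, 0⟩ 0 0)) (.void 71 ⟨100000, 0, 0, 0, 0, 0, 0, 0, 0, ⟨0, 0⟩, 0⟩ 0 0)) (.void 86 ⟨100000, 0, 0, 0, 0, 0, 0, 0, 0, ⟨0, 0⟩, 0⟩ 0 0))) (.cut .v 16777216 (.cut .v 8388608 (.cut .v 4194304 (.pos 4 .pm ⟨0, 0, 94500095, 0, 0, 0, 0, 0, 179662211, ⟨0, 0⟩, 3966728⟩ 0 0) (.pos 5 .pm ⟨0, 0, 0, 0, 0, 0, 0, 0, 3608190, ⟨0, 0⟩, 9975792⟩ 0 0)) (.cut .d 9070610 (.pos 3 .pm ⟨0, 0, 0, 0,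 0, 0, 0, 0, 0, ⟨0, 0⟩, 0⟩ 0 0) (.cut .d 13605915 (.pos 3 .pm ⟨0, 0, 0, 0, 0, 0, 0, 16777630, 0, ⟨4884682, 3240⟩, 0⟩ 189 283) (.cut .d 15873567 (.cut .d 14739741 (.pos 3 .pm ⟨0, 54209480, 0, 0, 0, 0, 0, 3322621, 3996657, ⟨4887689, 0⟩, 14107901⟩ 253 313) (.pos 3 .pm ⟨0, 81342491, 0, 0, 0, 0, 0, 0, 6550799, ⟨0, 0⟩, 14107901⟩ 0 0)) (.void 3 ⟨0, 79268, 0, 0, 0, 0, 0, 0, 20732, ⟨0, 0⟩, 14107901⟩ 0 0))))) (.cut .v 67108864 (.cut .d 9070610 (.cut .d 4535305 (.cut .v 33554432 (.cut .v 25165824 (.cut .v 20971520 (.pos 31 .pp ⟨26289789, 0, 0, 0, 0, 0, 0, 0, 0, ⟨0, 0⟩, 0⟩ 0 0) (.pos 32 .pp ⟨48271564, 0, 0, 0, 0, 0, 0, 0, 0, ⟨0, 0⟩, 0⟩ 0 0)) (.pos 30 .pp ⟨68620564, 0,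 0, 0, 0, 0, 251248, 0, 0, ⟨0, 0⟩, 0⟩ 0 0)) (.cut .d 2267652 (.pos 71 .pp ⟨353764014, 0, 0, 0, 0, 0, 0, 0, 0, ⟨0, 0⟩, 0⟩ 0 0) (.pos 71 .pp ⟨48662316, 0, 0, 0, 0, 0, 1695721, 0, 0, ⟨0, 0⟩, 0⟩ 0 0))) (.pos 70 .pp ⟨0, 0, 0, 0, 0, 0, 3135783, 0, 0, ⟨0, 0⟩, 0⟩ 0 0)) (.cut .v 33554432 (.cut .d 13605915 (.pos 28 .pp ⟨0, 0, 0, 0, 0, 0, 0, 20133157, 0, ⟨4884682, 3240⟩, 0⟩ 189 283) (.cut .d 15873567 (.pos 28 .pp ⟨0, 61758090, 0, 0, 0, 0, 0, 15023087, 0, ⟨4887689, 0⟩, 0⟩ 253 348) (.void 28 ⟨0, 92327, 0, 0, 0, 0, 0, 0, 7673, ⟨0, 0⟩, 19951585⟩ 0 0))) (.pos 71 .pp ⟨0, 69254120, 0, 0, 0, 0, 2992721, 0, 0, ⟨0, 0⟩, 0⟩ 0 0))) (.cut .v 134217728 (.cut .d 9070610 (.cut .d 4535305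 (.cut .v 100663296 (.cut .v 83886080 (.pos 91 .pp ⟨633592382, 0, 0, 0, 0, 0, 0, 0, 0, ⟨0, 0⟩, 0⟩ 0 0) (.pos 92 .pp ⟨976749738, 0, 0, 0, 0, 0, 19990729, 0, 0, ⟨0, 0⟩, 0⟩ 0 0)) (.void 90 ⟨0, 0, 0, 0, 0, 0, 100000, 0, 0, ⟨0, 0⟩, 0⟩ 0 0)) (.pos 87 .pp ⟨0, 0, 0, 0, 0, 0, 165031698, 0, 0, ⟨0, 0⟩, 0⟩ 0 0)) (.void 87 ⟨0, 100000, 0, 0, 0, 0, 0, 0, 0, ⟨0, 0⟩, 0⟩ 0 0)) (.void 88 ⟨0, 0, 0, 0, 0, 0, 100000, 0, 0, ⟨0, 0⟩, 0⟩ 0 0))))),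
    by decide +kernel⟩

def covers10 : cell.Covers table row10.1 :=
  ⟨(.cut .d 0 (.cut .v 16777216 (.cut .d (-8388608) (.void 1 ⟨0, 0, 0, 0, 0, 100000, 0, 0, 0, ⟨0, 0⟩, 0⟩ 0 0) (.cut .d (-4194304) (.void 1 ⟨0, 0, 0, 0, 0, 100000, 0, 0, 0, ⟨0, 0⟩, 0⟩ 0 0) (.cut .d (-2097152) (.void 1 ⟨0, 0, 0, 0, 0, 100000, 0, 0, 0, ⟨0, 0⟩, 0⟩ 0 0) (.cut .d (-1048576) (.void 1 ⟨0, 0, 0, 0, 0, 100000, 0, 0, 0, ⟨0, 0⟩, 0⟩ 0 0) (.cut .d (-524288) (.void 1 ⟨0, 0, 0, 0, 0, 100000, 0, 0, 0, ⟨0, 0⟩, 0⟩ 0 0) (.cut .d (-262144) (.void 1 ⟨0, 0, 0, 0, 0, 100000, 0, 0, 0, ⟨0, 0⟩, 0⟩ 0 0) (.cut .v 8388608 (.cut .v 4194304 (.void 4 ⟨0, 0, 100000, 0, 0, 0, 0, 0, 0, ⟨0, 0⟩, 0⟩ 0 0) (.pos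 5 .mm ⟨0, 0, 0, 0, 0, 46716120, 0, 0, 0, ⟨0, 0⟩, 0⟩ 0 0)) (.cut .d (-131072) (.pos 3 .mm ⟨0, 0, 0, 0, 0, 106819774, 0, 0, 0, ⟨0, 0⟩, 0⟩ 0 0) (.cut .v 12582912 (.pos 8 .mm ⟨0, 0, 0, 0, 0, 55010288, 0, 0, 0, ⟨0, 0⟩, 0⟩ 0 0) (.cut .v 14680064 (.pos 12 .mm ⟨0, 0, 0, 0, 0, 72420539, 0, 0, 0, ⟨0, 0⟩, 0⟩ 0 0) (.cut .v 15728640 (.pos 16 .mm ⟨0, 0, 0, 0, 0, 82148638, 0, 0, 0, ⟨0, 0⟩, 0⟩ 0 0) (.cut .v 16252928 (.pos 20 .mm ⟨0, 0, 0, 0, 0, 87164468, 0, 0, 0, ⟨0, 0⟩, 0⟩ 0 0) (.cut .s 8814592 (.cut .s 8699904 (.pos 21 .mm ⟨0, 0, 0, 0, 0, 83052695, 0, 0, 0, ⟨0, 0⟩, 0⟩ 0 0) (.pos 21 .mm ⟨0, 0, 0, 0, 0, 89855911, 0, 0, 0, ⟨0, 0⟩, 0⟩ 0 0)) (.cut .s 8929280 (.pos 21 .mm ⟨0,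 0, 0, 0, 0, 97084508, 0, 0, 0, ⟨0, 0⟩, 0⟩ 0 0) (.pos 21 .mm ⟨0, 0, 0, 0, 0, 104722425, 0, 0, 0, ⟨0, 0⟩, 0⟩ 0 0))))))))))))))) (.cut .v 67108864 (.cut .v 33554432 (.cut .v 25165824 (.cut .d (-8388608) (.void 29 ⟨0, 0, 0, 0, 0, 100000, 0, 0, 0, ⟨0, 0⟩, 0⟩ 0 0) (.cut .v 20971520 (.cut .d (-4194304) (.void 31 ⟨0, 0, 0, 0, 0, 100000, 0, 0, 0, ⟨0, 0⟩, 0⟩ 0 0) (.cut .d (-2097152) (.void 31 ⟨0, 0, 0, 0, 0, 100000, 0, 0, 0, ⟨0, 0⟩, 0⟩ 0 0) (.cut .d (-1048576) (.void 31 ⟨0, 0, 0, 0, 0, 100000, 0, 0, 0, ⟨0, 0⟩, 0⟩ 0 0) (.cut .d (-524288) (.void 31 ⟨0, 0, 0, 0, 0, 100000, 0, 0, 0, ⟨0, 0⟩, 0⟩ 0 0) (.cut .d (-262144) (.void 31 ⟨0, 0, 0, 0, 0, 100000, 0, 0, 0, ⟨0, 0⟩, 0⟩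 0 0) (.cut .v 18874368 (.cut .v 17825792 (.cut .v 17301504 (.cut .d (-131072) (.cut .v 17039360 (.cut .d (-196608) (.void 39 ⟨0, 0, 0, 0, 0, 100000, 0, 0, 0, ⟨0, 0⟩, 0⟩ 0 0) (.cut .l 708371 (.void 39 ⟨0, 0, 0, 0, 0, 100000, 0, 0, 0, ⟨0, 0⟩, 0⟩ 0 0) (.cut .d (-163840) (.pos 39 .mp ⟨23883978, 0, 0, 0, 0, 88531268, 0, 0, 0, ⟨0, 0⟩, 0⟩ 0 0) (.cut .l 960029 (.pos 39 .mp ⟨23944548, 0, 0, 0, 0, 94098146, 0, 0, 0, ⟨0, 0⟩, 0⟩ 0 0) (.cut .s 8814592 (.cut .v 16908288 (.pos 41 .mp ⟨0, 0, 0, 0, 0, 90664771, 0, 0, 0, ⟨0, 0⟩, 0⟩ 0 0) (.cut .s 8699904 (.pos 42 .mp ⟨27473701, 0, 0, 0, 0, 55437426, 0, 0, 0, ⟨0, 0⟩, 0⟩ 0 0) (.cut .s 8757248 (.pos 42 .mp ⟨28716257, 0, 0, 0, 0,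 58362200, 0, 0, 0, ⟨0, 0⟩, 0⟩ 0 0) (.cut .s 8785920 (.pos 42 .mp ⟨26221850, 0, 0, 0, 0, 64479474, 0, 0, 0, ⟨0, 0⟩, 0⟩ 0 0) (.pos 42 .mp ⟨26779819, 0, 0, 0, 0, 65577772, 0, 0, 0, ⟨0, 0⟩, 0⟩ 0 0))))) (.cut .v 16908288 (.pos 41 .mp ⟨0, 0, 0, 0, 0, 105266051, 0, 0, 0, ⟨0, 0⟩, 0⟩ 0 0) (.cut .s 8929280 (.cut .s 8871936 (.cut .s 8843264 (.pos 42 .mp ⟨27343415, 0, 0, 0, 0, 66701559, 0, 0, 0, ⟨0, 0⟩, 0⟩ 0 0) (.pos 42 .mp ⟨27912694, 0, 0, 0, 0, 67850772, 0, 0, 0, ⟨0, 0⟩, 0⟩ 0 0)) (.cut .s 8900608 (.pos 42 .mp ⟨28487712, 0, 0, 0, 0, 69025343, 0, 0, 0, ⟨0, 0⟩, 0⟩ 0 0) (.pos 42 .mp ⟨29068528, 0, 0, 0, 0, 70225203, 0, 0, 0, ⟨0, 0⟩, 0⟩ 0 0))) (.cut .d (-147456) (.pos 42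 .mp ⟨30458911, 0, 0, 0, 0, 76085031, 0, 0, 0, ⟨0, 0⟩, 0⟩ 0 0) (.cut .s 8986624 (.cut .s 8957952 (.pos 42 .mp ⟨32428126, 0, 0, 0, 0, 66623519, 0, 0, 0, ⟨0, 0⟩, 0⟩ 0 0) (.pos 42 .mp ⟨30247781, 0, 0, 0, 0, 72334758, 0, 0, 0, ⟨0, 0⟩, 0⟩ 0 0)) (.pos 42 .mp ⟨30846352, 0, 0, 0, 0, 74781603, 0, 0, 0, ⟨0, 0⟩, 0⟩ 0 0)))))))))) (.pos 40 .mp ⟨98853616, 0, 0, 0, 0, 0, 0, 0, 0, ⟨0, 0⟩, 0⟩ 0 0)) (.cut .s 8814592 (.cut .v 17039360 (.cut .s 8699904 (.cut .s 8642560 (.cut .s 8613888 (.cut .v 16908288 (.cut .d (-65536) (.pos 41 .mp ⟨22640826, 0, 0, 0, 0, 57506386, 0, 0, 0, ⟨0, 0⟩, 0⟩ 0 0) (.cut .d (-32768) (.pos 41 .mp ⟨25160271, 0, 0, 0, 0, 53641123, 0, 0, 0, ⟨0, 0⟩, 0⟩ 0 0)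 (.pos 41 .mp ⟨24151485, 0, 0, 0, 0, 52964410, 0, 0, 0, ⟨0, 0⟩, 0⟩ 0 0))) (.pos 42 .mp ⟨36979389, 0, 0, 0, 0, 40969120, 0, 0, 0, ⟨0, 0⟩, 0⟩ 0 0)) (.cut .v 16908288 (.cut .d (-65536) (.pos 41 .mp ⟨22637306, 0, 0, 0, 0, 59060351, 0, 0, 0, ⟨0, 0⟩, 0⟩ 0 0) (.cut .d (-32768) (.pos 41 .mp ⟨25792323, 0, 0, 0, 0, 54334485, 0, 0, 0, ⟨0, 0⟩, 0⟩ 0 0) (.pos 41 .mp ⟨24638728, 0, 0, 0, 0, 53941608, 0, 0, 0, ⟨0, 0⟩, 0⟩ 0 0))) (.pos 42 .mp ⟨36930126, 0, 0, 0, 0, 42482817, 0, 0, 0, ⟨0, 0⟩, 0⟩ 0 0))) (.cut .s 8671232 (.cut .v 16908288 (.cut .d (-65536) (.pos 41 .mp ⟨22667666, 0, 0, 0, 0, 60608113, 0, 0, 0, ⟨0, 0⟩, 0⟩ 0 0) (.cut .d (-32768) (.pos 41 .mp ⟨26326034, 0, 0, 0, 0,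 55192228, 0, 0, 0, ⟨0, 0⟩, 0⟩ 0 0) (.pos 41 .mp ⟨25130651, 0, 0, 0, 0, 54938499, 0, 0, 0, ⟨0, 0⟩, 0⟩ 0 0))) (.pos 42 .mp ⟨36935943, 0, 0, 0, 0, 43968975, 0, 0, 0, ⟨0, 0⟩, 0⟩ 0 0)) (.cut .v 16908288 (.cut .d (-65536) (.pos 41 .mp ⟨22734118, 0, 0, 0, 0, 62146765, 0, 0, 0, ⟨0, 0⟩, 0⟩ 0 0) (.cut .d (-32768) (.cut .s 8685568 (.pos 41 .mp ⟨25736634, 0, 0, 0, 0, 57358689, 0, 0, 0, ⟨0, 0⟩, 0⟩ 0 0) (.pos 41 .mp ⟨26132502, 0, 0, 0, 0, 57647105, 0, 0, 0, ⟨0, 0⟩, 0⟩ 0 0)) (.pos 41 .mp ⟨25627302, 0, 0, 0, 0, 55954713, 0, 0, 0, ⟨0, 0⟩, 0⟩ 0 0))) (.pos 42 .mp ⟨37000986, 0, 0, 0, 0, 45422477, 0, 0, 0, ⟨0, 0⟩, 0⟩ 0 0)))) (.cut .s 8757248 (.cut .d (-65536) (.cut .l 708371 (.cut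 .s 8728576 (.pos 39 .mp ⟨24960299, 0, 0, 0, 0, 62378875, 0, 0, 0, ⟨0, 0⟩, 0⟩ 0 0) (.cut .s 8742912 (.pos 39 .mp ⟨25574161, 0, 0, 0, 0, 62576483, 0, 0, 0, ⟨0, 0⟩, 0⟩ 0 0) (.pos 39 .mp ⟨25768071, 0, 0, 0, 0, 63214811, 0, 0, 0, ⟨0, 0⟩, 0⟩ 0 0))) (.cut .s 8728576 (.pos 39 .mp ⟨27771444, 0, 0, 0, 0, 56707268, 0, 0, 0, ⟨0, 0⟩, 0⟩ 0 0) (.cut .s 8742912 (.pos 39 .mp ⟨28072634, 0, 0, 0, 0, 57744431, 0, 0, 0, ⟨0, 0⟩, 0⟩ 0 0) (.pos 39 .mp ⟨28375457, 0, 0, 0, 0, 58210518, 0, 0, 0, ⟨0, 0⟩, 0⟩ 0 0)))) (.cut .v 16908288 (.cut .l 708371 (.cut .l 456712 (.cut .d (-32768) (.cut .s 8728576 (.pos 41 .mp ⟨25049587, 0, 0, 0, 0, 60707944, 0, 0, 0, ⟨0, 0⟩, 0⟩ 0 0) (.cut .s 8742912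 (.pos 41 .mp ⟨26026090, 0, 0, 0, 0, 60509334, 0, 0, 0, ⟨0, 0⟩, 0⟩ 0 0) (.pos 41 .mp ⟨26217375, 0, 0, 0, 0, 61131543, 0, 0, 0, ⟨0, 0⟩, 0⟩ 0 0))) (.cut .d (-16384) (.cut .s 8728576 (.pos 41 .mp ⟨26128726, 0, 0, 0, 0, 57415581, 0, 0, 0, ⟨0, 0⟩, 0⟩ 0 0) (.cut .s 8742912 (.pos 41 .mp ⟨26381243, 0, 0, 0, 0, 58437205, 0, 0, 0, ⟨0, 0⟩, 0⟩ 0 0) (.pos 41 .mp ⟨26634970, 0, 0, 0, 0, 58973209, 0, 0, 0, ⟨0, 0⟩, 0⟩ 0 0))) (.pos 41 .mp ⟨25439334, 0, 0, 0, 0, 0, 0, 0, 0, ⟨0, 0⟩, 0⟩ 0 0))) (.pos 41 .mp ⟨26768731, 0, 0, 0, 0, 56509275, 0, 0, 0, ⟨0, 0⟩, 0⟩ 0 0)) (.pos 41 .mp ⟨0, 0, 0, 0, 0, 0, 0, 0, 0, ⟨0, 0⟩, 0⟩ 0 0)) (.pos 42 .mp ⟨74794607, 0, 0, 0, 0, 0, 0, 0, 0, ⟨0, 0⟩, 0⟩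 0 0))) (.cut .d (-65536) (.cut .l 708371 (.cut .v 16908288 (.cut .s 8785920 (.pos 41 .mp ⟨25645492, 0, 0, 0, 0, 64135181, 0, 0, 0, ⟨0, 0⟩, 0⟩ 0 0) (.pos 41 .mp ⟨26098195, 0, 0, 0, 0, 65321986, 0, 0, 0, ⟨0, 0⟩, 0⟩ 0 0)) (.pos 42 .mp ⟨87546726, 0, 0, 0, 0, 0, 0, 0, 0, ⟨0, 0⟩, 0⟩ 0 0)) (.cut .d (-98304) (.cut .v 16908288 (.pos 41 .mp ⟨12911962, 0, 0, 0, 0, 79342335, 0, 0, 0, ⟨0, 0⟩, 0⟩ 0 0) (.cut .s 8785920 (.pos 42 .mp ⟨29211434, 0, 0, 0, 0, 59429818, 0, 0, 0, ⟨0, 0⟩, 0⟩ 0 0) (.pos 42 .mp ⟨29815251, 0, 0, 0, 0, 60418129, 0, 0, 0, ⟨0, 0⟩, 0⟩ 0 0))) (.pos 39 .mp ⟨28178614, 0, 0, 0, 0, 59107588, 0, 0, 0, ⟨0, 0⟩, 0⟩ 0 0))) (.cut .v 16908288 (.cut .l 708371 (.cut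 .l 456712 (.cut .d (-32768) (.cut .d (-49152) (.pos 41 .mp ⟨26227103, 0, 0, 0, 0, 65093709, 0, 0, 0, ⟨0, 0⟩, 0⟩ 0 0) (.cut .v 16842752 (.cut .s 8785920 (.pos 72 .mp ⟨26057604, 0, 0, 0, 0, 62377642, 0, 0, 0, ⟨0, 0⟩, 0⟩ 0 0) (.pos 72 .mp ⟨26407295, 0, 0, 0, 0, 63688417, 0, 0, 0, ⟨0, 0⟩, 0⟩ 0 0)) (.pos 73 .mp ⟨45247941, 0, 0, 0, 0, 40742280, 0, 0, 0, ⟨0, 0⟩, 0⟩ 0 0))) (.cut .d (-16384) (.cut .d (-24576) (.cut .s 8785920 (.pos 41 .mp ⟨27054099, 0, 0, 0, 0, 60505582, 0, 0, 0, ⟨0, 0⟩, 0⟩ 0 0) (.cut .s 8800256 (.pos 41 .mp ⟨27062660, 0, 0, 0, 0, 62181248, 0, 0, 0, ⟨0, 0⟩, 0⟩ 0 0) (.pos 41 .mp ⟨27329471, 0, 0, 0, 0, 62707209, 0, 0, 0, ⟨0, 0⟩, 0⟩ 0 0))) (.pos 41 .mp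 ⟨27296697, 0, 0, 0, 0, 0, 0, 0, 0, ⟨0, 0⟩, 0⟩ 0 0)) (.pos 41 .mp ⟨26387526, 0, 0, 0, 0, 0, 0, 0, 0, ⟨0, 0⟩, 0⟩ 0 0))) (.pos 41 .mp ⟨27847357, 0, 0, 0, 0, 58571272, 0, 0, 0, ⟨0, 0⟩, 0⟩ 0 0)) (.pos 41 .mp ⟨0, 0, 0, 0, 0, 0, 0, 0, 0, ⟨0, 0⟩, 0⟩ 0 0)) (.pos 42 .mp ⟨77223988, 0, 0, 0, 0, 0, 0, 0, 0, ⟨0, 0⟩, 0⟩ 0 0))))) (.pos 40 .mp ⟨78279737, 0, 0, 0, 0, 0, 0, 0, 0, ⟨0, 0⟩, 0⟩ 0 0)) (.cut .v 17039360 (.cut .s 8929280 (.cut .s 8871936 (.cut .d (-65536) (.cut .l 708371 (.cut .v 16908288 (.cut .s 8843264 (.pos 41 .mp ⟨26620255, 0, 0, 0, 0, 66473817, 0, 0, 0, ⟨0, 0⟩, 0⟩ 0 0) (.pos 41 .mp ⟨27147259, 0, 0, 0, 0, 67652007, 0, 0, 0, ⟨0, 0⟩, 0⟩ 0 0)) (.pos 42 .mp ⟨90414045,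 0, 0, 0, 0, 0, 0, 0, 0, ⟨0, 0⟩, 0⟩ 0 0)) (.cut .d (-98304) (.cut .l 960029 (.cut .s 8843264 (.pos 39 .mp ⟨27103267, 0, 0, 0, 0, 66685528, 0, 0, 0, ⟨0, 0⟩, 0⟩ 0 0) (.pos 39 .mp ⟨27635613, 0, 0, 0, 0, 67879555, 0, 0, 0, ⟨0, 0⟩, 0⟩ 0 0)) (.pos 39 .mp ⟨29582845, 0, 0, 0, 0, 61056357, 0, 0, 0, ⟨0, 0⟩, 0⟩ 0 0)) (.pos 39 .mp ⟨29321065, 0, 0, 0, 0, 61128039, 0, 0, 0, ⟨0, 0⟩, 0⟩ 0 0))) (.cut .l 708371 (.cut .v 16908288 (.cut .l 456712 (.cut .d (-32768) (.cut .d (-49152) (.pos 41 .mp ⟨27237464, 0, 0, 0, 0, 67400089, 0, 0, 0, ⟨0, 0⟩, 0⟩ 0 0) (.cut .v 16842752 (.cut .s 8843264 (.pos 72 .mp ⟨26791924, 0, 0, 0, 0, 64986524, 0, 0, 0, ⟨0, 0⟩, 0⟩ 0 0) (.cut .s 8857600 (.pos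 72 .mp ⟨28393899, 0, 0, 0, 0, 64172390, 0, 0, 0, ⟨0, 0⟩, 0⟩ 0 0) (.pos 72 .mp ⟨28651158, 0, 0, 0, 0, 64752448, 0, 0, 0, ⟨0, 0⟩, 0⟩ 0 0))) (.pos 73 .mp ⟨46332570, 0, 0, 0, 0, 42802428, 0, 0, 0, ⟨0, 0⟩, 0⟩ 0 0))) (.cut .d (-16384) (.cut .d (-24576) (.cut .v 16842752 (.cut .v 16809984 (.pos 82 .mp ⟨0, 0, 0, 0, 0, 94312744, 0, 0, 0, ⟨0, 0⟩, 0⟩ 0 0) (.cut .s 8843264 (.pos 83 .mp ⟨28174247, 0, 0, 0, 0, 62765323, 0, 0, 0, ⟨0, 0⟩, 0⟩ 0 0) (.cut .s 8857600 (.pos 83 .mp ⟨27921129, 0, 0, 0, 0, 64468149, 0, 0, 0, ⟨0, 0⟩, 0⟩ 0 0) (.pos 83 .mp ⟨28171691, 0, 0, 0, 0, 65066548, 0, 0, 0, ⟨0, 0⟩, 0⟩ 0 0)))) (.pos 73 .mp ⟨79288933, 0, 0, 0, 0, 0, 0, 0, 0, ⟨0, 0⟩, 0⟩ 0 0)) (.pos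 41 .mp ⟨28324075, 0, 0, 0, 0, 0, 0, 0, 0, ⟨0, 0⟩, 0⟩ 0 0)) (.pos 41 .mp ⟨27353054, 0, 0, 0, 0, 0, 0, 0, 0, ⟨0, 0⟩, 0⟩ 0 0))) (.pos 41 .mp ⟨28947501, 0, 0, 0, 0, 60701720, 0, 0, 0, ⟨0, 0⟩, 0⟩ 0 0)) (.pos 42 .mp ⟨80665040, 0, 0, 0, 0, 0, 0, 0, 0, ⟨0, 0⟩, 0⟩ 0 0)) (.pos 39 .mp ⟨0, 0, 0, 0, 0, 0, 0, 0, 0, ⟨0, 0⟩, 0⟩ 0 0))) (.cut .d (-65536) (.cut .l 708371 (.cut .v 16908288 (.cut .s 8900608 (.pos 41 .mp ⟨27679256, 0, 0, 0, 0, 68856502, 0, 0, 0, ⟨0, 0⟩, 0⟩ 0 0) (.pos 41 .mp ⟨28216298, 0, 0, 0, 0, 70087244, 0, 0, 0, ⟨0, 0⟩, 0⟩ 0 0)) (.pos 42 .mp ⟨93343241, 0, 0, 0, 0, 0, 0, 0, 0, ⟨0, 0⟩, 0⟩ 0 0)) (.cut .d (-98304) (.cut .l 960029 (.cut .s 8900608 (.pos 39 .mp ⟨28173172,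 0, 0, 0, 0, 69099776, 0, 0, 0, ⟨0, 0⟩, 0⟩ 0 0) (.pos 39 .mp ⟨28715997, 0, 0, 0, 0, 70346131, 0, 0, 0, ⟨0, 0⟩, 0⟩ 0 0)) (.pos 39 .mp ⟨30817754, 0, 0, 0, 0, 63085056, 0, 0, 0, ⟨0, 0⟩, 0⟩ 0 0)) (.pos 39 .mp ⟨30486962, 0, 0, 0, 0, 63255610, 0, 0, 0, ⟨0, 0⟩, 0⟩ 0 0))) (.cut .v 16908288 (.cut .l 708371 (.cut .l 456712 (.cut .d (-32768) (.cut .d (-49152) (.pos 41 .mp ⟨28209253, 0, 0, 0, 0, 69941294, 0, 0, 0, ⟨0, 0⟩, 0⟩ 0 0) (.cut .v 16842752 (.cut .v 16809984 (.pos 82 .mp ⟨0, 0, 0, 0, 0, 102503610, 0, 0, 0, ⟨0, 0⟩, 0⟩ 0 0) (.cut .l 330883 (.cut .s 8900608 (.pos 83 .mp ⟨28977592, 0, 0, 0, 0, 66154025, 0, 0, 0, ⟨0, 0⟩, 0⟩ 0 0) (.pos 83 .mp ⟨29494917, 0, 0, 0, 0, 67376376,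 0, 0, 0, ⟨0, 0⟩, 0⟩ 0 0)) (.pos 83 .mp ⟨27418116, 0, 0, 0, 0, 67640857, 0, 0, 0, ⟨0, 0⟩, 0⟩ 0 0))) (.pos 73 .mp ⟨47753864, 0, 0, 0, 0, 44598422, 0, 0, 0, ⟨0, 0⟩, 0⟩ 0 0))) (.cut .d (-16384) (.cut .d (-24576) (.cut .v 16842752 (.cut .v 16809984 (.pos 82 .mp ⟨0, 0, 0, 0, 0, 97954723, 0, 0, 0, ⟨0, 0⟩, 0⟩ 0 0) (.cut .v 16826368 (.cut .l 330883 (.cut .l 267968 (.cut .s 8900608 (.pos 93 .mp ⟨27994310, 0, 0, 0, 0, 66739047, 0, 0, 0, ⟨0, 0⟩, 0⟩ 0 0) (.pos 93 .mp ⟨28505314, 0, 0, 0, 0, 67953999, 0, 0, 0, ⟨0, 0⟩, 0⟩ 0 0)) (.pos 93 .mp ⟨29417148, 0, 0, 0, 0, 0, 0, 0, 0, ⟨0, 0⟩, 0⟩ 0 0)) (.pos 93 .mp ⟨0, 0, 0, 0, 0, 0, 0, 0, 0, ⟨0, 0⟩, 0⟩ 0 0)) (.pos 94 .mp ⟨81743722,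 0, 0, 0, 0, 0, 0, 0, 0, ⟨0, 0⟩, 0⟩ 0 0))) (.pos 73 .mp ⟨81915387, 0, 0, 0, 0, 0, 0, 0, 0, ⟨0, 0⟩, 0⟩ 0 0)) (.pos 41 .mp ⟨29416253, 0, 0, 0, 0, 0, 0, 0, 0, ⟨0, 0⟩, 0⟩ 0 0)) (.pos 41 .mp ⟨28336263, 0, 0, 0, 0, 0, 0, 0, 0, ⟨0, 0⟩, 0⟩ 0 0))) (.pos 41 .mp ⟨30069594, 0, 0, 0, 0, 62897711, 0, 0, 0, ⟨0, 0⟩, 0⟩ 0 0)) (.pos 41 .mp ⟨0, 0, 0, 0, 0, 0, 0, 0, 0, ⟨0, 0⟩, 0⟩ 0 0)) (.pos 42 .mp ⟨82419764, 0, 0, 0, 0, 0, 0, 0, 0, ⟨0, 0⟩, 0⟩ 0 0)))) (.cut .s 8986624 (.cut .d (-65536) (.cut .l 708371 (.cut .v 16908288 (.cut .s 8957952 (.pos 41 .mp ⟨28758435, 0, 0, 0, 0, 71344173, 0, 0, 0, ⟨0, 0⟩, 0⟩ 0 0) (.pos 41 .mp ⟨29305719, 0, 0, 0, 0, 72627226, 0, 0, 0, ⟨0, 0⟩, 0⟩ 0 0))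 (.pos 42 .mp ⟨96331286, 0, 0, 0, 0, 0, 0, 0, 0, ⟨0, 0⟩, 0⟩ 0 0)) (.cut .d (-98304) (.cut .l 960029 (.cut .s 8957952 (.pos 39 .mp ⟨29172230, 0, 0, 0, 0, 71763882, 0, 0, 0, ⟨0, 0⟩, 0⟩ 0 0) (.pos 39 .mp ⟨29749385, 0, 0, 0, 0, 73025084, 0, 0, 0, ⟨0, 0⟩, 0⟩ 0 0)) (.pos 39 .mp ⟨31961226, 0, 0, 0, 0, 65460665, 0, 0, 0, ⟨0, 0⟩, 0⟩ 0 0)) (.pos 39 .mp ⟨31692922, 0, 0, 0, 0, 65469306, 0, 0, 0, ⟨0, 0⟩, 0⟩ 0 0))) (.cut .v 16908288 (.cut .l 708371 (.cut .l 456712 (.cut .d (-32768) (.cut .d (-49152) (.pos 41 .mp ⟨29274461, 0, 0, 0, 0, 72499935, 0, 0, 0, ⟨0, 0⟩, 0⟩ 0 0) (.cut .v 16842752 (.cut .s 8957952 (.pos 72 .mp ⟨28709897, 0, 0, 0, 0, 70007993, 0, 0, 0, ⟨0, 0⟩, 0⟩ 0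 0) (.pos 72 .mp ⟨28956184, 0, 0, 0, 0, 71743434, 0, 0, 0, ⟨0, 0⟩, 0⟩ 0 0)) (.pos 73 .mp ⟨49546190, 0, 0, 0, 0, 46084845, 0, 0, 0, ⟨0, 0⟩, 0⟩ 0 0))) (.cut .d (-16384) (.cut .d (-24576) (.cut .v 16842752 (.cut .v 16809984 (.pos 82 .mp ⟨0, 0, 0, 0, 0, 101695227, 0, 0, 0, ⟨0, 0⟩, 0⟩ 0 0) (.cut .s 8957952 (.pos 83 .mp ⟨30298948, 0, 0, 0, 0, 67441038, 0, 0, 0, ⟨0, 0⟩, 0⟩ 0 0) (.pos 83 .mp ⟨30842989, 0, 0, 0, 0, 68688044, 0, 0, 0, ⟨0, 0⟩, 0⟩ 0 0))) (.pos 73 .mp ⟨84655534, 0, 0, 0, 0, 0, 0, 0, 0, ⟨0, 0⟩, 0⟩ 0 0)) (.pos 41 .mp ⟨30437663, 0, 0, 0, 0, 45789897, 0, 0, 0, ⟨0, 0⟩, 0⟩ 0 0)) (.pos 41 .mp ⟨29337505, 0, 0, 0, 0, 0, 0, 0, 0, ⟨0, 0⟩, 0⟩ 0 0))) (.pos 41 .mp ⟨31214083,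 0, 0, 0, 0, 65156363, 0, 0, 0, ⟨0, 0⟩, 0⟩ 0 0)) (.pos 41 .mp ⟨0, 0, 0, 0, 0, 0, 0, 0, 0, ⟨0, 0⟩, 0⟩ 0 0)) (.pos 42 .mp ⟨85189996, 0, 0, 0, 0, 0, 0, 0, 0, ⟨0, 0⟩, 0⟩ 0 0))) (.cut .d (-65536) (.cut .l 708371 (.cut .s 9015296 (.cut .s 9000960 (.pos 39 .mp ⟨30021076, 0, 0, 0, 0, 73972898, 0, 0, 0, ⟨0, 0⟩, 0⟩ 0 0) (.pos 39 .mp ⟨30292252, 0, 0, 0, 0, 74662922, 0, 0, 0, ⟨0, 0⟩, 0⟩ 0 0)) (.pos 39 .mp ⟨30564715, 0, 0, 0, 0, 76203952, 0, 0, 0, ⟨0, 0⟩, 0⟩ 0 0)) (.cut .d (-98304) (.cut .v 16908288 (.pos 41 .mp ⟨0, 0, 0, 0, 0, 110900331, 0, 0, 0, ⟨0, 0⟩, 0⟩ 0 0) (.cut .s 9015296 (.pos 42 .mp ⟨34238477, 0, 0, 0, 0, 68066672, 0, 0, 0, ⟨0, 0⟩, 0⟩ 0 0) (.pos 42 .mp ⟨34905223,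 0, 0, 0, 0, 69257117, 0, 0, 0, ⟨0, 0⟩, 0⟩ 0 0))) (.pos 39 .mp ⟨32921656, 0, 0, 0, 0, 67793895, 0, 0, 0, ⟨0, 0⟩, 0⟩ 0 0))) (.cut .v 16908288 (.cut .l 708371 (.cut .l 456712 (.cut .d (-32768) (.cut .d (-49152) (.pos 41 .mp ⟨30360150, 0, 0, 0, 0, 75202499, 0, 0, 0, ⟨0, 0⟩, 0⟩ 0 0) (.cut .v 16842752 (.cut .s 9015296 (.pos 72 .mp ⟨29471146, 0, 0, 0, 0, 73096932, 0, 0, 0, ⟨0, 0⟩, 0⟩ 0 0) (.pos 72 .mp ⟨29990839, 0, 0, 0, 0, 74488028, 0, 0, 0, ⟨0, 0⟩, 0⟩ 0 0)) (.pos 73 .mp ⟨51744473, 0, 0, 0, 0, 47214796, 0, 0, 0, ⟨0, 0⟩, 0⟩ 0 0))) (.cut .d (-16384) (.cut .d (-24576) (.cut .s 9015296 (.cut .s 9000960 (.pos 41 .mp ⟨30737243, 0, 0, 0, 0, 70552548, 0, 0, 0, ⟨0, 0⟩, 0⟩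 0 0) (.pos 41 .mp ⟨30992726, 0, 0, 0, 0, 71238743, 0, 0, 0, ⟨0, 0⟩, 0⟩ 0 0)) (.pos 41 .mp ⟨31823492, 0, 0, 0, 0, 71203962, 0, 0, 0, ⟨0, 0⟩, 0⟩ 0 0)) (.pos 41 .mp ⟨31098452, 0, 0, 0, 0, 68393854, 0, 0, 0, ⟨0, 0⟩, 0⟩ 0 0)) (.pos 41 .mp ⟨30357144, 0, 0, 0, 0, 0, 0, 0, 0, ⟨0, 0⟩, 0⟩ 0 0))) (.pos 41 .mp ⟨32373576, 0, 0, 0, 0, 67485641, 0, 0, 0, ⟨0, 0⟩, 0⟩ 0 0)) (.pos 41 .mp ⟨0, 0, 0, 0, 0, 0, 0, 0, 0, ⟨0, 0⟩, 0⟩ 0 0)) (.pos 42 .mp ⟨88077783, 0, 0, 0, 0, 0, 0, 0, 0, ⟨0, 0⟩, 0⟩ 0 0))))) (.pos 40 .mp ⟨89167230, 0, 0, 0, 0, 0, 0, 0, 0, ⟨0, 0⟩, 0⟩ 0 0)))) (.pos 38 .mp ⟨93099577, 0, 0, 0, 0, 0, 0, 0, 0, ⟨0, 0⟩, 0⟩ 0 0)) (.pos 36 .mp ⟨100468474, 0, 0, 0, 0, 0, 0, 0, 0,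 ⟨0, 0⟩, 0⟩ 0 0)) (.void 34 ⟨100000, 0, 0, 0, 0, 0, 0, 0, 0, ⟨0, 0⟩, 0⟩ 0 0))))))) (.void 32 ⟨100000, 0, 0, 0, 0, 0, 0, 0, 0, ⟨0, 0⟩, 0⟩ 0 0))) (.void 30 ⟨100000, 0, 0, 0, 0, 0, 0, 0, 0, ⟨0, 0⟩, 0⟩ 0 0)) (.void 71 ⟨100000, 0, 0, 0, 0, 0, 0, 0, 0, ⟨0, 0⟩, 0⟩ 0 0)) (.void 86 ⟨100000, 0, 0, 0, 0, 0, 0, 0, 0, ⟨0, 0⟩, 0⟩ 0 0))) (.cut .v 16777216 (.cut .v 8388608 (.cut .v 4194304 (.cut .v 2097152 (.void 6 ⟨0, 0, 50000, 0, 50000, 0, 0, 0, 0, ⟨0, 0⟩, 0⟩ 0 0) (.void 7 ⟨0, 0, 45679, 0, 0, 0, 0, 0, 54321, ⟨0, 0⟩, 7053950⟩ 0 0)) (.cut .d 8004398 (.pos 5 .pm ⟨0, 0, 0, 0, 0, 0, 0, 0, 0, ⟨0, 0⟩, 0⟩ 0 0) (.pos 5 .pm ⟨0, 0, 0, 0, 0, 0, 0, 0, 30596130, ⟨0, 0⟩, 9975792⟩ 0 0)))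 (.cut .d 8004398 (.pos 3 .pm ⟨0, 0, 0, 0, 0, 0, 0, 0, 0, ⟨0, 0⟩, 0⟩ 0 0) (.cut .d 12006597 (.pos 3 .pm ⟨0, 0, 0, 0, 0, 0, 0, 0, 0, ⟨0, 0⟩, 0⟩ 0 0) (.cut .d 14007696 (.cut .v 12582912 (.cut .d 13007146 (.pos 8 .pm ⟨0, 46775057, 0, 0, 0, 0, 0, 0, 0, ⟨0, 0⟩, 0⟩ 0 0) (.cut .s 8814592 (.pos 8 .pm ⟨0, 55225776, 0, 0, 0, 0, 0, 13422606, 0, ⟨4887689, 0⟩, 0⟩ 273 316) (.pos 8 .pm ⟨0, 71934864, 0, 0, 0, 0, 0, 14891285, 0, ⟨4887689, 0⟩, 0⟩ 285 341))) (.cut .d 13007146 (.pos 9 .pm ⟨0, 50655543, 0, 0, 0, 0, 0, 15100432, 0, ⟨4887689, 0⟩, 0⟩ 257 308) (.cut .s 8814592 (.pos 9 .pm ⟨0, 60830887, 0, 0, 0, 0, 0, 15100432, 0, ⟨4887689, 0⟩, 0⟩ 273 316) (.pos 9 .pm ⟨0, 79104015,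 0, 0, 0, 0, 0, 16752695, 0, ⟨4887689, 0⟩, 0⟩ 285 341)))) (.cut .v 12582912 (.pos 8 .pm ⟨0, 105904487, 0, 0, 0, 0, 0, 0, 6229777, ⟨0, 0⟩, 13128881⟩ 0 0) (.pos 9 .pm ⟨0, 104669553, 0, 0, 0, 0, 0, 0, 1141185, ⟨0, 0⟩, 15612959⟩ 0 0)))))) (.cut .v 67108864 (.cut .d 8004398 (.cut .d 4002199 (.cut .d 2001099 (.cut .v 33554432 (.cut .v 25165824 (.pos 29 .pp ⟨49787848, 0, 0, 0, 0, 0, 0, 0, 0, ⟨0, 0⟩, 0⟩ 0 0) (.pos 30 .pp ⟨127072419, 0, 0, 0, 0, 0, 0, 0, 0, ⟨0, 0⟩, 0⟩ 0 0)) (.pos 71 .pp ⟨494257456, 0, 0, 0, 0, 0, 0, 0, 0, ⟨0, 0⟩, 0⟩ 0 0)) (.pos 70 .pp ⟨0, 0, 0, 0, 0, 0, 2992369, 0, 0, ⟨0, 0⟩, 0⟩ 0 0)) (.pos 70 .pp ⟨0, 0, 0, 0, 0, 0, 0, 20133909, 0, ⟨4838785, 61299⟩,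 0⟩ 162 216)) (.cut .d 12006597 (.pos 70 .pp ⟨0, 0, 0, 0, 0, 0, 0, 0, 0, ⟨0, 0⟩, 0⟩ 0 0) (.cut .d 14007696 (.pos 70 .pp ⟨0, 72134732, 0, 0, 0, 0, 0, 20133909, 0, ⟨4887689, 0⟩, 0⟩ 257 341) (.void 70 ⟨0, 100000, 0, 0, 0, 0, 0, 0, 0, ⟨0, 0⟩, 0⟩ 0 0)))) (.cut .v 134217728 (.cut .d 8004398 (.cut .d 4002199 (.cut .v 100663296 (.cut .v 83886080 (.pos 91 .pp ⟨861188918, 0, 0, 0, 0, 0, 0, 0, 0, ⟨0, 0⟩, 0⟩ 0 0) (.pos 92 .pp ⟨1312327848, 0, 0, 0, 0, 0, 0, 0, 0, ⟨0, 0⟩, 0⟩ 0 0)) (.void 90 ⟨45316, 54684, 0, 0, 0, 0, 0, 0, 0, ⟨0, 0⟩, 0⟩ 0 0)) (.pos 87 .pp ⟨0, 38575060, 0, 0, 0, 0, 132098614, 0, 0, ⟨0, 0⟩, 0⟩ 0 0)) (.void 87 ⟨0, 100000, 0, 0, 0, 0, 0, 0, 0, ⟨0, 0⟩, 0⟩ 0 0))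 (.void 88 ⟨38573, 61427, 0, 0, 0, 0, 0, 0, 0, ⟨0, 0⟩, 0⟩ 0 0))))),
    by decide +kernel⟩

def covers11 : cell.Covers table row11.1 :=
  ⟨(.cut .d 0 (.cut .v 16777216 (.cut .d (-8388608) (.void 1 ⟨0, 0, 0, 0, 0, 100000, 0, 0, 0, ⟨0, 0⟩, 0⟩ 0 0) (.cut .d (-4194304) (.void 1 ⟨0, 0, 0, 0, 0, 100000, 0, 0, 0, ⟨0, 0⟩, 0⟩ 0 0) (.cut .d (-2097152) (.void 1 ⟨0, 0, 0, 0, 0, 100000, 0, 0, 0, ⟨0, 0⟩, 0⟩ 0 0) (.cut .d (-1048576) (.void 1 ⟨0, 0, 0, 0, 0, 100000, 0, 0, 0, ⟨0, 0⟩, 0⟩ 0 0) (.cut .d (-524288) (.void 1 ⟨0, 0, 0, 0, 0, 100000, 0, 0, 0, ⟨0, 0⟩, 0⟩ 0 0) (.cut .d (-262144) (.void 1 ⟨0, 0, 0, 0, 0, 100000, 0, 0, 0, ⟨0, 0⟩, 0⟩ 0 0) (.cut .v 8388608 (.cut .v 4194304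 (.void 4 ⟨0, 0, 100000, 0, 0, 0, 0, 0, 0, ⟨0, 0⟩, 0⟩ 0 0) (.pos 5 .mm ⟨0, 0, 0, 0, 0, 63992352, 0, 0, 0, ⟨0, 0⟩, 0⟩ 0 0)) (.cut .d (-131072) (.pos 3 .mm ⟨0, 0, 0, 0, 0, 150039597, 0, 0, 0, ⟨0, 0⟩, 0⟩ 0 0) (.cut .v 12582912 (.pos 8 .mm ⟨0, 0, 0, 0, 0, 79952897, 0, 0, 0, ⟨0, 0⟩, 0⟩ 0 0) (.cut .v 14680064 (.pos 12 .mm ⟨0, 0, 0, 0, 0, 101711274, 0, 0, 0, ⟨0, 0⟩, 0⟩ 0 0) (.cut .v 15728640 (.pos 16 .mm ⟨0, 0, 0, 0, 0, 113853447, 0, 0, 0, ⟨0, 0⟩, 0⟩ 0 0) (.cut .v 16252928 (.pos 20 .mm ⟨0, 0, 0, 0, 0, 120566357, 0, 0, 0, ⟨0, 0⟩, 0⟩ 0 0) (.cut .s 9306112 (.cut .l 708371 (.cut .d (-65536) (.pos 21 .mm ⟨0, 0, 0, 0, 0, 126252174, 0, 0, 0, ⟨0, 0⟩, 0⟩ 0 0) (.cut .s 9175040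 (.pos 21 .mm ⟨0, 0, 0, 0, 0, 111460675, 0, 0, 0, ⟨0, 0⟩, 0⟩ 0 0) (.pos 21 .mm ⟨0, 0, 0, 0, 0, 121204991, 0, 0, 0, ⟨0, 0⟩, 0⟩ 0 0))) (.pos 21 .mm ⟨0, 0, 0, 0, 0, 113251283, 0, 0, 0, ⟨0, 0⟩, 0⟩ 0 0)) (.cut .s 9437184 (.pos 21 .mm ⟨0, 0, 0, 0, 0, 134287347, 0, 0, 0, ⟨0, 0⟩, 0⟩ 0 0) (.pos 21 .mm ⟨0, 0, 0, 0, 0, 145697522, 0, 0, 0, ⟨0, 0⟩, 0⟩ 0 0))))))))))))))) (.cut .v 67108864 (.cut .v 33554432 (.cut .v 25165824 (.cut .d (-8388608) (.void 29 ⟨0, 0, 0, 0, 0, 100000, 0, 0, 0, ⟨0, 0⟩, 0⟩ 0 0) (.cut .v 20971520 (.cut .d (-4194304) (.void 31 ⟨0, 0, 0, 0, 0, 100000, 0, 0, 0, ⟨0, 0⟩, 0⟩ 0 0) (.cut .d (-2097152) (.void 31 ⟨0, 0, 0, 0, 0, 100000, 0, 0, 0, ⟨0, 0⟩, 0⟩ 0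 0) (.cut .d (-1048576) (.void 31 ⟨100000, 0, 0, 0, 0, 0, 0, 0, 0, ⟨0, 0⟩, 0⟩ 0 0) (.cut .d (-524288) (.void 31 ⟨0, 0, 0, 0, 0, 100000, 0, 0, 0, ⟨0, 0⟩, 0⟩ 0 0) (.cut .d (-262144) (.void 31 ⟨0, 0, 0, 0, 0, 100000, 0, 0, 0, ⟨0, 0⟩, 0⟩ 0 0) (.cut .v 18874368 (.cut .v 17825792 (.cut .v 17301504 (.cut .d (-131072) (.cut .v 17039360 (.cut .d (-196608) (.void 39 ⟨0, 0, 0, 0, 0, 100000, 0, 0, 0, ⟨0, 0⟩, 0⟩ 0 0) (.cut .d (-163840) (.void 39 ⟨0, 0, 0, 0, 0, 100000, 0, 0, 0, ⟨0, 0⟩, 0⟩ 0 0) (.cut .d (-147456) (.void 39 ⟨0, 0, 0, 0, 0, 100000, 0, 0, 0, ⟨0, 0⟩, 0⟩ 0 0) (.cut .l 708371 (.void 39 ⟨0, 0, 0, 0, 0, 100000, 0, 0, 0, ⟨0, 0⟩, 0⟩ 0 0) (.cut .l 960029 (.void 39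 ⟨0, 0, 0, 0, 0, 100000, 0, 0, 0, ⟨0, 0⟩, 0⟩ 0 0) (.cut .l 1085858 (.pos 39 .mp ⟨32633889, 0, 0, 0, 0, 113124807, 0, 0, 0, ⟨0, 0⟩, 0⟩ 0 0) (.cut .s 9306112 (.cut .v 16908288 (.pos 41 .mp ⟨0, 0, 0, 0, 0, 122931855, 0, 0, 0, ⟨0, 0⟩, 0⟩ 0 0) (.cut .s 9175040 (.cut .s 9109504 (.pos 42 .mp ⟨35248318, 0, 0, 0, 0, 73060768, 0, 0, 0, ⟨0, 0⟩, 0⟩ 0 0) (.pos 42 .mp ⟨33548122, 0, 0, 0, 0, 81467117, 0, 0, 0, ⟨0, 0⟩, 0⟩ 0 0)) (.cut .s 9240576 (.pos 42 .mp ⟨35042183, 0, 0, 0, 0, 84473911, 0, 0, 0, ⟨0, 0⟩, 0⟩ 0 0) (.pos 42 .mp ⟨36566075, 0, 0, 0, 0, 87644812, 0, 0, 0, ⟨0, 0⟩, 0⟩ 0 0)))) (.pos 39 .mp ⟨37863258, 0, 0, 0, 0, 101530988, 0, 0, 0, ⟨0, 0⟩, 0⟩ 0 0)))))))) (.pos 40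 .mp ⟨131634008, 0, 0, 0, 0, 0, 0, 0, 0, ⟨0, 0⟩, 0⟩ 0 0)) (.cut .s 9306112 (.cut .v 17039360 (.cut .s 9175040 (.cut .s 9109504 (.cut .d (-65536) (.cut .l 708371 (.cut .s 9076736 (.pos 39 .mp ⟨31117090, 0, 0, 0, 0, 77873869, 0, 0, 0, ⟨0, 0⟩, 0⟩ 0 0) (.pos 39 .mp ⟨31772382, 0, 0, 0, 0, 79366893, 0, 0, 0, ⟨0, 0⟩, 0⟩ 0 0)) (.cut .d (-98304) (.cut .l 960029 (.pos 39 .mp ⟨31519281, 0, 0, 0, 0, 79366426, 0, 0, 0, ⟨0, 0⟩, 0⟩ 0 0) (.cut .s 9076736 (.pos 39 .mp ⟨34077251, 0, 0, 0, 0, 70924150, 0, 0, 0, ⟨0, 0⟩, 0⟩ 0 0) (.pos 39 .mp ⟨34825493, 0, 0, 0, 0, 72216329, 0, 0, 0, ⟨0, 0⟩, 0⟩ 0 0))) (.pos 39 .mp ⟨34357432, 0, 0, 0, 0, 70412590, 0, 0, 0, ⟨0, 0⟩, 0⟩ 0 0))) (.cut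 .v 16908288 (.cut .l 708371 (.cut .s 9076736 (.cut .l 456712 (.cut .v 16842752 (.cut .d (-32768) (.pos 72 .mp ⟨30518425, 0, 0, 0, 0, 76033895, 0, 0, 0, ⟨0, 0⟩, 0⟩ 0 0) (.cut .d (-16384) (.cut .s 9060352 (.pos 72 .mp ⟨31026134, 0, 0, 0, 0, 73391039, 0, 0, 0, ⟨0, 0⟩, 0⟩ 0 0) (.pos 72 .mp ⟨31329421, 0, 0, 0, 0, 74140402, 0, 0, 0, ⟨0, 0⟩, 0⟩ 0 0)) (.pos 72 .mp ⟨0, 0, 0, 0, 0, 0, 0, 0, 0, ⟨0, 0⟩, 0⟩ 0 0))) (.pos 73 .mp ⟨48997490, 0, 0, 0, 0, 53951246, 0, 0, 0, ⟨0, 0⟩, 0⟩ 0 0)) (.pos 41 .mp ⟨33048998, 0, 0, 0, 0, 70484058, 0, 0, 0, ⟨0, 0⟩, 0⟩ 0 0)) (.cut .l 456712 (.cut .d (-32768) (.cut .s 9093120 (.pos 41 .mp ⟨32050606, 0, 0, 0, 0, 75959402, 0, 0, 0, ⟨0, 0⟩, 0⟩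 0 0) (.pos 41 .mp ⟨32299122, 0, 0, 0, 0, 76805223, 0, 0, 0, ⟨0, 0⟩, 0⟩ 0 0)) (.cut .d (-16384) (.cut .s 9093120 (.pos 41 .mp ⟨32952854, 0, 0, 0, 0, 72713369, 0, 0, 0, ⟨0, 0⟩, 0⟩ 0 0) (.pos 41 .mp ⟨33278666, 0, 0, 0, 0, 73447882, 0, 0, 0, ⟨0, 0⟩, 0⟩ 0 0)) (.pos 41 .mp ⟨31969234, 0, 0, 0, 0, 0, 0, 0, 0, ⟨0, 0⟩, 0⟩ 0 0))) (.pos 41 .mp ⟨33727390, 0, 0, 0, 0, 71891560, 0, 0, 0, ⟨0, 0⟩, 0⟩ 0 0))) (.pos 41 .mp ⟨0, 0, 0, 0, 0, 0, 0, 0, 0, ⟨0, 0⟩, 0⟩ 0 0)) (.pos 42 .mp ⟨91252272, 0, 0, 0, 0, 0, 0, 0, 0, ⟨0, 0⟩, 0⟩ 0 0))) (.cut .d (-65536) (.cut .l 708371 (.cut .s 9142272 (.pos 39 .mp ⟨32438179, 0, 0, 0, 0, 80899767, 0, 0, 0, ⟨0, 0⟩, 0⟩ 0 0) (.pos 39 .mp ⟨33109864,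 0, 0, 0, 0, 82479416, 0, 0, 0, ⟨0, 0⟩, 0⟩ 0 0)) (.cut .d (-98304) (.cut .v 16908288 (.pos 41 .mp ⟨0, 0, 0, 0, 0, 120593216, 0, 0, 0, ⟨0, 0⟩, 0⟩ 0 0) (.cut .s 9142272 (.pos 42 .mp ⟨37269578, 0, 0, 0, 0, 73206294, 0, 0, 0, ⟨0, 0⟩, 0⟩ 0 0) (.pos 42 .mp ⟨38073758, 0, 0, 0, 0, 74552048, 0, 0, 0, ⟨0, 0⟩, 0⟩ 0 0))) (.cut .s 9142272 (.pos 39 .mp ⟨35084160, 0, 0, 0, 0, 73654670, 0, 0, 0, ⟨0, 0⟩, 0⟩ 0 0) (.pos 39 .mp ⟨35818199, 0, 0, 0, 0, 75042019, 0, 0, 0, ⟨0, 0⟩, 0⟩ 0 0)))) (.cut .v 16908288 (.cut .l 708371 (.cut .s 9142272 (.cut .l 456712 (.cut .d (-32768) (.cut .s 9125888 (.pos 41 .mp ⟨32556314, 0, 0, 0, 0, 77651908, 0, 0, 0, ⟨0, 0⟩, 0⟩ 0 0) (.pos 41 .mp ⟨32822400,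 0, 0, 0, 0, 78499110, 0, 0, 0, ⟨0, 0⟩, 0⟩ 0 0)) (.cut .s 9125888 (.cut .s 9117696 (.pos 41 .mp ⟨33442121, 0, 0, 0, 0, 73891899, 0, 0, 0, ⟨0, 0⟩, 0⟩ 0 0) (.pos 41 .mp ⟨33605944, 0, 0, 0, 0, 74264618, 0, 0, 0, ⟨0, 0⟩, 0⟩ 0 0)) (.pos 41 .mp ⟨33934695, 0, 0, 0, 0, 74569548, 0, 0, 0, ⟨0, 0⟩, 0⟩ 0 0))) (.pos 41 .mp ⟨34412257, 0, 0, 0, 0, 73331219, 0, 0, 0, ⟨0, 0⟩, 0⟩ 0 0)) (.cut .l 456712 (.cut .v 16842752 (.cut .d (-32768) (.pos 72 .mp ⟨32374145, 0, 0, 0, 0, 80571410, 0, 0, 0, ⟨0, 0⟩, 0⟩ 0 0) (.cut .s 9158656 (.pos 72 .mp ⟨34176752, 0, 0, 0, 0, 75420816, 0, 0, 0, ⟨0, 0⟩, 0⟩ 0 0) (.pos 72 .mp ⟨34505359, 0, 0, 0, 0, 76187513, 0, 0, 0, ⟨0, 0⟩, 0⟩ 0 0))) (.pos 73 .mp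 ⟨50805087, 0, 0, 0, 0, 58389425, 0, 0, 0, ⟨0, 0⟩, 0⟩ 0 0)) (.pos 41 .mp ⟨35103678, 0, 0, 0, 0, 74802398, 0, 0, 0, ⟨0, 0⟩, 0⟩ 0 0))) (.pos 41 .mp ⟨0, 0, 0, 0, 0, 0, 0, 0, 0, ⟨0, 0⟩, 0⟩ 0 0)) (.pos 42 .mp ⟨94448737, 0, 0, 0, 0, 0, 0, 0, 0, ⟨0, 0⟩, 0⟩ 0 0)))) (.cut .s 9240576 (.cut .d (-65536) (.cut .l 708371 (.cut .s 9207808 (.pos 39 .mp ⟨33787514, 0, 0, 0, 0, 84105777, 0, 0, 0, ⟨0, 0⟩, 0⟩ 0 0) (.pos 39 .mp ⟨34471204, 0, 0, 0, 0, 85778782, 0, 0, 0, ⟨0, 0⟩, 0⟩ 0 0)) (.cut .d (-98304) (.cut .v 16908288 (.pos 41 .mp ⟨0, 0, 0, 0, 0, 125584225, 0, 0, 0, ⟨0, 0⟩, 0⟩ 0 0) (.cut .s 9207808 (.pos 42 .mp ⟨38886852, 0, 0, 0, 0, 75943809, 0, 0, 0, ⟨0, 0⟩, 0⟩ 0 0) (.pos 42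 .mp ⟨39708968, 0, 0, 0, 0, 77381725, 0, 0, 0, ⟨0, 0⟩, 0⟩ 0 0))) (.cut .s 9207808 (.pos 39 .mp ⟨36559641, 0, 0, 0, 0, 76476904, 0, 0, 0, ⟨0, 0⟩, 0⟩ 0 0) (.pos 39 .mp ⟨37308577, 0, 0, 0, 0, 77959504, 0, 0, 0, ⟨0, 0⟩, 0⟩ 0 0)))) (.cut .v 16908288 (.cut .l 708371 (.cut .d (-32768) (.cut .l 456712 (.cut .s 9207808 (.cut .s 9191424 (.pos 41 .mp ⟨33676181, 0, 0, 0, 0, 81040335, 0, 0, 0, ⟨0, 0⟩, 0⟩ 0 0) (.pos 41 .mp ⟨33980006, 0, 0, 0, 0, 81886113, 0, 0, 0, ⟨0, 0⟩, 0⟩ 0 0)) (.pos 41 .mp ⟨33732397, 0, 0, 0, 0, 84427545, 0, 0, 0, ⟨0, 0⟩, 0⟩ 0 0)) (.pos 41 .mp ⟨36506516, 0, 0, 0, 0, 76542923, 0, 0, 0, ⟨0, 0⟩, 0⟩ 0 0)) (.cut .s 9207808 (.cut .s 9191424 (.pos 41 .mp ⟨34929890,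 0, 0, 0, 0, 76858819, 0, 0, 0, ⟨0, 0⟩, 0⟩ 0 0) (.pos 41 .mp ⟨35264634, 0, 0, 0, 0, 77637611, 0, 0, 0, ⟨0, 0⟩, 0⟩ 0 0)) (.pos 41 .mp ⟨35938697, 0, 0, 0, 0, 78282007, 0, 0, 0, ⟨0, 0⟩, 0⟩ 0 0))) (.pos 41 .mp ⟨0, 0, 0, 0, 0, 0, 0, 0, 0, ⟨0, 0⟩, 0⟩ 0 0)) (.pos 42 .mp ⟨97830226, 0, 0, 0, 0, 0, 0, 0, 0, ⟨0, 0⟩, 0⟩ 0 0))) (.cut .d (-65536) (.cut .l 708371 (.cut .s 9273344 (.pos 39 .mp ⟨35161014, 0, 0, 0, 0, 87498358, 0, 0, 0, ⟨0, 0⟩, 0⟩ 0 0) (.pos 39 .mp ⟨35857022, 0, 0, 0, 0, 89264425, 0, 0, 0, ⟨0, 0⟩, 0⟩ 0 0)) (.cut .d (-98304) (.cut .v 16908288 (.pos 41 .mp ⟨0, 0, 0, 0, 0, 130863470, 0, 0, 0, ⟨0, 0⟩, 0⟩ 0 0) (.cut .s 9273344 (.pos 42 .mp ⟨40540216, 0, 0, 0, 0,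 78865937, 0, 0, 0, ⟨0, 0⟩, 0⟩ 0 0) (.pos 42 .mp ⟨41380711, 0, 0, 0, 0, 80396584, 0, 0, 0, ⟨0, 0⟩, 0⟩ 0 0))) (.cut .s 9273344 (.pos 39 .mp ⟨38065102, 0, 0, 0, 0, 79489993, 0, 0, 0, ⟨0, 0⟩, 0⟩ 0 0) (.pos 39 .mp ⟨38829311, 0, 0, 0, 0, 81068542, 0, 0, 0, ⟨0, 0⟩, 0⟩ 0 0)))) (.cut .v 16908288 (.cut .l 708371 (.cut .l 456712 (.cut .d (-32768) (.cut .s 9273344 (.pos 41 .mp ⟨34378607, 0, 0, 0, 0, 86147342, 0, 0, 0, ⟨0, 0⟩, 0⟩ 0 0) (.pos 41 .mp ⟨35030249, 0, 0, 0, 0, 87913793, 0, 0, 0, ⟨0, 0⟩, 0⟩ 0 0)) (.cut .s 9273344 (.pos 41 .mp ⟨36618927, 0, 0, 0, 0, 79875727, 0, 0, 0, ⟨0, 0⟩, 0⟩ 0 0) (.pos 41 .mp ⟨37305404, 0, 0, 0, 0, 81499192, 0, 0, 0, ⟨0, 0⟩, 0⟩ 0 0))) (.pos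 41 .mp ⟨37936585, 0, 0, 0, 0, 78916679, 0, 0, 0, ⟨0, 0⟩, 0⟩ 0 0)) (.pos 41 .mp ⟨0, 0, 0, 0, 0, 0, 0, 0, 0, ⟨0, 0⟩, 0⟩ 0 0)) (.pos 42 .mp ⟨101400520, 0, 0, 0, 0, 0, 0, 0, 0, ⟨0, 0⟩, 0⟩ 0 0))))) (.pos 40 .mp ⟨102590069, 0, 0, 0, 0, 0, 0, 0, 0, ⟨0, 0⟩, 0⟩ 0 0)) (.cut .v 17039360 (.cut .s 9437184 (.cut .s 9371648 (.cut .d (-65536) (.cut .l 708371 (.pos 39 .mp ⟨36559309, 0, 0, 0, 0, 93489316, 0, 0, 0, ⟨0, 0⟩, 0⟩ 0 0) (.cut .d (-98304) (.cut .s 9338880 (.pos 39 .mp ⟨35591620, 0, 0, 0, 0, 91490211, 0, 0, 0, ⟨0, 0⟩, 0⟩ 0 0) (.pos 39 .mp ⟨36303235, 0, 0, 0, 0, 93345565, 0, 0, 0, ⟨0, 0⟩, 0⟩ 0 0)) (.pos 39 .mp ⟨40381177, 0, 0, 0, 0, 82007868, 0, 0, 0, ⟨0, 0⟩, 0⟩ 0 0)))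 (.cut .d (-32768) (.cut .l 708371 (.cut .l 456712 (.cut .s 9338880 (.pos 39 .mp ⟨40581125, 0, 0, 0, 0, 82412544, 0, 0, 0, ⟨0, 0⟩, 0⟩ 0 0) (.pos 39 .mp ⟨41358329, 0, 0, 0, 0, 84090069, 0, 0, 0, ⟨0, 0⟩, 0⟩ 0 0)) (.pos 39 .mp ⟨39667711, 0, 0, 0, 0, 82580954, 0, 0, 0, ⟨0, 0⟩, 0⟩ 0 0)) (.pos 39 .mp ⟨37983053, 0, 0, 0, 0, 0, 0, 0, 0, ⟨0, 0⟩, 0⟩ 0 0)) (.pos 39 .mp ⟨38962016, 0, 0, 0, 0, 82564726, 0, 0, 0, ⟨0, 0⟩, 0⟩ 0 0))) (.cut .d (-65536) (.cut .l 708371 (.pos 39 .mp ⟨37983053, 0, 0, 0, 0, 97339486, 0, 0, 0, ⟨0, 0⟩, 0⟩ 0 0) (.cut .d (-98304) (.cut .s 9404416 (.pos 39 .mp ⟨37021210, 0, 0, 0, 0, 95253298, 0, 0, 0, ⟨0, 0⟩, 0⟩ 0 0) (.pos 39 .mp ⟨37745627, 0, 0, 0,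 0, 97213610, 0, 0, 0, ⟨0, 0⟩, 0⟩ 0 0)) (.pos 39 .mp ⟨41964977, 0, 0, 0, 0, 85380204, 0, 0, 0, ⟨0, 0⟩, 0⟩ 0 0))) (.cut .d (-32768) (.cut .s 9404416 (.cut .s 9388032 (.pos 39 .mp ⟨41749953, 0, 0, 0, 0, 85312092, 0, 0, 0, ⟨0, 0⟩, 0⟩ 0 0) (.pos 39 .mp ⟨42143608, 0, 0, 0, 0, 86207667, 0, 0, 0, ⟨0, 0⟩, 0⟩ 0 0)) (.pos 39 .mp ⟨42937068, 0, 0, 0, 0, 86960379, 0, 0, 0, ⟨0, 0⟩, 0⟩ 0 0)) (.pos 39 .mp ⟨40407004, 0, 0, 0, 0, 85910259, 0, 0, 0, ⟨0, 0⟩, 0⟩ 0 0)))) (.cut .s 9502720 (.cut .d (-65536) (.cut .s 9469952 (.cut .v 16908288 (.pos 41 .mp ⟨35675975, 0, 0, 0, 0, 101362489, 0, 0, 0, ⟨0, 0⟩, 0⟩ 0 0) (.pos 42 .mp ⟨55974107, 0, 0, 0, 0, 76094087, 0, 0, 0, ⟨0, 0⟩, 0⟩ 0 0))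 (.pos 39 .mp ⟨36622050, 0, 0, 0, 0, 104559813, 0, 0, 0, ⟨0, 0⟩, 0⟩ 0 0)) (.cut .s 9469952 (.pos 39 .mp ⟨43738812, 0, 0, 0, 0, 88244676, 0, 0, 0, ⟨0, 0⟩, 0⟩ 0 0) (.pos 39 .mp ⟨44548950, 0, 0, 0, 0, 89954722, 0, 0, 0, ⟨0, 0⟩, 0⟩ 0 0))) (.cut .d (-65536) (.cut .s 9535488 (.pos 39 .mp ⟨37441944, 0, 0, 0, 0, 106569289, 0, 0, 0, ⟨0, 0⟩, 0⟩ 0 0) (.pos 39 .mp ⟨38727585, 0, 0, 0, 0, 107958741, 0, 0, 0, ⟨0, 0⟩, 0⟩ 0 0)) (.cut .s 9535488 (.pos 39 .mp ⟨45367590, 0, 0, 0, 0, 91687946, 0, 0, 0, ⟨0, 0⟩, 0⟩ 0 0) (.pos 39 .mp ⟨46194844, 0, 0, 0, 0, 93443723, 0, 0, 0, ⟨0, 0⟩, 0⟩ 0 0))))) (.pos 40 .mp ⟨118193756, 0, 0, 0, 0, 0, 0, 0, 0, ⟨0, 0⟩, 0⟩ 0 0)))) (.pos 38 .mp ⟨122991269,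 0, 0, 0, 0, 0, 0, 0, 0, ⟨0, 0⟩, 0⟩ 0 0)) (.pos 36 .mp ⟨131910444, 0, 0, 0, 0, 0, 0, 0, 0, ⟨0, 0⟩, 0⟩ 0 0)) (.void 34 ⟨100000, 0, 0, 0, 0, 0, 0, 0, 0, ⟨0, 0⟩, 0⟩ 0 0))))))) (.void 32 ⟨100000, 0, 0, 0, 0, 0, 0, 0, 0, ⟨0, 0⟩, 0⟩ 0 0))) (.void 30 ⟨100000, 0, 0, 0, 0, 0, 0, 0, 0, ⟨0, 0⟩, 0⟩ 0 0)) (.void 71 ⟨100000, 0, 0, 0, 0, 0, 0, 0, 0, ⟨0, 0⟩, 0⟩ 0 0)) (.void 86 ⟨100000, 0, 0, 0, 0, 0, 0, 0, 0, ⟨0, 0⟩, 0⟩ 0 0))) (.cut .v 16777216 (.cut .v 8388608 (.cut .v 4194304 (.cut .v 2097152 (.void 6 ⟨0, 0, 25058, 0, 0, 0, 0, 0, 74942, ⟨0, 0⟩, 2804900⟩ 0 0) (.pos 7 .pm ⟨0, 0, 1239436, 0, 0, 0, 0, 0, 0, ⟨0, 0⟩, 0⟩ 0 0)) (.cut .d 7172869 (.pos 5 .pm ⟨0, 0, 0, 0, 0, 0, 0,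 0, 0, ⟨0, 0⟩, 0⟩ 0 0) (.cut .d 10759303 (.pos 5 .pm ⟨0, 0, 0, 0, 0, 0, 0, 0, 0, ⟨0, 0⟩, 0⟩ 0 0) (.cut .d 12552520 (.pos 5 .pm ⟨0, 52961679, 0, 0, 0, 0, 0, 0, 0, ⟨0, 0⟩, 0⟩ 0 0) (.pos 5 .pm ⟨0, 82459593, 0, 0, 0, 0, 0, 0, 2262496, ⟨0, 0⟩, 9975792⟩ 0 0))))) (.cut .d 7172869 (.pos 3 .pm ⟨0, 0, 0, 0, 0, 0, 0, 0, 0, ⟨0, 0⟩, 0⟩ 0 0) (.cut .d 10759303 (.pos 3 .pm ⟨0, 0, 0, 0, 0, 0, 0, 0, 0, ⟨0, 0⟩, 0⟩ 0 0) (.cut .d 12552520 (.cut .v 12582912 (.cut .s 9306112 (.pos 8 .pm ⟨0, 55597652, 0, 0, 0, 0, 0, 0, 0, ⟨0, 0⟩, 0⟩ 0 0) (.cut .d 11655911 (.pos 8 .pm ⟨0, 63716814, 0, 0, 0, 0, 0, 0, 0, ⟨0, 0⟩, 0⟩ 0 0) (.cut .v 10485760 (.pos 10 .pm ⟨0, 83639233, 0, 0, 0, 0, 0, 0, 0,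 ⟨0, 0⟩, 0⟩ 0 0) (.pos 11 .pm ⟨0, 89843218, 0, 0, 0, 0, 0, 0, 0, ⟨0, 0⟩, 0⟩ 0 0)))) (.cut .s 9306112 (.pos 9 .pm ⟨0, 65311911, 0, 0, 0, 0, 0, 0, 0, ⟨0, 0⟩, 0⟩ 0 0) (.pos 9 .pm ⟨0, 89362650, 0, 0, 0, 0, 0, 0, 0, ⟨0, 0⟩, 0⟩ 0 0))) (.cut .s 9306112 (.cut .v 12582912 (.cut .d 13449129 (.pos 8 .pm ⟨0, 83612972, 0, 0, 0, 0, 0, 0, 0, ⟨0, 0⟩, 0⟩ 0 0) (.void 8 ⟨0, 95328, 0, 0, 0, 0, 0, 0, 4672, ⟨0, 0⟩, 13128881⟩ 0 0)) (.pos 9 .pm ⟨0, 102932037, 0, 0, 0, 0, 0, 0, 0, ⟨0, 0⟩, 0⟩ 0 0)) (.pos 3 .pm ⟨0, 306398838, 0, 0, 0, 0, 0, 0, 0, ⟨0, 0⟩, 0⟩ 0 0)))))) (.cut .v 67108864 (.cut .d 7172869 (.cut .d 3586434 (.cut .d 1793217 (.cut .v 33554432 (.cut .v 25165824 (.pos 29 .pp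 ⟨73520090, 0, 0, 0, 0, 0, 0, 0, 0, ⟨0, 0⟩, 0⟩ 0 0) (.pos 30 .pp ⟨175392028, 0, 0, 0, 0, 0, 0, 0, 0, ⟨0, 0⟩, 0⟩ 0 0)) (.cut .v 50331648 (.pos 74 .pp ⟨409894853, 0, 0, 0, 0, 0, 0, 0, 0, ⟨0, 0⟩, 0⟩ 0 0) (.void 75 ⟨100000, 0, 0, 0, 0, 0, 0, 0, 0, ⟨0, 0⟩, 0⟩ 0 0))) (.pos 70 .pp ⟨49769257, 0, 0, 0, 0, 0, 2948043, 0, 0, ⟨0, 0⟩, 0⟩ 0 0)) (.pos 70 .pp ⟨0, 0, 0, 0, 0, 0, 0, 0, 0, ⟨0, 0⟩, 0⟩ 0 0)) (.cut .d 10759303 (.pos 70 .pp ⟨0, 0, 0, 0, 0, 0, 0, 0, 0, ⟨0, 0⟩, 0⟩ 0 0) (.pos 70 .pp ⟨0, 126427290, 0, 0, 0, 0, 0, 0, 0, ⟨0, 0⟩, 0⟩ 0 0))) (.cut .v 134217728 (.cut .d 7172869 (.cut .d 3586434 (.cut .v 100663296 (.cut .v 83886080 (.cut .d 1793217 (.void 91 ⟨100000, 0, 0,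 0, 0, 0, 0, 0, 0, ⟨0, 0⟩, 0⟩ 0 0) (.pos 91 .pp ⟨830917008, 0, 0, 0, 0, 0, 0, 0, 0, ⟨0, 0⟩, 0⟩ 0 0)) (.pos 92 .pp ⟨1711498221, 0, 0, 0, 0, 0, 0, 0, 0, ⟨0, 0⟩, 0⟩ 0 0)) (.void 90 ⟨44198, 55802, 0, 0, 0, 0, 0, 0, 0, ⟨0, 0⟩, 0⟩ 0 0)) (.pos 87 .pp ⟨0, 180804638, 0, 0, 0, 0, 10628931, 0, 0, ⟨0, 0⟩, 0⟩ 0 0)) (.void 87 ⟨0, 100000, 0, 0, 0, 0, 0, 0, 0, ⟨0, 0⟩, 0⟩ 0 0)) (.void 88 ⟨38048, 61952, 0, 0, 0, 0, 0, 0, 0, ⟨0, 0⟩, 0⟩ 0 0))))),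
    by decide +kernel⟩

def covers12 : cell.Covers table row12.1 :=
  ⟨(.cut .d 0 (.cut .v 16777216 (.cut .d (-8388608) (.void 1 ⟨0, 0, 0, 0, 0, 100000, 0, 0, 0, ⟨0, 0⟩, 0⟩ 0 0) (.cut .d (-4194304) (.void 1 ⟨0, 0, 0, 0, 0, 100000, 0, 0, 0, ⟨0, 0⟩, 0⟩ 0 0) (.cut .d (-2097152) (.void 1 ⟨0, 0, 0, 0, 0, 100000, 0, 0, 0, ⟨0, 0⟩, 0⟩ 0 0) (.cut .d (-1048576) (.void 1 ⟨0, 0, 0, 0, 0, 100000, 0, 0, 0, ⟨0, 0⟩, 0⟩ 0 0) (.cut .d (-524288) (.void 1 ⟨0, 0, 0, 0, 0, 100000, 0, 0, 0, ⟨0, 0⟩, 0⟩ 0 0) (.cut .d (-262144) (.void 1 ⟨0, 0, 0, 0, 0, 100000, 0, 0, 0, ⟨0, 0⟩, 0⟩ 0 0) (.cut .d (-131072) (.void 1 ⟨0, 0, 0, 0, 0, 100000, 0, 0, 0, ⟨0, 0⟩, 0⟩ 0 0) (.cut .v 8388608 (.cut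 .v 4194304 (.void 4 ⟨0, 0, 100000, 0, 0, 0, 0, 0, 0, ⟨0, 0⟩, 0⟩ 0 0) (.pos 5 .mm ⟨0, 0, 0, 0, 0, 86174865, 0, 0, 0, ⟨0, 0⟩, 0⟩ 0 0)) (.cut .v 12582912 (.pos 8 .mm ⟨0, 0, 0, 0, 0, 118971151, 0, 0, 0, ⟨0, 0⟩, 0⟩ 0 0) (.cut .v 14680064 (.pos 12 .mm ⟨0, 0, 0, 0, 0, 145311869, 0, 0, 0, ⟨0, 0⟩, 0⟩ 0 0) (.cut .v 15728640 (.pos 16 .mm ⟨0, 0, 0, 0, 0, 161160656, 0, 0, 0, ⟨0, 0⟩, 0⟩ 0 0) (.cut .v 16252928 (.pos 20 .mm ⟨0, 0, 0, 0, 0, 169794906, 0, 0, 0, ⟨0, 0⟩, 0⟩ 0 0) (.cut .s 9830400 (.cut .s 9699328 (.pos 21 .mm ⟨0, 0, 0, 0, 0, 158402398, 0, 0, 0, ⟨0, 0⟩, 0⟩ 0 0) (.pos 21 .mm ⟨0, 0, 0, 0, 0, 170940173, 0, 0, 0, ⟨0, 0⟩, 0⟩ 0 0)) (.cut .v 16515072 (.pos 24 .mm ⟨0,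 0, 0, 0, 0, 187194591, 0, 0, 0, ⟨0, 0⟩, 0⟩ 0 0) (.cut .s 9961472 (.cut .s 9895936 (.pos 25 .mm ⟨0, 0, 0, 0, 0, 178910276, 0, 0, 0, ⟨0, 0⟩, 0⟩ 0 0) (.pos 25 .mm ⟨0, 0, 0, 0, 0, 185879149, 0, 0, 0, ⟨0, 0⟩, 0⟩ 0 0)) (.cut .s 10027008 (.pos 25 .mm ⟨0, 0, 0, 0, 0, 193045670, 0, 0, 0, ⟨0, 0⟩, 0⟩ 0 0) (.pos 25 .mm ⟨0, 0, 0, 0, 0, 200406004, 0, 0, 0, ⟨0, 0⟩, 0⟩ 0 0))))))))))))))))) (.cut .v 268435456 (.cut .v 67108864 (.cut .v 33554432 (.cut .v 25165824 (.cut .d (-8388608) (.void 29 ⟨0, 0, 0, 0, 0, 100000, 0, 0, 0, ⟨0, 0⟩, 0⟩ 0 0) (.cut .v 20971520 (.cut .d (-4194304) (.void 31 ⟨0, 0, 0, 0, 0, 100000, 0, 0, 0, ⟨0, 0⟩, 0⟩ 0 0) (.cut .d (-2097152) (.void 31 ⟨100000,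 0, 0, 0, 0, 0, 0, 0, 0, ⟨0, 0⟩, 0⟩ 0 0) (.cut .d (-1048576) (.void 31 ⟨100000, 0, 0, 0, 0, 0, 0, 0, 0, ⟨0, 0⟩, 0⟩ 0 0) (.cut .d (-524288) (.void 31 ⟨100000, 0, 0, 0, 0, 0, 0, 0, 0, ⟨0, 0⟩, 0⟩ 0 0) (.cut .d (-262144) (.void 31 ⟨0, 0, 0, 0, 0, 100000, 0, 0, 0, ⟨0, 0⟩, 0⟩ 0 0) (.cut .d (-131072) (.void 31 ⟨0, 0, 0, 0, 0, 100000, 0, 0, 0, ⟨0, 0⟩, 0⟩ 0 0) (.cut .v 18874368 (.cut .v 17825792 (.cut .v 17301504 (.cut .s 9830400 (.cut .v 17039360 (.cut .s 9699328 (.cut .d (-65536) (.cut .l 708371 (.pos 39 .mp ⟨44468024, 0, 0, 0, 0, 113419273, 0, 0, 0, ⟨0, 0⟩, 0⟩ 0 0) (.cut .s 9633792 (.pos 39 .mp ⟨38662155, 0, 0, 0, 0, 112719992, 0, 0, 0, ⟨0, 0⟩, 0⟩ 0 0) (.cut .s 9666560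 (.pos 39 .mp ⟨40143996, 0, 0, 0, 0, 114679787, 0, 0, 0, ⟨0, 0⟩, 0⟩ 0 0) (.pos 39 .mp ⟨40890122, 0, 0, 0, 0, 116666885, 0, 0, 0, ⟨0, 0⟩, 0⟩ 0 0)))) (.cut .v 16908288 (.cut .l 708371 (.cut .s 9633792 (.cut .s 9601024 (.pos 41 .mp ⟨46662209, 0, 0, 0, 0, 96008661, 0, 0, 0, ⟨0, 0⟩, 0⟩ 0 0) (.pos 41 .mp ⟨47500145, 0, 0, 0, 0, 97832794, 0, 0, 0, ⟨0, 0⟩, 0⟩ 0 0)) (.cut .s 9666560 (.pos 41 .mp ⟨48345120, 0, 0, 0, 0, 99696288, 0, 0, 0, ⟨0, 0⟩, 0⟩ 0 0) (.pos 41 .mp ⟨49197233, 0, 0, 0, 0, 101559046, 0, 0, 0, ⟨0, 0⟩, 0⟩ 0 0))) (.pos 41 .mp ⟨0, 0, 0, 0, 0, 0, 0, 0, 0, ⟨0, 0⟩, 0⟩ 0 0)) (.pos 42 .mp ⟨124589276, 0, 0, 0, 0, 0, 0, 0, 0, ⟨0, 0⟩, 0⟩ 0 0))) (.cut .d (-65536) (.cut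 .l 708371 (.pos 39 .mp ⟨46926009, 0, 0, 0, 0, 123069160, 0, 0, 0, ⟨0, 0⟩, 0⟩ 0 0) (.cut .d (-98304) (.cut .s 9764864 (.pos 39 .mp ⟨44759557, 0, 0, 0, 0, 118444719, 0, 0, 0, ⟨0, 0⟩, 0⟩ 0 0) (.cut .s 9797632 (.pos 39 .mp ⟨46437056, 0, 0, 0, 0, 119814479, 0, 0, 0, ⟨0, 0⟩, 0⟩ 0 0) (.pos 39 .mp ⟨47284317, 0, 0, 0, 0, 121953845, 0, 0, 0, ⟨0, 0⟩, 0⟩ 0 0))) (.cut .l 960029 (.cut .s 9764864 (.pos 39 .mp ⟨50549028, 0, 0, 0, 0, 105497653, 0, 0, 0, ⟨0, 0⟩, 0⟩ 0 0) (.cut .s 9797632 (.pos 39 .mp ⟨51460887, 0, 0, 0, 0, 108764604, 0, 0, 0, ⟨0, 0⟩, 0⟩ 0 0) (.pos 39 .mp ⟨52380487, 0, 0, 0, 0, 110696370, 0, 0, 0, ⟨0, 0⟩, 0⟩ 0 0))) (.pos 39 .mp ⟨50255196, 0, 0, 0, 0, 104088855,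 0, 0, 0, ⟨0, 0⟩, 0⟩ 0 0)))) (.cut .l 708371 (.cut .v 16908288 (.cut .s 9764864 (.cut .d (-32768) (.cut .s 9732096 (.pos 41 .mp ⟨42914782, 0, 0, 0, 0, 114885813, 0, 0, 0, ⟨0, 0⟩, 0⟩ 0 0) (.pos 41 .mp ⟨43086391, 0, 0, 0, 0, 117765416, 0, 0, 0, ⟨0, 0⟩, 0⟩ 0 0)) (.pos 41 .mp ⟨47649630, 0, 0, 0, 0, 106195603, 0, 0, 0, ⟨0, 0⟩, 0⟩ 0 0)) (.cut .d (-32768) (.cut .s 9797632 (.pos 41 .mp ⟨43550406, 0, 0, 0, 0, 120290053, 0, 0, 0, ⟨0, 0⟩, 0⟩ 0 0) (.pos 41 .mp ⟨44274276, 0, 0, 0, 0, 122506078, 0, 0, 0, ⟨0, 0⟩, 0⟩ 0 0)) (.pos 41 .mp ⟨49231198, 0, 0, 0, 0, 110160839, 0, 0, 0, ⟨0, 0⟩, 0⟩ 0 0))) (.pos 42 .mp ⟨139642834, 0, 0, 0, 0, 0, 0, 0, 0, ⟨0, 0⟩, 0⟩ 0 0)) (.pos 39 .mp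 ⟨48906160, 0, 0, 0, 0, 0, 0, 0, 0, ⟨0, 0⟩, 0⟩ 0 0)))) (.pos 40 .mp ⟨136930204, 0, 0, 0, 0, 0, 0, 0, 0, ⟨0, 0⟩, 0⟩ 0 0)) (.cut .v 17039360 (.cut .s 9961472 (.cut .d (-65536) (.cut .l 708371 (.pos 39 .mp ⟨49389696, 0, 0, 0, 0, 133645204, 0, 0, 0, ⟨0, 0⟩, 0⟩ 0 0) (.cut .d (-98304) (.cut .d (-114688) (.pos 39 .mp ⟨49874310, 0, 0, 0, 0, 133489702, 0, 0, 0, ⟨0, 0⟩, 0⟩ 0 0) (.cut .l 960029 (.void 39 ⟨0, 0, 0, 0, 0, 100000, 0, 0, 0, ⟨0, 0⟩, 0⟩ 0 0) (.cut .s 9895936 (.pos 39 .mp ⟨48137371, 0, 0, 0, 0, 125644946, 0, 0, 0, ⟨0, 0⟩, 0⟩ 0 0) (.pos 39 .mp ⟨49861220, 0, 0, 0, 0, 130081806, 0, 0, 0, ⟨0, 0⟩, 0⟩ 0 0)))) (.cut .l 960029 (.cut .d (-81920) (.cut .s 9895936 (.pos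 39 .mp ⟨48519127, 0, 0, 0, 0, 126253716, 0, 0, 0, ⟨0, 0⟩, 0⟩ 0 0) (.pos 39 .mp ⟨50220510, 0, 0, 0, 0, 130806467, 0, 0, 0, ⟨0, 0⟩, 0⟩ 0 0)) (.cut .s 9895936 (.pos 39 .mp ⟨52412213, 0, 0, 0, 0, 113893619, 0, 0, 0, ⟨0, 0⟩, 0⟩ 0 0) (.pos 39 .mp ⟨54211281, 0, 0, 0, 0, 118031678, 0, 0, 0, ⟨0, 0⟩, 0⟩ 0 0))) (.cut .s 9895936 (.pos 39 .mp ⟨52048437, 0, 0, 0, 0, 113109999, 0, 0, 0, ⟨0, 0⟩, 0⟩ 0 0) (.pos 39 .mp ⟨53869987, 0, 0, 0, 0, 117203299, 0, 0, 0, ⟨0, 0⟩, 0⟩ 0 0))))) (.cut .l 708371 (.cut .v 16908288 (.cut .d (-32768) (.cut .s 9895936 (.cut .s 9863168 (.pos 41 .mp ⟨45001790, 0, 0, 0, 0, 124794782, 0, 0, 0, ⟨0, 0⟩, 0⟩ 0 0) (.pos 41 .mp ⟨45733012, 0, 0, 0, 0, 127156505,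 0, 0, 0, ⟨0, 0⟩, 0⟩ 0 0)) (.cut .s 9928704 (.pos 41 .mp ⟨46468007, 0, 0, 0, 0, 129591588, 0, 0, 0, ⟨0, 0⟩, 0⟩ 0 0) (.pos 41 .mp ⟨47206841, 0, 0, 0, 0, 132100365, 0, 0, 0, ⟨0, 0⟩, 0⟩ 0 0))) (.cut .d (-16384) (.cut .s 9895936 (.pos 41 .mp ⟨50835450, 0, 0, 0, 0, 114911426, 0, 0, 0, ⟨0, 0⟩, 0⟩ 0 0) (.pos 41 .mp ⟨52463094, 0, 0, 0, 0, 119334526, 0, 0, 0, ⟨0, 0⟩, 0⟩ 0 0)) (.pos 41 .mp ⟨50559412, 0, 0, 0, 0, 0, 0, 0, 0, ⟨0, 0⟩, 0⟩ 0 0))) (.pos 42 .mp ⟨148709664, 0, 0, 0, 0, 0, 0, 0, 0, ⟨0, 0⟩, 0⟩ 0 0)) (.pos 39 .mp ⟨52288415, 0, 0, 0, 0, 0, 0, 0, 0, ⟨0, 0⟩, 0⟩ 0 0))) (.cut .d (-65536) (.cut .l 708371 (.pos 39 .mp ⟨52288415, 0, 0, 0, 0, 144399782, 0, 0, 0, ⟨0, 0⟩,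 0⟩ 0 0) (.cut .s 10027008 (.cut .d (-98304) (.pos 39 .mp ⟨51609347, 0, 0, 0, 0, 136417637, 0, 0, 0, ⟨0, 0⟩, 0⟩ 0 0) (.cut .s 9994240 (.pos 39 .mp ⟨57098645, 0, 0, 0, 0, 120596346, 0, 0, 0, ⟨0, 0⟩, 0⟩ 0 0) (.pos 39 .mp ⟨58067147, 0, 0, 0, 0, 122885531, 0, 0, 0, ⟨0, 0⟩, 0⟩ 0 0))) (.cut .s 10059776 (.cut .s 10043392 (.pos 39 .mp ⟨49346050, 0, 0, 0, 0, 141742118, 0, 0, 0, ⟨0, 0⟩, 0⟩ 0 0) (.pos 39 .mp ⟨49742050, 0, 0, 0, 0, 143110824, 0, 0, 0, ⟨0, 0⟩, 0⟩ 0 0)) (.pos 39 .mp ⟨50139133, 0, 0, 0, 0, 145559555, 0, 0, 0, ⟨0, 0⟩, 0⟩ 0 0)))) (.cut .l 708371 (.cut .v 16908288 (.cut .d (-32768) (.cut .s 10027008 (.cut .s 9994240 (.pos 41 .mp ⟨47949581, 0, 0, 0, 0, 134683168,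 0, 0, 0, ⟨0, 0⟩, 0⟩ 0 0) (.pos 41 .mp ⟨48696294, 0, 0, 0, 0, 137340325, 0, 0, 0, ⟨0, 0⟩, 0⟩ 0 0)) (.cut .s 10059776 (.pos 41 .mp ⟨49447052, 0, 0, 0, 0, 140072158, 0, 0, 0, ⟨0, 0⟩, 0⟩ 0 0) (.pos 41 .mp ⟨50399537, 0, 0, 0, 0, 142579207, 0, 0, 0, ⟨0, 0⟩, 0⟩ 0 0))) (.cut .s 10027008 (.cut .s 9994240 (.pos 41 .mp ⟨53285917, 0, 0, 0, 0, 123342432, 0, 0, 0, ⟨0, 0⟩, 0⟩ 0 0) (.pos 41 .mp ⟨54114866, 0, 0, 0, 0, 125689536, 0, 0, 0, ⟨0, 0⟩, 0⟩ 0 0)) (.pos 41 .mp ⟨55791532, 0, 0, 0, 0, 128343030, 0, 0, 0, ⟨0, 0⟩, 0⟩ 0 0))) (.pos 42 .mp ⟨158446712, 0, 0, 0, 0, 0, 0, 0, 0, ⟨0, 0⟩, 0⟩ 0 0)) (.pos 39 .mp ⟨53404747, 0, 0, 0, 0, 122543331, 0, 0, 0, ⟨0, 0⟩, 0⟩ 0 0)))) (.pos 40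 .mp ⟨155280643, 0, 0, 0, 0, 0, 0, 0, 0, ⟨0, 0⟩, 0⟩ 0 0))) (.pos 38 .mp ⟨152606042, 0, 0, 0, 0, 0, 0, 0, 0, ⟨0, 0⟩, 0⟩ 0 0)) (.pos 36 .mp ⟨163048289, 0, 0, 0, 0, 0, 0, 0, 0, ⟨0, 0⟩, 0⟩ 0 0)) (.void 34 ⟨100000, 0, 0, 0, 0, 0, 0, 0, 0, ⟨0, 0⟩, 0⟩ 0 0)))))))) (.void 32 ⟨100000, 0, 0, 0, 0, 0, 0, 0, 0, ⟨0, 0⟩, 0⟩ 0 0))) (.void 30 ⟨100000, 0, 0, 0, 0, 0, 0, 0, 0, ⟨0, 0⟩, 0⟩ 0 0)) (.void 71 ⟨100000, 0, 0, 0, 0, 0, 0, 0, 0, ⟨0, 0⟩, 0⟩ 0 0)) (.void 86 ⟨100000, 0, 0, 0, 0, 0, 0, 0, 0, ⟨0, 0⟩, 0⟩ 0 0)) (.void 103 ⟨62439, 37561, 0, 0, 0, 0, 0, 0, 0, ⟨0, 0⟩, 0⟩ 0 0))) (.cut .v 16777216 (.cut .v 8388608 (.cut .v 4194304 (.cut .v 2097152 (.pos 6 .pm ⟨0, 0, 53112670, 0, 0,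 0, 0, 0, 129647305, ⟨0, 0⟩, 2804900⟩ 0 0) (.pos 7 .pm ⟨0, 3438859, 0, 0, 0, 0, 0, 0, 0, ⟨0, 0⟩, 0⟩ 0 0)) (.cut .d 6320185 (.pos 5 .pm ⟨0, 0, 0, 0, 0, 0, 0, 0, 0, ⟨0, 0⟩, 0⟩ 0 0) (.cut .d 9480278 (.pos 5 .pm ⟨0, 0, 0, 0, 0, 0, 0, 0, 0, ⟨0, 0⟩, 0⟩ 0 0) (.cut .d 11060324 (.cut .s 9830400 (.pos 5 .pm ⟨0, 0, 0, 0, 0, 0, 0, 0, 0, ⟨0, 0⟩, 0⟩ 0 0) (.pos 5 .pm ⟨0, 77787961, 0, 0, 0, 0, 0, 0, 0, ⟨0, 0⟩, 0⟩ 0 0)) (.pos 5 .pm ⟨0, 103989985, 0, 0, 0, 0, 0, 0, 0, ⟨0, 0⟩, 0⟩ 0 0))))) (.cut .d 6320185 (.pos 3 .pm ⟨0, 0, 0, 0, 0, 0, 0, 0, 0, ⟨0, 0⟩, 0⟩ 0 0) (.cut .d 9480278 (.pos 3 .pm ⟨0, 0, 0, 0, 0, 0, 0, 0, 0, ⟨0, 0⟩, 0⟩ 0 0) (.cut .d 11060324 (.cut .v 12582912 (.cut .s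 9830400 (.pos 8 .pm ⟨0, 67818511, 0, 0, 0, 0, 0, 0, 0, ⟨0, 0⟩, 0⟩ 0 0) (.cut .d 10270301 (.pos 8 .pm ⟨0, 79549892, 0, 0, 0, 0, 0, 0, 0, ⟨0, 0⟩, 0⟩ 0 0) (.cut .v 10485760 (.cut .s 9961472 (.pos 10 .pm ⟨0, 92051099, 0, 0, 0, 0, 0, 0, 0, ⟨0, 0⟩, 0⟩ 0 0) (.pos 10 .pm ⟨0, 107095477, 0, 0, 0, 0, 0, 0, 0, ⟨0, 0⟩, 0⟩ 0 0)) (.pos 11 .pm ⟨0, 108365901, 0, 0, 0, 0, 0, 0, 0, ⟨0, 0⟩, 0⟩ 0 0)))) (.pos 9 .pm ⟨0, 95599054, 0, 0, 0, 0, 0, 0, 0, ⟨0, 0⟩, 0⟩ 0 0)) (.cut .v 12582912 (.cut .s 9830400 (.cut .d 11850347 (.cut .v 10485760 (.pos 10 .pm ⟨0, 95149133, 0, 0, 0, 0, 0, 0, 0, ⟨0, 0⟩, 0⟩ 0 0) (.pos 11 .pm ⟨0, 100617506, 0, 0, 0, 0, 0, 0, 0, ⟨0, 0⟩, 0⟩ 0 0)) (.void 8 ⟨0, 100000,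 0, 0, 0, 0, 0, 0, 0, ⟨0, 0⟩, 0⟩ 0 0)) (.pos 8 .pm ⟨0, 242176084, 0, 0, 0, 0, 0, 0, 0, ⟨0, 0⟩, 0⟩ 0 0)) (.pos 9 .pm ⟨0, 152431265, 0, 0, 0, 0, 0, 0, 0, ⟨0, 0⟩, 0⟩ 0 0)))))) (.cut .v 268435456 (.cut .v 67108864 (.cut .d 6320185 (.cut .d 3160092 (.cut .v 33554432 (.cut .d 1580046 (.cut .v 25165824 (.pos 29 .pp ⟨103430185, 0, 0, 0, 0, 0, 0, 0, 0, ⟨0, 0⟩, 0⟩ 0 0) (.pos 30 .pp ⟨235315999, 0, 0, 0, 0, 0, 0, 0, 0, ⟨0, 0⟩, 0⟩ 0 0)) (.pos 28 .pp ⟨0, 0, 0, 0, 0, 0, 0, 0, 0, ⟨0, 0⟩, 0⟩ 0 0)) (.cut .d 1580046 (.cut .v 50331648 (.pos 74 .pp ⟨541191977, 0, 0, 0, 0, 0, 0, 0, 0, ⟨0, 0⟩, 0⟩ 0 0) (.void 75 ⟨100000, 0, 0, 0, 0, 0, 0, 0, 0, ⟨0, 0⟩, 0⟩ 0 0)) (.pos 71 .pp ⟨270517306,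 0, 0, 0, 0, 0, 0, 0, 0, ⟨0, 0⟩, 0⟩ 0 0))) (.pos 70 .pp ⟨0, 0, 0, 0, 0, 0, 0, 0, 0, ⟨0, 0⟩, 0⟩ 0 0)) (.cut .d 9480278 (.pos 70 .pp ⟨0, 0, 0, 0, 0, 0, 0, 0, 0, ⟨0, 0⟩, 0⟩ 0 0) (.pos 70 .pp ⟨0, 155288944, 0, 0, 0, 0, 0, 0, 0, ⟨0, 0⟩, 0⟩ 0 0))) (.cut .v 134217728 (.cut .d 6320185 (.cut .d 3160092 (.cut .v 100663296 (.cut .d 1580046 (.void 89 ⟨100000, 0, 0, 0, 0, 0, 0, 0, 0, ⟨0, 0⟩, 0⟩ 0 0) (.cut .d 2370069 (.pos 89 .pp ⟨1835026453, 0, 0, 0, 0, 0, 0, 0, 0, ⟨0, 0⟩, 0⟩ 0 0) (.pos 89 .pp ⟨1048203505, 0, 0, 0, 0, 0, 0, 0, 0, ⟨0, 0⟩, 0⟩ 0 0))) (.void 90 ⟨43170, 56830, 0, 0, 0, 0, 0, 0, 0, ⟨0, 0⟩, 0⟩ 0 0)) (.pos 87 .pp ⟨0, 241085012, 0, 0, 0, 0, 4419082, 0, 0, ⟨0, 0⟩,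 0⟩ 0 0)) (.void 87 ⟨0, 100000, 0, 0, 0, 0, 0, 0, 0, ⟨0, 0⟩, 0⟩ 0 0)) (.void 88 ⟨37646, 62354, 0, 0, 0, 0, 0, 0, 0, ⟨0, 0⟩, 0⟩ 0 0))) (.void 103 ⟨0, 0, 0, 100000, 0, 0, 0, 0, 0, ⟨0, 0⟩, 0⟩ 0 0)))),
    by decide +kernel⟩

def covers13 : cell.Covers table row13.1 :=
  ⟨(.cut .d 0 (.cut .v 16777216 (.cut .d (-8388608) (.void 1 ⟨0, 0, 0, 0, 0, 100000, 0, 0, 0, ⟨0, 0⟩, 0⟩ 0 0) (.cut .d (-4194304) (.void 1 ⟨0, 0, 0, 0, 0, 100000, 0, 0, 0, ⟨0, 0⟩, 0⟩ 0 0) (.cut .d (-2097152) (.void 1 ⟨0, 0, 0, 0, 0, 100000, 0, 0, 0, ⟨0, 0⟩, 0⟩ 0 0) (.cut .d (-1048576) (.void 1 ⟨0, 0, 0, 0, 0, 100000, 0, 0, 0, ⟨0, 0⟩, 0⟩ 0 0) (.cut .d (-524288) (.void 1 ⟨0, 0, 0, 0, 0, 100000, 0,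 0, 0, ⟨0, 0⟩, 0⟩ 0 0) (.cut .d (-262144) (.void 1 ⟨0, 0, 0, 0, 0, 100000, 0, 0, 0, ⟨0, 0⟩, 0⟩ 0 0) (.cut .d (-131072) (.void 1 ⟨0, 0, 0, 0, 0, 100000, 0, 0, 0, ⟨0, 0⟩, 0⟩ 0 0) (.cut .v 8388608 (.cut .v 4194304 (.void 4 ⟨0, 0, 100000, 0, 0, 0, 0, 0, 0, ⟨0, 0⟩, 0⟩ 0 0) (.pos 5 .mm ⟨0, 0, 0, 0, 0, 107414580, 0, 0, 0, ⟨0, 0⟩, 0⟩ 0 0)) (.cut .v 12582912 (.pos 8 .mm ⟨0, 0, 0, 0, 0, 160227818, 0, 0, 0, ⟨0, 0⟩, 0⟩ 0 0) (.cut .v 14680064 (.pos 12 .mm ⟨0, 0, 0, 0, 0, 193106193, 0, 0, 0, ⟨0, 0⟩, 0⟩ 0 0) (.cut .v 15728640 (.pos 16 .mm ⟨0, 0, 0, 0, 0, 211924475, 0, 0, 0, ⟨0, 0⟩, 0⟩ 0 0) (.cut .v 16252928 (.pos 20 .mm ⟨0, 0, 0, 0, 0, 221948062, 0, 0, 0, ⟨0, 0⟩, 0⟩ 0 0)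 (.cut .s 10289152 (.cut .s 10190848 (.pos 21 .mm ⟨0, 0, 0, 0, 0, 211632312, 0, 0, 0, ⟨0, 0⟩, 0⟩ 0 0) (.pos 21 .mm ⟨0, 0, 0, 0, 0, 223641650, 0, 0, 0, ⟨0, 0⟩, 0⟩ 0 0)) (.cut .s 10387456 (.pos 21 .mm ⟨0, 0, 0, 0, 0, 236201529, 0, 0, 0, ⟨0, 0⟩, 0⟩ 0 0) (.pos 21 .mm ⟨0, 0, 0, 0, 0, 249296540, 0, 0, 0, ⟨0, 0⟩, 0⟩ 0 0))))))))))))))) (.cut .v 268435456 (.cut .v 67108864 (.cut .v 33554432 (.cut .v 25165824 (.cut .d (-8388608) (.void 29 ⟨0, 0, 0, 0, 0, 100000, 0, 0, 0, ⟨0, 0⟩, 0⟩ 0 0) (.cut .d (-4194304) (.void 29 ⟨100000, 0, 0, 0, 0, 0, 0, 0, 0, ⟨0, 0⟩, 0⟩ 0 0) (.cut .v 20971520 (.cut .d (-2097152) (.void 31 ⟨100000, 0, 0, 0, 0, 0, 0, 0, 0, ⟨0, 0⟩, 0⟩ 0 0) (.cut .d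 (-1048576) (.void 31 ⟨100000, 0, 0, 0, 0, 0, 0, 0, 0, ⟨0, 0⟩, 0⟩ 0 0) (.cut .d (-524288) (.void 31 ⟨100000, 0, 0, 0, 0, 0, 0, 0, 0, ⟨0, 0⟩, 0⟩ 0 0) (.cut .d (-262144) (.void 31 ⟨100000, 0, 0, 0, 0, 0, 0, 0, 0, ⟨0, 0⟩, 0⟩ 0 0) (.cut .d (-131072) (.void 31 ⟨0, 0, 0, 0, 0, 100000, 0, 0, 0, ⟨0, 0⟩, 0⟩ 0 0) (.cut .v 18874368 (.cut .v 17825792 (.cut .v 17301504 (.cut .v 17039360 (.cut .s 10289152 (.cut .d (-65536) (.cut .l 708371 (.void 39 ⟨0, 0, 0, 0, 0, 100000, 0, 0, 0, ⟨0, 0⟩, 0⟩ 0 0) (.cut .d (-98304) (.cut .s 10190848 (.pos 39 .mp ⟨55783407, 0, 0, 0, 0, 152195244, 0, 0, 0, ⟨0, 0⟩, 0⟩ 0 0) (.pos 39 .mp ⟨58039688, 0, 0, 0, 0, 160753434, 0, 0, 0, ⟨0, 0⟩, 0⟩ 0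 0)) (.cut .s 10190848 (.cut .s 10141696 (.pos 39 .mp ⟨61553865, 0, 0, 0, 0, 131034608, 0, 0, 0, ⟨0, 0⟩, 0⟩ 0 0) (.cut .s 10166272 (.pos 39 .mp ⟨62324331, 0, 0, 0, 0, 133844214, 0, 0, 0, ⟨0, 0⟩, 0⟩ 0 0) (.pos 39 .mp ⟨63098739, 0, 0, 0, 0, 135490711, 0, 0, 0, ⟨0, 0⟩, 0⟩ 0 0))) (.cut .l 960029 (.cut .s 10240000 (.pos 39 .mp ⟨55980765, 0, 0, 0, 0, 154963813, 0, 0, 0, ⟨0, 0⟩, 0⟩ 0 0) (.pos 39 .mp ⟨57309964, 0, 0, 0, 0, 159039333, 0, 0, 0, ⟨0, 0⟩, 0⟩ 0 0)) (.cut .s 10240000 (.pos 39 .mp ⟨62068825, 0, 0, 0, 0, 139985734, 0, 0, 0, ⟨0, 0⟩, 0⟩ 0 0) (.cut .s 10264576 (.pos 39 .mp ⟨62825909, 0, 0, 0, 0, 143777805, 0, 0, 0, ⟨0, 0⟩, 0⟩ 0 0) (.pos 39 .mp ⟨63586423, 0, 0,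 0, 0, 145660490, 0, 0, 0, ⟨0, 0⟩, 0⟩ 0 0))))))) (.cut .v 16908288 (.cut .l 708371 (.cut .d (-32768) (.cut .s 10190848 (.cut .s 10141696 (.pos 41 .mp ⟨50956450, 0, 0, 0, 0, 147192369, 0, 0, 0, ⟨0, 0⟩, 0⟩ 0 0) (.pos 41 .mp ⟨52135731, 0, 0, 0, 0, 150969328, 0, 0, 0, ⟨0, 0⟩, 0⟩ 0 0)) (.cut .l 456712 (.pos 41 .mp ⟨55833854, 0, 0, 0, 0, 158320411, 0, 0, 0, ⟨0, 0⟩, 0⟩ 0 0) (.cut .s 10240000 (.pos 41 .mp ⟨53318684, 0, 0, 0, 0, 153916601, 0, 0, 0, ⟨0, 0⟩, 0⟩ 0 0) (.pos 41 .mp ⟨54505469, 0, 0, 0, 0, 158092831, 0, 0, 0, ⟨0, 0⟩, 0⟩ 0 0)))) (.cut .d (-16384) (.cut .l 456712 (.cut .v 16842752 (.cut .s 10190848 (.cut .s 10141696 (.pos 72 .mp ⟨50985742, 0, 0, 0, 0, 144610652,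 0, 0, 0, ⟨0, 0⟩, 0⟩ 0 0) (.pos 72 .mp ⟨52123236, 0, 0, 0, 0, 148338574, 0, 0, 0, ⟨0, 0⟩, 0⟩ 0 0)) (.cut .s 10240000 (.pos 72 .mp ⟨53264116, 0, 0, 0, 0, 152276637, 0, 0, 0, ⟨0, 0⟩, 0⟩ 0 0) (.pos 72 .mp ⟨54408532, 0, 0, 0, 0, 156426490, 0, 0, 0, ⟨0, 0⟩, 0⟩ 0 0))) (.pos 73 .mp ⟨166031206, 0, 0, 0, 0, 0, 0, 0, 0, ⟨0, 0⟩, 0⟩ 0 0)) (.pos 41 .mp ⟨58326400, 0, 0, 0, 0, 0, 0, 0, 0, ⟨0, 0⟩, 0⟩ 0 0)) (.pos 41 .mp ⟨58520042, 0, 0, 0, 0, 0, 0, 0, 0, ⟨0, 0⟩, 0⟩ 0 0))) (.cut .s 10190848 (.pos 41 .mp ⟨57858969, 0, 0, 0, 0, 131985345, 0, 0, 0, ⟨0, 0⟩, 0⟩ 0 0) (.pos 41 .mp ⟨60588631, 0, 0, 0, 0, 139201732, 0, 0, 0, ⟨0, 0⟩, 0⟩ 0 0))) (.pos 42 .mp ⟨163881583, 0, 0, 0, 0, 0, 0,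 0, 0, ⟨0, 0⟩, 0⟩ 0 0))) (.cut .d (-65536) (.cut .l 708371 (.void 39 ⟨0, 0, 0, 0, 0, 100000, 0, 0, 0, ⟨0, 0⟩, 0⟩ 0 0) (.cut .d (-98304) (.cut .s 10387456 (.pos 39 .mp ⟨60945361, 0, 0, 0, 0, 168460297, 0, 0, 0, ⟨0, 0⟩, 0⟩ 0 0) (.pos 39 .mp ⟨63895116, 0, 0, 0, 0, 177149005, 0, 0, 0, ⟨0, 0⟩, 0⟩ 0 0)) (.cut .s 10387456 (.cut .l 960029 (.cut .s 10338304 (.pos 39 .mp ⟨58646630, 0, 0, 0, 0, 163296461, 0, 0, 0, ⟨0, 0⟩, 0⟩ 0 0) (.pos 39 .mp ⟨59991006, 0, 0, 0, 0, 167735024, 0, 0, 0, ⟨0, 0⟩, 0⟩ 0 0)) (.cut .d (-81920) (.cut .s 10338304 (.cut .s 10313728 (.pos 39 .mp ⟨58476804, 0, 0, 0, 0, 160441805, 0, 0, 0, ⟨0, 0⟩, 0⟩ 0 0) (.pos 39 .mp ⟨59163635, 0, 0, 0, 0, 162579333,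 0, 0, 0, ⟨0, 0⟩, 0⟩ 0 0)) (.pos 39 .mp ⟨59852478, 0, 0, 0, 0, 166295412, 0, 0, 0, ⟨0, 0⟩, 0⟩ 0 0)) (.pos 39 .mp ⟨63048853, 0, 0, 0, 0, 147907842, 0, 0, 0, ⟨0, 0⟩, 0⟩ 0 0))) (.cut .s 10436608 (.cut .s 10412032 (.pos 39 .mp ⟨58584131, 0, 0, 0, 0, 172885371, 0, 0, 0, ⟨0, 0⟩, 0⟩ 0 0) (.pos 39 .mp ⟨59229807, 0, 0, 0, 0, 175339404, 0, 0, 0, ⟨0, 0⟩, 0⟩ 0 0)) (.cut .v 16908288 (.pos 41 .mp ⟨30011464, 0, 0, 0, 0, 217172051, 0, 0, 0, ⟨0, 0⟩, 0⟩ 0 0) (.pos 42 .mp ⟨73569612, 0, 0, 0, 0, 158544613, 0, 0, 0, ⟨0, 0⟩, 0⟩ 0 0)))))) (.cut .l 708371 (.cut .v 16908288 (.cut .d (-32768) (.cut .s 10387456 (.cut .l 456712 (.pos 41 .mp ⟨58326400, 0, 0, 0, 0, 167110047, 0, 0, 0, ⟨0,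 0⟩, 0⟩ 0 0) (.cut .s 10338304 (.pos 41 .mp ⟨55696248, 0, 0, 0, 0, 162454617, 0, 0, 0, ⟨0, 0⟩, 0⟩ 0 0) (.pos 41 .mp ⟨56891190, 0, 0, 0, 0, 167001924, 0, 0, 0, ⟨0, 0⟩, 0⟩ 0 0))) (.cut .s 10436608 (.cut .s 10412032 (.pos 41 .mp ⟨58090468, 0, 0, 0, 0, 170963570, 0, 0, 0, ⟨0, 0⟩, 0⟩ 0 0) (.pos 41 .mp ⟨58968720, 0, 0, 0, 0, 173020967, 0, 0, 0, ⟨0, 0⟩, 0⟩ 0 0)) (.pos 41 .mp ⟨59294259, 0, 0, 0, 0, 178139844, 0, 0, 0, ⟨0, 0⟩, 0⟩ 0 0))) (.cut .d (-16384) (.cut .l 456712 (.cut .v 16842752 (.cut .s 10387456 (.cut .s 10338304 (.pos 72 .mp ⟨55556640, 0, 0, 0, 0, 160789768, 0, 0, 0, ⟨0, 0⟩, 0⟩ 0 0) (.pos 72 .mp ⟨56708598, 0, 0, 0, 0, 165368088, 0, 0, 0, ⟨0, 0⟩, 0⟩ 0 0))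 (.cut .s 10436608 (.pos 72 .mp ⟨57864572, 0, 0, 0, 0, 170163053, 0, 0, 0, ⟨0, 0⟩, 0⟩ 0 0) (.pos 72 .mp ⟨59024728, 0, 0, 0, 0, 175176245, 0, 0, 0, ⟨0, 0⟩, 0⟩ 0 0))) (.pos 73 .mp ⟨180655838, 0, 0, 0, 0, 0, 0, 0, 0, ⟨0, 0⟩, 0⟩ 0 0)) (.pos 41 .mp ⟨63397690, 0, 0, 0, 0, 0, 0, 0, 0, ⟨0, 0⟩, 0⟩ 0 0)) (.pos 41 .mp ⟨63300772, 0, 0, 0, 0, 114184770, 0, 0, 0, ⟨0, 0⟩, 0⟩ 0 0))) (.pos 42 .mp ⟨186199624, 0, 0, 0, 0, 0, 0, 0, 0, ⟨0, 0⟩, 0⟩ 0 0)) (.cut .s 10387456 (.pos 39 .mp ⟨64112274, 0, 0, 0, 0, 145928096, 0, 0, 0, ⟨0, 0⟩, 0⟩ 0 0) (.pos 39 .mp ⟨66981079, 0, 0, 0, 0, 153919712, 0, 0, 0, ⟨0, 0⟩, 0⟩ 0 0))))) (.cut .s 10289152 (.pos 40 .mp ⟨176394292, 0, 0, 0, 0, 0, 0, 0,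 0, ⟨0, 0⟩, 0⟩ 0 0) (.pos 40 .mp ⟨192182002, 0, 0, 0, 0, 0, 0, 0, 0, ⟨0, 0⟩, 0⟩ 0 0))) (.pos 38 .mp ⟨189106759, 0, 0, 0, 0, 0, 0, 0, 0, ⟨0, 0⟩, 0⟩ 0 0)) (.pos 36 .mp ⟨201760136, 0, 0, 0, 0, 0, 0, 0, 0, ⟨0, 0⟩, 0⟩ 0 0)) (.void 34 ⟨100000, 0, 0, 0, 0, 0, 0, 0, 0, ⟨0, 0⟩, 0⟩ 0 0))))))) (.void 32 ⟨100000, 0, 0, 0, 0, 0, 0, 0, 0, ⟨0, 0⟩, 0⟩ 0 0)))) (.void 30 ⟨100000, 0, 0, 0, 0, 0, 0, 0, 0, ⟨0, 0⟩, 0⟩ 0 0)) (.void 71 ⟨100000, 0, 0, 0, 0, 0, 0, 0, 0, ⟨0, 0⟩, 0⟩ 0 0)) (.void 86 ⟨100000, 0, 0, 0, 0, 0, 0, 0, 0, ⟨0, 0⟩, 0⟩ 0 0)) (.void 103 ⟨61538, 38462, 0, 0, 0, 0, 0, 0, 0, ⟨0, 0⟩, 0⟩ 0 0))) (.cut .v 16777216 (.cut .v 8388608 (.cut .v 4194304 (.cut .v 2097152 (.cut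 .v 1048576 (.void 106 ⟨0, 0, 19122, 0, 0, 0, 0, 0, 80878, ⟨0, 0⟩, 1983364⟩ 0 0) (.void 107 ⟨0, 0, 37288, 0, 0, 0, 0, 0, 62712, ⟨0, 0⟩, 4987896⟩ 0 0)) (.pos 7 .pm ⟨0, 5304659, 0, 0, 0, 0, 0, 0, 0, ⟨0, 0⟩, 0⟩ 0 0)) (.cut .d 5556092 (.pos 5 .pm ⟨0, 0, 0, 0, 0, 0, 0, 0, 0, ⟨0, 0⟩, 0⟩ 0 0) (.cut .d 8334138 (.pos 5 .pm ⟨0, 0, 0, 0, 0, 0, 0, 0, 0, ⟨0, 0⟩, 0⟩ 0 0) (.cut .d 9723161 (.pos 5 .pm ⟨0, 73430351, 0, 0, 0, 0, 0, 0, 0, ⟨0, 0⟩, 0⟩ 0 0) (.cut .s 10289152 (.pos 5 .pm ⟨0, 105551950, 0, 0, 0, 0, 0, 0, 0, ⟨0, 0⟩, 0⟩ 0 0) (.pos 5 .pm ⟨0, 130735065, 0, 0, 0, 0, 0, 0, 0, ⟨0, 0⟩, 0⟩ 0 0)))))) (.cut .d 5556092 (.pos 3 .pm ⟨0, 0, 0, 0, 0, 0, 0, 0, 0, ⟨0, 0⟩, 0⟩ 0 0) (.cut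 .d 8334138 (.pos 3 .pm ⟨0, 0, 0, 0, 0, 0, 0, 0, 0, ⟨0, 0⟩, 0⟩ 0 0) (.cut .d 9723161 (.cut .v 12582912 (.cut .v 10485760 (.cut .s 10289152 (.pos 10 .pm ⟨0, 0, 0, 0, 0, 0, 0, 0, 0, ⟨0, 0⟩, 0⟩ 0 0) (.pos 10 .pm ⟨0, 95434630, 0, 0, 0, 0, 0, 0, 0, ⟨0, 0⟩, 0⟩ 0 0)) (.pos 11 .pm ⟨0, 98335898, 0, 0, 0, 0, 0, 0, 0, ⟨0, 0⟩, 0⟩ 0 0)) (.pos 9 .pm ⟨0, 112033751, 0, 0, 0, 0, 0, 0, 0, ⟨0, 0⟩, 0⟩ 0 0)) (.cut .s 10289152 (.cut .v 12582912 (.cut .d 10417673 (.cut .v 10485760 (.pos 10 .pm ⟨0, 107600441, 0, 0, 0, 0, 0, 0, 0, ⟨0, 0⟩, 0⟩ 0 0) (.pos 11 .pm ⟨0, 119078555, 0, 0, 0, 0, 0, 0, 0, ⟨0, 0⟩, 0⟩ 0 0)) (.void 8 ⟨0, 100000, 0, 0, 0, 0, 0, 0, 0, ⟨0, 0⟩, 0⟩ 0 0)) (.pos 9 .pm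 ⟨0, 154134527, 0, 0, 0, 0, 0, 0, 0, ⟨0, 0⟩, 0⟩ 0 0)) (.pos 3 .pm ⟨0, 188653441, 0, 0, 0, 0, 0, 0, 0, ⟨0, 0⟩, 0⟩ 0 0)))))) (.cut .v 268435456 (.cut .d 5556092 (.cut .v 67108864 (.cut .d 2778046 (.cut .v 33554432 (.cut .d 1389023 (.cut .v 25165824 (.pos 29 .pp ⟨128272949, 0, 0, 0, 0, 0, 0, 0, 0, ⟨0, 0⟩, 0⟩ 0 0) (.pos 30 .pp ⟨295224778, 0, 0, 0, 0, 0, 0, 0, 0, ⟨0, 0⟩, 0⟩ 0 0)) (.pos 28 .pp ⟨0, 0, 0, 0, 0, 0, 0, 0, 0, ⟨0, 0⟩, 0⟩ 0 0)) (.cut .d 1389023 (.cut .v 50331648 (.pos 74 .pp ⟨661284106, 0, 0, 0, 0, 0, 0, 0, 0, ⟨0, 0⟩, 0⟩ 0 0) (.void 75 ⟨100000, 0, 0, 0, 0, 0, 0, 0, 0, ⟨0, 0⟩, 0⟩ 0 0)) (.pos 71 .pp ⟨370243940, 0, 0, 0, 0, 0, 0, 0, 0, ⟨0, 0⟩, 0⟩ 0 0))) (.pos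 70 .pp ⟨0, 0, 0, 0, 0, 0, 0, 0, 0, ⟨0, 0⟩, 0⟩ 0 0)) (.cut .v 134217728 (.cut .d 2778046 (.cut .v 100663296 (.cut .d 1389023 (.void 89 ⟨100000, 0, 0, 0, 0, 0, 0, 0, 0, ⟨0, 0⟩, 0⟩ 0 0) (.cut .d 2083534 (.pos 89 .pp ⟨2260506064, 0, 0, 0, 0, 0, 0, 0, 0, ⟨0, 0⟩, 0⟩ 0 0) (.pos 89 .pp ⟨1351360546, 0, 0, 0, 0, 0, 0, 0, 0, ⟨0, 0⟩, 0⟩ 0 0))) (.pos 90 .pp ⟨4636345853, 2503363791, 0, 0, 0, 0, 0, 0, 0, ⟨0, 0⟩, 0⟩ 0 0)) (.pos 87 .pp ⟨0, 312662714, 0, 0, 0, 0, 3349594, 0, 0, ⟨0, 0⟩, 0⟩ 0 0)) (.void 88 ⟨40700, 59300, 0, 0, 0, 0, 0, 0, 0, ⟨0, 0⟩, 0⟩ 0 0))) (.pos 85 .pp ⟨0, 127515755, 0, 0, 0, 0, 0, 0, 0, ⟨0, 0⟩, 0⟩ 0 0)) (.void 103 ⟨0, 0, 0, 100000, 0, 0, 0, 0, 0, ⟨0, 0⟩,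 0⟩ 0 0)))),
    by decide +kernel⟩

def covers14 : cell.Covers table row14.1 :=
  ⟨(.cut .d 0 (.cut .v 16777216 (.cut .d (-8388608) (.void 1 ⟨0, 0, 0, 0, 0, 100000, 0, 0, 0, ⟨0, 0⟩, 0⟩ 0 0) (.cut .d (-4194304) (.void 1 ⟨0, 0, 0, 0, 0, 100000, 0, 0, 0, ⟨0, 0⟩, 0⟩ 0 0) (.cut .d (-2097152) (.void 1 ⟨0, 0, 0, 0, 0, 100000, 0, 0, 0, ⟨0, 0⟩, 0⟩ 0 0) (.cut .d (-1048576) (.void 1 ⟨0, 0, 0, 0, 0, 100000, 0, 0, 0, ⟨0, 0⟩, 0⟩ 0 0) (.cut .d (-524288) (.void 1 ⟨0, 0, 0, 0, 0, 100000, 0, 0, 0, ⟨0, 0⟩, 0⟩ 0 0) (.cut .d (-262144) (.void 1 ⟨0, 0, 0, 0, 0, 100000, 0, 0, 0, ⟨0, 0⟩, 0⟩ 0 0) (.cut .d (-131072) (.void 1 ⟨0, 0, 0, 0, 0, 100000, 0, 0, 0, ⟨0, 0⟩, 0⟩ 0 0) (.cut .v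 8388608 (.cut .v 4194304 (.void 4 ⟨0, 0, 100000, 0, 0, 0, 0, 0, 0, ⟨0, 0⟩, 0⟩ 0 0) (.pos 5 .mm ⟨0, 0, 0, 0, 0, 132987140, 0, 0, 0, ⟨0, 0⟩, 0⟩ 0 0)) (.cut .v 12582912 (.pos 8 .mm ⟨0, 0, 0, 0, 0, 202167912, 0, 0, 0, ⟨0, 0⟩, 0⟩ 0 0) (.cut .v 14680064 (.pos 12 .mm ⟨0, 0, 0, 0, 0, 242157031, 0, 0, 0, ⟨0, 0⟩, 0⟩ 0 0) (.cut .v 15728640 (.pos 16 .mm ⟨0, 0, 0, 0, 0, 264718410, 0, 0, 0, ⟨0, 0⟩, 0⟩ 0 0) (.cut .v 16252928 (.pos 20 .mm ⟨0, 0, 0, 0, 0, 276651225, 0, 0, 0, ⟨0, 0⟩, 0⟩ 0 0) (.cut .s 10682368 (.cut .s 10584064 (.pos 21 .mm ⟨0, 0, 0, 0, 0, 263367622, 0, 0, 0, ⟨0, 0⟩, 0⟩ 0 0) (.pos 21 .mm ⟨0, 0, 0, 0, 0, 277684274, 0, 0, 0, ⟨0, 0⟩, 0⟩ 0 0)) (.cut .s 10780672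 (.pos 21 .mm ⟨0, 0, 0, 0, 0, 292550662, 0, 0, 0, ⟨0, 0⟩, 0⟩ 0 0) (.pos 21 .mm ⟨0, 0, 0, 0, 0, 308216909, 0, 0, 0, ⟨0, 0⟩, 0⟩ 0 0))))))))))))))) (.cut .v 268435456 (.cut .v 67108864 (.cut .v 33554432 (.cut .v 25165824 (.cut .d (-8388608) (.void 29 ⟨0, 0, 0, 0, 0, 100000, 0, 0, 0, ⟨0, 0⟩, 0⟩ 0 0) (.cut .d (-4194304) (.void 29 ⟨100000, 0, 0, 0, 0, 0, 0, 0, 0, ⟨0, 0⟩, 0⟩ 0 0) (.cut .v 20971520 (.cut .d (-2097152) (.void 31 ⟨100000, 0, 0, 0, 0, 0, 0, 0, 0, ⟨0, 0⟩, 0⟩ 0 0) (.cut .d (-1048576) (.void 31 ⟨100000, 0, 0, 0, 0, 0, 0, 0, 0, ⟨0, 0⟩, 0⟩ 0 0) (.cut .d (-524288) (.void 31 ⟨100000, 0, 0, 0, 0, 0, 0, 0, 0, ⟨0, 0⟩, 0⟩ 0 0) (.cut .d (-262144) (.void 31 ⟨100000,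 0, 0, 0, 0, 0, 0, 0, 0, ⟨0, 0⟩, 0⟩ 0 0) (.cut .d (-131072) (.void 31 ⟨0, 0, 0, 0, 0, 100000, 0, 0, 0, ⟨0, 0⟩, 0⟩ 0 0) (.cut .v 18874368 (.cut .v 17825792 (.cut .v 17301504 (.cut .v 17039360 (.cut .d (-65536) (.cut .d (-98304) (.void 39 ⟨0, 0, 0, 0, 0, 100000, 0, 0, 0, ⟨0, 0⟩, 0⟩ 0 0) (.cut .l 708371 (.void 39 ⟨0, 0, 0, 0, 0, 100000, 0, 0, 0, ⟨0, 0⟩, 0⟩ 0 0) (.cut .s 10682368 (.cut .s 10584064 (.cut .s 10534912 (.pos 39 .mp ⟨61176239, 0, 0, 0, 0, 185973649, 0, 0, 0, ⟨0, 0⟩, 0⟩ 0 0) (.cut .s 10559488 (.pos 39 .mp ⟨62556358, 0, 0, 0, 0, 188109281, 0, 0, 0, ⟨0, 0⟩, 0⟩ 0 0) (.pos 39 .mp ⟨63246150, 0, 0, 0, 0, 190442379, 0, 0, 0, ⟨0, 0⟩, 0⟩ 0 0))) (.cut .s 10633216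 (.cut .v 16908288 (.pos 41 .mp ⟨36964827, 0, 0, 0, 0, 229127945, 0, 0, 0, ⟨0, 0⟩, 0⟩ 0 0) (.pos 42 .mp ⟨78831717, 0, 0, 0, 0, 172145128, 0, 0, 0, ⟨0, 0⟩, 0⟩ 0 0)) (.cut .v 16908288 (.pos 41 .mp ⟨34705379, 0, 0, 0, 0, 239189616, 0, 0, 0, ⟨0, 0⟩, 0⟩ 0 0) (.cut .s 10657792 (.pos 42 .mp ⟨78299885, 0, 0, 0, 0, 177706964, 0, 0, 0, ⟨0, 0⟩, 0⟩ 0 0) (.pos 42 .mp ⟨79254931, 0, 0, 0, 0, 179870270, 0, 0, 0, ⟨0, 0⟩, 0⟩ 0 0))))) (.cut .s 10780672 (.cut .l 960029 (.pos 39 .mp ⟨69842893, 0, 0, 0, 0, 209722249, 0, 0, 0, ⟨0, 0⟩, 0⟩ 0 0) (.cut .v 16908288 (.pos 41 .mp ⟨1258685, 0, 0, 0, 0, 292848745, 0, 0, 0, ⟨0, 0⟩, 0⟩ 0 0) (.cut .s 10731520 (.pos 42 .mp ⟨79152406, 0, 0, 0,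 0, 185004068, 0, 0, 0, ⟨0, 0⟩, 0⟩ 0 0) (.pos 42 .mp ⟨80889896, 0, 0, 0, 0, 189818005, 0, 0, 0, ⟨0, 0⟩, 0⟩ 0 0)))) (.cut .s 10829824 (.cut .s 10805248 (.pos 39 .mp ⟨69448681, 0, 0, 0, 0, 214522158, 0, 0, 0, ⟨0, 0⟩, 0⟩ 0 0) (.pos 39 .mp ⟨70137485, 0, 0, 0, 0, 217545076, 0, 0, 0, ⟨0, 0⟩, 0⟩ 0 0)) (.pos 39 .mp ⟨70826269, 0, 0, 0, 0, 223063921, 0, 0, 0, ⟨0, 0⟩, 0⟩ 0 0)))))) (.cut .s 10682368 (.cut .s 10584064 (.cut .v 16908288 (.cut .l 708371 (.cut .d (-32768) (.cut .s 10534912 (.pos 41 .mp ⟨60503832, 0, 0, 0, 0, 183796380, 0, 0, 0, ⟨0, 0⟩, 0⟩ 0 0) (.pos 41 .mp ⟨61760686, 0, 0, 0, 0, 188432990, 0, 0, 0, ⟨0, 0⟩, 0⟩ 0 0)) (.cut .s 10534912 (.pos 41 .mp ⟨67676057,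 0, 0, 0, 0, 167661268, 0, 0, 0, ⟨0, 0⟩, 0⟩ 0 0) (.cut .s 10559488 (.pos 41 .mp ⟨68364070, 0, 0, 0, 0, 171382156, 0, 0, 0, ⟨0, 0⟩, 0⟩ 0 0) (.pos 41 .mp ⟨69053386, 0, 0, 0, 0, 173743503, 0, 0, 0, ⟨0, 0⟩, 0⟩ 0 0)))) (.cut .s 10534912 (.pos 41 .mp ⟨67642867, 0, 0, 0, 0, 166444042, 0, 0, 0, ⟨0, 0⟩, 0⟩ 0 0) (.pos 41 .mp ⟨69116740, 0, 0, 0, 0, 170877610, 0, 0, 0, ⟨0, 0⟩, 0⟩ 0 0))) (.pos 42 .mp ⟨192013302, 0, 0, 0, 0, 0, 0, 0, 0, ⟨0, 0⟩, 0⟩ 0 0)) (.cut .v 16908288 (.cut .l 708371 (.cut .d (-32768) (.cut .l 456712 (.pos 41 .mp ⟨66029283, 0, 0, 0, 0, 198324695, 0, 0, 0, ⟨0, 0⟩, 0⟩ 0 0) (.cut .s 10633216 (.pos 41 .mp ⟨63015842, 0, 0, 0, 0, 192416539, 0, 0, 0, ⟨0, 0⟩,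 0⟩ 0 0) (.pos 41 .mp ⟨64269375, 0, 0, 0, 0, 197553611, 0, 0, 0, ⟨0, 0⟩, 0⟩ 0 0))) (.cut .d (-16384) (.cut .v 16842752 (.cut .s 10633216 (.pos 72 .mp ⟨59579214, 0, 0, 0, 0, 194056550, 0, 0, 0, ⟨0, 0⟩, 0⟩ 0 0) (.pos 72 .mp ⟨60706976, 0, 0, 0, 0, 199244003, 0, 0, 0, ⟨0, 0⟩, 0⟩ 0 0)) (.pos 73 .mp ⟨197368795, 0, 0, 0, 0, 0, 0, 0, 0, ⟨0, 0⟩, 0⟩ 0 0)) (.pos 41 .mp ⟨68544864, 0, 0, 0, 0, 176302454, 0, 0, 0, ⟨0, 0⟩, 0⟩ 0 0))) (.cut .s 10633216 (.pos 41 .mp ⟨70596683, 0, 0, 0, 0, 175448776, 0, 0, 0, ⟨0, 0⟩, 0⟩ 0 0) (.pos 41 .mp ⟨72082938, 0, 0, 0, 0, 180154917, 0, 0, 0, ⟨0, 0⟩, 0⟩ 0 0))) (.pos 42 .mp ⟨199945150, 0, 0, 0, 0, 0, 0, 0, 0, ⟨0, 0⟩, 0⟩ 0 0))) (.cut .s 10780672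 (.cut .v 16908288 (.cut .l 708371 (.cut .d (-32768) (.cut .l 456712 (.pos 41 .mp ⟨68667228, 0, 0, 0, 0, 208802943, 0, 0, 0, ⟨0, 0⟩, 0⟩ 0 0) (.cut .s 10731520 (.pos 41 .mp ⟨65521364, 0, 0, 0, 0, 202923475, 0, 0, 0, ⟨0, 0⟩, 0⟩ 0 0) (.pos 41 .mp ⟨66771889, 0, 0, 0, 0, 208526277, 0, 0, 0, ⟨0, 0⟩, 0⟩ 0 0))) (.cut .d (-16384) (.cut .l 456712 (.cut .s 10731520 (.pos 41 .mp ⟨73218175, 0, 0, 0, 0, 188190011, 0, 0, 0, ⟨0, 0⟩, 0⟩ 0 0) (.pos 41 .mp ⟨74618124, 0, 0, 0, 0, 193493939, 0, 0, 0, ⟨0, 0⟩, 0⟩ 0 0)) (.pos 41 .mp ⟨71313753, 0, 0, 0, 0, 0, 0, 0, 0, ⟨0, 0⟩, 0⟩ 0 0)) (.pos 41 .mp ⟨71092766, 0, 0, 0, 0, 186010060, 0, 0, 0, ⟨0, 0⟩, 0⟩ 0 0))) (.cut .s 10731520 (.pos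 41 .mp ⟨73575754, 0, 0, 0, 0, 184993436, 0, 0, 0, ⟨0, 0⟩, 0⟩ 0 0) (.pos 41 .mp ⟨75075386, 0, 0, 0, 0, 189961757, 0, 0, 0, ⟨0, 0⟩, 0⟩ 0 0))) (.pos 42 .mp ⟨208796767, 0, 0, 0, 0, 0, 0, 0, 0, ⟨0, 0⟩, 0⟩ 0 0)) (.cut .v 16908288 (.cut .l 708371 (.cut .d (-32768) (.cut .s 10829824 (.pos 41 .mp ⟨68021032, 0, 0, 0, 0, 215697874, 0, 0, 0, ⟨0, 0⟩, 0⟩ 0 0) (.pos 41 .mp ⟨69268876, 0, 0, 0, 0, 221982518, 0, 0, 0, ⟨0, 0⟩, 0⟩ 0 0)) (.cut .s 10829824 (.cut .s 10805248 (.pos 41 .mp ⟨75320422, 0, 0, 0, 0, 196504900, 0, 0, 0, ⟨0, 0⟩, 0⟩ 0 0) (.pos 41 .mp ⟨76024310, 0, 0, 0, 0, 199195838, 0, 0, 0, ⟨0, 0⟩, 0⟩ 0 0)) (.pos 41 .mp ⟨77436980, 0, 0, 0, 0, 202809045, 0, 0, 0, ⟨0, 0⟩,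 0⟩ 0 0))) (.cut .s 10829824 (.pos 41 .mp ⟨76582099, 0, 0, 0, 0, 195057328, 0, 0, 0, ⟨0, 0⟩, 0⟩ 0 0) (.pos 41 .mp ⟨78096165, 0, 0, 0, 0, 200277618, 0, 0, 0, ⟨0, 0⟩, 0⟩ 0 0))) (.pos 42 .mp ⟨218605227, 0, 0, 0, 0, 0, 0, 0, 0, ⟨0, 0⟩, 0⟩ 0 0))))) (.cut .d (-65536) (.pos 40 .mp ⟨231693489, 0, 0, 0, 0, 0, 0, 0, 0, ⟨0, 0⟩, 0⟩ 0 0) (.pos 40 .mp ⟨210043923, 0, 0, 0, 0, 0, 0, 0, 0, ⟨0, 0⟩, 0⟩ 0 0))) (.pos 38 .mp ⟨227360725, 0, 0, 0, 0, 0, 0, 0, 0, ⟨0, 0⟩, 0⟩ 0 0)) (.pos 36 .mp ⟨242416874, 0, 0, 0, 0, 0, 0, 0, 0, ⟨0, 0⟩, 0⟩ 0 0)) (.void 34 ⟨100000, 0, 0, 0, 0, 0, 0, 0, 0, ⟨0, 0⟩, 0⟩ 0 0))))))) (.void 32 ⟨100000, 0, 0, 0, 0, 0, 0, 0, 0, ⟨0, 0⟩, 0⟩ 0 0)))) (.void 30 ⟨100000,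 0, 0, 0, 0, 0, 0, 0, 0, ⟨0, 0⟩, 0⟩ 0 0)) (.void 71 ⟨100000, 0, 0, 0, 0, 0, 0, 0, 0, ⟨0, 0⟩, 0⟩ 0 0)) (.void 86 ⟨100000, 0, 0, 0, 0, 0, 0, 0, 0, ⟨0, 0⟩, 0⟩ 0 0)) (.void 103 ⟨83747, 14139, 0, 2114, 0, 0, 0, 0, 0, ⟨0, 0⟩, 0⟩ 0 0))) (.cut .v 16777216 (.cut .v 8388608 (.cut .v 4194304 (.cut .v 2097152 (.cut .v 1048576 (.pos 106 .pm ⟨0, 0, 35700214, 0, 0, 0, 0, 0, 90002032, ⟨0, 0⟩, 1983364⟩ 0 0) (.pos 107 .pm ⟨0, 0, 5800550, 0, 0, 0, 0, 0, 0, ⟨0, 0⟩, 0⟩ 0 0)) (.pos 7 .pm ⟨0, 8892908, 0, 0, 0, 0, 0, 0, 0, ⟨0, 0⟩, 0⟩ 0 0)) (.cut .d 5033166 (.pos 5 .pm ⟨0, 0, 0, 0, 0, 0, 0, 0, 0, ⟨0, 0⟩, 0⟩ 0 0) (.cut .d 7549749 (.pos 5 .pm ⟨0, 0, 0, 0, 0, 0, 0, 0, 0, ⟨0, 0⟩, 0⟩ 0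 0) (.cut .d 8808040 (.cut .d 8178894 (.pos 5 .pm ⟨0, 0, 0, 0, 0, 0, 0, 0, 0, ⟨0, 0⟩, 0⟩ 0 0) (.pos 5 .pm ⟨0, 92452627, 0, 0, 0, 0, 0, 0, 0, ⟨0, 0⟩, 0⟩ 0 0)) (.cut .s 10682368 (.cut .d 9437186 (.pos 5 .pm ⟨0, 109395463, 0, 0, 0, 0, 0, 0, 0, ⟨0, 0⟩, 0⟩ 0 0) (.pos 5 .pm ⟨0, 140748074, 0, 0, 0, 0, 0, 0, 0, ⟨0, 0⟩, 0⟩ 0 0)) (.pos 5 .pm ⟨0, 153477212, 0, 0, 0, 0, 0, 0, 0, ⟨0, 0⟩, 0⟩ 0 0)))))) (.cut .d 5033166 (.pos 3 .pm ⟨0, 0, 0, 0, 0, 0, 0, 0, 0, ⟨0, 0⟩, 0⟩ 0 0) (.cut .d 7549749 (.pos 3 .pm ⟨0, 0, 0, 0, 0, 0, 0, 0, 0, ⟨0, 0⟩, 0⟩ 0 0) (.cut .v 12582912 (.cut .d 8808040 (.cut .s 10682368 (.pos 8 .pm ⟨0, 0, 0, 0, 0, 0, 0, 0, 0, ⟨0, 0⟩, 0⟩ 0 0) (.pos 8 .pm ⟨0, 114329094,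 0, 0, 0, 0, 0, 0, 0, ⟨0, 0⟩, 0⟩ 0 0)) (.cut .s 10682368 (.cut .d 9437186 (.pos 8 .pm ⟨0, 127462011, 0, 0, 0, 0, 0, 0, 0, ⟨0, 0⟩, 0⟩ 0 0) (.void 8 ⟨0, 100000, 0, 0, 0, 0, 0, 0, 0, ⟨0, 0⟩, 0⟩ 0 0)) (.pos 8 .pm ⟨0, 181367797, 0, 0, 0, 0, 0, 0, 0, ⟨0, 0⟩, 0⟩ 0 0))) (.pos 9 .pm ⟨0, 176932279, 0, 0, 0, 0, 0, 0, 0, ⟨0, 0⟩, 0⟩ 0 0))))) (.cut .v 268435456 (.cut .d 5033166 (.cut .v 67108864 (.cut .d 2516583 (.cut .v 33554432 (.cut .d 1258291 (.cut .v 25165824 (.pos 29 .pp ⟨154529034, 0, 0, 0, 0, 0, 0, 0, 0, ⟨0, 0⟩, 0⟩ 0 0) (.pos 30 .pp ⟨353927868, 0, 0, 0, 0, 0, 0, 0, 0, ⟨0, 0⟩, 0⟩ 0 0)) (.pos 28 .pp ⟨0, 0, 0, 0, 0, 0, 0, 0, 0, ⟨0, 0⟩, 0⟩ 0 0)) (.cut .d 1258291 (.cut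 .v 50331648 (.pos 74 .pp ⟨785452270, 0, 0, 0, 0, 0, 0, 0, 0, ⟨0, 0⟩, 0⟩ 0 0) (.void 75 ⟨100000, 0, 0, 0, 0, 0, 0, 0, 0, ⟨0, 0⟩, 0⟩ 0 0)) (.pos 71 .pp ⟨455229179, 0, 0, 0, 0, 0, 0, 0, 0, ⟨0, 0⟩, 0⟩ 0 0))) (.pos 70 .pp ⟨0, 0, 0, 0, 0, 0, 0, 0, 0, ⟨0, 0⟩, 0⟩ 0 0)) (.cut .v 134217728 (.cut .d 2516583 (.cut .d 1258291 (.void 87 ⟨100000, 0, 0, 0, 0, 0, 0, 0, 0, ⟨0, 0⟩, 0⟩ 0 0) (.cut .v 100663296 (.cut .d 1887437 (.pos 89 .pp ⟨2652861463, 0, 0, 0, 0, 0, 0, 0, 0, ⟨0, 0⟩, 0⟩ 0 0) (.pos 89 .pp ⟨1614805536, 0, 0, 0, 0, 0, 0, 0, 0, ⟨0, 0⟩, 0⟩ 0 0)) (.pos 90 .pp ⟨3972382515, 1460513342, 0, 0, 0, 0, 0, 0, 0, ⟨0, 0⟩, 0⟩ 0 0))) (.pos 87 .pp ⟨0, 385475752, 0, 0, 0, 0, 0, 0,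 0, ⟨0, 0⟩, 0⟩ 0 0)) (.void 88 ⟨40138, 59862, 0, 0, 0, 0, 0, 0, 0, ⟨0, 0⟩, 0⟩ 0 0))) (.pos 85 .pp ⟨0, 150303681, 0, 0, 0, 0, 0, 0, 0, ⟨0, 0⟩, 0⟩ 0 0)) (.void 103 ⟨0, 0, 0, 100000, 0, 0, 0, 0, 0, ⟨0, 0⟩, 0⟩ 0 0)))),
    by decide +kernel⟩

def covers15 : cell.Covers table row15.1 :=
  ⟨(.cut .d 0 (.cut .v 16777216 (.cut .d (-8388608) (.void 1 ⟨0, 0, 0, 0, 0, 100000, 0, 0, 0, ⟨0, 0⟩, 0⟩ 0 0) (.cut .d (-4194304) (.void 1 ⟨0, 0, 0, 0, 0, 100000, 0, 0, 0, ⟨0, 0⟩, 0⟩ 0 0) (.cut .d (-2097152) (.void 1 ⟨0, 0, 0, 0, 0, 100000, 0, 0, 0, ⟨0, 0⟩, 0⟩ 0 0) (.cut .d (-1048576) (.void 1 ⟨0, 0, 0, 0, 0, 100000, 0, 0, 0, ⟨0, 0⟩, 0⟩ 0 0) (.cut .d (-524288) (.void 1 ⟨0, 0, 0,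 0, 0, 100000, 0, 0, 0, ⟨0, 0⟩, 0⟩ 0 0) (.cut .d (-262144) (.void 1 ⟨0, 0, 0, 0, 0, 100000, 0, 0, 0, ⟨0, 0⟩, 0⟩ 0 0) (.cut .d (-131072) (.void 1 ⟨0, 0, 0, 0, 0, 100000, 0, 0, 0, ⟨0, 0⟩, 0⟩ 0 0) (.cut .v 8388608 (.cut .v 4194304 (.void 4 ⟨0, 0, 100000, 0, 0, 0, 0, 0, 0, ⟨0, 0⟩, 0⟩ 0 0) (.pos 5 .mm ⟨0, 0, 0, 0, 0, 169252746, 0, 0, 0, ⟨0, 0⟩, 0⟩ 0 0)) (.cut .v 12582912 (.pos 8 .mm ⟨0, 0, 0, 0, 0, 258310605, 0, 0, 0, ⟨0, 0⟩, 0⟩ 0 0) (.cut .v 14680064 (.pos 12 .mm ⟨0, 0, 0, 0, 0, 307370830, 0, 0, 0, ⟨0, 0⟩, 0⟩ 0 0) (.cut .v 15728640 (.pos 16 .mm ⟨0, 0, 0, 0, 0, 334888837, 0, 0, 0, ⟨0, 0⟩, 0⟩ 0 0) (.cut .v 16252928 (.pos 20 .mm ⟨0, 0, 0, 0, 0, 349408613, 0, 0, 0,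 ⟨0, 0⟩, 0⟩ 0 0) (.cut .d (-65536) (.cut .s 11108352 (.pos 21 .mm ⟨0, 0, 0, 0, 0, 354287315, 0, 0, 0, ⟨0, 0⟩, 0⟩ 0 0) (.pos 21 .mm ⟨0, 0, 0, 0, 0, 396106810, 0, 0, 0, ⟨0, 0⟩, 0⟩ 0 0)) (.cut .v 16515072 (.pos 24 .mm ⟨0, 0, 0, 0, 0, 341792446, 0, 0, 0, ⟨0, 0⟩, 0⟩ 0 0) (.cut .s 11108352 (.cut .s 10993664 (.pos 25 .mm ⟨0, 0, 0, 0, 0, 323403780, 0, 0, 0, ⟨0, 0⟩, 0⟩ 0 0) (.pos 25 .mm ⟨0, 0, 0, 0, 0, 342993670, 0, 0, 0, ⟨0, 0⟩, 0⟩ 0 0)) (.cut .s 11223040 (.pos 25 .mm ⟨0, 0, 0, 0, 0, 363594200, 0, 0, 0, ⟨0, 0⟩, 0⟩ 0 0) (.pos 25 .mm ⟨0, 0, 0, 0, 0, 385174992, 0, 0, 0, ⟨0, 0⟩, 0⟩ 0 0))))))))))))))))) (.cut .v 268435456 (.cut .v 67108864 (.cut .v 33554432 (.cut .d (-8388608)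 (.void 28 ⟨0, 0, 0, 0, 0, 100000, 0, 0, 0, ⟨0, 0⟩, 0⟩ 0 0) (.cut .v 25165824 (.cut .d (-4194304) (.void 29 ⟨100000, 0, 0, 0, 0, 0, 0, 0, 0, ⟨0, 0⟩, 0⟩ 0 0) (.cut .v 20971520 (.cut .d (-2097152) (.void 31 ⟨100000, 0, 0, 0, 0, 0, 0, 0, 0, ⟨0, 0⟩, 0⟩ 0 0) (.cut .d (-1048576) (.void 31 ⟨100000, 0, 0, 0, 0, 0, 0, 0, 0, ⟨0, 0⟩, 0⟩ 0 0) (.cut .d (-524288) (.void 31 ⟨100000, 0, 0, 0, 0, 0, 0, 0, 0, ⟨0, 0⟩, 0⟩ 0 0) (.cut .d (-262144) (.void 31 ⟨100000, 0, 0, 0, 0, 0, 0, 0, 0, ⟨0, 0⟩, 0⟩ 0 0) (.cut .d (-131072) (.void 31 ⟨0, 0, 0, 0, 0, 100000, 0, 0, 0, ⟨0, 0⟩, 0⟩ 0 0) (.cut .v 18874368 (.cut .v 17825792 (.cut .v 17301504 (.cut .d (-65536) (.cut .v 17039360 (.cut .d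 (-98304) (.void 39 ⟨0, 0, 0, 0, 0, 100000, 0, 0, 0, ⟨0, 0⟩, 0⟩ 0 0) (.cut .l 708371 (.void 39 ⟨0, 0, 0, 0, 0, 100000, 0, 0, 0, ⟨0, 0⟩, 0⟩ 0 0) (.cut .l 960029 (.pos 39 .mp ⟨76676796, 0, 0, 0, 0, 296153567, 0, 0, 0, ⟨0, 0⟩, 0⟩ 0 0) (.cut .d (-81920) (.cut .s 11108352 (.pos 39 .mp ⟨80270475, 0, 0, 0, 0, 252999031, 0, 0, 0, ⟨0, 0⟩, 0⟩ 0 0) (.void 39 ⟨0, 0, 0, 0, 0, 100000, 0, 0, 0, ⟨0, 0⟩, 0⟩ 0 0)) (.cut .s 11108352 (.cut .s 10993664 (.cut .s 10936320 (.pos 39 .mp ⟨81472725, 0, 0, 0, 0, 211145867, 0, 0, 0, ⟨0, 0⟩, 0⟩ 0 0) (.pos 39 .mp ⟨83451684, 0, 0, 0, 0, 216452814, 0, 0, 0, ⟨0, 0⟩, 0⟩ 0 0)) (.cut .v 16908288 (.pos 41 .mp ⟨0, 0, 0, 0, 0, 351059254, 0, 0, 0,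 ⟨0, 0⟩, 0⟩ 0 0) (.cut .s 11051008 (.pos 42 .mp ⟨86600375, 0, 0, 0, 0, 224282765, 0, 0, 0, ⟨0, 0⟩, 0⟩ 0 0) (.pos 42 .mp ⟨88620132, 0, 0, 0, 0, 230478429, 0, 0, 0, ⟨0, 0⟩, 0⟩ 0 0)))) (.cut .s 11223040 (.cut .s 11165696 (.cut .v 16908288 (.pos 41 .mp ⟨13750501, 0, 0, 0, 0, 345859344, 0, 0, 0, ⟨0, 0⟩, 0⟩ 0 0) (.pos 42 .mp ⟨90642135, 0, 0, 0, 0, 237114728, 0, 0, 0, ⟨0, 0⟩, 0⟩ 0 0)) (.pos 39 .mp ⟨80795458, 0, 0, 0, 0, 265037779, 0, 0, 0, ⟨0, 0⟩, 0⟩ 0 0)) (.pos 39 .mp ⟨82476191, 0, 0, 0, 0, 277528961, 0, 0, 0, ⟨0, 0⟩, 0⟩ 0 0))))))) (.pos 40 .mp ⟨286432983, 0, 0, 0, 0, 0, 0, 0, 0, ⟨0, 0⟩, 0⟩ 0 0)) (.cut .v 17039360 (.cut .s 11108352 (.cut .s 10993664 (.cut .v 16908288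 (.cut .s 10936320 (.cut .l 708371 (.cut .d (-32768) (.pos 41 .mp ⟨70521793, 0, 0, 0, 0, 230082838, 0, 0, 0, ⟨0, 0⟩, 0⟩ 0 0) (.cut .s 10907648 (.pos 41 .mp ⟨78281482, 0, 0, 0, 0, 208221065, 0, 0, 0, ⟨0, 0⟩, 0⟩ 0 0) (.pos 41 .mp ⟨79119858, 0, 0, 0, 0, 211498508, 0, 0, 0, ⟨0, 0⟩, 0⟩ 0 0))) (.pos 41 .mp ⟨79956111, 0, 0, 0, 0, 207421386, 0, 0, 0, ⟨0, 0⟩, 0⟩ 0 0)) (.cut .d (-32768) (.cut .l 708371 (.pos 41 .mp ⟨72051525, 0, 0, 0, 0, 236631540, 0, 0, 0, ⟨0, 0⟩, 0⟩ 0 0) (.pos 41 .mp ⟨65032910, 0, 0, 0, 0, 242015067, 0, 0, 0, ⟨0, 0⟩, 0⟩ 0 0)) (.cut .s 10964992 (.pos 41 .mp ⟨79957691, 0, 0, 0, 0, 214836312, 0, 0, 0, ⟨0, 0⟩, 0⟩ 0 0) (.pos 41 .mp ⟨80794998, 0, 0, 0, 0,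 218233948, 0, 0, 0, ⟨0, 0⟩, 0⟩ 0 0)))) (.pos 42 .mp ⟨231335530, 0, 0, 0, 0, 0, 0, 0, 0, ⟨0, 0⟩, 0⟩ 0 0)) (.cut .v 16908288 (.cut .s 11051008 (.cut .d (-32768) (.cut .l 708371 (.cut .s 11022336 (.pos 41 .mp ⟨73567248, 0, 0, 0, 0, 239839033, 0, 0, 0, ⟨0, 0⟩, 0⟩ 0 0) (.pos 41 .mp ⟨74319812, 0, 0, 0, 0, 243480450, 0, 0, 0, ⟨0, 0⟩, 0⟩ 0 0)) (.cut .s 11022336 (.pos 41 .mp ⟨66390339, 0, 0, 0, 0, 247564055, 0, 0, 0, ⟨0, 0⟩, 0⟩ 0 0) (.pos 41 .mp ⟨67059257, 0, 0, 0, 0, 251267622, 0, 0, 0, ⟨0, 0⟩, 0⟩ 0 0))) (.cut .d (-16384) (.cut .s 11022336 (.pos 41 .mp ⟨81631800, 0, 0, 0, 0, 222462774, 0, 0, 0, ⟨0, 0⟩, 0⟩ 0 0) (.pos 41 .mp ⟨82468116, 0, 0, 0, 0, 225778750, 0, 0, 0,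 ⟨0, 0⟩, 0⟩ 0 0)) (.pos 41 .mp ⟨78174963, 0, 0, 0, 0, 224594551, 0, 0, 0, ⟨0, 0⟩, 0⟩ 0 0))) (.cut .d (-32768) (.cut .l 708371 (.cut .s 11079680 (.pos 41 .mp ⟨75068820, 0, 0, 0, 0, 247242512, 0, 0, 0, ⟨0, 0⟩, 0⟩ 0 0) (.pos 41 .mp ⟨75814251, 0, 0, 0, 0, 251125833, 0, 0, 0, ⟨0, 0⟩, 0⟩ 0 0)) (.cut .s 11079680 (.pos 41 .mp ⟨67721569, 0, 0, 0, 0, 255096038, 0, 0, 0, ⟨0, 0⟩, 0⟩ 0 0) (.pos 41 .mp ⟨68377217, 0, 0, 0, 0, 259049998, 0, 0, 0, ⟨0, 0⟩, 0⟩ 0 0))) (.cut .d (-16384) (.cut .l 708371 (.cut .s 11079680 (.pos 41 .mp ⟨83303968, 0, 0, 0, 0, 229718447, 0, 0, 0, ⟨0, 0⟩, 0⟩ 0 0) (.pos 41 .mp ⟨84139374, 0, 0, 0, 0, 233336741, 0, 0, 0, ⟨0, 0⟩, 0⟩ 0 0)) (.pos 41 .mp ⟨0,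 0, 0, 0, 0, 0, 0, 0, 0, ⟨0, 0⟩, 0⟩ 0 0)) (.pos 41 .mp ⟨79663839, 0, 0, 0, 0, 231716776, 0, 0, 0, ⟨0, 0⟩, 0⟩ 0 0)))) (.pos 42 .mp ⟨241765376, 0, 0, 0, 0, 0, 0, 0, 0, ⟨0, 0⟩, 0⟩ 0 0))) (.cut .s 11223040 (.cut .v 16908288 (.cut .s 11165696 (.cut .d (-32768) (.cut .l 708371 (.cut .s 11137024 (.pos 41 .mp ⟨76556087, 0, 0, 0, 0, 255131026, 0, 0, 0, ⟨0, 0⟩, 0⟩ 0 0) (.pos 41 .mp ⟨77294306, 0, 0, 0, 0, 259258703, 0, 0, 0, ⟨0, 0⟩, 0⟩ 0 0)) (.cut .s 11137024 (.pos 41 .mp ⟨69026140, 0, 0, 0, 0, 263130197, 0, 0, 0, ⟨0, 0⟩, 0⟩ 0 0) (.pos 41 .mp ⟨69668277, 0, 0, 0, 0, 267337334, 0, 0, 0, ⟨0, 0⟩, 0⟩ 0 0))) (.cut .d (-16384) (.cut .s 11137024 (.cut .s 11122688 (.pos 41 .mp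 ⟨84556917, 0, 0, 0, 0, 236675289, 0, 0, 0, ⟨0, 0⟩, 0⟩ 0 0) (.pos 41 .mp ⟨84974357, 0, 0, 0, 0, 238608711, 0, 0, 0, ⟨0, 0⟩, 0⟩ 0 0)) (.pos 41 .mp ⟨85808936, 0, 0, 0, 0, 240514705, 0, 0, 0, ⟨0, 0⟩, 0⟩ 0 0)) (.pos 41 .mp ⟨81143647, 0, 0, 0, 0, 239081223, 0, 0, 0, ⟨0, 0⟩, 0⟩ 0 0))) (.cut .d (-32768) (.cut .l 708371 (.pos 41 .mp ⟨78028889, 0, 0, 0, 0, 267616627, 0, 0, 0, ⟨0, 0⟩, 0⟩ 0 0) (.pos 41 .mp ⟨70303566, 0, 0, 0, 0, 272939411, 0, 0, 0, ⟨0, 0⟩, 0⟩ 0 0)) (.cut .s 11194368 (.cut .s 11180032 (.pos 41 .mp ⟨86226082, 0, 0, 0, 0, 242814218, 0, 0, 0, ⟨0, 0⟩, 0⟩ 0 0) (.pos 41 .mp ⟨86643134, 0, 0, 0, 0, 244735745, 0, 0, 0, ⟨0, 0⟩, 0⟩ 0 0)) (.pos 41 .mp ⟨87476973, 0,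 0, 0, 0, 247507004, 0, 0, 0, ⟨0, 0⟩, 0⟩ 0 0)))) (.cut .s 11165696 (.pos 42 .mp ⟨248841583, 0, 0, 0, 0, 0, 0, 0, 0, ⟨0, 0⟩, 0⟩ 0 0) (.pos 42 .mp ⟨255362629, 0, 0, 0, 0, 0, 0, 0, 0, ⟨0, 0⟩, 0⟩ 0 0))) (.cut .v 16908288 (.cut .s 11280384 (.cut .d (-32768) (.cut .l 708371 (.pos 41 .mp ⟨79487056, 0, 0, 0, 0, 276584851, 0, 0, 0, ⟨0, 0⟩, 0⟩ 0 0) (.pos 41 .mp ⟨71553341, 0, 0, 0, 0, 281931354, 0, 0, 0, ⟨0, 0⟩, 0⟩ 0 0)) (.cut .s 11251712 (.pos 41 .mp ⟨88310473, 0, 0, 0, 0, 251420066, 0, 0, 0, ⟨0, 0⟩, 0⟩ 0 0) (.pos 41 .mp ⟨89143659, 0, 0, 0, 0, 255387913, 0, 0, 0, ⟨0, 0⟩, 0⟩ 0 0))) (.cut .l 708371 (.cut .d (-32768) (.pos 41 .mp ⟨80930411, 0, 0, 0, 0, 286051592, 0, 0,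 0, ⟨0, 0⟩, 0⟩ 0 0) (.cut .s 11309056 (.pos 41 .mp ⟨89976551, 0, 0, 0, 0, 259410065, 0, 0, 0, ⟨0, 0⟩, 0⟩ 0 0) (.pos 41 .mp ⟨90809175, 0, 0, 0, 0, 263486041, 0, 0, 0, ⟨0, 0⟩, 0⟩ 0 0))) (.pos 41 .mp ⟨70845928, 0, 0, 0, 0, 290057859, 0, 0, 0, ⟨0, 0⟩, 0⟩ 0 0))) (.pos 42 .mp ⟨267538012, 0, 0, 0, 0, 0, 0, 0, 0, ⟨0, 0⟩, 0⟩ 0 0)))) (.pos 40 .mp ⟨255111836, 0, 0, 0, 0, 0, 0, 0, 0, ⟨0, 0⟩, 0⟩ 0 0))) (.pos 38 .mp ⟨277063513, 0, 0, 0, 0, 0, 0, 0, 0, ⟨0, 0⟩, 0⟩ 0 0)) (.pos 36 .mp ⟨294488708, 0, 0, 0, 0, 0, 0, 0, 0, ⟨0, 0⟩, 0⟩ 0 0)) (.void 34 ⟨100000, 0, 0, 0, 0, 0, 0, 0, 0, ⟨0, 0⟩, 0⟩ 0 0))))))) (.void 32 ⟨100000, 0, 0, 0, 0, 0, 0, 0, 0, ⟨0, 0⟩, 0⟩ 0 0))) (.void 30 ⟨100000,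 0, 0, 0, 0, 0, 0, 0, 0, ⟨0, 0⟩, 0⟩ 0 0))) (.void 71 ⟨100000, 0, 0, 0, 0, 0, 0, 0, 0, ⟨0, 0⟩, 0⟩ 0 0)) (.void 86 ⟨100000, 0, 0, 0, 0, 0, 0, 0, 0, ⟨0, 0⟩, 0⟩ 0 0)) (.void 103 ⟨96609, 0, 0, 3391, 0, 0, 0, 0, 0, ⟨0, 0⟩, 0⟩ 0 0))) (.cut .v 16777216 (.cut .v 8388608 (.cut .v 4194304 (.cut .v 2097152 (.cut .v 1048576 (.pos 106 .pm ⟨0, 0, 29531361, 0, 0, 0, 0, 0, 57642712, ⟨0, 0⟩, 1983364⟩ 0 0) (.pos 107 .pm ⟨0, 0, 2164776, 0, 0, 0, 0, 0, 0, ⟨0, 0⟩, 0⟩ 0 0)) (.cut .d 4548041 (.pos 7 .pm ⟨0, 0, 32613282, 0, 0, 0, 0, 0, 0, ⟨0, 0⟩, 0⟩ 0 0) (.pos 7 .pm ⟨0, 51046820, 0, 0, 0, 0, 0, 0, 0, ⟨0, 0⟩, 0⟩ 0 0))) (.cut .d 4548041 (.pos 5 .pm ⟨0, 0, 0, 0, 0, 0, 0, 0, 0, ⟨0, 0⟩,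 0⟩ 0 0) (.cut .d 6822062 (.pos 5 .pm ⟨0, 0, 0, 0, 0, 0, 0, 0, 0, ⟨0, 0⟩, 0⟩ 0 0) (.cut .d 7959072 (.cut .s 11108352 (.pos 5 .pm ⟨0, 0, 0, 0, 0, 0, 0, 0, 0, ⟨0, 0⟩, 0⟩ 0 0) (.cut .d 7390567 (.pos 5 .pm ⟨0, 0, 0, 0, 0, 0, 0, 0, 0, ⟨0, 0⟩, 0⟩ 0 0) (.cut .v 6291456 (.pos 97 .pm ⟨0, 118238777, 0, 0, 0, 0, 0, 0, 0, ⟨0, 0⟩, 0⟩ 0 0) (.cut .s 11223040 (.pos 98 .pm ⟨0, 124290234, 0, 0, 0, 0, 0, 0, 0, ⟨0, 0⟩, 0⟩ 0 0) (.pos 98 .pm ⟨0, 143856844, 0, 0, 0, 0, 0, 0, 0, ⟨0, 0⟩, 0⟩ 0 0))))) (.cut .d 8527577 (.cut .v 6291456 (.pos 97 .pm ⟨0, 130260074, 0, 0, 0, 0, 0, 0, 0, ⟨0, 0⟩, 0⟩ 0 0) (.cut .s 11108352 (.cut .d 8243324 (.pos 98 .pm ⟨0, 120247844, 0, 0, 0, 0, 0, 0, 0, ⟨0,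 0⟩, 0⟩ 0 0) (.pos 98 .pm ⟨0, 138976702, 0, 0, 0, 0, 0, 0, 0, ⟨0, 0⟩, 0⟩ 0 0)) (.pos 98 .pm ⟨0, 176814919, 0, 0, 0, 0, 0, 0, 0, ⟨0, 0⟩, 0⟩ 0 0))) (.pos 5 .pm ⟨0, 195188091, 0, 0, 0, 0, 0, 0, 0, ⟨0, 0⟩, 0⟩ 0 0)))))) (.cut .d 4548041 (.pos 3 .pm ⟨0, 0, 0, 0, 0, 0, 0, 0, 0, ⟨0, 0⟩, 0⟩ 0 0) (.cut .d 6822062 (.pos 3 .pm ⟨0, 0, 0, 0, 0, 0, 0, 0, 0, ⟨0, 0⟩, 0⟩ 0 0) (.cut .v 12582912 (.cut .d 7959072 (.cut .s 11108352 (.pos 8 .pm ⟨0, 10335916, 0, 0, 0, 0, 0, 0, 0, ⟨0, 0⟩, 0⟩ 0 0) (.pos 8 .pm ⟨0, 142340462, 0, 0, 0, 0, 0, 0, 0, ⟨0, 0⟩, 0⟩ 0 0)) (.cut .s 11108352 (.cut .d 8527577 (.pos 8 .pm ⟨0, 147088151, 0, 0, 0, 0, 0, 0, 0, ⟨0, 0⟩, 0⟩ 0 0) (.void 8 ⟨0, 100000, 0,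 0, 0, 0, 0, 0, 0, ⟨0, 0⟩, 0⟩ 0 0)) (.pos 8 .pm ⟨0, 223046144, 0, 0, 0, 0, 0, 0, 0, ⟨0, 0⟩, 0⟩ 0 0))) (.pos 9 .pm ⟨0, 219541224, 0, 0, 0, 0, 0, 0, 0, ⟨0, 0⟩, 0⟩ 0 0))))) (.cut .v 268435456 (.cut .d 4548041 (.cut .v 67108864 (.cut .d 2274020 (.cut .v 33554432 (.cut .d 1137010 (.cut .v 25165824 (.pos 29 .pp ⟨186364066, 0, 0, 0, 0, 0, 0, 0, 0, ⟨0, 0⟩, 0⟩ 0 0) (.pos 30 .pp ⟨424711527, 0, 0, 0, 0, 0, 0, 0, 0, ⟨0, 0⟩, 0⟩ 0 0)) (.pos 28 .pp ⟨0, 0, 0, 0, 0, 0, 0, 0, 0, ⟨0, 0⟩, 0⟩ 0 0)) (.cut .d 1137010 (.cut .v 50331648 (.pos 74 .pp ⟨939449372, 0, 0, 0, 0, 0, 0, 0, 0, ⟨0, 0⟩, 0⟩ 0 0) (.pos 75 .pp ⟨1918134818, 0, 0, 0, 0, 0, 0, 0, 0, ⟨0, 0⟩, 0⟩ 0 0)) (.pos 71 .pp ⟨548990573,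 0, 0, 0, 0, 0, 0, 0, 0, ⟨0, 0⟩, 0⟩ 0 0))) (.pos 70 .pp ⟨0, 0, 0, 0, 0, 0, 0, 0, 0, ⟨0, 0⟩, 0⟩ 0 0)) (.cut .v 134217728 (.cut .d 2274020 (.cut .d 1137010 (.void 87 ⟨100000, 0, 0, 0, 0, 0, 0, 0, 0, ⟨0, 0⟩, 0⟩ 0 0) (.cut .v 100663296 (.cut .d 1705515 (.pos 89 .pp ⟨3097415877, 0, 0, 0, 0, 0, 0, 0, 0, ⟨0, 0⟩, 0⟩ 0 0) (.pos 89 .pp ⟨1909522669, 0, 0, 0, 0, 0, 0, 0, 0, ⟨0, 0⟩, 0⟩ 0 0)) (.cut .d 1705515 (.void 90 ⟨100000, 0, 0, 0, 0, 0, 0, 0, 0, ⟨0, 0⟩, 0⟩ 0 0) (.pos 90 .pp ⟨3746383798, 875202975, 0, 0, 0, 0, 0, 0, 0, ⟨0, 0⟩, 0⟩ 0 0)))) (.pos 87 .pp ⟨0, 469825611, 0, 0, 0, 0, 0, 0, 0, ⟨0, 0⟩, 0⟩ 0 0)) (.void 88 ⟨39452, 60548, 0, 0, 0, 0, 0, 0, 0, ⟨0, 0⟩, 0⟩ 0 0)))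 (.pos 85 .pp ⟨0, 185209868, 0, 0, 0, 0, 0, 0, 0, ⟨0, 0⟩, 0⟩ 0 0)) (.void 103 ⟨0, 0, 0, 100000, 0, 0, 0, 0, 0, ⟨0, 0⟩, 0⟩ 0 0)))),
    by decide +kernel⟩

def covers16 : cell.Covers table row16.1 :=
  ⟨(.cut .d 0 (.cut .v 16777216 (.cut .d (-8388608) (.void 1 ⟨0, 0, 0, 0, 0, 100000, 0, 0, 0, ⟨0, 0⟩, 0⟩ 0 0) (.cut .d (-4194304) (.void 1 ⟨0, 0, 0, 0, 0, 100000, 0, 0, 0, ⟨0, 0⟩, 0⟩ 0 0) (.cut .d (-2097152) (.void 1 ⟨0, 0, 0, 0, 0, 100000, 0, 0, 0, ⟨0, 0⟩, 0⟩ 0 0) (.cut .d (-1048576) (.void 1 ⟨0, 0, 0, 0, 0, 100000, 0, 0, 0, ⟨0, 0⟩, 0⟩ 0 0) (.cut .d (-524288) (.void 1 ⟨0, 0, 0, 0, 0, 100000, 0, 0, 0, ⟨0, 0⟩, 0⟩ 0 0) (.cut .d (-262144) (.void 1 ⟨0, 0, 0, 0, 0, 100000,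 0, 0, 0, ⟨0, 0⟩, 0⟩ 0 0) (.cut .d (-131072) (.void 1 ⟨0, 0, 0, 0, 0, 100000, 0, 0, 0, ⟨0, 0⟩, 0⟩ 0 0) (.cut .v 8388608 (.cut .v 4194304 (.void 4 ⟨0, 0, 100000, 0, 0, 0, 0, 0, 0, ⟨0, 0⟩, 0⟩ 0 0) (.pos 5 .mm ⟨0, 0, 0, 0, 0, 206833006, 0, 0, 0, ⟨0, 0⟩, 0⟩ 0 0)) (.cut .d (-65536) (.pos 3 .mm ⟨0, 0, 0, 0, 0, 484540624, 0, 0, 0, ⟨0, 0⟩, 0⟩ 0 0) (.cut .v 12582912 (.pos 8 .mm ⟨0, 0, 0, 0, 0, 319724565, 0, 0, 0, ⟨0, 0⟩, 0⟩ 0 0) (.cut .v 14680064 (.pos 12 .mm ⟨0, 0, 0, 0, 0, 374087102, 0, 0, 0, ⟨0, 0⟩, 0⟩ 0 0) (.cut .v 15728640 (.pos 16 .mm ⟨0, 0, 0, 0, 0, 404611002, 0, 0, 0, ⟨0, 0⟩, 0⟩ 0 0) (.cut .v 16252928 (.pos 20 .mm ⟨0, 0, 0, 0, 0, 420729290, 0, 0, 0, ⟨0, 0⟩,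 0⟩ 0 0) (.cut .v 16515072 (.pos 24 .mm ⟨0, 0, 0, 0, 0, 429004789, 0, 0, 0, ⟨0, 0⟩, 0⟩ 0 0) (.cut .s 11534336 (.cut .s 11436032 (.pos 25 .mm ⟨0, 0, 0, 0, 0, 406814454, 0, 0, 0, ⟨0, 0⟩, 0⟩ 0 0) (.pos 25 .mm ⟨0, 0, 0, 0, 0, 427061828, 0, 0, 0, ⟨0, 0⟩, 0⟩ 0 0)) (.cut .s 11632640 (.pos 25 .mm ⟨0, 0, 0, 0, 0, 448187609, 0, 0, 0, ⟨0, 0⟩, 0⟩ 0 0) (.pos 25 .mm ⟨0, 0, 0, 0, 0, 470169880, 0, 0, 0, ⟨0, 0⟩, 0⟩ 0 0))))))))))))))))) (.cut .v 268435456 (.cut .v 67108864 (.cut .v 33554432 (.cut .d (-8388608) (.void 28 ⟨100000, 0, 0, 0, 0, 0, 0, 0, 0, ⟨0, 0⟩, 0⟩ 0 0) (.cut .v 25165824 (.cut .d (-4194304) (.void 29 ⟨100000, 0, 0, 0, 0, 0, 0, 0, 0, ⟨0, 0⟩, 0⟩ 0 0) (.cut .v 20971520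 (.cut .d (-2097152) (.void 31 ⟨100000, 0, 0, 0, 0, 0, 0, 0, 0, ⟨0, 0⟩, 0⟩ 0 0) (.cut .d (-1048576) (.void 31 ⟨100000, 0, 0, 0, 0, 0, 0, 0, 0, ⟨0, 0⟩, 0⟩ 0 0) (.cut .d (-524288) (.void 31 ⟨100000, 0, 0, 0, 0, 0, 0, 0, 0, ⟨0, 0⟩, 0⟩ 0 0) (.cut .d (-262144) (.void 31 ⟨100000, 0, 0, 0, 0, 0, 0, 0, 0, ⟨0, 0⟩, 0⟩ 0 0) (.cut .d (-131072) (.void 31 ⟨100000, 0, 0, 0, 0, 0, 0, 0, 0, ⟨0, 0⟩, 0⟩ 0 0) (.cut .v 18874368 (.cut .v 17825792 (.cut .v 17301504 (.cut .d (-65536) (.cut .v 17039360 (.cut .d (-98304) (.void 39 ⟨0, 0, 0, 0, 0, 100000, 0, 0, 0, ⟨0, 0⟩, 0⟩ 0 0) (.cut .d (-81920) (.void 39 ⟨0, 0, 0, 0, 0, 100000, 0, 0, 0, ⟨0, 0⟩, 0⟩ 0 0) (.cut .d (-73728) (.pos 39 .mp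 ⟨88457595, 0, 0, 0, 0, 430377821, 0, 0, 0, ⟨0, 0⟩, 0⟩ 0 0) (.cut .s 11534336 (.pos 39 .mp ⟨89756649, 0, 0, 0, 0, 316639647, 0, 0, 0, ⟨0, 0⟩, 0⟩ 0 0) (.cut .s 11632640 (.cut .s 11583488 (.pos 39 .mp ⟨92073983, 0, 0, 0, 0, 324506333, 0, 0, 0, ⟨0, 0⟩, 0⟩ 0 0) (.pos 39 .mp ⟨93591815, 0, 0, 0, 0, 331784866, 0, 0, 0, ⟨0, 0⟩, 0⟩ 0 0)) (.pos 39 .mp ⟨95088431, 0, 0, 0, 0, 351328299, 0, 0, 0, ⟨0, 0⟩, 0⟩ 0 0)))))) (.pos 40 .mp ⟨369741490, 0, 0, 0, 0, 0, 0, 0, 0, ⟨0, 0⟩, 0⟩ 0 0)) (.cut .v 17039360 (.cut .s 11534336 (.cut .v 16908288 (.cut .s 11436032 (.cut .d (-32768) (.cut .s 11386880 (.pos 41 .mp ⟨77048590, 0, 0, 0, 0, 301202917, 0, 0, 0, ⟨0, 0⟩, 0⟩ 0 0) (.cut .s 11411456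 (.pos 41 .mp ⟨80508422, 0, 0, 0, 0, 301326284, 0, 0, 0, ⟨0, 0⟩, 0⟩ 0 0) (.pos 41 .mp ⟨78712575, 0, 0, 0, 0, 308630921, 0, 0, 0, ⟨0, 0⟩, 0⟩ 0 0))) (.cut .s 11386880 (.pos 41 .mp ⟨92259263, 0, 0, 0, 0, 270375627, 0, 0, 0, ⟨0, 0⟩, 0⟩ 0 0) (.cut .s 11411456 (.pos 41 .mp ⟨92981542, 0, 0, 0, 0, 275365109, 0, 0, 0, ⟨0, 0⟩, 0⟩ 0 0) (.pos 41 .mp ⟨93700931, 0, 0, 0, 0, 279055233, 0, 0, 0, ⟨0, 0⟩, 0⟩ 0 0)))) (.cut .d (-32768) (.cut .l 708371 (.pos 41 .mp ⟨84972184, 0, 0, 0, 0, 318530925, 0, 0, 0, ⟨0, 0⟩, 0⟩ 0 0) (.cut .s 11485184 (.pos 41 .mp ⟨76304835, 0, 0, 0, 0, 318035927, 0, 0, 0, ⟨0, 0⟩, 0⟩ 0 0) (.cut .s 11509760 (.pos 41 .mp ⟨77423589, 0, 0, 0, 0, 323571597, 0,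 0, 0, ⟨0, 0⟩, 0⟩ 0 0) (.pos 41 .mp ⟨77969784, 0, 0, 0, 0, 327637960, 0, 0, 0, ⟨0, 0⟩, 0⟩ 0 0)))) (.cut .l 708371 (.cut .s 11485184 (.cut .s 11460608 (.pos 41 .mp ⟨94417415, 0, 0, 0, 0, 282800696, 0, 0, 0, ⟨0, 0⟩, 0⟩ 0 0) (.cut .s 11472896 (.pos 41 .mp ⟨94774562, 0, 0, 0, 0, 285475913, 0, 0, 0, ⟨0, 0⟩, 0⟩ 0 0) (.pos 41 .mp ⟨95130977, 0, 0, 0, 0, 287395234, 0, 0, 0, ⟨0, 0⟩, 0⟩ 0 0))) (.cut .d (-16384) (.cut .s 11509760 (.pos 41 .mp ⟨95841602, 0, 0, 0, 0, 291947303, 0, 0, 0, ⟨0, 0⟩, 0⟩ 0 0) (.pos 41 .mp ⟨96549274, 0, 0, 0, 0, 295630085, 0, 0, 0, ⟨0, 0⟩, 0⟩ 0 0)) (.pos 41 .mp ⟨90467846, 0, 0, 0, 0, 296809860, 0, 0, 0, ⟨0, 0⟩, 0⟩ 0 0))) (.pos 41 .mp ⟨0, 0, 0, 0,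 0, 0, 0, 0, 0, ⟨0, 0⟩, 0⟩ 0 0)))) (.pos 42 .mp ⟨277254366, 0, 0, 0, 0, 22349203, 0, 0, 0, ⟨0, 0⟩, 0⟩ 0 0)) (.cut .s 11632640 (.cut .v 16908288 (.cut .d (-32768) (.cut .l 708371 (.cut .s 11583488 (.pos 41 .mp ⟨87496335, 0, 0, 0, 0, 325649626, 0, 0, 0, ⟨0, 0⟩, 0⟩ 0 0) (.pos 41 .mp ⟨88722666, 0, 0, 0, 0, 334317126, 0, 0, 0, ⟨0, 0⟩, 0⟩ 0 0)) (.cut .v 16842752 (.pos 72 .mp ⟨0, 0, 0, 0, 0, 450599914, 0, 0, 0, ⟨0, 0⟩, 0⟩ 0 0) (.cut .s 11583488 (.cut .s 11558912 (.pos 73 .mp ⟨79181503, 0, 0, 0, 0, 330842948, 0, 0, 0, ⟨0, 0⟩, 0⟩ 0 0) (.pos 73 .mp ⟨79717611, 0, 0, 0, 0, 335138718, 0, 0, 0, ⟨0, 0⟩, 0⟩ 0 0)) (.cut .s 11608064 (.pos 73 .mp ⟨80244649, 0, 0, 0, 0, 339556617,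 0, 0, 0, ⟨0, 0⟩, 0⟩ 0 0) (.pos 73 .mp ⟨80762525, 0, 0, 0, 0, 344097273, 0, 0, 0, ⟨0, 0⟩, 0⟩ 0 0))))) (.cut .l 708371 (.cut .s 11583488 (.cut .d (-16384) (.cut .s 11558912 (.pos 41 .mp ⟨97253976, 0, 0, 0, 0, 299442518, 0, 0, 0, ⟨0, 0⟩, 0⟩ 0 0) (.pos 41 .mp ⟨97955691, 0, 0, 0, 0, 303385639, 0, 0, 0, ⟨0, 0⟩, 0⟩ 0 0)) (.pos 41 .mp ⟨91655976, 0, 0, 0, 0, 304805396, 0, 0, 0, ⟨0, 0⟩, 0⟩ 0 0)) (.cut .d (-16384) (.cut .s 11608064 (.pos 41 .mp ⟨98654402, 0, 0, 0, 0, 307460495, 0, 0, 0, ⟨0, 0⟩, 0⟩ 0 0) (.pos 41 .mp ⟨99350092, 0, 0, 0, 0, 311668137, 0, 0, 0, ⟨0, 0⟩, 0⟩ 0 0)) (.pos 41 .mp ⟨92824462, 0, 0, 0, 0, 313028656, 0, 0, 0, ⟨0, 0⟩, 0⟩ 0 0))) (.pos 41 .mp ⟨0, 0,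 0, 0, 0, 0, 0, 0, 0, ⟨0, 0⟩, 0⟩ 0 0))) (.cut .s 11583488 (.pos 42 .mp ⟨150185803, 0, 0, 0, 0, 228721186, 0, 0, 0, ⟨0, 0⟩, 0⟩ 0 0) (.pos 42 .mp ⟨151837246, 0, 0, 0, 0, 236318731, 0, 0, 0, ⟨0, 0⟩, 0⟩ 0 0))) (.cut .v 16908288 (.cut .d (-32768) (.cut .l 708371 (.cut .s 11681792 (.pos 41 .mp ⟨89924589, 0, 0, 0, 0, 343456954, 0, 0, 0, ⟨0, 0⟩, 0⟩ 0 0) (.pos 41 .mp ⟨91101650, 0, 0, 0, 0, 353073525, 0, 0, 0, ⟨0, 0⟩, 0⟩ 0 0)) (.cut .s 11681792 (.cut .s 11657216 (.pos 41 .mp ⟨80565386, 0, 0, 0, 0, 349796364, 0, 0, 0, ⟨0, 0⟩, 0⟩ 0 0) (.pos 41 .mp ⟨81056782, 0, 0, 0, 0, 354597772, 0, 0, 0, ⟨0, 0⟩, 0⟩ 0 0)) (.pos 41 .mp ⟨81538711, 0, 0, 0, 0, 361497310, 0, 0, 0, ⟨0, 0⟩,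 0⟩ 0 0))) (.cut .l 708371 (.cut .s 11681792 (.cut .d (-16384) (.cut .s 11657216 (.pos 41 .mp ⟨100042741, 0, 0, 0, 0, 316009623, 0, 0, 0, ⟨0, 0⟩, 0⟩ 0 0) (.pos 41 .mp ⟨100732331, 0, 0, 0, 0, 320486019, 0, 0, 0, ⟨0, 0⟩, 0⟩ 0 0)) (.pos 41 .mp ⟨93972957, 0, 0, 0, 0, 321477803, 0, 0, 0, ⟨0, 0⟩, 0⟩ 0 0)) (.cut .d (-16384) (.cut .s 11706368 (.pos 41 .mp ⟨101418843, 0, 0, 0, 0, 325098395, 0, 0, 0, ⟨0, 0⟩, 0⟩ 0 0) (.pos 41 .mp ⟨102102258, 0, 0, 0, 0, 329847829, 0, 0, 0, ⟨0, 0⟩, 0⟩ 0 0)) (.pos 41 .mp ⟨95101099, 0, 0, 0, 0, 330151072, 0, 0, 0, ⟨0, 0⟩, 0⟩ 0 0))) (.pos 41 .mp ⟨0, 0, 0, 0, 0, 0, 0, 0, 0, ⟨0, 0⟩, 0⟩ 0 0))) (.cut .s 11681792 (.pos 42 .mp ⟨156251750, 0, 0,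 0, 0, 240290521, 0, 0, 0, ⟨0, 0⟩, 0⟩ 0 0) (.pos 42 .mp ⟨163584107, 0, 0, 0, 0, 240370191, 0, 0, 0, ⟨0, 0⟩, 0⟩ 0 0))))) (.pos 40 .mp ⟨308730717, 0, 0, 0, 0, 0, 0, 0, 0, ⟨0, 0⟩, 0⟩ 0 0))) (.pos 38 .mp ⟨334841683, 0, 0, 0, 0, 0, 0, 0, 0, ⟨0, 0⟩, 0⟩ 0 0)) (.pos 36 .mp ⟨354608286, 0, 0, 0, 0, 0, 0, 0, 0, ⟨0, 0⟩, 0⟩ 0 0)) (.void 34 ⟨100000, 0, 0, 0, 0, 0, 0, 0, 0, ⟨0, 0⟩, 0⟩ 0 0))))))) (.void 32 ⟨100000, 0, 0, 0, 0, 0, 0, 0, 0, ⟨0, 0⟩, 0⟩ 0 0))) (.void 30 ⟨100000, 0, 0, 0, 0, 0, 0, 0, 0, ⟨0, 0⟩, 0⟩ 0 0))) (.void 71 ⟨100000, 0, 0, 0, 0, 0, 0, 0, 0, ⟨0, 0⟩, 0⟩ 0 0)) (.void 86 ⟨100000, 0, 0, 0, 0, 0, 0, 0, 0, ⟨0, 0⟩, 0⟩ 0 0)) (.void 103 ⟨96483, 0, 0, 3517, 0, 0, 0,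 0, 0, ⟨0, 0⟩, 0⟩ 0 0))) (.cut .v 16777216 (.cut .v 8388608 (.cut .v 4194304 (.cut .v 2097152 (.cut .v 1048576 (.pos 106 .pm ⟨0, 0, 14677454, 0, 0, 0, 0, 0, 0, ⟨0, 0⟩, 0⟩ 0 0) (.pos 107 .pm ⟨0, 0, 141819, 0, 0, 0, 0, 0, 0, ⟨0, 0⟩, 0⟩ 0 0)) (.cut .d 4024593 (.pos 7 .pm ⟨0, 0, 39853840, 0, 0, 0, 0, 0, 0, ⟨0, 0⟩, 0⟩ 0 0) (.cut .d 6036890 (.pos 7 .pm ⟨0, 0, 0, 0, 0, 0, 0, 0, 0, ⟨0, 0⟩, 0⟩ 0 0) (.pos 7 .pm ⟨0, 91663307, 0, 0, 0, 0, 0, 0, 0, ⟨0, 0⟩, 0⟩ 0 0)))) (.cut .d 4024593 (.pos 5 .pm ⟨0, 0, 0, 0, 0, 0, 0, 0, 0, ⟨0, 0⟩, 0⟩ 0 0) (.cut .d 6036890 (.pos 5 .pm ⟨0, 0, 0, 0, 0, 0, 0, 0, 0, ⟨0, 0⟩, 0⟩ 0 0) (.cut .d 7043038 (.cut .s 11534336 (.pos 5 .pm ⟨0, 0, 0, 0,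 0, 0, 0, 0, 0, ⟨0, 0⟩, 0⟩ 0 0) (.cut .v 6291456 (.pos 97 .pm ⟨0, 113129532, 0, 0, 0, 0, 0, 0, 0, ⟨0, 0⟩, 0⟩ 0 0) (.cut .d 6539964 (.pos 98 .pm ⟨0, 0, 0, 0, 0, 0, 0, 0, 0, ⟨0, 0⟩, 0⟩ 0 0) (.cut .v 7340032 (.pos 110 .pm ⟨0, 143228738, 0, 0, 0, 0, 0, 0, 0, ⟨0, 0⟩, 0⟩ 0 0) (.pos 111 .pm ⟨0, 159643551, 0, 0, 0, 0, 0, 0, 0, ⟨0, 0⟩, 0⟩ 0 0))))) (.cut .d 7546112 (.cut .s 11534336 (.cut .v 6291456 (.pos 97 .pm ⟨0, 130487649, 0, 0, 0, 0, 0, 0, 0, ⟨0, 0⟩, 0⟩ 0 0) (.cut .d 7294575 (.pos 98 .pm ⟨0, 135750957, 0, 0, 0, 0, 0, 0, 0, ⟨0, 0⟩, 0⟩ 0 0) (.pos 98 .pm ⟨0, 156271774, 0, 0, 0, 0, 0, 0, 0, ⟨0, 0⟩, 0⟩ 0 0))) (.cut .v 6291456 (.pos 97 .pm ⟨0, 167001741, 0, 0, 0, 0, 0,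 0, 0, ⟨0, 0⟩, 0⟩ 0 0) (.cut .s 11632640 (.pos 98 .pm ⟨0, 178026305, 0, 0, 0, 0, 0, 0, 0, ⟨0, 0⟩, 0⟩ 0 0) (.pos 98 .pm ⟨0, 236325437, 0, 0, 0, 0, 0, 0, 0, ⟨0, 0⟩, 0⟩ 0 0)))) (.cut .v 6291456 (.pos 97 .pm ⟨0, 183371410, 0, 0, 0, 0, 0, 0, 0, ⟨0, 0⟩, 0⟩ 0 0) (.pos 98 .pm ⟨0, 222940129, 0, 0, 0, 0, 0, 0, 0, ⟨0, 0⟩, 0⟩ 0 0))))))) (.cut .d 4024593 (.pos 3 .pm ⟨0, 0, 0, 0, 0, 0, 0, 0, 0, ⟨0, 0⟩, 0⟩ 0 0) (.cut .d 6036890 (.pos 3 .pm ⟨0, 0, 0, 0, 0, 0, 0, 0, 0, ⟨0, 0⟩, 0⟩ 0 0) (.cut .d 7043038 (.pos 3 .pm ⟨0, 144754005, 0, 0, 0, 0, 0, 0, 0, ⟨0, 0⟩, 0⟩ 0 0) (.cut .d 7546112 (.cut .s 11534336 (.pos 3 .pm ⟨0, 172764381, 0, 0, 0, 0, 0, 0, 0, ⟨0, 0⟩, 0⟩ 0 0) (.pos 3 .pm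 ⟨0, 225795091, 0, 0, 0, 0, 0, 0, 0, ⟨0, 0⟩, 0⟩ 0 0)) (.pos 3 .pm ⟨0, 271610228, 0, 0, 0, 0, 0, 0, 0, ⟨0, 0⟩, 0⟩ 0 0)))))) (.cut .v 268435456 (.cut .d 4024593 (.cut .v 67108864 (.cut .d 2012296 (.cut .v 33554432 (.cut .v 25165824 (.cut .v 20971520 (.pos 31 .pp ⟨140342113, 0, 0, 0, 0, 0, 0, 0, 0, ⟨0, 0⟩, 0⟩ 0 0) (.pos 32 .pp ⟨287175880, 0, 0, 0, 0, 0, 0, 0, 0, ⟨0, 0⟩, 0⟩ 0 0)) (.pos 30 .pp ⟨419739394, 0, 0, 0, 0, 0, 0, 0, 0, ⟨0, 0⟩, 0⟩ 0 0)) (.cut .d 1006148 (.cut .v 50331648 (.pos 74 .pp ⟨1099183580, 0, 0, 0, 0, 0, 0, 0, 0, ⟨0, 0⟩, 0⟩ 0 0) (.pos 75 .pp ⟨2227491187, 0, 0, 0, 0, 0, 0, 0, 0, ⟨0, 0⟩, 0⟩ 0 0)) (.pos 71 .pp ⟨669361138, 0, 0, 0, 0, 0, 0, 0, 0, ⟨0,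 0⟩, 0⟩ 0 0))) (.pos 70 .pp ⟨0, 0, 0, 0, 0, 0, 0, 0, 0, ⟨0, 0⟩, 0⟩ 0 0)) (.cut .v 134217728 (.cut .d 2012296 (.cut .d 1006148 (.void 87 ⟨100000, 0, 0, 0, 0, 0, 0, 0, 0, ⟨0, 0⟩, 0⟩ 0 0) (.cut .v 100663296 (.cut .d 1509222 (.cut .v 83886080 (.pos 91 .pp ⟨2640321298, 0, 0, 0, 0, 0, 0, 0, 0, ⟨0, 0⟩, 0⟩ 0 0) (.pos 92 .pp ⟨4210895783, 0, 0, 0, 0, 0, 0, 0, 0, ⟨0, 0⟩, 0⟩ 0 0)) (.pos 89 .pp ⟨2293947849, 0, 0, 0, 0, 0, 0, 0, 0, ⟨0, 0⟩, 0⟩ 0 0)) (.cut .d 1509222 (.void 90 ⟨100000, 0, 0, 0, 0, 0, 0, 0, 0, ⟨0, 0⟩, 0⟩ 0 0) (.pos 90 .pp ⟨4402764338, 1089650222, 0, 0, 0, 0, 0, 0, 0, ⟨0, 0⟩, 0⟩ 0 0)))) (.pos 87 .pp ⟨0, 587281527, 0, 0, 0, 0, 0, 0, 0, ⟨0, 0⟩, 0⟩ 0 0)) (.void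 88 ⟨38969, 61031, 0, 0, 0, 0, 0, 0, 0, ⟨0, 0⟩, 0⟩ 0 0))) (.pos 85 .pp ⟨0, 214032176, 0, 0, 0, 0, 0, 0, 0, ⟨0, 0⟩, 0⟩ 0 0)) (.void 103 ⟨0, 0, 0, 100000, 0, 0, 0, 0, 0, ⟨0, 0⟩, 0⟩ 0 0)))),
    by decide +kernel⟩

def covers17 : cell.Covers table row17.1 :=
  ⟨(.cut .d 0 (.cut .v 16777216 (.cut .d (-8388608) (.void 1 ⟨0, 0, 0, 0, 0, 100000, 0, 0, 0, ⟨0, 0⟩, 0⟩ 0 0) (.cut .d (-4194304) (.void 1 ⟨0, 0, 0, 0, 0, 100000, 0, 0, 0, ⟨0, 0⟩, 0⟩ 0 0) (.cut .d (-2097152) (.void 1 ⟨0, 0, 0, 0, 0, 100000, 0, 0, 0, ⟨0, 0⟩, 0⟩ 0 0) (.cut .d (-1048576) (.void 1 ⟨0, 0, 0, 0, 0, 100000, 0, 0, 0, ⟨0, 0⟩, 0⟩ 0 0) (.cut .d (-524288) (.void 1 ⟨0, 0, 0, 0, 0, 100000, 0, 0, 0, ⟨0,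 0⟩, 0⟩ 0 0) (.cut .d (-262144) (.void 1 ⟨0, 0, 0, 0, 0, 100000, 0, 0, 0, ⟨0, 0⟩, 0⟩ 0 0) (.cut .d (-131072) (.void 1 ⟨0, 0, 0, 0, 0, 100000, 0, 0, 0, ⟨0, 0⟩, 0⟩ 0 0) (.cut .v 8388608 (.cut .v 4194304 (.void 4 ⟨0, 0, 100000, 0, 0, 0, 0, 0, 0, ⟨0, 0⟩, 0⟩ 0 0) (.pos 5 .mm ⟨0, 0, 1818904, 0, 0, 266590157, 0, 0, 0, ⟨0, 0⟩, 0⟩ 0 0)) (.cut .d (-65536) (.pos 3 .mm ⟨0, 0, 0, 0, 0, 626431727, 0, 0, 0, ⟨0, 0⟩, 0⟩ 0 0) (.cut .v 12582912 (.pos 8 .mm ⟨0, 0, 0, 0, 0, 405567947, 0, 0, 0, ⟨0, 0⟩, 0⟩ 0 0) (.cut .v 14680064 (.pos 12 .mm ⟨0, 0, 0, 0, 0, 473705149, 0, 0, 0, ⟨0, 0⟩, 0⟩ 0 0) (.cut .v 15728640 (.pos 16 .mm ⟨0, 0, 0, 0, 0, 508841490, 0, 0, 0, ⟨0, 0⟩, 0⟩ 0 0) (.cut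 .v 16252928 (.pos 20 .mm ⟨0, 0, 0, 0, 0, 527446694, 0, 0, 0, ⟨0, 0⟩, 0⟩ 0 0) (.cut .s 11993088 (.cut .v 16515072 (.pos 24 .mm ⟨0, 0, 0, 0, 0, 504503727, 0, 0, 0, ⟨0, 0⟩, 0⟩ 0 0) (.cut .s 11862016 (.cut .s 11796480 (.pos 25 .mm ⟨0, 0, 0, 0, 0, 487635485, 0, 0, 0, ⟨0, 0⟩, 0⟩ 0 0) (.pos 25 .mm ⟨0, 0, 0, 0, 0, 503294680, 0, 0, 0, ⟨0, 0⟩, 0⟩ 0 0)) (.cut .s 11927552 (.pos 25 .mm ⟨0, 0, 0, 0, 0, 519444209, 0, 0, 0, ⟨0, 0⟩, 0⟩ 0 0) (.pos 25 .mm ⟨0, 0, 0, 0, 0, 536076071, 0, 0, 0, ⟨0, 0⟩, 0⟩ 0 0)))) (.cut .v 16515072 (.pos 24 .mm ⟨0, 0, 0, 0, 0, 570609714, 0, 0, 0, ⟨0, 0⟩, 0⟩ 0 0) (.cut .s 12124160 (.cut .s 12058624 (.pos 25 .mm ⟨0, 0, 0, 0, 0, 553182439, 0, 0, 0,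 ⟨0, 0⟩, 0⟩ 0 0) (.pos 25 .mm ⟨0, 0, 0, 0, 0, 570755654, 0, 0, 0, ⟨0, 0⟩, 0⟩ 0 0)) (.cut .s 12189696 (.pos 25 .mm ⟨0, 0, 0, 0, 0, 588788222, 0, 0, 0, ⟨0, 0⟩, 0⟩ 0 0) (.pos 25 .mm ⟨0, 0, 0, 0, 0, 607272807, 0, 0, 0, ⟨0, 0⟩, 0⟩ 0 0)))))))))))))))))) (.cut .v 268435456 (.cut .v 67108864 (.cut .v 33554432 (.cut .d (-8388608) (.void 28 ⟨100000, 0, 0, 0, 0, 0, 0, 0, 0, ⟨0, 0⟩, 0⟩ 0 0) (.cut .v 25165824 (.cut .d (-4194304) (.void 29 ⟨100000, 0, 0, 0, 0, 0, 0, 0, 0, ⟨0, 0⟩, 0⟩ 0 0) (.cut .v 20971520 (.cut .d (-2097152) (.void 31 ⟨100000, 0, 0, 0, 0, 0, 0, 0, 0, ⟨0, 0⟩, 0⟩ 0 0) (.cut .d (-1048576) (.void 31 ⟨100000, 0, 0, 0, 0, 0, 0, 0, 0, ⟨0, 0⟩, 0⟩ 0 0) (.cut .d (-524288)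 (.void 31 ⟨100000, 0, 0, 0, 0, 0, 0, 0, 0, ⟨0, 0⟩, 0⟩ 0 0) (.cut .d (-262144) (.void 31 ⟨100000, 0, 0, 0, 0, 0, 0, 0, 0, ⟨0, 0⟩, 0⟩ 0 0) (.cut .d (-131072) (.void 31 ⟨100000, 0, 0, 0, 0, 0, 0, 0, 0, ⟨0, 0⟩, 0⟩ 0 0) (.cut .v 18874368 (.cut .v 17825792 (.cut .v 17301504 (.cut .d (-65536) (.pos 37 .mp ⟨101234989, 0, 0, 0, 0, 519681168, 0, 0, 0, ⟨0, 0⟩, 0⟩ 0 0) (.cut .v 17039360 (.cut .s 11993088 (.cut .s 11862016 (.cut .s 11796480 (.cut .v 16908288 (.cut .d (-32768) (.cut .s 11763712 (.pos 41 .mp ⟨82498336, 0, 0, 0, 0, 373121494, 0, 0, 0, ⟨0, 0⟩, 0⟩ 0 0) (.cut .s 11780096 (.pos 41 .mp ⟨83216160, 0, 0, 0, 0, 376358106, 0, 0, 0, ⟨0, 0⟩, 0⟩ 0 0) (.pos 41 .mp ⟨83565491,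 0, 0, 0, 0, 379302184, 0, 0, 0, ⟨0, 0⟩, 0⟩ 0 0))) (.cut .l 708371 (.cut .v 16842752 (.cut .d (-16384) (.cut .s 11763712 (.pos 72 .mp ⟨88088172, 0, 0, 0, 0, 360070845, 0, 0, 0, ⟨0, 0⟩, 0⟩ 0 0) (.pos 72 .mp ⟨85208900, 0, 0, 0, 0, 371511761, 0, 0, 0, ⟨0, 0⟩, 0⟩ 0 0)) (.pos 72 .mp ⟨95846497, 0, 0, 0, 0, 343680489, 0, 0, 0, ⟨0, 0⟩, 0⟩ 0 0)) (.pos 73 .mp ⟨194507875, 0, 0, 0, 0, 203303810, 0, 0, 0, ⟨0, 0⟩, 0⟩ 0 0)) (.pos 41 .mp ⟨0, 0, 0, 0, 0, 0, 0, 0, 0, ⟨0, 0⟩, 0⟩ 0 0))) (.pos 42 .mp ⟨170261630, 0, 0, 0, 0, 243833906, 0, 0, 0, ⟨0, 0⟩, 0⟩ 0 0)) (.cut .v 16908288 (.cut .d (-32768) (.cut .l 708371 (.pos 41 .mp ⟨93901010, 0, 0, 0, 0, 379625545, 0, 0, 0, ⟨0, 0⟩, 0⟩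 0 0) (.cut .v 16842752 (.pos 72 .mp ⟨0, 0, 0, 0, 0, 509334495, 0, 0, 0, ⟨0, 0⟩, 0⟩ 0 0) (.cut .d (-49152) (.cut .s 11829248 (.pos 73 .mp ⟨92001233, 0, 0, 0, 0, 373578773, 0, 0, 0, ⟨0, 0⟩, 0⟩ 0 0) (.cut .s 11845632 (.pos 73 .mp ⟨92746168, 0, 0, 0, 0, 376919373, 0, 0, 0, ⟨0, 0⟩, 0⟩ 0 0) (.pos 73 .mp ⟨93126261, 0, 0, 0, 0, 380065085, 0, 0, 0, ⟨0, 0⟩, 0⟩ 0 0))) (.cut .s 11829248 (.pos 73 .mp ⟨103013817, 0, 0, 0, 0, 350880852, 0, 0, 0, ⟨0, 0⟩, 0⟩ 0 0) (.pos 73 .mp ⟨103968953, 0, 0, 0, 0, 356464703, 0, 0, 0, ⟨0, 0⟩, 0⟩ 0 0))))) (.cut .l 708371 (.cut .d (-16384) (.cut .v 16842752 (.cut .s 11829248 (.pos 72 .mp ⟨85832766, 0, 0, 0, 0, 377503275, 0, 0, 0, ⟨0, 0⟩, 0⟩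 0 0) (.pos 72 .mp ⟨86433220, 0, 0, 0, 0, 383819522, 0, 0, 0, ⟨0, 0⟩, 0⟩ 0 0)) (.pos 73 .mp ⟨182880231, 0, 0, 0, 0, 234385136, 0, 0, 0, ⟨0, 0⟩, 0⟩ 0 0)) (.cut .s 11829248 (.pos 41 .mp ⟨97356362, 0, 0, 0, 0, 352741000, 0, 0, 0, ⟨0, 0⟩, 0⟩ 0 0) (.pos 41 .mp ⟨98068974, 0, 0, 0, 0, 359058285, 0, 0, 0, ⟨0, 0⟩, 0⟩ 0 0))) (.pos 41 .mp ⟨0, 0, 0, 0, 0, 0, 0, 0, 0, ⟨0, 0⟩, 0⟩ 0 0))) (.cut .s 11829248 (.pos 42 .mp ⟨136602800, 0, 0, 0, 0, 303834265, 0, 0, 0, ⟨0, 0⟩, 0⟩ 0 0) (.cut .s 11845632 (.pos 42 .mp ⟨121113604, 0, 0, 0, 0, 332561886, 0, 0, 0, ⟨0, 0⟩, 0⟩ 0 0) (.cut .s 11853824 (.pos 42 .mp ⟨116648457, 0, 0, 0, 0, 342453669, 0, 0, 0, ⟨0, 0⟩, 0⟩ 0 0) (.pos 42 .mp ⟨116742575,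 0, 0, 0, 0, 344217379, 0, 0, 0, ⟨0, 0⟩, 0⟩ 0 0)))))) (.cut .v 16908288 (.cut .d (-32768) (.cut .l 708371 (.cut .s 11927552 (.pos 41 .mp ⟨95450345, 0, 0, 0, 0, 392336299, 0, 0, 0, ⟨0, 0⟩, 0⟩ 0 0) (.pos 41 .mp ⟨96920644, 0, 0, 0, 0, 406504262, 0, 0, 0, ⟨0, 0⟩, 0⟩ 0 0)) (.cut .s 11927552 (.cut .v 16842752 (.pos 72 .mp ⟨0, 0, 0, 0, 0, 524881726, 0, 0, 0, ⟨0, 0⟩, 0⟩ 0 0) (.cut .s 11894784 (.cut .d (-49152) (.cut .s 11878400 (.pos 73 .mp ⟨93681457, 0, 0, 0, 0, 383018428, 0, 0, 0, ⟨0, 0⟩, 0⟩ 0 0) (.pos 73 .mp ⟨94087614, 0, 0, 0, 0, 386272084, 0, 0, 0, ⟨0, 0⟩, 0⟩ 0 0)) (.pos 73 .mp ⟨104908769, 0, 0, 0, 0, 362359962, 0, 0, 0, ⟨0, 0⟩, 0⟩ 0 0)) (.cut .d (-49152) (.cut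 .s 11911168 (.pos 73 .mp ⟨94488128, 0, 0, 0, 0, 389608783, 0, 0, 0, ⟨0, 0⟩, 0⟩ 0 0) (.pos 73 .mp ⟨94882957, 0, 0, 0, 0, 393029012, 0, 0, 0, ⟨0, 0⟩, 0⟩ 0 0)) (.pos 73 .mp ⟨105833052, 0, 0, 0, 0, 368570189, 0, 0, 0, ⟨0, 0⟩, 0⟩ 0 0)))) (.cut .v 16842752 (.pos 72 .mp ⟨0, 0, 0, 0, 0, 540920364, 0, 0, 0, ⟨0, 0⟩, 0⟩ 0 0) (.cut .s 11960320 (.cut .s 11943936 (.cut .s 11935744 (.pos 73 .mp ⟨87215559, 0, 0, 0, 0, 406741570, 0, 0, 0, ⟨0, 0⟩, 0⟩ 0 0) (.pos 73 .mp ⟨87360397, 0, 0, 0, 0, 408594195, 0, 0, 0, ⟨0, 0⟩, 0⟩ 0 0)) (.pos 73 .mp ⟨87503497, 0, 0, 0, 0, 411412808, 0, 0, 0, ⟨0, 0⟩, 0⟩ 0 0)) (.cut .s 11976704 (.pos 73 .mp ⟨87784463, 0, 0, 0, 0, 415202134, 0, 0, 0, ⟨0,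 0⟩, 0⟩ 0 0) (.pos 73 .mp ⟨88058399, 0, 0, 0, 0, 419065310, 0, 0, 0, ⟨0, 0⟩, 0⟩ 0 0)))))) (.cut .l 708371 (.cut .s 11927552 (.cut .d (-16384) (.cut .l 456712 (.cut .s 11894784 (.pos 41 .mp ⟨92919233, 0, 0, 0, 0, 385380004, 0, 0, 0, ⟨0, 0⟩, 0⟩ 0 0) (.pos 41 .mp ⟨93548439, 0, 0, 0, 0, 392275563, 0, 0, 0, ⟨0, 0⟩, 0⟩ 0 0)) (.cut .s 11894784 (.pos 41 .mp ⟨101407094, 0, 0, 0, 0, 364313991, 0, 0, 0, ⟨0, 0⟩, 0⟩ 0 0) (.pos 41 .mp ⟨102202262, 0, 0, 0, 0, 370703571, 0, 0, 0, ⟨0, 0⟩, 0⟩ 0 0))) (.cut .s 11894784 (.pos 41 .mp ⟨98764531, 0, 0, 0, 0, 365514853, 0, 0, 0, ⟨0, 0⟩, 0⟩ 0 0) (.pos 41 .mp ⟨99442778, 0, 0, 0, 0, 372110278, 0, 0, 0, ⟨0, 0⟩, 0⟩ 0 0))) (.cut .d (-16384)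 (.cut .l 456712 (.cut .s 11960320 (.pos 41 .mp ⟨94156722, 0, 0, 0, 0, 399450658, 0, 0, 0, ⟨0, 0⟩, 0⟩ 0 0) (.pos 41 .mp ⟨94743757, 0, 0, 0, 0, 406907265, 0, 0, 0, ⟨0, 0⟩, 0⟩ 0 0)) (.cut .s 11960320 (.pos 41 .mp ⟨102980743, 0, 0, 0, 0, 377361793, 0, 0, 0, ⟨0, 0⟩, 0⟩ 0 0) (.pos 41 .mp ⟨103742288, 0, 0, 0, 0, 384290464, 0, 0, 0, ⟨0, 0⟩, 0⟩ 0 0))) (.cut .s 11960320 (.pos 41 .mp ⟨100103454, 0, 0, 0, 0, 378844162, 0, 0, 0, ⟨0, 0⟩, 0⟩ 0 0) (.pos 41 .mp ⟨100746291, 0, 0, 0, 0, 385716131, 0, 0, 0, ⟨0, 0⟩, 0⟩ 0 0)))) (.pos 41 .mp ⟨98309494, 0, 0, 0, 0, 0, 0, 0, 0, ⟨0, 0⟩, 0⟩ 0 0))) (.cut .d (-32768) (.cut .d (-49152) (.cut .v 16973824 (.cut .v 16941056 (.cut .v 16924672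 (.cut .l 708371 (.void 116 ⟨100000, 0, 0, 0, 0, 0, 0, 0, 0, ⟨0, 0⟩, 0⟩ 0 0) (.cut .l 960029 (.void 116 ⟨100000, 0, 0, 0, 0, 0, 0, 0, 0, ⟨0, 0⟩, 0⟩ 0 0) (.cut .d (-57344) (.cut .s 11927552 (.cut .s 11894784 (.pos 116 .mp ⟨103568864, 0, 0, 0, 0, 371785608, 0, 0, 0, ⟨0, 0⟩, 0⟩ 0 0) (.pos 116 .mp ⟨109730528, 0, 0, 0, 0, 369541289, 0, 0, 0, ⟨0, 0⟩, 0⟩ 0 0)) (.pos 116 .mp ⟨111801556, 0, 0, 0, 0, 378856263, 0, 0, 0, ⟨0, 0⟩, 0⟩ 0 0)) (.pos 116 .mp ⟨343749941, 0, 0, 0, 0, 0, 0, 0, 0, ⟨0, 0⟩, 0⟩ 0 0)))) (.pos 117 .mp ⟨366876698, 0, 0, 0, 0, 0, 0, 0, 0, ⟨0, 0⟩, 0⟩ 0 0)) (.pos 115 .mp ⟨367566604, 0, 0, 0, 0, 0, 0, 0, 0, ⟨0, 0⟩, 0⟩ 0 0)) (.pos 79 .mp ⟨368949654, 0, 0,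 0, 0, 0, 0, 0, 0, ⟨0, 0⟩, 0⟩ 0 0)) (.pos 42 .mp ⟨346547943, 0, 0, 0, 0, 0, 0, 0, 0, ⟨0, 0⟩, 0⟩ 0 0)) (.pos 42 .mp ⟨341013298, 0, 0, 0, 0, 0, 0, 0, 0, ⟨0, 0⟩, 0⟩ 0 0)))) (.cut .s 12124160 (.cut .v 16908288 (.cut .d (-32768) (.cut .l 708371 (.pos 41 .mp ⟨98309494, 0, 0, 0, 0, 437666391, 0, 0, 0, ⟨0, 0⟩, 0⟩ 0 0) (.cut .s 12058624 (.cut .s 12025856 (.pos 41 .mp ⟨87501248, 0, 0, 0, 0, 426076476, 0, 0, 0, ⟨0, 0⟩, 0⟩ 0 0) (.pos 41 .mp ⟨88002671, 0, 0, 0, 0, 434159955, 0, 0, 0, ⟨0, 0⟩, 0⟩ 0 0)) (.pos 41 .mp ⟨88475052, 0, 0, 0, 0, 446031908, 0, 0, 0, ⟨0, 0⟩, 0⟩ 0 0))) (.cut .l 708371 (.cut .s 12058624 (.cut .v 16842752 (.cut .d (-16384) (.cut .s 12025856 (.pos 72 .mp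 ⟨89071407, 0, 0, 0, 0, 420408364, 0, 0, 0, ⟨0, 0⟩, 0⟩ 0 0) (.pos 72 .mp ⟨89523494, 0, 0, 0, 0, 428755631, 0, 0, 0, ⟨0, 0⟩, 0⟩ 0 0)) (.pos 72 .mp ⟨101109822, 0, 0, 0, 0, 395444474, 0, 0, 0, ⟨0, 0⟩, 0⟩ 0 0)) (.pos 73 .mp ⟨201905231, 0, 0, 0, 0, 250726125, 0, 0, 0, ⟨0, 0⟩, 0⟩ 0 0)) (.cut .s 12091392 (.cut .d (-16384) (.pos 41 .mp ⟨90969076, 0, 0, 0, 0, 438427776, 0, 0, 0, ⟨0, 0⟩, 0⟩ 0 0) (.pos 41 .mp ⟨102564952, 0, 0, 0, 0, 407157201, 0, 0, 0, ⟨0, 0⟩, 0⟩ 0 0)) (.pos 41 .mp ⟨112415719, 0, 0, 0, 0, 405761186, 0, 0, 0, ⟨0, 0⟩, 0⟩ 0 0))) (.pos 41 .mp ⟨100832489, 0, 0, 0, 0, 0, 0, 0, 0, ⟨0, 0⟩, 0⟩ 0 0))) (.cut .s 12058624 (.pos 42 .mp ⟨206317727, 0, 0, 0, 0, 249892737,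 0, 0, 0, ⟨0, 0⟩, 0⟩ 0 0) (.pos 42 .mp ⟨225802942, 0, 0, 0, 0, 237812257, 0, 0, 0, ⟨0, 0⟩, 0⟩ 0 0))) (.cut .v 16908288 (.cut .s 12189696 (.cut .d (-32768) (.pos 41 .mp ⟨89330734, 0, 0, 0, 0, 469652727, 0, 0, 0, ⟨0, 0⟩, 0⟩ 0 0) (.cut .s 12156928 (.pos 41 .mp ⟨113186143, 0, 0, 0, 0, 413100064, 0, 0, 0, ⟨0, 0⟩, 0⟩ 0 0) (.pos 41 .mp ⟨113942170, 0, 0, 0, 0, 420566332, 0, 0, 0, ⟨0, 0⟩, 0⟩ 0 0))) (.cut .s 12222464 (.pos 41 .mp ⟨94519976, 0, 0, 0, 0, 468348034, 0, 0, 0, ⟨0, 0⟩, 0⟩ 0 0) (.pos 41 .mp ⟨94799256, 0, 0, 0, 0, 477007277, 0, 0, 0, ⟨0, 0⟩, 0⟩ 0 0))) (.pos 42 .mp ⟨353731325, 0, 0, 0, 0, 69469208, 0, 0, 0, ⟨0, 0⟩, 0⟩ 0 0)))) (.pos 40 .mp ⟨373755868, 0, 0, 0,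 0, 0, 0, 0, 0, ⟨0, 0⟩, 0⟩ 0 0))) (.pos 38 .mp ⟨406283190, 0, 0, 0, 0, 0, 0, 0, 0, ⟨0, 0⟩, 0⟩ 0 0)) (.pos 36 .mp ⟨428160185, 0, 0, 0, 0, 0, 0, 0, 0, ⟨0, 0⟩, 0⟩ 0 0)) (.void 34 ⟨100000, 0, 0, 0, 0, 0, 0, 0, 0, ⟨0, 0⟩, 0⟩ 0 0))))))) (.void 32 ⟨100000, 0, 0, 0, 0, 0, 0, 0, 0, ⟨0, 0⟩, 0⟩ 0 0))) (.void 30 ⟨100000, 0, 0, 0, 0, 0, 0, 0, 0, ⟨0, 0⟩, 0⟩ 0 0))) (.void 71 ⟨100000, 0, 0, 0, 0, 0, 0, 0, 0, ⟨0, 0⟩, 0⟩ 0 0)) (.void 86 ⟨100000, 0, 0, 0, 0, 0, 0, 0, 0, ⟨0, 0⟩, 0⟩ 0 0)) (.void 103 ⟨96333, 0, 0, 3667, 0, 0, 0, 0, 0, ⟨0, 0⟩, 0⟩ 0 0))) (.cut .v 16777216 (.cut .v 8388608 (.cut .v 4194304 (.cut .v 2097152 (.cut .v 1048576 (.pos 106 .pm ⟨0, 0, 12162437, 0, 0, 0, 0,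 0, 0, ⟨0, 0⟩, 0⟩ 0 0) (.pos 107 .pm ⟨0, 6549043, 0, 0, 0, 0, 0, 0, 0, ⟨0, 0⟩, 0⟩ 0 0)) (.cut .d 3608508 (.pos 7 .pm ⟨0, 0, 47812690, 0, 0, 0, 0, 0, 0, ⟨0, 0⟩, 0⟩ 0 0) (.cut .d 5412762 (.pos 7 .pm ⟨0, 0, 0, 0, 0, 0, 0, 0, 0, ⟨0, 0⟩, 0⟩ 0 0) (.cut .d 6314889 (.pos 7 .pm ⟨0, 99074074, 0, 0, 0, 0, 0, 0, 0, ⟨0, 0⟩, 0⟩ 0 0) (.pos 7 .pm ⟨0, 146613879, 0, 0, 0, 0, 0, 0, 0, ⟨0, 0⟩, 0⟩ 0 0))))) (.cut .d 3608508 (.pos 5 .pm ⟨0, 0, 781217, 0, 0, 0, 0, 0, 0, ⟨0, 0⟩, 0⟩ 0 0) (.cut .d 5412762 (.pos 5 .pm ⟨0, 0, 0, 0, 0, 0, 0, 0, 0, ⟨0, 0⟩, 0⟩ 0 0) (.cut .d 6314889 (.cut .s 11993088 (.pos 5 .pm ⟨0, 0, 0, 0, 0, 0, 0, 0, 0, ⟨0, 0⟩, 0⟩ 0 0) (.cut .d 5863825 (.pos 5 .pm ⟨0, 0,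 0, 0, 0, 0, 0, 0, 0, ⟨0, 0⟩, 0⟩ 0 0) (.cut .v 6291456 (.cut .s 12124160 (.cut .d 6089357 (.pos 97 .pm ⟨0, 0, 0, 0, 0, 0, 0, 0, 0, ⟨0, 0⟩, 0⟩ 0 0) (.cut .s 12058624 (.pos 97 .pm ⟨0, 155988816, 0, 0, 0, 0, 0, 0, 0, ⟨0, 0⟩, 0⟩ 0 0) (.pos 97 .pm ⟨0, 173032965, 0, 0, 0, 0, 0, 0, 0, ⟨0, 0⟩, 0⟩ 0 0))) (.cut .v 5242880 (.pos 120 .pm ⟨0, 167001700, 0, 0, 0, 0, 0, 0, 0, ⟨0, 0⟩, 0⟩ 0 0) (.cut .d 6089357 (.cut .s 12189696 (.pos 121 .pm ⟨0, 167471371, 0, 0, 0, 0, 0, 0, 0, ⟨0, 0⟩, 0⟩ 0 0) (.pos 121 .pm ⟨0, 182659798, 0, 0, 0, 0, 0, 0, 0, ⟨0, 0⟩, 0⟩ 0 0)) (.pos 121 .pm ⟨0, 203628628, 0, 0, 0, 0, 0, 0, 0, ⟨0, 0⟩, 0⟩ 0 0)))) (.cut .v 7340032 (.cut .s 12124160 (.cut .d 6089357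 (.pos 110 .pm ⟨0, 0, 0, 0, 0, 0, 0, 0, 0, ⟨0, 0⟩, 0⟩ 0 0) (.pos 110 .pm ⟨0, 182827536, 0, 0, 0, 0, 0, 0, 0, ⟨0, 0⟩, 0⟩ 0 0)) (.cut .d 6089357 (.pos 110 .pm ⟨0, 189902814, 0, 0, 0, 0, 0, 0, 0, ⟨0, 0⟩, 0⟩ 0 0) (.pos 110 .pm ⟨0, 216187456, 0, 0, 0, 0, 0, 0, 0, ⟨0, 0⟩, 0⟩ 0 0))) (.pos 111 .pm ⟨0, 213314658, 0, 0, 0, 0, 0, 0, 0, ⟨0, 0⟩, 0⟩ 0 0))))) (.cut .s 11993088 (.cut .d 6765953 (.cut .v 6291456 (.cut .s 11862016 (.pos 97 .pm ⟨0, 139677938, 0, 0, 0, 0, 0, 0, 0, ⟨0, 0⟩, 0⟩ 0 0) (.cut .d 6540421 (.pos 97 .pm ⟨0, 159826110, 0, 0, 0, 0, 0, 0, 0, ⟨0, 0⟩, 0⟩ 0 0) (.pos 97 .pm ⟨0, 183530583, 0, 0, 0, 0, 0, 0, 0, ⟨0, 0⟩, 0⟩ 0 0))) (.cut .s 11862016 (.pos 98 .pm ⟨0,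 157505307, 0, 0, 0, 0, 0, 0, 0, ⟨0, 0⟩, 0⟩ 0 0) (.cut .d 6540421 (.pos 98 .pm ⟨0, 176787443, 0, 0, 0, 0, 0, 0, 0, ⟨0, 0⟩, 0⟩ 0 0) (.pos 98 .pm ⟨0, 202281253, 0, 0, 0, 0, 0, 0, 0, ⟨0, 0⟩, 0⟩ 0 0)))) (.cut .v 6291456 (.pos 97 .pm ⟨0, 196117662, 0, 0, 0, 0, 0, 0, 0, ⟨0, 0⟩, 0⟩ 0 0) (.cut .s 11862016 (.pos 98 .pm ⟨0, 201807074, 0, 0, 0, 0, 0, 0, 0, ⟨0, 0⟩, 0⟩ 0 0) (.void 98 ⟨0, 0, 0, 100000, 0, 0, 0, 0, 0, ⟨0, 0⟩, 0⟩ 0 0)))) (.cut .d 6765953 (.cut .s 12124160 (.cut .v 6291456 (.pos 97 .pm ⟨0, 201346054, 0, 0, 0, 0, 0, 0, 0, ⟨0, 0⟩, 0⟩ 0 0) (.pos 98 .pm ⟨0, 226905029, 0, 0, 0, 0, 0, 0, 0, ⟨0, 0⟩, 0⟩ 0 0)) (.void 5 ⟨0, 0, 0, 100000, 0, 0, 0, 0, 0, ⟨0, 0⟩, 0⟩ 0 0))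 (.void 5 ⟨0, 0, 0, 100000, 0, 0, 0, 0, 0, ⟨0, 0⟩, 0⟩ 0 0))))))) (.cut .d 3608508 (.pos 3 .pm ⟨0, 0, 0, 0, 0, 0, 0, 0, 0, ⟨0, 0⟩, 0⟩ 0 0) (.cut .d 5412762 (.pos 3 .pm ⟨0, 0, 0, 0, 0, 0, 0, 0, 0, ⟨0, 0⟩, 0⟩ 0 0) (.cut .v 12582912 (.cut .d 6314889 (.cut .s 11993088 (.pos 8 .pm ⟨0, 160066206, 0, 0, 0, 0, 0, 0, 0, ⟨0, 0⟩, 0⟩ 0 0) (.pos 8 .pm ⟨0, 220542716, 0, 0, 0, 0, 0, 0, 0, ⟨0, 0⟩, 0⟩ 0 0)) (.cut .s 11993088 (.pos 8 .pm ⟨0, 239056905, 0, 0, 0, 0, 0, 0, 0, ⟨0, 0⟩, 0⟩ 0 0) (.void 8 ⟨0, 100000, 0, 0, 0, 0, 0, 0, 0, ⟨0, 0⟩, 0⟩ 0 0))) (.pos 9 .pm ⟨0, 331496667, 0, 0, 0, 0, 0, 0, 0, ⟨0, 0⟩, 0⟩ 0 0))))) (.cut .v 268435456 (.cut .d 3608508 (.cut .v 67108864 (.cut .d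 1804254 (.cut .v 33554432 (.cut .v 25165824 (.cut .v 20971520 (.pos 31 .pp ⟨157650254, 0, 0, 0, 0, 0, 0, 0, 0, ⟨0, 0⟩, 0⟩ 0 0) (.pos 32 .pp ⟨339705034, 0, 0, 0, 0, 0, 0, 0, 0, ⟨0, 0⟩, 0⟩ 0 0)) (.pos 30 .pp ⟨496130375, 0, 0, 0, 0, 0, 0, 0, 0, ⟨0, 0⟩, 0⟩ 0 0)) (.cut .d 902127 (.cut .v 50331648 (.pos 74 .pp ⟨1305265387, 0, 0, 0, 0, 0, 0, 0, 0, ⟨0, 0⟩, 0⟩ 0 0) (.pos 75 .pp ⟨2636747854, 0, 0, 0, 0, 0, 0, 0, 0, ⟨0, 0⟩, 0⟩ 0 0)) (.pos 71 .pp ⟨781679073, 0, 0, 0, 0, 0, 0, 0, 0, ⟨0, 0⟩, 0⟩ 0 0))) (.pos 70 .pp ⟨0, 0, 0, 0, 0, 0, 0, 0, 0, ⟨0, 0⟩, 0⟩ 0 0)) (.cut .v 134217728 (.cut .d 1804254 (.cut .d 902127 (.void 87 ⟨100000, 0, 0, 0, 0, 0, 0, 0, 0, ⟨0, 0⟩, 0⟩ 0 0) (.cut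 .v 100663296 (.cut .d 1353190 (.cut .v 83886080 (.pos 91 .pp ⟨3006670030, 0, 0, 0, 0, 0, 0, 0, 0, ⟨0, 0⟩, 0⟩ 0 0) (.pos 92 .pp ⟨4870674549, 0, 0, 0, 0, 0, 0, 0, 0, ⟨0, 0⟩, 0⟩ 0 0)) (.pos 89 .pp ⟨2661818776, 0, 0, 0, 0, 0, 0, 0, 0, ⟨0, 0⟩, 0⟩ 0 0)) (.cut .v 117440512 (.cut .d 1353190 (.pos 112 .pp ⟨6879287010, 333829223, 0, 0, 0, 0, 0, 0, 0, ⟨0, 0⟩, 0⟩ 0 0) (.cut .v 109051904 (.pos 126 .pp ⟨4703839020, 0, 0, 0, 0, 0, 0, 0, 0, ⟨0, 0⟩, 0⟩ 0 0) (.pos 127 .pp ⟨5884335237, 1431814111, 0, 0, 0, 0, 0, 0, 0, ⟨0, 0⟩, 0⟩ 0 0))) (.void 113 ⟨38778, 61222, 0, 0, 0, 0, 0, 0, 0, ⟨0, 0⟩, 0⟩ 0 0)))) (.pos 87 .pp ⟨0, 706932403, 0, 0, 0, 0, 0, 0, 0, ⟨0, 0⟩, 0⟩ 0 0)) (.void 88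 ⟨38196, 61804, 0, 0, 0, 0, 0, 0, 0, ⟨0, 0⟩, 0⟩ 0 0))) (.pos 85 .pp ⟨0, 278067083, 0, 0, 0, 0, 0, 0, 0, ⟨0, 0⟩, 0⟩ 0 0)) (.void 103 ⟨0, 0, 0, 100000, 0, 0, 0, 0, 0, ⟨0, 0⟩, 0⟩ 0 0)))),
    by decide +kernel⟩

def covers18 : cell.Covers table row18.1 :=
  ⟨(.cut .d 0 (.cut .v 16777216 (.cut .d (-8388608) (.void 1 ⟨0, 0, 0, 0, 0, 100000, 0, 0, 0, ⟨0, 0⟩, 0⟩ 0 0) (.cut .d (-4194304) (.void 1 ⟨0, 0, 0, 0, 0, 100000, 0, 0, 0, ⟨0, 0⟩, 0⟩ 0 0) (.cut .d (-2097152) (.void 1 ⟨0, 0, 0, 0, 0, 100000, 0, 0, 0, ⟨0, 0⟩, 0⟩ 0 0) (.cut .d (-1048576) (.void 1 ⟨0, 0, 0, 0, 0, 100000, 0, 0, 0, ⟨0, 0⟩, 0⟩ 0 0) (.cut .d (-524288) (.void 1 ⟨0, 0, 0, 0, 0, 100000, 0, 0, 0, ⟨0, 0⟩,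 0⟩ 0 0) (.cut .d (-262144) (.void 1 ⟨0, 0, 0, 0, 0, 100000, 0, 0, 0, ⟨0, 0⟩, 0⟩ 0 0) (.cut .d (-131072) (.void 1 ⟨0, 0, 0, 0, 0, 100000, 0, 0, 0, ⟨0, 0⟩, 0⟩ 0 0) (.cut .d (-65536) (.void 1 ⟨0, 0, 0, 0, 0, 100000, 0, 0, 0, ⟨0, 0⟩, 0⟩ 0 0) (.cut .v 8388608 (.cut .v 4194304 (.void 4 ⟨0, 0, 100000, 0, 0, 0, 0, 0, 0, ⟨0, 0⟩, 0⟩ 0 0) (.pos 5 .mm ⟨0, 0, 4879350, 0, 0, 326607292, 0, 0, 0, ⟨0, 0⟩, 0⟩ 0 0)) (.cut .v 12582912 (.pos 8 .mm ⟨0, 0, 0, 0, 0, 453624003, 0, 0, 0, ⟨0, 0⟩, 0⟩ 0 0) (.cut .v 14680064 (.pos 12 .mm ⟨0, 0, 0, 0, 0, 603869344, 0, 0, 0, ⟨0, 0⟩, 0⟩ 0 0) (.cut .v 15728640 (.pos 16 .mm ⟨0, 0, 0, 0, 0, 645465670, 0, 0, 0, ⟨0, 0⟩, 0⟩ 0 0) (.cut .v 16252928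 (.pos 20 .mm ⟨0, 0, 0, 0, 0, 667159164, 0, 0, 0, ⟨0, 0⟩, 0⟩ 0 0) (.cut .s 12484608 (.cut .s 12369920 (.pos 21 .mm ⟨0, 0, 0, 0, 0, 635433360, 0, 0, 0, ⟨0, 0⟩, 0⟩ 0 0) (.pos 21 .mm ⟨0, 0, 0, 0, 0, 670592581, 0, 0, 0, ⟨0, 0⟩, 0⟩ 0 0)) (.cut .s 12599296 (.pos 21 .mm ⟨0, 0, 0, 0, 0, 704834116, 0, 0, 0, ⟨0, 0⟩, 0⟩ 0 0) (.pos 21 .mm ⟨0, 0, 0, 0, 0, 742576758, 0, 0, 0, ⟨0, 0⟩, 0⟩ 0 0)))))))))))))))) (.cut .v 268435456 (.cut .v 67108864 (.cut .v 33554432 (.cut .d (-8388608) (.void 28 ⟨100000, 0, 0, 0, 0, 0, 0, 0, 0, ⟨0, 0⟩, 0⟩ 0 0) (.cut .v 25165824 (.cut .d (-4194304) (.void 29 ⟨100000, 0, 0, 0, 0, 0, 0, 0, 0, ⟨0, 0⟩, 0⟩ 0 0) (.cut .v 20971520 (.cut .d (-2097152)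 (.void 31 ⟨100000, 0, 0, 0, 0, 0, 0, 0, 0, ⟨0, 0⟩, 0⟩ 0 0) (.cut .d (-1048576) (.void 31 ⟨100000, 0, 0, 0, 0, 0, 0, 0, 0, ⟨0, 0⟩, 0⟩ 0 0) (.cut .d (-524288) (.void 31 ⟨100000, 0, 0, 0, 0, 0, 0, 0, 0, ⟨0, 0⟩, 0⟩ 0 0) (.cut .d (-262144) (.void 31 ⟨100000, 0, 0, 0, 0, 0, 0, 0, 0, ⟨0, 0⟩, 0⟩ 0 0) (.cut .d (-131072) (.void 31 ⟨100000, 0, 0, 0, 0, 0, 0, 0, 0, ⟨0, 0⟩, 0⟩ 0 0) (.cut .d (-65536) (.void 31 ⟨0, 0, 0, 0, 0, 100000, 0, 0, 0, ⟨0, 0⟩, 0⟩ 0 0) (.cut .v 18874368 (.cut .v 17825792 (.cut .v 17301504 (.cut .v 17039360 (.cut .d (-32768) (.cut .s 12484608 (.cut .s 12369920 (.pos 39 .mp ⟨92493913, 0, 0, 0, 0, 522139575, 0, 0, 0, ⟨0, 0⟩, 0⟩ 0 0) (.pos 39 .mp ⟨94176187,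 0, 0, 0, 0, 546892362, 0, 0, 0, ⟨0, 0⟩, 0⟩ 0 0)) (.pos 39 .mp ⟨95297456, 0, 0, 0, 0, 600899861, 0, 0, 0, ⟨0, 0⟩, 0⟩ 0 0)) (.cut .s 12484608 (.cut .s 12369920 (.pos 39 .mp ⟨119650579, 0, 0, 0, 0, 446748094, 0, 0, 0, ⟨0, 0⟩, 0⟩ 0 0) (.pos 39 .mp ⟨121626173, 0, 0, 0, 0, 473817295, 0, 0, 0, ⟨0, 0⟩, 0⟩ 0 0)) (.pos 39 .mp ⟨124515330, 0, 0, 0, 0, 505731263, 0, 0, 0, ⟨0, 0⟩, 0⟩ 0 0))) (.pos 40 .mp ⟨454228504, 0, 0, 0, 0, 0, 0, 0, 0, ⟨0, 0⟩, 0⟩ 0 0)) (.pos 38 .mp ⟨466447194, 0, 0, 0, 0, 0, 0, 0, 0, ⟨0, 0⟩, 0⟩ 0 0)) (.pos 36 .mp ⟨491709964, 0, 0, 0, 0, 0, 0, 0, 0, ⟨0, 0⟩, 0⟩ 0 0)) (.void 34 ⟨100000, 0, 0, 0, 0, 0, 0, 0, 0, ⟨0, 0⟩, 0⟩ 0 0)))))))) (.void 32 ⟨100000, 0,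 0, 0, 0, 0, 0, 0, 0, ⟨0, 0⟩, 0⟩ 0 0))) (.void 30 ⟨100000, 0, 0, 0, 0, 0, 0, 0, 0, ⟨0, 0⟩, 0⟩ 0 0))) (.void 71 ⟨100000, 0, 0, 0, 0, 0, 0, 0, 0, ⟨0, 0⟩, 0⟩ 0 0)) (.void 86 ⟨100000, 0, 0, 0, 0, 0, 0, 0, 0, ⟨0, 0⟩, 0⟩ 0 0)) (.void 103 ⟨96189, 0, 0, 3811, 0, 0, 0, 0, 0, ⟨0, 0⟩, 0⟩ 0 0))) (.cut .v 16777216 (.cut .v 8388608 (.cut .v 4194304 (.cut .v 2097152 (.cut .v 1048576 (.cut .v 524288 (.pos 128 .pm ⟨0, 0, 16127294, 0, 0, 0, 0, 0, 0, ⟨0, 0⟩, 0⟩ 0 0) (.pos 129 .pm ⟨0, 0, 5369086, 0, 0, 0, 0, 0, 0, ⟨0, 0⟩, 0⟩ 0 0)) (.pos 107 .pm ⟨0, 9406546, 0, 0, 0, 0, 0, 0, 0, ⟨0, 0⟩, 0⟩ 0 0)) (.cut .d 3095263 (.pos 7 .pm ⟨0, 0, 61157087, 0, 0, 0, 0, 0, 0, ⟨0, 0⟩, 0⟩ 0 0) (.cut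 .d 4642894 (.pos 7 .pm ⟨0, 0, 0, 0, 0, 0, 0, 0, 0, ⟨0, 0⟩, 0⟩ 0 0) (.cut .v 3145728 (.pos 108 .pm ⟨0, 109426258, 0, 0, 0, 0, 0, 0, 0, ⟨0, 0⟩, 0⟩ 0 0) (.cut .d 5416710 (.cut .s 12484608 (.pos 109 .pm ⟨0, 0, 0, 0, 0, 0, 0, 0, 0, ⟨0, 0⟩, 0⟩ 0 0) (.pos 109 .pm ⟨0, 131307699, 0, 0, 0, 0, 0, 0, 0, ⟨0, 0⟩, 0⟩ 0 0)) (.cut .s 12484608 (.pos 109 .pm ⟨0, 147791153, 0, 0, 0, 0, 0, 0, 0, ⟨0, 0⟩, 0⟩ 0 0) (.pos 109 .pm ⟨0, 190507536, 0, 0, 0, 0, 0, 0, 0, ⟨0, 0⟩, 0⟩ 0 0))))))) (.cut .d 3095263 (.pos 5 .pm ⟨0, 0, 3492674, 0, 0, 0, 0, 0, 0, ⟨0, 0⟩, 0⟩ 0 0) (.cut .d 4642894 (.pos 5 .pm ⟨0, 0, 0, 0, 0, 0, 0, 0, 0, ⟨0, 0⟩, 0⟩ 0 0) (.cut .d 5416710 (.cut .s 12484608 (.pos 5 .pm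 ⟨0, 0, 0, 0, 0, 0, 0, 0, 0, ⟨0, 0⟩, 0⟩ 0 0) (.cut .d 5029802 (.pos 5 .pm ⟨0, 0, 0, 0, 0, 0, 0, 0, 0, ⟨0, 0⟩, 0⟩ 0 0) (.cut .v 6291456 (.cut .s 12599296 (.cut .d 5223256 (.pos 97 .pm ⟨0, 0, 0, 0, 0, 0, 0, 0, 0, ⟨0, 0⟩, 0⟩ 0 0) (.cut .v 5242880 (.pos 120 .pm ⟨0, 172874973, 0, 0, 0, 0, 0, 0, 0, ⟨0, 0⟩, 0⟩ 0 0) (.cut .s 12541952 (.pos 121 .pm ⟨0, 0, 0, 0, 0, 0, 0, 0, 0, ⟨0, 0⟩, 0⟩ 0 0) (.cut .d 5319983 (.pos 121 .pm ⟨0, 0, 0, 0, 0, 0, 0, 0, 0, ⟨0, 0⟩, 0⟩ 0 0) (.pos 121 .pm ⟨0, 199540394, 0, 0, 0, 0, 0, 0, 0, ⟨0, 0⟩, 0⟩ 0 0))))) (.cut .d 5223256 (.cut .v 5242880 (.pos 120 .pm ⟨0, 174814182, 0, 0, 0, 0, 0, 0, 0, ⟨0, 0⟩, 0⟩ 0 0) (.cut .s 12656640 (.pos 121 .pm ⟨0,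 0, 0, 0, 0, 0, 0, 0, 0, ⟨0, 0⟩, 0⟩ 0 0) (.pos 121 .pm ⟨0, 197045251, 0, 0, 0, 0, 0, 0, 0, ⟨0, 0⟩, 0⟩ 0 0))) (.cut .v 5242880 (.cut .s 12656640 (.pos 120 .pm ⟨0, 195254910, 0, 0, 0, 0, 0, 0, 0, ⟨0, 0⟩, 0⟩ 0 0) (.pos 120 .pm ⟨0, 210265588, 0, 0, 0, 0, 0, 0, 0, ⟨0, 0⟩, 0⟩ 0 0)) (.cut .s 12656640 (.cut .d 5319983 (.pos 121 .pm ⟨0, 201183513, 0, 0, 0, 0, 0, 0, 0, ⟨0, 0⟩, 0⟩ 0 0) (.pos 121 .pm ⟨0, 217352549, 0, 0, 0, 0, 0, 0, 0, ⟨0, 0⟩, 0⟩ 0 0)) (.pos 121 .pm ⟨0, 227560406, 0, 0, 0, 0, 0, 0, 0, ⟨0, 0⟩, 0⟩ 0 0))))) (.cut .s 12599296 (.pos 98 .pm ⟨0, 205624177, 0, 0, 0, 0, 0, 0, 0, ⟨0, 0⟩, 0⟩ 0 0) (.pos 98 .pm ⟨0, 233488673, 0, 0, 0, 0, 0, 0, 0, ⟨0, 0⟩, 0⟩ 0 0)))))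 (.cut .s 12484608 (.cut .d 5803618 (.cut .v 6291456 (.cut .s 12369920 (.cut .v 5242880 (.pos 120 .pm ⟨0, 150449960, 0, 0, 0, 0, 0, 0, 0, ⟨0, 0⟩, 0⟩ 0 0) (.pos 121 .pm ⟨0, 163679644, 0, 0, 0, 0, 0, 0, 0, ⟨0, 0⟩, 0⟩ 0 0)) (.cut .d 5610164 (.cut .v 5242880 (.pos 120 .pm ⟨0, 168813943, 0, 0, 0, 0, 0, 0, 0, ⟨0, 0⟩, 0⟩ 0 0) (.pos 121 .pm ⟨0, 179619879, 0, 0, 0, 0, 0, 0, 0, ⟨0, 0⟩, 0⟩ 0 0)) (.cut .v 5242880 (.pos 120 .pm ⟨0, 189763024, 0, 0, 0, 0, 0, 0, 0, ⟨0, 0⟩, 0⟩ 0 0) (.cut .s 12427264 (.pos 121 .pm ⟨0, 197886922, 0, 0, 0, 0, 0, 0, 0, ⟨0, 0⟩, 0⟩ 0 0) (.pos 121 .pm ⟨0, 215686509, 0, 0, 0, 0, 0, 0, 0, ⟨0, 0⟩, 0⟩ 0 0))))) (.cut .s 12369920 (.pos 98 .pm ⟨0, 186798901,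 0, 0, 0, 0, 0, 0, 0, ⟨0, 0⟩, 0⟩ 0 0) (.pos 98 .pm ⟨0, 217196322, 0, 0, 0, 0, 0, 0, 0, ⟨0, 0⟩, 0⟩ 0 0))) (.cut .s 12369920 (.cut .v 6291456 (.cut .d 5997072 (.cut .s 12312576 (.pos 97 .pm ⟨0, 183700415, 0, 0, 0, 0, 0, 0, 0, ⟨0, 0⟩, 0⟩ 0 0) (.pos 97 .pm ⟨0, 202295100, 0, 0, 0, 0, 0, 0, 0, ⟨0, 0⟩, 0⟩ 0 0)) (.pos 97 .pm ⟨0, 691987244, 0, 0, 0, 0, 0, 0, 0, ⟨0, 0⟩, 0⟩ 0 0)) (.pos 98 .pm ⟨0, 231464059, 0, 0, 0, 0, 0, 0, 0, ⟨0, 0⟩, 0⟩ 0 0)) (.void 5 ⟨0, 100000, 0, 0, 0, 0, 0, 0, 0, ⟨0, 0⟩, 0⟩ 0 0))) (.cut .d 5803618 (.cut .v 6291456 (.cut .s 12599296 (.cut .d 5610164 (.cut .v 5242880 (.pos 120 .pm ⟨0, 197411488, 0, 0, 0, 0, 0, 0, 0, ⟨0, 0⟩, 0⟩ 0 0) (.cut .s 12541952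 (.cut .d 5513437 (.pos 121 .pm ⟨0, 197302064, 0, 0, 0, 0, 0, 0, 0, ⟨0, 0⟩, 0⟩ 0 0) (.pos 121 .pm ⟨0, 212237143, 0, 0, 0, 0, 0, 0, 0, ⟨0, 0⟩, 0⟩ 0 0)) (.pos 121 .pm ⟨0, 222473095, 0, 0, 0, 0, 0, 0, 0, ⟨0, 0⟩, 0⟩ 0 0))) (.void 97 ⟨0, 100000, 0, 0, 0, 0, 0, 0, 0, ⟨0, 0⟩, 0⟩ 0 0)) (.void 97 ⟨0, 100000, 0, 0, 0, 0, 0, 0, 0, ⟨0, 0⟩, 0⟩ 0 0)) (.pos 98 .pm ⟨0, 277914834, 0, 0, 0, 0, 0, 0, 0, ⟨0, 0⟩, 0⟩ 0 0)) (.void 5 ⟨0, 0, 0, 100000, 0, 0, 0, 0, 0, ⟨0, 0⟩, 0⟩ 0 0))))))) (.cut .d 3095263 (.pos 3 .pm ⟨0, 0, 0, 0, 0, 0, 0, 0, 0, ⟨0, 0⟩, 0⟩ 0 0) (.cut .d 4642894 (.pos 3 .pm ⟨0, 0, 0, 0, 0, 0, 0, 0, 0, ⟨0, 0⟩, 0⟩ 0 0) (.cut .d 5416710 (.pos 3 .pm ⟨0, 220308628, 0, 0,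 0, 0, 0, 0, 0, ⟨0, 0⟩, 0⟩ 0 0) (.cut .s 12484608 (.pos 3 .pm ⟨0, 284864577, 0, 0, 0, 0, 0, 0, 0, ⟨0, 0⟩, 0⟩ 0 0) (.pos 3 .pm ⟨0, 395975910, 0, 0, 0, 0, 0, 0, 0, ⟨0, 0⟩, 0⟩ 0 0)))))) (.cut .v 268435456 (.cut .d 3095263 (.cut .v 67108864 (.cut .d 1547631 (.cut .v 33554432 (.cut .v 25165824 (.pos 29 .pp ⟨269480893, 0, 0, 0, 0, 0, 0, 0, 0, ⟨0, 0⟩, 0⟩ 0 0) (.pos 30 .pp ⟨599565263, 0, 0, 0, 0, 0, 0, 0, 0, ⟨0, 0⟩, 0⟩ 0 0)) (.cut .d 773815 (.cut .v 50331648 (.pos 74 .pp ⟨1533033460, 0, 0, 0, 0, 0, 0, 0, 0, ⟨0, 0⟩, 0⟩ 0 0) (.pos 75 .pp ⟨3087373927, 0, 0, 0, 0, 0, 0, 0, 0, ⟨0, 0⟩, 0⟩ 0 0)) (.pos 71 .pp ⟨944969185, 0, 0, 0, 0, 0, 0, 0, 0, ⟨0, 0⟩, 0⟩ 0 0))) (.pos 70 .pp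 ⟨0, 0, 0, 0, 0, 0, 0, 0, 0, ⟨0, 0⟩, 0⟩ 0 0)) (.cut .v 134217728 (.cut .d 1547631 (.cut .d 773815 (.void 87 ⟨100000, 0, 0, 0, 0, 0, 0, 0, 0, ⟨0, 0⟩, 0⟩ 0 0) (.cut .v 100663296 (.cut .d 1160723 (.cut .v 83886080 (.pos 91 .pp ⟨3564812481, 0, 0, 0, 0, 0, 0, 0, 0, ⟨0, 0⟩, 0⟩ 0 0) (.pos 92 .pp ⟨5727036314, 0, 0, 0, 0, 0, 0, 0, 0, ⟨0, 0⟩, 0⟩ 0 0)) (.pos 89 .pp ⟨3207178716, 0, 0, 0, 0, 0, 0, 0, 0, ⟨0, 0⟩, 0⟩ 0 0)) (.cut .v 117440512 (.cut .d 1160723 (.cut .v 109051904 (.pos 126 .pp ⟨6770547716, 0, 0, 0, 0, 0, 0, 0, 0, ⟨0, 0⟩, 0⟩ 0 0) (.pos 127 .pp ⟨8212691512, 727314642, 0, 0, 0, 0, 0, 0, 0, ⟨0, 0⟩, 0⟩ 0 0)) (.cut .d 1354177 (.cut .v 109051904 (.pos 126 .pp ⟨5998047668,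 0, 0, 0, 0, 0, 0, 0, 0, ⟨0, 0⟩, 0⟩ 0 0) (.cut .s 12484608 (.pos 127 .pp ⟨6760355543, 1195419543, 0, 0, 0, 0, 0, 0, 0, ⟨0, 0⟩, 0⟩ 0 0) (.pos 127 .pp ⟨6871184663, 1109523341, 0, 0, 0, 0, 0, 0, 0, ⟨0, 0⟩, 0⟩ 0 0))) (.pos 112 .pp ⟨3506744529, 1044655449, 0, 0, 0, 0, 0, 0, 0, ⟨0, 0⟩, 0⟩ 0 0))) (.void 113 ⟨38161, 61839, 0, 0, 0, 0, 0, 0, 0, ⟨0, 0⟩, 0⟩ 0 0)))) (.pos 87 .pp ⟨0, 893928961, 0, 0, 0, 0, 0, 0, 0, ⟨0, 0⟩, 0⟩ 0 0)) (.void 88 ⟨37659, 62341, 0, 0, 0, 0, 0, 0, 0, ⟨0, 0⟩, 0⟩ 0 0))) (.pos 85 .pp ⟨0, 325261414, 0, 0, 0, 0, 0, 0, 0, ⟨0, 0⟩, 0⟩ 0 0)) (.void 103 ⟨0, 0, 0, 100000, 0, 0, 0, 0, 0, ⟨0, 0⟩, 0⟩ 0 0)))),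
    by decide +kernel⟩

def covers19 : cell.Covers table row19.1 :=
  ⟨(.cut .d 0 (.cut .v 16777216 (.cut .d (-8388608) (.void 1 ⟨0, 0, 0, 0, 0, 100000, 0, 0, 0, ⟨0, 0⟩, 0⟩ 0 0) (.cut .d (-4194304) (.pos 1 .mm ⟨0, 0, 0, 0, 0, 167772160000, 0, 0, 0, ⟨0, 0⟩, 0⟩ 0 0) (.cut .d (-2097152) (.void 1 ⟨0, 0, 0, 0, 0, 100000, 0, 0, 0, ⟨0, 0⟩, 0⟩ 0 0) (.cut .d (-1048576) (.void 1 ⟨0, 0, 0, 0, 0, 100000, 0, 0, 0, ⟨0, 0⟩, 0⟩ 0 0) (.cut .d (-524288) (.void 1 ⟨0, 0, 0, 0, 0, 100000, 0, 0, 0, ⟨0, 0⟩, 0⟩ 0 0) (.cut .d (-262144) (.void 1 ⟨0, 0, 0, 0, 0, 100000, 0, 0, 0, ⟨0, 0⟩, 0⟩ 0 0) (.cut .d (-131072) (.void 1 ⟨0, 0, 0, 0, 0, 100000, 0, 0, 0, ⟨0, 0⟩, 0⟩ 0 0) (.cut .d (-65536)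 (.void 1 ⟨0, 0, 0, 0, 0, 100000, 0, 0, 0, ⟨0, 0⟩, 0⟩ 0 0) (.cut .v 8388608 (.cut .v 4194304 (.void 4 ⟨0, 0, 100000, 0, 0, 0, 0, 0, 0, ⟨0, 0⟩, 0⟩ 0 0) (.pos 5 .mm ⟨0, 0, 7741537, 0, 0, 418881370, 0, 0, 0, ⟨0, 0⟩, 0⟩ 0 0)) (.cut .v 12582912 (.pos 8 .mm ⟨0, 0, 0, 0, 0, 520638541, 0, 0, 0, ⟨0, 0⟩, 0⟩ 0 0) (.cut .s 12976128 (.pos 9 .mm ⟨0, 0, 0, 0, 0, 814472375, 0, 0, 0, ⟨0, 0⟩, 0⟩ 0 0) (.pos 9 .mm ⟨0, 0, 0, 0, 0, 940734312, 0, 0, 0, ⟨0, 0⟩, 0⟩ 0 0)))))))))))) (.cut .v 268435456 (.cut .v 67108864 (.cut .v 33554432 (.cut .d (-8388608) (.void 28 ⟨100000, 0, 0, 0, 0, 0, 0, 0, 0, ⟨0, 0⟩, 0⟩ 0 0) (.cut .v 25165824 (.cut .d (-4194304) (.void 29 ⟨100000, 0, 0, 0, 0, 0,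 0, 0, 0, ⟨0, 0⟩, 0⟩ 0 0) (.cut .d (-2097152) (.void 29 ⟨100000, 0, 0, 0, 0, 0, 0, 0, 0, ⟨0, 0⟩, 0⟩ 0 0) (.cut .d (-1048576) (.void 29 ⟨100000, 0, 0, 0, 0, 0, 0, 0, 0, ⟨0, 0⟩, 0⟩ 0 0) (.cut .d (-524288) (.void 29 ⟨100000, 0, 0, 0, 0, 0, 0, 0, 0, ⟨0, 0⟩, 0⟩ 0 0) (.cut .d (-262144) (.void 29 ⟨100000, 0, 0, 0, 0, 0, 0, 0, 0, ⟨0, 0⟩, 0⟩ 0 0) (.cut .d (-131072) (.void 29 ⟨100000, 0, 0, 0, 0, 0, 0, 0, 0, ⟨0, 0⟩, 0⟩ 0 0) (.cut .s 12976128 (.cut .d (-65536) (.void 29 ⟨100000, 0, 0, 0, 0, 0, 0, 0, 0, ⟨0, 0⟩, 0⟩ 0 0) (.cut .s 12845056 (.cut .v 20971520 (.pos 31 .mp ⟨246614982, 0, 0, 0, 0, 398618275, 0, 0, 0, ⟨0, 0⟩, 0⟩ 0 0) (.void 32 ⟨100000, 0, 0, 0, 0, 0, 0, 0, 0,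 ⟨0, 0⟩, 0⟩ 0 0)) (.pos 29 .mp ⟨380969707, 0, 0, 0, 0, 253897728, 0, 0, 0, ⟨0, 0⟩, 0⟩ 0 0))) (.pos 29 .mp ⟨525473543, 0, 0, 0, 0, 138944118, 0, 0, 0, ⟨0, 0⟩, 0⟩ 0 0)))))))) (.void 30 ⟨100000, 0, 0, 0, 0, 0, 0, 0, 0, ⟨0, 0⟩, 0⟩ 0 0))) (.void 71 ⟨100000, 0, 0, 0, 0, 0, 0, 0, 0, ⟨0, 0⟩, 0⟩ 0 0)) (.void 86 ⟨100000, 0, 0, 0, 0, 0, 0, 0, 0, ⟨0, 0⟩, 0⟩ 0 0)) (.void 103 ⟨96032, 0, 0, 3968, 0, 0, 0, 0, 0, ⟨0, 0⟩, 0⟩ 0 0))) (.cut .v 16777216 (.cut .v 8388608 (.cut .v 4194304 (.cut .v 2097152 (.cut .d 2680896 (.void 6 ⟨0, 0, 100000, 0, 0, 0, 0, 0, 0, ⟨0, 0⟩, 0⟩ 0 0) (.cut .v 1048576 (.cut .v 524288 (.pos 128 .pm ⟨0, 0, 8094655, 0, 0, 0, 0, 0, 0, ⟨0, 0⟩, 0⟩ 0 0) (.pos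 129 .pm ⟨0, 25606253, 0, 0, 0, 0, 0, 0, 0, ⟨0, 0⟩, 0⟩ 0 0)) (.pos 107 .pm ⟨0, 61971568, 0, 0, 0, 0, 0, 0, 0, ⟨0, 0⟩, 0⟩ 0 0))) (.cut .d 2680896 (.pos 7 .pm ⟨0, 0, 76543067, 0, 0, 0, 0, 0, 0, ⟨0, 0⟩, 0⟩ 0 0) (.cut .d 4021344 (.pos 7 .pm ⟨0, 0, 0, 0, 0, 0, 0, 0, 0, ⟨0, 0⟩, 0⟩ 0 0) (.cut .d 4691568 (.cut .s 12976128 (.pos 7 .pm ⟨0, 0, 0, 0, 0, 0, 0, 0, 0, ⟨0, 0⟩, 0⟩ 0 0) (.cut .d 4356456 (.pos 7 .pm ⟨0, 131113329, 0, 0, 0, 0, 0, 0, 0, ⟨0, 0⟩, 0⟩ 0 0) (.cut .v 3145728 (.pos 108 .pm ⟨0, 146263623, 0, 0, 0, 0, 0, 0, 0, ⟨0, 0⟩, 0⟩ 0 0) (.cut .s 13107200 (.pos 109 .pm ⟨0, 172026310, 0, 0, 0, 0, 0, 0, 0, ⟨0, 0⟩, 0⟩ 0 0) (.cut .d 4524012 (.pos 109 .pm ⟨0, 193726774,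 0, 0, 0, 0, 0, 0, 0, ⟨0, 0⟩, 0⟩ 0 0) (.pos 109 .pm ⟨0, 214256669, 0, 0, 0, 0, 0, 0, 0, ⟨0, 0⟩, 0⟩ 0 0)))))) (.cut .v 3145728 (.pos 108 .pm ⟨0, 166392014, 0, 0, 0, 0, 0, 0, 0, ⟨0, 0⟩, 0⟩ 0 0) (.cut .s 12976128 (.cut .d 5026680 (.cut .s 12845056 (.pos 109 .pm ⟨0, 150771662, 0, 0, 0, 0, 0, 0, 0, ⟨0, 0⟩, 0⟩ 0 0) (.pos 109 .pm ⟨0, 180409153, 0, 0, 0, 0, 0, 0, 0, ⟨0, 0⟩, 0⟩ 0 0)) (.pos 109 .pm ⟨0, 199157277, 0, 0, 0, 0, 0, 0, 0, ⟨0, 0⟩, 0⟩ 0 0)) (.cut .s 13107200 (.pos 109 .pm ⟨0, 223268020, 0, 0, 0, 0, 0, 0, 0, ⟨0, 0⟩, 0⟩ 0 0) (.void 109 ⟨0, 0, 0, 100000, 0, 0, 0, 0, 0, ⟨0, 0⟩, 0⟩ 0 0)))))))) (.cut .d 2680896 (.pos 5 .pm ⟨0, 0, 7741537, 0, 0, 0, 0, 0, 0, ⟨0, 0⟩,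 0⟩ 0 0) (.cut .d 4021344 (.pos 5 .pm ⟨0, 0, 0, 0, 0, 0, 0, 0, 0, ⟨0, 0⟩, 0⟩ 0 0) (.cut .d 4691568 (.cut .s 12976128 (.cut .v 6291456 (.pos 97 .pm ⟨0, 0, 0, 0, 0, 0, 0, 0, 0, ⟨0, 0⟩, 0⟩ 0 0) (.pos 98 .pm ⟨0, 0, 0, 0, 0, 0, 0, 0, 0, ⟨0, 0⟩, 0⟩ 0 0)) (.cut .v 6291456 (.cut .d 4356456 (.cut .v 5242880 (.pos 120 .pm ⟨0, 159308425, 0, 0, 0, 0, 0, 0, 0, ⟨0, 0⟩, 0⟩ 0 0) (.pos 121 .pm ⟨0, 189825861, 0, 0, 0, 0, 0, 0, 0, ⟨0, 0⟩, 0⟩ 0 0)) (.cut .s 13107200 (.cut .d 4524012 (.pos 97 .pm ⟨0, 0, 0, 0, 0, 0, 0, 0, 0, ⟨0, 0⟩, 0⟩ 0 0) (.cut .l 708371 (.cut .v 5242880 (.cut .s 13041664 (.cut .v 4718592 (.pos 132 .pm ⟨0, 191950196, 0, 0, 0, 0, 0, 0, 0, ⟨0, 0⟩, 0⟩ 0 0) (.pos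 133 .pm ⟨0, 201884915, 0, 0, 0, 0, 0, 0, 0, ⟨0, 0⟩, 0⟩ 0 0)) (.cut .l 456712 (.cut .d 4607790 (.cut .v 4718592 (.pos 132 .pm ⟨0, 204621964, 0, 0, 0, 0, 0, 0, 0, ⟨0, 0⟩, 0⟩ 0 0) (.pos 133 .pm ⟨0, 212593481, 0, 0, 0, 0, 0, 0, 0, ⟨0, 0⟩, 0⟩ 0 0)) (.cut .v 4718592 (.pos 132 .pm ⟨0, 218794639, 0, 0, 0, 0, 0, 0, 0, ⟨0, 0⟩, 0⟩ 0 0) (.pos 133 .pm ⟨0, 230145711, 0, 0, 0, 0, 0, 0, 0, ⟨0, 0⟩, 0⟩ 0 0))) (.pos 120 .pm ⟨0, 215233935, 0, 0, 0, 0, 0, 0, 0, ⟨0, 0⟩, 0⟩ 0 0))) (.cut .s 13041664 (.pos 121 .pm ⟨0, 219740609, 0, 0, 0, 0, 0, 0, 0, ⟨0, 0⟩, 0⟩ 0 0) (.pos 121 .pm ⟨0, 238000057, 0, 0, 0, 0, 0, 0, 0, ⟨0, 0⟩, 0⟩ 0 0))) (.pos 97 .pm ⟨0, 211070437, 0, 0, 0, 0, 0, 0, 0,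 ⟨0, 0⟩, 0⟩ 0 0))) (.cut .d 4524012 (.cut .v 5242880 (.cut .l 708371 (.cut .l 456712 (.cut .s 13172736 (.cut .v 4718592 (.pos 132 .pm ⟨0, 201511247, 0, 0, 0, 0, 0, 0, 0, ⟨0, 0⟩, 0⟩ 0 0) (.pos 133 .pm ⟨0, 212893531, 0, 0, 0, 0, 0, 0, 0, ⟨0, 0⟩, 0⟩ 0 0)) (.cut .d 4440234 (.pos 120 .pm ⟨0, 215830553, 0, 0, 0, 0, 0, 0, 0, ⟨0, 0⟩, 0⟩ 0 0) (.pos 120 .pm ⟨0, 234487406, 0, 0, 0, 0, 0, 0, 0, ⟨0, 0⟩, 0⟩ 0 0))) (.pos 120 .pm ⟨0, 213201855, 0, 0, 0, 0, 0, 0, 0, ⟨0, 0⟩, 0⟩ 0 0)) (.pos 120 .pm ⟨0, 210911813, 0, 0, 0, 0, 0, 0, 0, ⟨0, 0⟩, 0⟩ 0 0)) (.pos 121 .pm ⟨0, 239416967, 0, 0, 0, 0, 0, 0, 0, ⟨0, 0⟩, 0⟩ 0 0)) (.cut .v 5242880 (.cut .v 4718592 (.pos 132 .pm ⟨0, 238202427,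 0, 0, 0, 0, 0, 0, 0, ⟨0, 0⟩, 0⟩ 0 0) (.pos 133 .pm ⟨0, 255913557, 0, 0, 0, 0, 0, 0, 0, ⟨0, 0⟩, 0⟩ 0 0)) (.pos 121 .pm ⟨0, 273083625, 0, 0, 0, 0, 0, 0, 0, ⟨0, 0⟩, 0⟩ 0 0))))) (.cut .s 13107200 (.pos 98 .pm ⟨0, 239822598, 0, 0, 0, 0, 0, 0, 0, ⟨0, 0⟩, 0⟩ 0 0) (.pos 98 .pm ⟨0, 277917301, 0, 0, 0, 0, 0, 0, 0, ⟨0, 0⟩, 0⟩ 0 0)))) (.cut .s 12976128 (.cut .d 5026680 (.cut .v 6291456 (.cut .s 12845056 (.cut .s 12779520 (.pos 97 .pm ⟨0, 0, 0, 0, 0, 0, 0, 0, 0, ⟨0, 0⟩, 0⟩ 0 0) (.cut .d 4859124 (.pos 97 .pm ⟨0, 0, 0, 0, 0, 0, 0, 0, 0, ⟨0, 0⟩, 0⟩ 0 0) (.cut .v 5242880 (.cut .d 4942902 (.pos 120 .pm ⟨0, 0, 0, 0, 0, 0, 0, 0, 0, ⟨0, 0⟩, 0⟩ 0 0) (.pos 120 .pm ⟨0, 199256077,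 0, 0, 0, 0, 0, 0, 0, ⟨0, 0⟩, 0⟩ 0 0)) (.pos 121 .pm ⟨0, 207638986, 0, 0, 0, 0, 0, 0, 0, ⟨0, 0⟩, 0⟩ 0 0)))) (.cut .d 4859124 (.cut .l 708371 (.cut .v 5242880 (.cut .s 12910592 (.pos 120 .pm ⟨0, 183989414, 0, 0, 0, 0, 0, 0, 0, ⟨0, 0⟩, 0⟩ 0 0) (.cut .d 4775346 (.pos 120 .pm ⟨0, 196394116, 0, 0, 0, 0, 0, 0, 0, ⟨0, 0⟩, 0⟩ 0 0) (.cut .s 12943360 (.pos 120 .pm ⟨0, 206664624, 0, 0, 0, 0, 0, 0, 0, ⟨0, 0⟩, 0⟩ 0 0) (.pos 120 .pm ⟨0, 219370631, 0, 0, 0, 0, 0, 0, 0, ⟨0, 0⟩, 0⟩ 0 0)))) (.cut .s 12910592 (.pos 121 .pm ⟨0, 205032850, 0, 0, 0, 0, 0, 0, 0, ⟨0, 0⟩, 0⟩ 0 0) (.pos 121 .pm ⟨0, 223668770, 0, 0, 0, 0, 0, 0, 0, ⟨0, 0⟩, 0⟩ 0 0))) (.pos 97 .pm ⟨0, 199169640, 0, 0, 0,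 0, 0, 0, 0, ⟨0, 0⟩, 0⟩ 0 0)) (.cut .v 5242880 (.cut .s 12910592 (.cut .d 4942902 (.pos 120 .pm ⟨0, 206711620, 0, 0, 0, 0, 0, 0, 0, ⟨0, 0⟩, 0⟩ 0 0) (.pos 120 .pm ⟨0, 223091604, 0, 0, 0, 0, 0, 0, 0, ⟨0, 0⟩, 0⟩ 0 0)) (.pos 120 .pm ⟨0, 290398285, 0, 0, 0, 0, 0, 0, 0, ⟨0, 0⟩, 0⟩ 0 0)) (.cut .s 12910592 (.pos 121 .pm ⟨0, 229265955, 0, 0, 0, 0, 0, 0, 0, ⟨0, 0⟩, 0⟩ 0 0) (.void 121 ⟨0, 100000, 0, 0, 0, 0, 0, 0, 0, ⟨0, 0⟩, 0⟩ 0 0))))) (.cut .s 12845056 (.pos 98 .pm ⟨0, 223662779, 0, 0, 0, 0, 0, 0, 0, ⟨0, 0⟩, 0⟩ 0 0) (.pos 98 .pm ⟨0, 264333052, 0, 0, 0, 0, 0, 0, 0, ⟨0, 0⟩, 0⟩ 0 0))) (.cut .v 6291456 (.cut .s 12845056 (.cut .d 5194236 (.cut .v 5242880 (.cut .s 12779520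 (.cut .d 5110458 (.pos 120 .pm ⟨0, 190863431, 0, 0, 0, 0, 0, 0, 0, ⟨0, 0⟩, 0⟩ 0 0) (.pos 120 .pm ⟨0, 204779284, 0, 0, 0, 0, 0, 0, 0, ⟨0, 0⟩, 0⟩ 0 0)) (.pos 120 .pm ⟨0, 219630862, 0, 0, 0, 0, 0, 0, 0, ⟨0, 0⟩, 0⟩ 0 0)) (.cut .s 12779520 (.cut .d 5110458 (.pos 121 .pm ⟨0, 202622680, 0, 0, 0, 0, 0, 0, 0, ⟨0, 0⟩, 0⟩ 0 0) (.pos 121 .pm ⟨0, 217116470, 0, 0, 0, 0, 0, 0, 0, ⟨0, 0⟩, 0⟩ 0 0)) (.pos 121 .pm ⟨0, 235237835, 0, 0, 0, 0, 0, 0, 0, ⟨0, 0⟩, 0⟩ 0 0))) (.pos 97 .pm ⟨0, 608496774, 0, 0, 0, 0, 0, 0, 0, ⟨0, 0⟩, 0⟩ 0 0)) (.void 97 ⟨0, 0, 0, 100000, 0, 0, 0, 0, 0, ⟨0, 0⟩, 0⟩ 0 0)) (.pos 98 .pm ⟨0, 300669910, 0, 0, 0, 0, 0, 0, 0, ⟨0, 0⟩, 0⟩ 0 0))) (.cut .v 6291456 (.cut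 .d 5026680 (.cut .s 13107200 (.cut .d 4859124 (.cut .v 5242880 (.cut .s 13041664 (.cut .v 4718592 (.pos 132 .pm ⟨0, 216700074, 0, 0, 0, 0, 0, 0, 0, ⟨0, 0⟩, 0⟩ 0 0) (.cut .d 4775346 (.pos 133 .pm ⟨0, 224173948, 0, 0, 0, 0, 0, 0, 0, ⟨0, 0⟩, 0⟩ 0 0) (.void 133 ⟨0, 100000, 0, 0, 0, 0, 0, 0, 0, ⟨0, 0⟩, 0⟩ 0 0))) (.void 120 ⟨0, 100000, 0, 0, 0, 0, 0, 0, 0, ⟨0, 0⟩, 0⟩ 0 0)) (.pos 121 .pm ⟨0, 259622051, 0, 0, 0, 0, 0, 0, 0, ⟨0, 0⟩, 0⟩ 0 0)) (.void 97 ⟨0, 0, 0, 100000, 0, 0, 0, 0, 0, ⟨0, 0⟩, 0⟩ 0 0)) (.void 97 ⟨0, 0, 0, 100000, 0, 0, 0, 0, 0, ⟨0, 0⟩, 0⟩ 0 0)) (.void 97 ⟨0, 0, 0, 100000, 0, 0, 0, 0, 0, ⟨0, 0⟩, 0⟩ 0 0)) (.pos 98 .pm ⟨0, 404364969, 0, 0, 0, 0, 0, 0, 0,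 ⟨0, 0⟩, 0⟩ 0 0))))))) (.cut .d 2680896 (.pos 3 .pm ⟨0, 0, 0, 0, 0, 0, 0, 0, 0, ⟨0, 0⟩, 0⟩ 0 0) (.cut .d 4021344 (.pos 3 .pm ⟨0, 0, 0, 0, 0, 0, 0, 0, 0, ⟨0, 0⟩, 0⟩ 0 0) (.cut .d 4691568 (.pos 3 .pm ⟨0, 272776785, 0, 0, 0, 0, 0, 0, 0, ⟨0, 0⟩, 0⟩ 0 0) (.pos 3 .pm ⟨0, 436647855, 0, 0, 0, 0, 0, 0, 0, ⟨0, 0⟩, 0⟩ 0 0))))) (.cut .v 268435456 (.cut .d 2680896 (.cut .v 67108864 (.cut .d 1340448 (.cut .v 33554432 (.cut .v 25165824 (.pos 29 .pp ⟨285061619, 0, 0, 0, 0, 0, 0, 0, 0, ⟨0, 0⟩, 0⟩ 0 0) (.pos 30 .pp ⟨709116015, 0, 0, 0, 0, 0, 0, 0, 0, ⟨0, 0⟩, 0⟩ 0 0)) (.cut .d 670224 (.cut .v 50331648 (.pos 74 .pp ⟨1793552919, 0, 0, 0, 0, 0, 0, 0, 0, ⟨0, 0⟩, 0⟩ 0 0) (.pos 75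 .pp ⟨3616895316, 0, 0, 0, 0, 0, 0, 0, 0, ⟨0, 0⟩, 0⟩ 0 0)) (.pos 71 .pp ⟨1096473876, 0, 0, 0, 0, 0, 0, 0, 0, ⟨0, 0⟩, 0⟩ 0 0))) (.pos 70 .pp ⟨0, 0, 0, 0, 0, 0, 0, 0, 0, ⟨0, 0⟩, 0⟩ 0 0)) (.cut .v 134217728 (.cut .d 1340448 (.cut .d 670224 (.void 87 ⟨100000, 0, 0, 0, 0, 0, 0, 0, 0, ⟨0, 0⟩, 0⟩ 0 0) (.cut .v 100663296 (.cut .d 1005336 (.cut .v 83886080 (.pos 91 .pp ⟨4132024606, 0, 0, 0, 0, 0, 0, 0, 0, ⟨0, 0⟩, 0⟩ 0 0) (.pos 92 .pp ⟨6567165737, 0, 0, 0, 0, 0, 0, 0, 0, ⟨0, 0⟩, 0⟩ 0 0)) (.pos 89 .pp ⟨3747213350, 0, 0, 0, 0, 0, 0, 0, 0, ⟨0, 0⟩, 0⟩ 0 0)) (.cut .v 117440512 (.cut .d 1005336 (.cut .v 109051904 (.pos 126 .pp ⟨8410856187, 0, 0, 0, 0, 0, 0, 0, 0, ⟨0, 0⟩, 0⟩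 0 0) (.cut .d 837780 (.void 127 ⟨100000, 0, 0, 0, 0, 0, 0, 0, 0, ⟨0, 0⟩, 0⟩ 0 0) (.cut .s 12976128 (.void 127 ⟨100000, 0, 0, 0, 0, 0, 0, 0, 0, ⟨0, 0⟩, 0⟩ 0 0) (.cut .d 921558 (.void 127 ⟨100000, 0, 0, 0, 0, 0, 0, 0, 0, ⟨0, 0⟩, 0⟩ 0 0) (.cut .s 13107200 (.pos 127 .pp ⟨13742241796, 0, 0, 0, 0, 0, 0, 0, 0, ⟨0, 0⟩, 0⟩ 0 0) (.cut .l 708371 (.pos 127 .pp ⟨9337639277, 813483648, 0, 0, 0, 0, 0, 0, 0, ⟨0, 0⟩, 0⟩ 0 0) (.cut .v 113246208 (.cut .s 13172736 (.pos 134 .pp ⟨8644337082, 861160798, 0, 0, 0, 0, 0, 0, 0, ⟨0, 0⟩, 0⟩ 0 0) (.pos 134 .pp ⟨8166048019, 0, 0, 0, 0, 0, 0, 0, 0, ⟨0, 0⟩, 0⟩ 0 0)) (.cut .d 963447 (.pos 135 .pp ⟨9607322574, 1188545120, 0, 0, 0, 0, 0, 0,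 0, ⟨0, 0⟩, 0⟩ 0 0) (.cut .s 13172736 (.pos 135 .pp ⟨9036937198, 1547501447, 0, 0, 0, 0, 0, 0, 0, ⟨0, 0⟩, 0⟩ 0 0) (.pos 135 .pp ⟨8988944540, 1365611346, 0, 0, 0, 0, 0, 0, 0, ⟨0, 0⟩, 0⟩ 0 0)))))))))) (.cut .d 1172892 (.cut .v 109051904 (.pos 126 .pp ⟨7015522435, 0, 0, 0, 0, 0, 0, 0, 0, ⟨0, 0⟩, 0⟩ 0 0) (.cut .v 113246208 (.cut .s 12976128 (.cut .v 111149056 (.pos 138 .pp ⟨7054688970, 0, 0, 0, 0, 0, 0, 0, 0, ⟨0, 0⟩, 0⟩ 0 0) (.cut .l 708371 (.pos 139 .pp ⟨7978455932, 1333990798, 0, 0, 0, 0, 0, 0, 0, ⟨0, 0⟩, 0⟩ 0 0) (.cut .l 960029 (.pos 139 .pp ⟨7923292564, 1326652065, 0, 0, 0, 0, 0, 0, 0, ⟨0, 0⟩, 0⟩ 0 0) (.cut .d 1089114 (.cut .v 112197632 (.pos 142 .pp ⟨8077271291,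 739774218, 0, 0, 0, 0, 0, 0, 0, ⟨0, 0⟩, 0⟩ 0 0) (.pos 143 .pp ⟨8285172914, 1310173749, 0, 0, 0, 0, 0, 0, 0, ⟨0, 0⟩, 0⟩ 0 0)) (.cut .s 12845056 (.pos 139 .pp ⟨7556643230, 1054717278, 0, 0, 0, 0, 0, 0, 0, ⟨0, 0⟩, 0⟩ 0 0) (.pos 139 .pp ⟨7559977589, 971204601, 0, 0, 0, 0, 0, 0, 0, ⟨0, 0⟩, 0⟩ 0 0)))))) (.cut .s 13107200 (.cut .d 1089114 (.cut .v 111149056 (.pos 138 .pp ⟨7364391664, 0, 0, 0, 0, 0, 0, 0, 0, ⟨0, 0⟩, 0⟩ 0 0) (.cut .d 1047225 (.cut .s 13041664 (.pos 139 .pp ⟨8317352562, 905678437, 0, 0, 0, 0, 0, 0, 0, ⟨0, 0⟩, 0⟩ 0 0) (.pos 139 .pp ⟨8351391083, 848000580, 0, 0, 0, 0, 0, 0, 0, ⟨0, 0⟩, 0⟩ 0 0)) (.pos 139 .pp ⟨7970516038, 1028061958, 0, 0, 0, 0, 0, 0, 0,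 ⟨0, 0⟩, 0⟩ 0 0))) (.pos 134 .pp ⟨0, 2520391367, 0, 0, 0, 0, 0, 0, 0, ⟨0, 0⟩, 0⟩ 0 0)) (.pos 134 .pp ⟨7910997157, 1086708276, 0, 0, 0, 0, 0, 0, 0, ⟨0, 0⟩, 0⟩ 0 0))) (.void 135 ⟨27268, 72732, 0, 0, 0, 0, 0, 0, 0, ⟨0, 0⟩, 0⟩ 0 0))) (.pos 112 .pp ⟨4075233345, 1283786393, 0, 0, 0, 0, 0, 0, 0, ⟨0, 0⟩, 0⟩ 0 0))) (.void 113 ⟨37415, 62585, 0, 0, 0, 0, 0, 0, 0, ⟨0, 0⟩, 0⟩ 0 0)))) (.pos 87 .pp ⟨0, 1089877069, 0, 0, 0, 0, 0, 0, 0, ⟨0, 0⟩, 0⟩ 0 0)) (.void 88 ⟨36979, 63021, 0, 0, 0, 0, 0, 0, 0, ⟨0, 0⟩, 0⟩ 0 0))) (.pos 85 .pp ⟨0, 409277053, 0, 0, 0, 0, 0, 0, 0, ⟨0, 0⟩, 0⟩ 0 0)) (.void 103 ⟨0, 0, 0, 100000, 0, 0, 0, 0, 0, ⟨0, 0⟩, 0⟩ 0 0)))),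
    by decide +kernel⟩

def covers20 : cell.Covers table row20.1 :=
  ⟨(.cut .d 0 (.cut .v 16777216 (.cut .d (-8388608) (.void 1 ⟨0, 0, 0, 0, 0, 100000, 0, 0, 0, ⟨0, 0⟩, 0⟩ 0 0) (.cut .d (-4194304) (.void 1 ⟨0, 0, 0, 0, 0, 113178, 0, 0, 0, ⟨0, 0⟩, 0⟩ 0 0) (.cut .d (-2097152) (.void 1 ⟨0, 0, 0, 0, 0, 100000, 0, 0, 0, ⟨0, 0⟩, 0⟩ 0 0) (.cut .d (-1048576) (.void 1 ⟨0, 0, 0, 0, 0, 100000, 0, 0, 0, ⟨0, 0⟩, 0⟩ 0 0) (.cut .d (-524288) (.void 1 ⟨0, 0, 0, 0, 0, 100000, 0, 0, 0, ⟨0, 0⟩, 0⟩ 0 0) (.cut .d (-262144) (.void 1 ⟨0, 0, 0, 0, 0, 100000, 0, 0, 0, ⟨0, 0⟩, 0⟩ 0 0) (.cut .d (-131072) (.void 1 ⟨0, 0, 0, 0, 0, 100000, 0, 0, 0, ⟨0, 0⟩, 0⟩ 0 0) (.cut .d (-65536) (.void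 1 ⟨0, 0, 0, 0, 0, 105028, 0, 0, 0, ⟨0, 0⟩, 0⟩ 0 0) (.cut .v 8388608 (.cut .v 4194304 (.void 4 ⟨0, 0, 100000, 0, 0, 0, 0, 0, 0, ⟨0, 0⟩, 0⟩ 0 0) (.cut .v 6291456 (.void 97 ⟨0, 0, 100000, 0, 0, 0, 0, 0, 0, ⟨0, 0⟩, 0⟩ 0 0) (.cut .s 13500416 (.pos 98 .mm ⟨0, 0, 6984425, 0, 0, 449683661, 0, 0, 0, ⟨0, 0⟩, 0⟩ 0 0) (.cut .s 13631488 (.pos 98 .mm ⟨0, 0, 12665563, 0, 0, 495611687, 0, 0, 0, ⟨0, 0⟩, 0⟩ 0 0) (.pos 98 .mm ⟨0, 0, 18285527, 0, 0, 527690532, 0, 0, 0, ⟨0, 0⟩, 0⟩ 0 0))))) (.cut .v 12582912 (.pos 8 .mm ⟨0, 0, 0, 0, 0, 524636795, 0, 0, 0, ⟨0, 0⟩, 0⟩ 0 0) (.pos 9 .mm ⟨0, 0, 0, 0, 0, 968736986, 0, 0, 0, ⟨0, 0⟩, 0⟩ 0 0))))))))))) (.cut .v 268435456 (.cut .v 67108864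 (.cut .v 33554432 (.cut .d (-8388608) (.void 28 ⟨100000, 0, 0, 0, 0, 0, 0, 0, 0, ⟨0, 0⟩, 0⟩ 0 0) (.cut .d (-4194304) (.void 28 ⟨100000, 0, 0, 0, 0, 0, 0, 0, 0, ⟨0, 0⟩, 0⟩ 0 0) (.cut .v 25165824 (.cut .d (-2097152) (.void 29 ⟨100000, 0, 0, 0, 0, 0, 0, 0, 0, ⟨0, 0⟩, 0⟩ 0 0) (.cut .d (-1048576) (.void 29 ⟨100000, 0, 0, 0, 0, 0, 0, 0, 0, ⟨0, 0⟩, 0⟩ 0 0) (.cut .d (-524288) (.void 29 ⟨100000, 0, 0, 0, 0, 0, 0, 0, 0, ⟨0, 0⟩, 0⟩ 0 0) (.cut .d (-262144) (.void 29 ⟨100000, 0, 0, 0, 0, 0, 0, 0, 0, ⟨0, 0⟩, 0⟩ 0 0) (.cut .d (-131072) (.void 29 ⟨100000, 0, 0, 0, 0, 0, 0, 0, 0, ⟨0, 0⟩, 0⟩ 0 0) (.pos 29 .mp ⟨544952366, 0, 0, 0, 0, 124536146, 0, 0, 0, ⟨0, 0⟩, 0⟩ 0 0))))))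 (.void 30 ⟨100000, 0, 0, 0, 0, 0, 0, 0, 0, ⟨0, 0⟩, 0⟩ 0 0)))) (.void 71 ⟨100000, 0, 0, 0, 0, 0, 0, 0, 0, ⟨0, 0⟩, 0⟩ 0 0)) (.void 86 ⟨100000, 0, 0, 0, 0, 0, 0, 0, 0, ⟨0, 0⟩, 0⟩ 0 0)) (.void 103 ⟨95873, 0, 0, 4127, 0, 0, 0, 0, 0, ⟨0, 0⟩, 0⟩ 0 0))) (.cut .v 16777216 (.cut .v 8388608 (.cut .v 4194304 (.cut .v 2097152 (.cut .d 2242500 (.void 6 ⟨0, 0, 100000, 0, 0, 0, 0, 0, 0, ⟨0, 0⟩, 0⟩ 0 0) (.cut .v 1048576 (.cut .v 524288 (.pos 128 .pm ⟨0, 0, 3221448, 0, 0, 0, 0, 0, 0, ⟨0, 0⟩, 0⟩ 0 0) (.pos 129 .pm ⟨0, 34694954, 0, 0, 0, 0, 0, 0, 0, ⟨0, 0⟩, 0⟩ 0 0)) (.cut .d 3363750 (.pos 107 .pm ⟨0, 0, 0, 0, 0, 0, 0, 0, 0, ⟨0, 0⟩, 0⟩ 0 0) (.pos 107 .pm ⟨0, 111693120, 0, 0, 0,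 0, 0, 0, 0, ⟨0, 0⟩, 0⟩ 0 0)))) (.cut .d 2242500 (.pos 7 .pm ⟨0, 0, 101540568, 0, 0, 0, 0, 0, 0, ⟨0, 0⟩, 0⟩ 0 0) (.cut .d 3363750 (.pos 7 .pm ⟨0, 0, 0, 0, 0, 0, 0, 0, 0, ⟨0, 0⟩, 0⟩ 0 0) (.cut .d 3924375 (.cut .s 13500416 (.pos 7 .pm ⟨0, 0, 0, 0, 0, 0, 0, 0, 0, ⟨0, 0⟩, 0⟩ 0 0) (.cut .d 3644062 (.pos 7 .pm ⟨0, 132990346, 0, 0, 0, 0, 0, 0, 0, ⟨0, 0⟩, 0⟩ 0 0) (.cut .s 13631488 (.pos 7 .pm ⟨0, 174228719, 0, 0, 0, 0, 0, 0, 0, ⟨0, 0⟩, 0⟩ 0 0) (.pos 7 .pm ⟨0, 222416369, 0, 0, 0, 0, 0, 0, 0, ⟨0, 0⟩, 0⟩ 0 0)))) (.cut .s 13500416 (.cut .v 3145728 (.pos 108 .pm ⟨0, 162305961, 0, 0, 0, 0, 0, 0, 0, ⟨0, 0⟩, 0⟩ 0 0) (.cut .d 4204688 (.cut .s 13369344 (.pos 109 .pm ⟨0, 163525622,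 0, 0, 0, 0, 0, 0, 0, ⟨0, 0⟩, 0⟩ 0 0) (.pos 109 .pm ⟨0, 203163904, 0, 0, 0, 0, 0, 0, 0, ⟨0, 0⟩, 0⟩ 0 0)) (.cut .s 13369344 (.pos 109 .pm ⟨0, 209616522, 0, 0, 0, 0, 0, 0, 0, ⟨0, 0⟩, 0⟩ 0 0) (.void 109 ⟨0, 0, 0, 100000, 0, 0, 0, 0, 0, ⟨0, 0⟩, 0⟩ 0 0)))) (.pos 7 .pm ⟨0, 288657075, 0, 0, 0, 0, 0, 0, 0, ⟨0, 0⟩, 0⟩ 0 0)))))) (.cut .d 2242500 (.pos 5 .pm ⟨0, 0, 16640948, 0, 0, 0, 0, 0, 0, ⟨0, 0⟩, 0⟩ 0 0) (.cut .d 3363750 (.pos 5 .pm ⟨0, 0, 0, 0, 0, 0, 0, 0, 0, ⟨0, 0⟩, 0⟩ 0 0) (.cut .d 3924375 (.cut .s 13500416 (.pos 5 .pm ⟨0, 151199405, 0, 0, 0, 0, 0, 0, 0, ⟨0, 0⟩, 0⟩ 0 0) (.cut .d 3644062 (.pos 5 .pm ⟨0, 180329453, 0, 0, 0, 0, 0, 0, 0, ⟨0, 0⟩, 0⟩ 0 0) (.cut .s 13631488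 (.pos 5 .pm ⟨0, 234057735, 0, 0, 0, 0, 0, 0, 0, ⟨0, 0⟩, 0⟩ 0 0) (.pos 5 .pm ⟨0, 292576581, 0, 0, 0, 0, 0, 0, 0, ⟨0, 0⟩, 0⟩ 0 0)))) (.cut .s 13500416 (.cut .v 6291456 (.cut .d 4204688 (.cut .s 13369344 (.pos 97 .pm ⟨0, 188559241, 0, 0, 0, 0, 0, 0, 0, ⟨0, 0⟩, 0⟩ 0 0) (.cut .d 4064531 (.pos 97 .pm ⟨0, 213233827, 0, 0, 0, 0, 0, 0, 0, ⟨0, 0⟩, 0⟩ 0 0) (.pos 97 .pm ⟨0, 248167310, 0, 0, 0, 0, 0, 0, 0, ⟨0, 0⟩, 0⟩ 0 0))) (.cut .s 13369344 (.cut .d 4344844 (.cut .v 5242880 (.cut .s 13303808 (.pos 120 .pm ⟨0, 208351760, 0, 0, 0, 0, 0, 0, 0, ⟨0, 0⟩, 0⟩ 0 0) (.pos 120 .pm ⟨0, 234763470, 0, 0, 0, 0, 0, 0, 0, ⟨0, 0⟩, 0⟩ 0 0)) (.pos 121 .pm ⟨0, 245326897, 0, 0, 0, 0, 0, 0,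 0, ⟨0, 0⟩, 0⟩ 0 0)) (.pos 97 .pm ⟨0, 414155149, 0, 0, 0, 0, 0, 0, 0, ⟨0, 0⟩, 0⟩ 0 0)) (.void 97 ⟨0, 0, 0, 100000, 0, 0, 0, 0, 0, ⟨0, 0⟩, 0⟩ 0 0))) (.pos 98 .pm ⟨0, 314822954, 0, 0, 0, 0, 0, 0, 0, ⟨0, 0⟩, 0⟩ 0 0)) (.pos 5 .pm ⟨0, 417295740, 0, 0, 0, 0, 0, 0, 0, ⟨0, 0⟩, 0⟩ 0 0)))))) (.cut .d 2242500 (.pos 3 .pm ⟨0, 0, 0, 0, 0, 0, 0, 0, 0, ⟨0, 0⟩, 0⟩ 0 0) (.cut .d 3363750 (.pos 3 .pm ⟨0, 0, 0, 0, 0, 0, 0, 0, 0, ⟨0, 0⟩, 0⟩ 0 0) (.cut .d 3924375 (.pos 3 .pm ⟨0, 306912510, 0, 0, 0, 0, 0, 0, 0, ⟨0, 0⟩, 0⟩ 0 0) (.pos 3 .pm ⟨0, 486323675, 0, 0, 0, 0, 0, 0, 0, ⟨0, 0⟩, 0⟩ 0 0))))) (.cut .v 268435456 (.cut .d 2242500 (.cut .v 67108864 (.cut .d 1121250 (.cut .d 560625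 (.cut .v 33554432 (.cut .v 25165824 (.pos 29 .pp ⟨288787209, 0, 0, 0, 0, 0, 0, 0, 0, ⟨0, 0⟩, 0⟩ 0 0) (.pos 30 .pp ⟨952766328, 0, 0, 0, 0, 0, 0, 0, 0, ⟨0, 0⟩, 0⟩ 0 0)) (.cut .v 50331648 (.pos 74 .pp ⟨2021883600, 0, 0, 0, 0, 0, 0, 0, 0, ⟨0, 0⟩, 0⟩ 0 0) (.pos 75 .pp ⟨4232124855, 0, 0, 0, 0, 0, 0, 0, 0, ⟨0, 0⟩, 0⟩ 0 0))) (.pos 70 .pp ⟨439542490, 0, 0, 0, 0, 0, 0, 0, 0, ⟨0, 0⟩, 0⟩ 0 0)) (.pos 70 .pp ⟨0, 0, 0, 0, 0, 0, 0, 0, 0, ⟨0, 0⟩, 0⟩ 0 0)) (.cut .v 134217728 (.cut .d 1121250 (.cut .d 560625 (.void 87 ⟨100000, 0, 0, 0, 0, 0, 0, 0, 0, ⟨0, 0⟩, 0⟩ 0 0) (.cut .v 100663296 (.cut .d 840937 (.pos 89 .pp ⟨6599571995, 0, 0, 0, 0, 0, 0, 0, 0, ⟨0, 0⟩, 0⟩ 0 0) (.pos 89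 .pp ⟨4497479289, 0, 0, 0, 0, 0, 0, 0, 0, ⟨0, 0⟩, 0⟩ 0 0)) (.cut .v 117440512 (.cut .d 840937 (.cut .v 109051904 (.pos 126 .pp ⟨10465169424, 0, 0, 0, 0, 0, 0, 0, 0, ⟨0, 0⟩, 0⟩ 0 0) (.cut .v 113246208 (.pos 134 .pp ⟨10927316519, 0, 0, 0, 0, 0, 0, 0, 0, ⟨0, 0⟩, 0⟩ 0 0) (.cut .s 13500416 (.void 135 ⟨100000, 0, 0, 0, 0, 0, 0, 0, 0, ⟨0, 0⟩, 0⟩ 0 0) (.cut .v 115343360 (.cut .s 13631488 (.pos 140 .pp ⟨10865269111, 1245456659, 0, 0, 0, 0, 0, 0, 0, ⟨0, 0⟩, 0⟩ 0 0) (.pos 140 .pp ⟨10495158950, 274947414, 0, 0, 0, 0, 0, 0, 0, ⟨0, 0⟩, 0⟩ 0 0)) (.pos 141 .pp ⟨12727886542, 3982868483, 0, 0, 0, 0, 0, 0, 0, ⟨0, 0⟩, 0⟩ 0 0))))) (.cut .v 109051904 (.pos 126 .pp ⟨7524092621, 0,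 0, 0, 0, 0, 0, 0, 0, ⟨0, 0⟩, 0⟩ 0 0) (.cut .d 981093 (.cut .s 13500416 (.cut .v 113246208 (.pos 134 .pp ⟨8642396787, 0, 0, 0, 0, 0, 0, 0, 0, ⟨0, 0⟩, 0⟩ 0 0) (.cut .v 115343360 (.cut .l 708371 (.pos 140 .pp ⟨9782150041, 1914933950, 0, 0, 0, 0, 0, 0, 0, ⟨0, 0⟩, 0⟩ 0 0) (.cut .d 911015 (.cut .s 13369344 (.void 140 ⟨100000, 0, 0, 0, 0, 0, 0, 0, 0, ⟨0, 0⟩, 0⟩ 0 0) (.cut .s 13434880 (.pos 140 .pp ⟨9855128592, 1220486941, 0, 0, 0, 0, 0, 0, 0, ⟨0, 0⟩, 0⟩ 0 0) (.pos 140 .pp ⟨9896672783, 1153810290, 0, 0, 0, 0, 0, 0, 0, ⟨0, 0⟩, 0⟩ 0 0))) (.cut .s 13369344 (.cut .v 114294784 (.cut .l 960029 (.pos 146 .pp ⟨9307439028, 1454771174, 0, 0, 0, 0, 0, 0, 0, ⟨0, 0⟩, 0⟩ 0 0) (.cut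 .l 1085858 (.pos 146 .pp ⟨9301029294, 1444032775, 0, 0, 0, 0, 0, 0, 0, ⟨0, 0⟩, 0⟩ 0 0) (.cut .d 946054 (.cut .s 13303808 (.pos 146 .pp ⟨9314902140, 1185150838, 0, 0, 0, 0, 0, 0, 0, ⟨0, 0⟩, 0⟩ 0 0) (.cut .d 928534 (.pos 146 .pp ⟨9436004680, 1220083484, 0, 0, 0, 0, 0, 0, 0, ⟨0, 0⟩, 0⟩ 0 0) (.pos 146 .pp ⟨9275384360, 1215077013, 0, 0, 0, 0, 0, 0, 0, ⟨0, 0⟩, 0⟩ 0 0))) (.cut .s 13303808 (.cut .s 13271040 (.pos 146 .pp ⟨9064834373, 1277708451, 0, 0, 0, 0, 0, 0, 0, ⟨0, 0⟩, 0⟩ 0 0) (.pos 146 .pp ⟨9086843593, 1251249366, 0, 0, 0, 0, 0, 0, 0, ⟨0, 0⟩, 0⟩ 0 0)) (.pos 146 .pp ⟨0, 3181532323, 0, 0, 0, 0, 0, 0, 0, ⟨0, 0⟩, 0⟩ 0 0))))) (.void 147 ⟨37263, 62737, 0, 0, 0, 0,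 0, 0, 0, ⟨0, 0⟩, 0⟩ 0 0)) (.pos 140 .pp ⟨9385735547, 1369248568, 0, 0, 0, 0, 0, 0, 0, ⟨0, 0⟩, 0⟩ 0 0)))) (.void 141 ⟨37081, 62919, 0, 0, 0, 0, 0, 0, 0, ⟨0, 0⟩, 0⟩ 0 0))) (.cut .v 113246208 (.pos 134 .pp ⟨8920102693, 0, 0, 0, 0, 0, 0, 0, 0, ⟨0, 0⟩, 0⟩ 0 0) (.cut .d 911015 (.pos 135 .pp ⟨10031588819, 1741594941, 0, 0, 0, 0, 0, 0, 0, ⟨0, 0⟩, 0⟩ 0 0) (.void 135 ⟨0, 100000, 0, 0, 0, 0, 0, 0, 0, ⟨0, 0⟩, 0⟩ 0 0)))) (.pos 127 .pp ⟨6376874833, 1676516580, 0, 0, 0, 0, 0, 0, 0, ⟨0, 0⟩, 0⟩ 0 0)))) (.void 113 ⟨36726, 63274, 0, 0, 0, 0, 0, 0, 0, ⟨0, 0⟩, 0⟩ 0 0)))) (.pos 87 .pp ⟨0, 1366764226, 0, 0, 0, 0, 0, 0, 0, ⟨0, 0⟩, 0⟩ 0 0)) (.void 88 ⟨36360, 63640, 0, 0, 0, 0, 0,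 0, 0, ⟨0, 0⟩, 0⟩ 0 0))) (.pos 85 .pp ⟨0, 475371871, 0, 0, 0, 0, 0, 0, 0, ⟨0, 0⟩, 0⟩ 0 0)) (.void 103 ⟨0, 0, 0, 100000, 0, 0, 0, 0, 0, ⟨0, 0⟩, 0⟩ 0 0)))),
    by decide +kernel⟩

def covers21 : cell.Covers table row21.1 :=
  ⟨(.cut .d 0 (.cut .v 16777216 (.cut .d (-8388608) (.void 1 ⟨0, 0, 0, 0, 0, 100000, 0, 0, 0, ⟨0, 0⟩, 0⟩ 0 0) (.cut .d (-4194304) (.void 1 ⟨0, 0, 0, 0, 0, 25450639, 0, 0, 0, ⟨0, 0⟩, 0⟩ 0 0) (.cut .d (-2097152) (.void 1 ⟨0, 0, 0, 0, 0, 100000, 0, 0, 0, ⟨0, 0⟩, 0⟩ 0 0) (.cut .d (-1048576) (.void 1 ⟨0, 0, 0, 0, 0, 100000, 0, 0, 0, ⟨0, 0⟩, 0⟩ 0 0) (.cut .d (-524288) (.void 1 ⟨0, 0, 0, 0, 0, 100000, 0, 0, 0, ⟨0, 0⟩, 0⟩ 0 0) (.cut .d (-262144)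 (.void 1 ⟨0, 0, 0, 0, 0, 100000, 0, 0, 0, ⟨0, 0⟩, 0⟩ 0 0) (.cut .d (-131072) (.void 1 ⟨0, 0, 0, 0, 0, 100000, 0, 0, 0, ⟨0, 0⟩, 0⟩ 0 0) (.cut .d (-65536) (.void 1 ⟨0, 0, 0, 0, 0, 100000, 0, 0, 0, ⟨0, 0⟩, 0⟩ 0 0) (.cut .d (-32768) (.void 1 ⟨0, 0, 0, 0, 0, 100000, 0, 0, 0, ⟨0, 0⟩, 0⟩ 0 0) (.cut .v 8388608 (.cut .v 4194304 (.void 4 ⟨0, 0, 100000, 0, 0, 0, 0, 0, 0, ⟨0, 0⟩, 0⟩ 0 0) (.cut .s 13959168 (.pos 5 .mm ⟨0, 0, 23405225, 0, 0, 530965163, 0, 0, 0, ⟨0, 0⟩, 0⟩ 0 0) (.pos 5 .mm ⟨0, 0, 31000962, 0, 0, 609388482, 0, 0, 0, ⟨0, 0⟩, 0⟩ 0 0))) (.pos 3 .mm ⟨0, 0, 0, 0, 0, 588815069, 0, 0, 0, ⟨0, 0⟩, 0⟩ 0 0))))))))))) (.cut .v 268435456 (.cut .v 67108864 (.cut .v 33554432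 (.cut .d (-8388608) (.void 28 ⟨100000, 0, 0, 0, 0, 0, 0, 0, 0, ⟨0, 0⟩, 0⟩ 0 0) (.cut .d (-4194304) (.void 28 ⟨100000, 0, 0, 0, 0, 0, 0, 0, 0, ⟨0, 0⟩, 0⟩ 0 0) (.cut .v 25165824 (.cut .d (-2097152) (.void 29 ⟨100000, 0, 0, 0, 0, 0, 0, 0, 0, ⟨0, 0⟩, 0⟩ 0 0) (.cut .d (-1048576) (.void 29 ⟨100000, 0, 0, 0, 0, 0, 0, 0, 0, ⟨0, 0⟩, 0⟩ 0 0) (.cut .d (-524288) (.void 29 ⟨100000, 0, 0, 0, 0, 0, 0, 0, 0, ⟨0, 0⟩, 0⟩ 0 0) (.pos 29 .mp ⟨1243753373, 0, 0, 0, 0, 0, 0, 0, 0, ⟨0, 0⟩, 0⟩ 0 0)))) (.void 30 ⟨100000, 0, 0, 0, 0, 0, 0, 0, 0, ⟨0, 0⟩, 0⟩ 0 0)))) (.void 71 ⟨100000, 0, 0, 0, 0, 0, 0, 0, 0, ⟨0, 0⟩, 0⟩ 0 0)) (.void 86 ⟨100000, 0, 0, 0, 0, 0, 0, 0, 0, ⟨0, 0⟩, 0⟩ 0 0)) (.void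 103 ⟨94557, 0, 0, 2882, 0, 0, 0, 0, 0, ⟨0, 0⟩, 0⟩ 0 0))) (.cut .v 16777216 (.cut .v 8388608 (.cut .v 4194304 (.cut .v 2097152 (.cut .d 1837506 (.void 6 ⟨0, 0, 100000, 0, 0, 0, 0, 0, 0, ⟨0, 0⟩, 0⟩ 0 0) (.cut .v 1048576 (.cut .v 524288 (.pos 128 .pm ⟨0, 0, 1255753, 0, 0, 0, 0, 0, 0, ⟨0, 0⟩, 0⟩ 0 0) (.pos 129 .pm ⟨0, 37144531, 0, 0, 0, 0, 0, 0, 0, ⟨0, 0⟩, 0⟩ 0 0)) (.cut .d 2756259 (.pos 107 .pm ⟨0, 0, 0, 0, 0, 0, 0, 0, 0, ⟨0, 0⟩, 0⟩ 0 0) (.pos 107 .pm ⟨0, 114708265, 0, 0, 0, 0, 0, 0, 0, ⟨0, 0⟩, 0⟩ 0 0)))) (.cut .d 1837506 (.pos 7 .pm ⟨0, 0, 148153406, 0, 0, 0, 0, 0, 0, ⟨0, 0⟩, 0⟩ 0 0) (.cut .d 2756259 (.pos 7 .pm ⟨0, 0, 0, 0, 0, 0, 0, 0, 0, ⟨0, 0⟩, 0⟩ 0 0) (.cut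 .d 3215635 (.pos 7 .pm ⟨0, 121225333, 0, 0, 0, 0, 0, 0, 0, ⟨0, 0⟩, 0⟩ 0 0) (.cut .d 3445323 (.cut .s 13959168 (.pos 7 .pm ⟨0, 153709154, 0, 0, 0, 0, 0, 0, 0, ⟨0, 0⟩, 0⟩ 0 0) (.pos 7 .pm ⟨0, 227800964, 0, 0, 0, 0, 0, 0, 0, ⟨0, 0⟩, 0⟩ 0 0)) (.pos 7 .pm ⟨0, 259858728, 0, 0, 0, 0, 0, 0, 0, ⟨0, 0⟩, 0⟩ 0 0)))))) (.cut .d 1837506 (.pos 5 .pm ⟨0, 0, 29740391, 0, 0, 0, 0, 0, 0, ⟨0, 0⟩, 0⟩ 0 0) (.cut .d 2756259 (.pos 5 .pm ⟨0, 0, 0, 0, 0, 0, 0, 0, 0, ⟨0, 0⟩, 0⟩ 0 0) (.cut .d 3215635 (.pos 5 .pm ⟨0, 177297139, 0, 0, 0, 0, 0, 0, 0, ⟨0, 0⟩, 0⟩ 0 0) (.cut .d 3445323 (.pos 5 .pm ⟨0, 256647582, 0, 0, 0, 0, 0, 0, 0, ⟨0, 0⟩, 0⟩ 0 0) (.pos 5 .pm ⟨0, 339738620, 0, 0, 0, 0, 0,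 0, 0, ⟨0, 0⟩, 0⟩ 0 0)))))) (.cut .d 1837506 (.pos 3 .pm ⟨0, 0, 0, 0, 0, 0, 0, 0, 0, ⟨0, 0⟩, 0⟩ 0 0) (.pos 3 .pm ⟨0, 307938954, 0, 0, 0, 0, 0, 0, 0, ⟨0, 0⟩, 0⟩ 0 0))) (.cut .v 268435456 (.cut .d 1837506 (.cut .v 67108864 (.cut .d 918753 (.cut .v 33554432 (.pos 28 .pp ⟨573238845, 0, 0, 0, 0, 0, 0, 0, 0, ⟨0, 0⟩, 0⟩ 0 0) (.cut .v 50331648 (.pos 74 .pp ⟨1849957301, 0, 0, 0, 0, 0, 0, 0, 0, ⟨0, 0⟩, 0⟩ 0 0) (.pos 75 .pp ⟨3703562089, 0, 0, 0, 0, 0, 0, 0, 0, ⟨0, 0⟩, 0⟩ 0 0))) (.pos 70 .pp ⟨0, 0, 0, 0, 0, 0, 0, 0, 0, ⟨0, 0⟩, 0⟩ 0 0)) (.cut .v 134217728 (.cut .d 918753 (.cut .d 459376 (.void 87 ⟨100000, 0, 0, 0, 0, 0, 0, 0, 0, ⟨0, 0⟩, 0⟩ 0 0) (.cut .v 100663296 (.cut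 .d 689064 (.pos 89 .pp ⟨7911482496, 0, 0, 0, 0, 0, 0, 0, 0, ⟨0, 0⟩, 0⟩ 0 0) (.pos 89 .pp ⟨5196043842, 0, 0, 0, 0, 0, 0, 0, 0, ⟨0, 0⟩, 0⟩ 0 0)) (.cut .v 117440512 (.cut .d 689064 (.pos 112 .pp ⟨13466886103, 697922585, 0, 0, 0, 0, 0, 0, 0, ⟨0, 0⟩, 0⟩ 0 0) (.cut .d 803908 (.pos 112 .pp ⟨11050739696, 760489082, 0, 0, 0, 0, 0, 0, 0, ⟨0, 0⟩, 0⟩ 0 0) (.pos 112 .pp ⟨0, 3413796454, 0, 0, 0, 0, 0, 0, 0, ⟨0, 0⟩, 0⟩ 0 0))) (.void 113 ⟨36274, 63726, 0, 0, 0, 0, 0, 0, 0, ⟨0, 0⟩, 0⟩ 0 0)))) (.pos 87 .pp ⟨0, 1649533366, 0, 0, 0, 0, 0, 0, 0, ⟨0, 0⟩, 0⟩ 0 0)) (.void 88 ⟨35972, 64028, 0, 0, 0, 0, 0, 0, 0, ⟨0, 0⟩, 0⟩ 0 0))) (.pos 85 .pp ⟨0, 471536867, 0, 0, 0, 0, 0, 0, 0, ⟨0,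 0⟩, 0⟩ 0 0)) (.void 103 ⟨0, 0, 0, 100000, 0, 0, 0, 0, 0, ⟨0, 0⟩, 0⟩ 0 0)))),
    by decide +kernel⟩

def covers22 : cell.Covers table row22.1 :=
  ⟨(.cut .d 0 (.cut .v 16777216 (.cut .d (-8388608) (.void 1 ⟨0, 0, 0, 0, 0, 100000, 0, 0, 0, ⟨0, 0⟩, 0⟩ 0 0) (.cut .d (-4194304) (.void 1 ⟨0, 0, 0, 0, 0, 100000, 0, 0, 0, ⟨0, 0⟩, 0⟩ 0 0) (.cut .d (-2097152) (.pos 1 .mm ⟨0, 0, 0, 0, 0, 167772160000, 0, 0, 0, ⟨0, 0⟩, 0⟩ 0 0) (.cut .d (-1048576) (.void 1 ⟨0, 0, 0, 0, 0, 100000, 0, 0, 0, ⟨0, 0⟩, 0⟩ 0 0) (.cut .d (-524288) (.void 1 ⟨0, 0, 0, 0, 0, 100000, 0, 0, 0, ⟨0, 0⟩, 0⟩ 0 0) (.cut .d (-262144) (.void 1 ⟨0, 0, 0, 0, 0, 100000, 0, 0, 0, ⟨0, 0⟩, 0⟩ 0 0) (.cut .d (-131072)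 (.void 1 ⟨0, 0, 1, 0, 0, 100164, 0, 0, 0, ⟨0, 0⟩, 0⟩ 0 0) (.cut .v 8388608 (.cut .v 4194304 (.void 4 ⟨0, 0, 100000, 0, 0, 0, 0, 0, 0, ⟨0, 0⟩, 0⟩ 0 0) (.pos 5 .mm ⟨0, 0, 45948322, 0, 0, 768139509, 0, 0, 0, ⟨0, 0⟩, 0⟩ 0 0)) (.pos 3 .mm ⟨0, 0, 0, 0, 0, 973649988, 0, 0, 0, ⟨0, 0⟩, 0⟩ 0 0))))))))) (.cut .d (-8388608) (.void 102 ⟨100000, 0, 0, 0, 0, 0, 0, 0, 0, ⟨0, 0⟩, 0⟩ 0 0) (.cut .v 268435456 (.cut .v 67108864 (.cut .v 33554432 (.pos 28 .mp ⟨491915673, 0, 0, 0, 0, 12359094311, 0, 0, 0, ⟨0, 0⟩, 0⟩ 0 0) (.void 71 ⟨100000, 0, 0, 0, 0, 0, 0, 0, 0, ⟨0, 0⟩, 0⟩ 0 0)) (.pos 86 .mp ⟨167772160000, 0, 0, 0, 0, 0, 0, 0, 0, ⟨0, 0⟩, 0⟩ 0 0)) (.void 103 ⟨93619, 0, 0, 6381,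 0, 0, 0, 0, 0, ⟨0, 0⟩, 0⟩ 0 0)))) (.cut .v 16777216 (.cut .v 8388608 (.cut .v 4194304 (.cut .v 2097152 (.cut .d 1553447 (.void 6 ⟨0, 0, 100000, 0, 0, 0, 0, 0, 0, ⟨0, 0⟩, 0⟩ 0 0) (.cut .v 1048576 (.cut .v 524288 (.cut .v 262144 (.pos 150 .pm ⟨0, 0, 10986874, 0, 0, 0, 0, 0, 0, ⟨0, 0⟩, 0⟩ 0 0) (.pos 151 .pm ⟨0, 10992370, 0, 0, 0, 0, 0, 0, 0, ⟨0, 0⟩, 0⟩ 0 0)) (.pos 129 .pm ⟨0, 37552373, 0, 0, 0, 0, 0, 0, 0, ⟨0, 0⟩, 0⟩ 0 0)) (.cut .d 2330170 (.pos 107 .pm ⟨0, 0, 0, 0, 0, 0, 0, 0, 0, ⟨0, 0⟩, 0⟩ 0 0) (.pos 107 .pm ⟨0, 111920262, 0, 0, 0, 0, 0, 0, 0, ⟨0, 0⟩, 0⟩ 0 0)))) (.cut .d 1553447 (.pos 7 .pm ⟨0, 0, 201489605, 0, 0, 0, 0, 0, 0, ⟨0, 0⟩, 0⟩ 0 0) (.cut .d 2330170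 (.pos 7 .pm ⟨0, 0, 0, 0, 0, 0, 0, 0, 0, ⟨0, 0⟩, 0⟩ 0 0) (.cut .d 2718532 (.pos 7 .pm ⟨0, 108726147, 0, 0, 0, 0, 0, 0, 0, ⟨0, 0⟩, 0⟩ 0 0) (.pos 7 .pm ⟨0, 206886148, 0, 0, 0, 0, 0, 0, 0, ⟨0, 0⟩, 0⟩ 0 0))))) (.cut .d 1553447 (.pos 5 .pm ⟨0, 0, 46415724, 0, 0, 0, 0, 0, 0, ⟨0, 0⟩, 0⟩ 0 0) (.cut .d 2330170 (.pos 5 .pm ⟨0, 0, 0, 0, 0, 0, 0, 0, 0, ⟨0, 0⟩, 0⟩ 0 0) (.pos 5 .pm ⟨0, 251781355, 0, 0, 0, 0, 0, 0, 0, ⟨0, 0⟩, 0⟩ 0 0)))) (.cut .d 1553447 (.pos 3 .pm ⟨0, 0, 0, 0, 0, 0, 0, 0, 0, ⟨0, 0⟩, 0⟩ 0 0) (.pos 3 .pm ⟨0, 304358276, 0, 0, 0, 0, 0, 0, 0, ⟨0, 0⟩, 0⟩ 0 0))) (.cut .v 268435456 (.cut .d 1553447 (.cut .v 67108864 (.cut .v 33554432 (.pos 28 .pp ⟨491915673, 0,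 0, 0, 0, 0, 0, 0, 0, ⟨0, 0⟩, 0⟩ 0 0) (.cut .d 776723 (.cut .v 50331648 (.pos 74 .pp ⟨2114118245, 0, 0, 0, 0, 0, 0, 0, 0, ⟨0, 0⟩, 0⟩ 0 0) (.pos 75 .pp ⟨4234553424, 0, 0, 0, 0, 0, 0, 0, 0, ⟨0, 0⟩, 0⟩ 0 0)) (.pos 71 .pp ⟨0, 0, 0, 0, 0, 0, 0, 0, 0, ⟨0, 0⟩, 0⟩ 0 0))) (.cut .v 134217728 (.cut .d 776723 (.cut .d 388361 (.void 87 ⟨100000, 0, 0, 0, 0, 0, 0, 0, 0, ⟨0, 0⟩, 0⟩ 0 0) (.cut .v 100663296 (.pos 89 .pp ⟨7339908396, 0, 0, 0, 0, 0, 0, 0, 0, ⟨0, 0⟩, 0⟩ 0 0) (.cut .v 117440512 (.pos 112 .pp ⟨12334173926, 0, 0, 0, 0, 0, 0, 0, 0, ⟨0, 0⟩, 0⟩ 0 0) (.pos 113 .pp ⟨24488368864, 19938343117, 0, 0, 0, 0, 0, 0, 0, ⟨0, 0⟩, 0⟩ 0 0)))) (.pos 87 .pp ⟨0, 1938970618, 0, 0, 0,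 0, 0, 0, 0, ⟨0, 0⟩, 0⟩ 0 0)) (.void 88 ⟨35632, 64368, 0, 0, 0, 0, 0, 0, 0, ⟨0, 0⟩, 0⟩ 0 0))) (.pos 85 .pp ⟨0, 445833567, 0, 0, 0, 0, 0, 0, 0, ⟨0, 0⟩, 0⟩ 0 0)) (.void 103 ⟨0, 0, 0, 100000, 0, 0, 0, 0, 0, ⟨0, 0⟩, 0⟩ 0 0)))),
    by decide +kernel⟩

def covers23 : cell.Covers table row23.1 :=
  ⟨(.cut .d 0 (.cut .v 16777216 (.cut .d (-8388608) (.pos 1 .mm ⟨0, 0, 0, 0, 0, 167772160000, 0, 0, 0, ⟨0, 0⟩, 0⟩ 0 0) (.cut .d (-4194304) (.void 1 ⟨0, 0, 0, 0, 0, 100000, 0, 0, 0, ⟨0, 0⟩, 0⟩ 0 0) (.cut .d (-2097152) (.void 1 ⟨0, 0, 0, 0, 0, 100000, 0, 0, 0, ⟨0, 0⟩, 0⟩ 0 0) (.cut .d (-1048576) (.void 1 ⟨0, 0, 0, 0, 0, 100000, 0, 0, 0, ⟨0, 0⟩, 0⟩ 0 0) (.cut .d (-524288) (.void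 1 ⟨0, 0, 0, 0, 0, 100000, 0, 0, 0, ⟨0, 0⟩, 0⟩ 0 0) (.cut .d (-262144) (.void 1 ⟨0, 0, 0, 0, 0, 100000, 0, 0, 0, ⟨0, 0⟩, 0⟩ 0 0) (.cut .d (-131072) (.void 1 ⟨0, 0, 0, 0, 0, 100000, 0, 0, 0, ⟨0, 0⟩, 0⟩ 0 0) (.cut .v 8388608 (.cut .v 4194304 (.void 4 ⟨0, 0, 100000, 0, 0, 0, 0, 0, 0, ⟨0, 0⟩, 0⟩ 0 0) (.pos 5 .mm ⟨0, 0, 69338817, 0, 0, 933662986, 0, 0, 0, ⟨0, 0⟩, 0⟩ 0 0)) (.pos 3 .mm ⟨0, 0, 0, 0, 0, 1105638574, 0, 0, 0, ⟨0, 0⟩, 0⟩ 0 0))))))))) (.cut .d (-8388608) (.void 102 ⟨100000, 0, 0, 0, 0, 0, 0, 0, 0, ⟨0, 0⟩, 0⟩ 0 0) (.cut .v 268435456 (.cut .v 67108864 (.cut .v 33554432 (.pos 28 .mp ⟨344797318, 0, 0, 0, 0, 16371382823, 0, 0, 0, ⟨0, 0⟩, 0⟩ 0 0) (.pos 71 .mp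 ⟨167772160000, 0, 0, 0, 0, 0, 0, 0, 0, ⟨0, 0⟩, 0⟩ 0 0)) (.pos 86 .mp ⟨167772160000, 0, 0, 0, 0, 0, 0, 0, 0, ⟨0, 0⟩, 0⟩ 0 0)) (.void 103 ⟨93485, 0, 0, 6515, 0, 0, 0, 0, 0, ⟨0, 0⟩, 0⟩ 0 0)))) (.cut .v 16777216 (.cut .v 8388608 (.cut .v 4194304 (.cut .v 2097152 (.cut .d 1328514 (.void 6 ⟨0, 0, 100000, 0, 0, 0, 0, 0, 0, ⟨0, 0⟩, 0⟩ 0 0) (.cut .v 1048576 (.cut .v 524288 (.cut .v 262144 (.pos 150 .pm ⟨0, 0, 9809105, 0, 0, 0, 0, 0, 0, ⟨0, 0⟩, 0⟩ 0 0) (.pos 151 .pm ⟨0, 13024282, 0, 0, 0, 0, 0, 0, 0, ⟨0, 0⟩, 0⟩ 0 0)) (.pos 129 .pm ⟨0, 37580268, 0, 0, 0, 0, 0, 0, 0, ⟨0, 0⟩, 0⟩ 0 0)) (.pos 107 .pm ⟨0, 66853419, 0, 0, 0, 0, 0, 0, 0, ⟨0, 0⟩, 0⟩ 0 0))) (.cut .d 1328514 (.pos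 7 .pm ⟨0, 0, 279221535, 0, 0, 0, 0, 0, 0, ⟨0, 0⟩, 0⟩ 0 0) (.cut .d 1992771 (.pos 7 .pm ⟨0, 0, 0, 0, 0, 0, 0, 0, 0, ⟨0, 0⟩, 0⟩ 0 0) (.pos 7 .pm ⟨0, 145042584, 0, 0, 0, 0, 0, 0, 0, ⟨0, 0⟩, 0⟩ 0 0)))) (.cut .d 1328514 (.pos 5 .pm ⟨0, 0, 69997381, 0, 0, 0, 0, 0, 0, ⟨0, 0⟩, 0⟩ 0 0) (.pos 5 .pm ⟨0, 165035618, 0, 0, 0, 0, 0, 0, 0, ⟨0, 0⟩, 0⟩ 0 0))) (.pos 3 .pm ⟨0, 0, 29649826, 0, 0, 0, 0, 0, 0, ⟨0, 0⟩, 0⟩ 0 0)) (.cut .v 268435456 (.cut .d 1328514 (.cut .v 67108864 (.cut .v 33554432 (.pos 28 .pp ⟨344797318, 0, 0, 0, 0, 0, 0, 0, 0, ⟨0, 0⟩, 0⟩ 0 0) (.cut .v 50331648 (.pos 74 .pp ⟨1815382150, 0, 0, 0, 0, 0, 0, 0, 0, ⟨0, 0⟩, 0⟩ 0 0) (.cut .d 664257 (.pos 75 .pp ⟨4748626625,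 0, 0, 0, 0, 0, 0, 0, 0, ⟨0, 0⟩, 0⟩ 0 0) (.pos 75 .pp ⟨0, 0, 0, 0, 0, 0, 0, 0, 0, ⟨0, 0⟩, 0⟩ 0 0)))) (.cut .v 134217728 (.cut .d 664257 (.cut .d 332128 (.void 87 ⟨100000, 0, 0, 0, 0, 0, 0, 0, 0, ⟨0, 0⟩, 0⟩ 0 0) (.cut .v 100663296 (.pos 89 .pp ⟨8224003329, 0, 0, 0, 0, 0, 0, 0, 0, ⟨0, 0⟩, 0⟩ 0 0) (.cut .v 117440512 (.pos 112 .pp ⟨13892809857, 0, 0, 0, 0, 0, 0, 0, 0, ⟨0, 0⟩, 0⟩ 0 0) (.pos 113 .pp ⟨19537876731, 8981318665, 0, 0, 0, 0, 0, 0, 0, ⟨0, 0⟩, 0⟩ 0 0)))) (.pos 87 .pp ⟨0, 2297692741, 0, 0, 0, 0, 0, 0, 0, ⟨0, 0⟩, 0⟩ 0 0)) (.void 88 ⟨35267, 64733, 0, 0, 0, 0, 0, 0, 0, ⟨0, 0⟩, 0⟩ 0 0))) (.pos 85 .pp ⟨0, 393416388, 0, 0, 0, 0, 0, 0, 0, ⟨0, 0⟩, 0⟩ 0 0)) (.void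 103 ⟨0, 0, 0, 100000, 0, 0, 0, 0, 0, ⟨0, 0⟩, 0⟩ 0 0)))),
    by decide +kernel⟩

def covers24 : cell.Covers table row24.1 :=
  ⟨(.cut .d 0 (.cut .v 16777216 (.cut .v 8388608 (.void 2 ⟨0, 0, 100000, 0, 0, 0, 0, 0, 0, ⟨0, 0⟩, 0⟩ 0 0) (.cut .d (-8388608) (.void 3 ⟨100000, 0, 0, 0, 0, 0, 0, 0, 0, ⟨0, 0⟩, 0⟩ 0 0) (.cut .d (-4194304) (.void 3 ⟨100000, 0, 0, 0, 0, 0, 0, 0, 0, ⟨0, 0⟩, 0⟩ 0 0) (.cut .d (-2097152) (.void 3 ⟨100000, 0, 0, 0, 0, 0, 0, 0, 0, ⟨0, 0⟩, 0⟩ 0 0) (.cut .v 12582912 (.cut .d (-1048576) (.void 8 ⟨100000, 0, 0, 0, 0, 0, 0, 0, 0, ⟨0, 0⟩, 0⟩ 0 0) (.cut .v 10485760 (.cut .d (-524288) (.void 10 ⟨82380, 0, 17620, 0, 0, 0, 0, 0, 0, ⟨0, 0⟩, 0⟩ 0 0) (.cut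 .d (-262144) (.void 10 ⟨0, 0, 0, 0, 0, 100000, 0, 0, 0, ⟨0, 0⟩, 0⟩ 0 0) (.cut .v 9437184 (.cut .s 14942208 (.pos 104 .mm ⟨0, 0, 64738992, 0, 0, 1232224762, 0, 0, 0, ⟨0, 0⟩, 0⟩ 0 0) (.pos 104 .mm ⟨0, 0, 80252002, 0, 0, 1351572991, 0, 0, 0, ⟨0, 0⟩, 0⟩ 0 0)) (.pos 105 .mm ⟨0, 0, 0, 0, 0, 1521139498, 0, 0, 0, ⟨0, 0⟩, 0⟩ 0 0)))) (.pos 11 .mm ⟨0, 0, 0, 0, 0, 2466267725, 0, 0, 0, ⟨0, 0⟩, 0⟩ 0 0))) (.pos 9 .mm ⟨0, 0, 0, 0, 0, 4365305700, 0, 0, 0, ⟨0, 0⟩, 0⟩ 0 0)))))) (.cut .v 268435456 (.cut .v 67108864 (.cut .v 33554432 (.pos 28 .mp ⟨95677512, 0, 0, 0, 0, 36236979973, 0, 0, 0, ⟨0, 0⟩, 0⟩ 0 0) (.void 71 ⟨100000, 0, 0, 0, 0, 0, 0, 0, 0, ⟨0, 0⟩, 0⟩ 0 0)) (.void 86 ⟨100000,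 0, 0, 0, 0, 0, 0, 0, 0, ⟨0, 0⟩, 0⟩ 0 0)) (.void 103 ⟨95996, 0, 0, 4680, 0, 0, 0, 0, 0, ⟨0, 0⟩, 0⟩ 0 0))) (.cut .v 16777216 (.cut .v 8388608 (.cut .v 4194304 (.cut .v 2097152 (.cut .d 1113533 (.void 6 ⟨0, 0, 100000, 0, 0, 0, 0, 0, 0, ⟨0, 0⟩, 0⟩ 0 0) (.cut .v 1048576 (.cut .v 524288 (.cut .v 262144 (.pos 150 .pm ⟨0, 0, 10400674, 0, 0, 0, 0, 0, 0, ⟨0, 0⟩, 0⟩ 0 0) (.pos 151 .pm ⟨0, 9575960, 0, 0, 0, 0, 0, 0, 0, ⟨0, 0⟩, 0⟩ 0 0)) (.pos 129 .pm ⟨0, 28216025, 0, 0, 0, 0, 0, 0, 0, ⟨0, 0⟩, 0⟩ 0 0)) (.pos 107 .pm ⟨0, 42972047, 0, 0, 0, 0, 0, 0, 0, ⟨0, 0⟩, 0⟩ 0 0))) (.cut .d 1113533 (.pos 7 .pm ⟨0, 0, 373702650, 0, 0, 0, 0, 0, 0, ⟨0, 0⟩, 0⟩ 0 0) (.pos 7 .pm ⟨0, 70502065,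 0, 0, 0, 0, 0, 0, 0, ⟨0, 0⟩, 0⟩ 0 0))) (.cut .d 1113533 (.pos 5 .pm ⟨0, 0, 573128257, 0, 0, 0, 0, 0, 0, ⟨0, 0⟩, 0⟩ 0 0) (.pos 5 .pm ⟨0, 131196772, 0, 0, 0, 0, 0, 0, 0, ⟨0, 0⟩, 0⟩ 0 0))) (.pos 3 .pm ⟨0, 0, 49076203, 0, 0, 0, 0, 0, 0, ⟨0, 0⟩, 0⟩ 0 0)) (.cut .v 268435456 (.cut .d 1113533 (.cut .v 67108864 (.cut .v 33554432 (.pos 28 .pp ⟨95677512, 0, 0, 0, 0, 0, 0, 0, 0, ⟨0, 0⟩, 0⟩ 0 0) (.cut .v 50331648 (.pos 74 .pp ⟨2113864797, 0, 0, 0, 0, 0, 0, 0, 0, ⟨0, 0⟩, 0⟩ 0 0) (.pos 75 .pp ⟨4137633090, 0, 0, 0, 0, 0, 0, 0, 0, ⟨0, 0⟩, 0⟩ 0 0))) (.cut .v 134217728 (.cut .d 556766 (.cut .d 278383 (.void 87 ⟨100000, 0, 0, 0, 0, 0, 0, 0, 0, ⟨0, 0⟩, 0⟩ 0 0) (.cut .v 100663296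 (.pos 89 .pp ⟨9365053383, 0, 0, 0, 0, 0, 0, 0, 0, ⟨0, 0⟩, 0⟩ 0 0) (.cut .v 117440512 (.pos 112 .pp ⟨15986992476, 0, 0, 0, 0, 0, 0, 0, 0, ⟨0, 0⟩, 0⟩ 0 0) (.pos 113 .pp ⟨22427344374, 10954758130, 0, 0, 0, 0, 0, 0, 0, ⟨0, 0⟩, 0⟩ 0 0)))) (.pos 87 .pp ⟨0, 2873153044, 0, 0, 0, 0, 0, 0, 0, ⟨0, 0⟩, 0⟩ 0 0)) (.void 88 ⟨35008, 64992, 0, 0, 0, 0, 0, 0, 0, ⟨0, 0⟩, 0⟩ 0 0))) (.pos 85 .pp ⟨0, 226699173, 0, 0, 0, 0, 0, 0, 0, ⟨0, 0⟩, 0⟩ 0 0)) (.void 103 ⟨0, 0, 0, 100000, 0, 0, 0, 0, 0, ⟨0, 0⟩, 0⟩ 0 0)))),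
    by decide +kernel⟩

def covers25 : cell.Covers table row25.1 :=
  ⟨(.cut .d 0 (.cut .v 16777216 (.cut .v 8388608 (.pos 2 .mm ⟨0, 0, 167772160000, 0, 0, 0, 0, 0, 0, ⟨0, 0⟩, 0⟩ 0 0) (.cut .d (-8388608) (.pos 3 .mm ⟨167772160000, 0, 0, 0, 0, 0, 0, 0, 0, ⟨0, 0⟩, 0⟩ 0 0) (.cut .d (-4194304) (.void 3 ⟨100000, 0, 0, 0, 0, 0, 0, 0, 0, ⟨0, 0⟩, 0⟩ 0 0) (.cut .d (-2097152) (.void 3 ⟨100000, 0, 0, 0, 0, 0, 0, 0, 0, ⟨0, 0⟩, 0⟩ 0 0) (.cut .v 12582912 (.cut .d (-1048576) (.void 8 ⟨100000, 0, 0, 0, 0, 0, 0, 0, 0, ⟨0, 0⟩, 0⟩ 0 0) (.cut .v 10485760 (.cut .d (-524288) (.void 10 ⟨100000, 0, 0, 0, 0, 0, 0, 0, 0, ⟨0, 0⟩, 0⟩ 0 0) (.cut .v 9437184 (.cut .d (-262144) (.void 104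 ⟨0, 0, 0, 0, 0, 100000, 0, 0, 0, ⟨0, 0⟩, 0⟩ 0 0) (.cut .s 15171584 (.pos 104 .mm ⟨0, 0, 91998297, 0, 0, 1454970070, 0, 0, 0, ⟨0, 0⟩, 0⟩ 0 0) (.cut .v 8912896 (.cut .s 15220736 (.pos 154 .mm ⟨0, 0, 108099488, 0, 0, 1417669200, 0, 0, 0, ⟨0, 0⟩, 0⟩ 0 0) (.pos 154 .mm ⟨0, 0, 116530724, 0, 0, 1474667649, 0, 0, 0, ⟨0, 0⟩, 0⟩ 0 0)) (.pos 155 .mm ⟨0, 0, 0, 0, 0, 1645001671, 0, 0, 0, ⟨0, 0⟩, 0⟩ 0 0)))) (.pos 105 .mm ⟨0, 0, 0, 0, 0, 2026641879, 0, 0, 0, ⟨0, 0⟩, 0⟩ 0 0))) (.pos 11 .mm ⟨0, 0, 0, 0, 0, 2918841575, 0, 0, 0, ⟨0, 0⟩, 0⟩ 0 0))) (.pos 9 .mm ⟨0, 0, 0, 0, 0, 5192575004, 0, 0, 0, ⟨0, 0⟩, 0⟩ 0 0)))))) (.cut .v 268435456 (.cut .v 67108864 (.cut .v 33554432 (.pos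 28 .mp ⟨0, 0, 0, 0, 0, 44097168560, 0, 0, 0, ⟨0, 0⟩, 0⟩ 0 0) (.void 71 ⟨100000, 0, 0, 0, 0, 0, 0, 0, 0, ⟨0, 0⟩, 0⟩ 0 0)) (.void 86 ⟨100000, 0, 0, 0, 0, 0, 0, 0, 0, ⟨0, 0⟩, 0⟩ 0 0)) (.void 103 ⟨95429, 0, 0, 4571, 0, 0, 0, 0, 0, ⟨0, 0⟩, 0⟩ 0 0))) (.cut .v 16777216 (.cut .v 8388608 (.cut .v 4194304 (.cut .v 2097152 (.cut .v 1048576 (.cut .v 524288 (.cut .v 262144 (.pos 150 .pm ⟨0, 0, 21416467, 0, 0, 0, 0, 0, 0, ⟨0, 0⟩, 0⟩ 0 0) (.pos 151 .pm ⟨0, 0, 28412061, 0, 0, 0, 0, 0, 0, ⟨0, 0⟩, 0⟩ 0 0)) (.pos 129 .pm ⟨0, 0, 39660018, 0, 0, 0, 0, 0, 0, ⟨0, 0⟩, 0⟩ 0 0)) (.pos 107 .pm ⟨0, 0, 59039226, 0, 0, 0, 0, 0, 0, ⟨0, 0⟩, 0⟩ 0 0)) (.pos 7 .pm ⟨0, 0, 88145855, 0, 0, 0,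 0, 0, 0, ⟨0, 0⟩, 0⟩ 0 0)) (.pos 5 .pm ⟨0, 0, 156852431, 0, 0, 0, 0, 0, 0, ⟨0, 0⟩, 0⟩ 0 0)) (.pos 3 .pm ⟨0, 0, 71846449, 0, 0, 0, 0, 0, 0, ⟨0, 0⟩, 0⟩ 0 0)) (.cut .v 268435456 (.cut .d 948278 (.cut .v 67108864 (.cut .v 33554432 (.pos 28 .pp ⟨0, 0, 0, 0, 0, 0, 0, 0, 0, ⟨0, 0⟩, 0⟩ 0 0) (.cut .v 50331648 (.pos 74 .pp ⟨2442568030, 0, 0, 0, 0, 0, 0, 0, 0, ⟨0, 0⟩, 0⟩ 0 0) (.pos 75 .pp ⟨4759428743, 0, 0, 0, 0, 0, 0, 0, 0, ⟨0, 0⟩, 0⟩ 0 0))) (.cut .v 134217728 (.cut .d 474139 (.cut .v 100663296 (.pos 89 .pp ⟨13088602957, 0, 0, 0, 0, 0, 0, 0, 0, ⟨0, 0⟩, 0⟩ 0 0) (.cut .v 117440512 (.pos 112 .pp ⟨19587666725, 0, 0, 0, 0, 0, 0, 0, 0, ⟨0, 0⟩, 0⟩ 0 0) (.cut .d 237069 (.void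 113 ⟨100000, 0, 0, 0, 0, 0, 0, 0, 0, ⟨0, 0⟩, 0⟩ 0 0) (.pos 113 .pp ⟨25483554167, 13197581367, 0, 0, 0, 0, 0, 0, 0, ⟨0, 0⟩, 0⟩ 0 0)))) (.pos 87 .pp ⟨0, 3653875519, 0, 0, 0, 0, 0, 0, 0, ⟨0, 0⟩, 0⟩ 0 0)) (.void 88 ⟨34822, 65178, 0, 0, 0, 0, 0, 0, 0, ⟨0, 0⟩, 0⟩ 0 0))) (.pos 85 .pp ⟨0, 58947976, 0, 0, 0, 0, 0, 0, 0, ⟨0, 0⟩, 0⟩ 0 0)) (.void 103 ⟨0, 0, 0, 100000, 0, 0, 0, 0, 0, ⟨0, 0⟩, 0⟩ 0 0)))),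
    by decide +kernel⟩

def covers26 : cell.Covers table row26.1 :=
  ⟨(.cut .d 0 (.cut .v 16777216 (.cut .v 8388608 (.pos 2 .mm ⟨0, 0, 167772160000, 0, 0, 0, 0, 0, 0, ⟨0, 0⟩, 0⟩ 0 0) (.cut .d (-8388608) (.void 3 ⟨100000, 0, 0, 0, 0, 0, 0, 0, 0, ⟨0, 0⟩, 0⟩ 0 0) (.cut .d (-4194304) (.void 3 ⟨100000, 0, 0, 0, 0, 0, 0, 0, 0, ⟨0, 0⟩, 0⟩ 0 0) (.cut .d (-2097152) (.void 3 ⟨100000, 0, 0, 0, 0, 0, 0, 0, 0, ⟨0, 0⟩, 0⟩ 0 0) (.cut .v 12582912 (.cut .d (-1048576) (.void 8 ⟨100000, 0, 0, 0, 0, 0, 0, 0, 0, ⟨0, 0⟩, 0⟩ 0 0) (.cut .v 10485760 (.cut .d (-524288) (.void 10 ⟨100000, 0, 0, 0, 0, 0, 0, 0, 0, ⟨0, 0⟩, 0⟩ 0 0) (.cut .d (-262144) (.void 10 ⟨0, 0, 0, 0, 0, 100000, 0,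 0, 0, ⟨0, 0⟩, 0⟩ 0 0) (.cut .s 15400960 (.cut .v 9437184 (.cut .d (-131072) (.pos 104 .mm ⟨0, 0, 422888979, 0, 0, 167349271021, 0, 0, 0, ⟨0, 0⟩, 0⟩ 0 0) (.cut .d (-65536) (.pos 104 .mm ⟨0, 0, 485615652, 0, 0, 167286544348, 0, 0, 0, ⟨0, 0⟩, 0⟩ 0 0) (.pos 104 .mm ⟨0, 0, 119147028, 0, 0, 1547011707, 0, 0, 0, ⟨0, 0⟩, 0⟩ 0 0))) (.pos 105 .mm ⟨0, 0, 0, 0, 0, 2017141829, 0, 0, 0, ⟨0, 0⟩, 0⟩ 0 0)) (.pos 10 .mm ⟨0, 0, 141694623, 0, 0, 2240943030, 0, 0, 0, ⟨0, 0⟩, 0⟩ 0 0)))) (.pos 11 .mm ⟨0, 0, 0, 0, 0, 3786848939, 0, 0, 0, ⟨0, 0⟩, 0⟩ 0 0))) (.pos 9 .mm ⟨0, 0, 0, 0, 0, 6771912328, 0, 0, 0, ⟨0, 0⟩, 0⟩ 0 0)))))) (.cut .v 268435456 (.cut .v 67108864 (.cut .v 33554432 (.pos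 28 .mp ⟨0, 0, 0, 0, 0, 58779551090, 0, 0, 0, ⟨0, 0⟩, 0⟩ 0 0) (.void 71 ⟨100000, 0, 0, 0, 0, 0, 0, 0, 0, ⟨0, 0⟩, 0⟩ 0 0)) (.void 86 ⟨100000, 0, 0, 0, 0, 0, 0, 0, 0, ⟨0, 0⟩, 0⟩ 0 0)) (.void 103 ⟨95354, 0, 0, 4646, 0, 0, 0, 0, 0, ⟨0, 0⟩, 0⟩ 0 0))) (.cut .v 16777216 (.cut .v 8388608 (.cut .v 4194304 (.cut .v 2097152 (.cut .v 1048576 (.cut .v 524288 (.cut .v 262144 (.cut .v 131072 (.pos 160 .pm ⟨0, 0, 21480361, 0, 0, 0, 0, 0, 0, ⟨0, 0⟩, 0⟩ 0 0) (.pos 161 .pm ⟨0, 0, 28652348, 0, 0, 0, 0, 0, 0, ⟨0, 0⟩, 0⟩ 0 0)) (.pos 151 .pm ⟨0, 0, 39613486, 0, 0, 0, 0, 0, 0, ⟨0, 0⟩, 0⟩ 0 0)) (.pos 129 .pm ⟨0, 0, 59653516, 0, 0, 0, 0, 0, 0, ⟨0, 0⟩, 0⟩ 0 0)) (.pos 107 .pm ⟨0, 0, 90955112,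 0, 0, 0, 0, 0, 0, ⟨0, 0⟩, 0⟩ 0 0)) (.pos 7 .pm ⟨0, 0, 142074158, 0, 0, 0, 0, 0, 0, ⟨0, 0⟩, 0⟩ 0 0)) (.pos 5 .pm ⟨0, 0, 276528649, 0, 0, 0, 0, 0, 0, ⟨0, 0⟩, 0⟩ 0 0)) (.pos 3 .pm ⟨0, 0, 93730006, 0, 0, 0, 0, 0, 0, ⟨0, 0⟩, 0⟩ 0 0)) (.cut .v 268435456 (.cut .d 828061 (.cut .v 67108864 (.cut .v 33554432 (.pos 28 .pp ⟨0, 0, 0, 0, 0, 0, 0, 0, 0, ⟨0, 0⟩, 0⟩ 0 0) (.cut .v 50331648 (.pos 74 .pp ⟨2777307048, 0, 0, 0, 0, 0, 0, 0, 0, ⟨0, 0⟩, 0⟩ 0 0) (.pos 75 .pp ⟨5400874692, 0, 0, 0, 0, 0, 0, 0, 0, ⟨0, 0⟩, 0⟩ 0 0))) (.cut .v 134217728 (.cut .d 414030 (.cut .v 100663296 (.pos 89 .pp ⟨15034459150, 0, 0, 0, 0, 0, 0, 0, 0, ⟨0, 0⟩, 0⟩ 0 0) (.cut .v 117440512 (.pos 112 .pp ⟨22595719119,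 0, 0, 0, 0, 0, 0, 0, 0, ⟨0, 0⟩, 0⟩ 0 0) (.cut .d 207015 (.void 113 ⟨100000, 0, 0, 0, 0, 0, 0, 0, 0, ⟨0, 0⟩, 0⟩ 0 0) (.cut .d 310522 (.pos 113 .pp ⟨32381064049, 8983459644, 0, 0, 0, 0, 0, 0, 0, ⟨0, 0⟩, 0⟩ 0 0) (.pos 113 .pp ⟨24614832359, 10172824030, 0, 0, 0, 0, 0, 0, 0, ⟨0, 0⟩, 0⟩ 0 0))))) (.pos 87 .pp ⟨0, 4614341247, 0, 0, 0, 0, 0, 0, 0, ⟨0, 0⟩, 0⟩ 0 0)) (.void 88 ⟨34515, 65485, 0, 0, 0, 0, 0, 0, 0, ⟨0, 0⟩, 0⟩ 0 0))) (.pos 85 .pp ⟨0, 0, 0, 0, 0, 0, 0, 0, 0, ⟨0, 0⟩, 0⟩ 0 0)) (.void 103 ⟨0, 0, 0, 100000, 0, 0, 0, 0, 0, ⟨0, 0⟩, 0⟩ 0 0)))),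
    by decide +kernel⟩

def covers27 : cell.Covers table row27.1 :=
  ⟨(.cut .d 0 (.cut .v 16777216 (.cut .v 8388608 (.pos 2 .mm ⟨0, 0, 167772160000, 0, 0, 0, 0, 0, 0, ⟨0, 0⟩, 0⟩ 0 0) (.cut .d (-8388608) (.pos 3 .mm ⟨167772160000, 0, 0, 0, 0, 0, 0, 0, 0, ⟨0, 0⟩, 0⟩ 0 0) (.cut .d (-4194304) (.void 3 ⟨100000, 0, 0, 0, 0, 0, 0, 0, 0, ⟨0, 0⟩, 0⟩ 0 0) (.cut .d (-2097152) (.void 3 ⟨100000, 0, 0, 0, 0, 0, 0, 0, 0, ⟨0, 0⟩, 0⟩ 0 0) (.cut .v 12582912 (.cut .d (-1048576) (.void 8 ⟨100000, 0, 0, 0, 0, 0, 0, 0, 0, ⟨0, 0⟩, 0⟩ 0 0) (.cut .v 10485760 (.cut .d (-524288) (.void 10 ⟨100000, 0, 0, 0, 0, 0, 0, 0, 0, ⟨0, 0⟩, 0⟩ 0 0) (.cut .s 15654912 (.pos 10 .mm ⟨0, 0, 172978977,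 0, 0, 2888142270, 0, 0, 0, ⟨0, 0⟩, 0⟩ 0 0) (.pos 10 .mm ⟨0, 0, 212344484, 0, 0, 3382529985, 0, 0, 0, ⟨0, 0⟩, 0⟩ 0 0))) (.pos 11 .mm ⟨0, 0, 0, 0, 0, 5130427458, 0, 0, 0, ⟨0, 0⟩, 0⟩ 0 0))) (.pos 9 .mm ⟨0, 0, 0, 0, 0, 9171820685, 0, 0, 0, ⟨0, 0⟩, 0⟩ 0 0)))))) (.cut .d (-8388608) (.void 102 ⟨100000, 0, 0, 0, 0, 0, 0, 0, 0, ⟨0, 0⟩, 0⟩ 0 0) (.cut .v 268435456 (.cut .v 67108864 (.pos 70 .mp ⟨4109522446, 0, 0, 0, 0, 89848652258, 0, 0, 0, ⟨0, 0⟩, 0⟩ 0 0) (.void 86 ⟨100000, 0, 0, 0, 0, 0, 0, 0, 0, ⟨0, 0⟩, 0⟩ 0 0)) (.void 103 ⟨93089, 0, 0, 6911, 0, 0, 0, 0, 0, ⟨0, 0⟩, 0⟩ 0 0)))) (.cut .v 16777216 (.cut .v 8388608 (.cut .v 4194304 (.cut .v 2097152 (.cut .v 1048576 (.cut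 .v 524288 (.cut .v 262144 (.cut .v 131072 (.pos 160 .pm ⟨0, 0, 25806314, 0, 0, 0, 0, 0, 0, ⟨0, 0⟩, 0⟩ 0 0) (.pos 161 .pm ⟨0, 0, 42173992, 0, 0, 0, 0, 0, 0, ⟨0, 0⟩, 0⟩ 0 0)) (.pos 151 .pm ⟨0, 0, 62999138, 0, 0, 0, 0, 0, 0, ⟨0, 0⟩, 0⟩ 0 0)) (.pos 129 .pm ⟨0, 0, 97615308, 0, 0, 0, 0, 0, 0, ⟨0, 0⟩, 0⟩ 0 0)) (.pos 107 .pm ⟨0, 0, 158334853, 0, 0, 0, 0, 0, 0, ⟨0, 0⟩, 0⟩ 0 0)) (.pos 7 .pm ⟨0, 0, 265211525, 0, 0, 0, 0, 0, 0, ⟨0, 0⟩, 0⟩ 0 0)) (.pos 5 .pm ⟨0, 0, 530429769, 0, 0, 0, 0, 0, 0, ⟨0, 0⟩, 0⟩ 0 0)) (.pos 3 .pm ⟨0, 0, 142246547, 0, 0, 0, 0, 0, 0, ⟨0, 0⟩, 0⟩ 0 0)) (.cut .v 268435456 (.cut .d 672505 (.cut .v 67108864 (.cut .v 33554432 (.pos 28 .pp ⟨0, 0, 0, 0,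 0, 0, 0, 0, 0, ⟨0, 0⟩, 0⟩ 0 0) (.pos 71 .pp ⟨4211545478, 0, 0, 0, 0, 0, 0, 0, 0, ⟨0, 0⟩, 0⟩ 0 0)) (.cut .v 134217728 (.cut .d 336252 (.cut .v 100663296 (.pos 89 .pp ⟨18560421674, 0, 0, 0, 0, 0, 0, 0, 0, ⟨0, 0⟩, 0⟩ 0 0) (.cut .v 117440512 (.pos 112 .pp ⟨27292396395, 0, 0, 0, 0, 0, 0, 0, 0, ⟨0, 0⟩, 0⟩ 0 0) (.cut .d 168126 (.void 113 ⟨100000, 0, 0, 0, 0, 0, 0, 0, 0, ⟨0, 0⟩, 0⟩ 0 0) (.cut .d 252189 (.cut .v 125829120 (.cut .v 121634816 (.pos 162 .pp ⟨28401211751, 0, 0, 0, 0, 0, 0, 0, 0, ⟨0, 0⟩, 0⟩ 0 0) (.cut .d 210157 (.void 163 ⟨100000, 0, 0, 0, 0, 0, 0, 0, 0, ⟨0, 0⟩, 0⟩ 0 0) (.cut .d 231173 (.pos 163 .pp ⟨37715053007, 18097046022, 0, 0, 0, 0, 0, 0, 0, ⟨0, 0⟩,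 0⟩ 0 0) (.pos 163 .pp ⟨31204092557, 17462782511, 0, 0, 0, 0, 0, 0, 0, ⟨0, 0⟩, 0⟩ 0 0)))) (.void 159 ⟨34430, 65570, 0, 0, 0, 0, 0, 0, 0, ⟨0, 0⟩, 0⟩ 0 0)) (.pos 113 .pp ⟨28973906527, 15047135649, 0, 0, 0, 0, 0, 0, 0, ⟨0, 0⟩, 0⟩ 0 0))))) (.pos 87 .pp ⟨0, 6834729873, 0, 0, 0, 0, 0, 0, 0, ⟨0, 0⟩, 0⟩ 0 0)) (.void 88 ⟨78924, 13835, 0, 7241, 0, 0, 0, 0, 0, ⟨0, 0⟩, 0⟩ 0 0))) (.pos 85 .pp ⟨0, 0, 0, 0, 0, 0, 0, 0, 0, ⟨0, 0⟩, 0⟩ 0 0)) (.void 103 ⟨0, 0, 0, 100000, 0, 0, 0, 0, 0, ⟨0, 0⟩, 0⟩ 0 0)))),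
    by decide +kernel⟩

def covers28 : cell.Covers table row28.1 :=
  ⟨(.cut .d 0 (.cut .v 16777216 (.cut .v 8388608 (.void 2 ⟨0, 0, 100000, 0, 0, 0, 0, 0, 0, ⟨0, 0⟩, 0⟩ 0 0) (.cut .d (-8388608) (.void 3 ⟨100000, 0, 0, 0, 0, 0, 0, 0, 0, ⟨0, 0⟩, 0⟩ 0 0) (.cut .d (-4194304) (.void 3 ⟨100000, 0, 0, 0, 0, 0, 0, 0, 0, ⟨0, 0⟩, 0⟩ 0 0) (.cut .d (-2097152) (.void 3 ⟨100000, 0, 0, 0, 0, 0, 0, 0, 0, ⟨0, 0⟩, 0⟩ 0 0) (.cut .v 12582912 (.cut .d (-1048576) (.void 8 ⟨100000, 0, 0, 0, 0, 0, 0, 0, 0, ⟨0, 0⟩, 0⟩ 0 0) (.pos 8 .mm ⟨0, 0, 250421748, 0, 0, 6679444334, 0, 0, 0, ⟨0, 0⟩, 0⟩ 0 0)) (.pos 9 .mm ⟨0, 0, 0, 0, 0, 12353769806, 0, 0, 0, ⟨0, 0⟩, 0⟩ 0 0)))))) (.cut .d (-8388608)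 (.void 102 ⟨100000, 0, 0, 0, 0, 0, 0, 0, 0, ⟨0, 0⟩, 0⟩ 0 0) (.cut .v 268435456 (.cut .v 67108864 (.pos 70 .mp ⟨4287836277, 0, 0, 0, 0, 120877579146, 0, 0, 0, ⟨0, 0⟩, 0⟩ 0 0) (.void 86 ⟨100000, 0, 0, 0, 0, 0, 0, 0, 0, ⟨0, 0⟩, 0⟩ 0 0)) (.void 103 ⟨93009, 0, 0, 6991, 0, 0, 0, 0, 0, ⟨0, 0⟩, 0⟩ 0 0)))) (.cut .v 16777216 (.cut .v 8388608 (.cut .v 4194304 (.cut .v 2097152 (.cut .v 1048576 (.cut .v 524288 (.cut .v 262144 (.cut .v 131072 (.pos 160 .pm ⟨0, 0, 33468536, 0, 0, 0, 0, 0, 0, ⟨0, 0⟩, 0⟩ 0 0) (.pos 161 .pm ⟨0, 0, 59309348, 0, 0, 0, 0, 0, 0, ⟨0, 0⟩, 0⟩ 0 0)) (.pos 151 .pm ⟨0, 0, 93155481, 0, 0, 0, 0, 0, 0, ⟨0, 0⟩, 0⟩ 0 0)) (.pos 129 .pm ⟨0, 0, 153381340, 0,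 0, 0, 0, 0, 0, ⟨0, 0⟩, 0⟩ 0 0)) (.pos 107 .pm ⟨0, 0, 251162312, 0, 0, 0, 0, 0, 0, ⟨0, 0⟩, 0⟩ 0 0)) (.pos 7 .pm ⟨0, 0, 430943494, 0, 0, 0, 0, 0, 0, ⟨0, 0⟩, 0⟩ 0 0)) (.pos 5 .pm ⟨0, 0, 956990474, 0, 0, 0, 0, 0, 0, ⟨0, 0⟩, 0⟩ 0 0)) (.pos 3 .pm ⟨0, 0, 220467461, 0, 0, 0, 0, 0, 0, ⟨0, 0⟩, 0⟩ 0 0)) (.cut .v 268435456 (.cut .d 531367 (.cut .v 67108864 (.cut .v 33554432 (.pos 28 .pp ⟨0, 0, 0, 0, 0, 0, 0, 0, 0, ⟨0, 0⟩, 0⟩ 0 0) (.pos 71 .pp ⟨5436214145, 0, 0, 0, 0, 0, 0, 0, 0, ⟨0, 0⟩, 0⟩ 0 0)) (.cut .v 134217728 (.cut .d 265683 (.cut .v 100663296 (.pos 89 .pp ⟨22790609502, 0, 0, 0, 0, 0, 0, 0, 0, ⟨0, 0⟩, 0⟩ 0 0) (.cut .v 117440512 (.pos 112 .pp ⟨32808986109, 0, 0, 0,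 0, 0, 0, 0, 0, ⟨0, 0⟩, 0⟩ 0 0) (.cut .v 125829120 (.cut .d 132841 (.void 158 ⟨100000, 0, 0, 0, 0, 0, 0, 0, 0, ⟨0, 0⟩, 0⟩ 0 0) (.cut .l 708371 (.cut .l 456712 (.cut .l 330883 (.cut .l 267968 (.cut .d 199262 (.cut .v 121634816 (.pos 162 .pp ⟨36357711973, 0, 0, 0, 0, 0, 0, 0, 0, ⟨0, 0⟩, 0⟩ 0 0) (.cut .v 123731968 (.pos 164 .pp ⟨47306174032, 21572789905, 0, 0, 0, 0, 0, 0, 0, ⟨0, 0⟩, 0⟩ 0 0) (.void 165 ⟨34210, 65790, 0, 0, 0, 0, 0, 0, 0, ⟨0, 0⟩, 0⟩ 0 0))) (.cut .v 121634816 (.pos 162 .pp ⟨28002293278, 0, 0, 0, 0, 0, 0, 0, 0, ⟨0, 0⟩, 0⟩ 0 0) (.cut .d 232472 (.cut .d 215867 (.pos 163 .pp ⟨41227542750, 20543880276, 0, 0, 0, 0, 0, 0, 0, ⟨0, 0⟩, 0⟩ 0 0) (.pos 163 .pp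 ⟨37382257674, 17602971562, 0, 0, 0, 0, 0, 0, 0, ⟨0, 0⟩, 0⟩ 0 0)) (.void 163 ⟨0, 100000, 0, 0, 0, 0, 0, 0, 0, ⟨0, 0⟩, 0⟩ 0 0)))) (.pos 158 .pp ⟨39092969412, 10303141896, 0, 0, 0, 0, 0, 0, 0, ⟨0, 0⟩, 0⟩ 0 0)) (.pos 158 .pp ⟨38423851803, 9643826428, 0, 0, 0, 0, 0, 0, 0, ⟨0, 0⟩, 0⟩ 0 0)) (.pos 158 .pp ⟨37088823965, 8324875693, 0, 0, 0, 0, 0, 0, 0, ⟨0, 0⟩, 0⟩ 0 0)) (.pos 158 .pp ⟨34431473655, 5685649955, 0, 0, 0, 0, 0, 0, 0, ⟨0, 0⟩, 0⟩ 0 0))) (.void 159 ⟨34254, 65746, 0, 0, 0, 0, 0, 0, 0, ⟨0, 0⟩, 0⟩ 0 0)))) (.pos 87 .pp ⟨0, 11050786950, 0, 0, 0, 0, 0, 0, 0, ⟨0, 0⟩, 0⟩ 0 0)) (.void 88 ⟨90759, 0, 0, 9241, 0, 0, 0, 0, 0, ⟨0, 0⟩, 0⟩ 0 0))) (.pos 85 .pp ⟨0, 3675473774,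 0, 0, 0, 0, 0, 0, 0, ⟨0, 0⟩, 0⟩ 0 0)) (.void 103 ⟨0, 0, 0, 100000, 0, 0, 0, 0, 0, ⟨0, 0⟩, 0⟩ 0 0)))),
    by decide +kernel⟩

def covers29 : cell.Covers table row29.1 :=
  ⟨(.cut .d 0 (.cut .v 16777216 (.cut .v 8388608 (.void 2 ⟨0, 0, 100000, 0, 0, 0, 0, 0, 0, ⟨0, 0⟩, 0⟩ 0 0) (.cut .d (-8388608) (.pos 3 .mm ⟨124363975657, 0, 0, 0, 0, 43408184343, 0, 0, 0, ⟨0, 0⟩, 0⟩ 0 0) (.pos 3 .mm ⟨0, 0, 401758363, 0, 0, 40181667979, 0, 0, 0, ⟨0, 0⟩, 0⟩ 0 0))) (.cut .v 268435456 (.cut .v 67108864 (.cut .d (-8388608) (.void 70 ⟨100000, 0, 0, 0, 0, 0, 0, 0, 0, ⟨0, 0⟩, 0⟩ 0 0) (.pos 70 .mp ⟨4353237120, 0, 0, 0, 0, 163418922880, 0, 0, 0, ⟨0, 0⟩, 0⟩ 0 0)) (.void 86 ⟨100000, 0,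 0, 0, 0, 0, 0, 0, 0, ⟨0, 0⟩, 0⟩ 0 0)) (.void 103 ⟨98133, 0, 0, 4657, 0, 0, 0, 0, 0, ⟨0, 0⟩, 0⟩ 0 0))) (.cut .v 16777216 (.cut .v 8388608 (.cut .v 4194304 (.cut .v 2097152 (.cut .v 1048576 (.cut .v 524288 (.cut .v 262144 (.cut .v 131072 (.cut .v 65536 (.pos 166 .pm ⟨0, 0, 30882471, 0, 0, 0, 0, 0, 0, ⟨0, 0⟩, 0⟩ 0 0) (.pos 167 .pm ⟨0, 0, 53023526, 0, 0, 0, 0, 0, 0, ⟨0, 0⟩, 0⟩ 0 0)) (.pos 161 .pm ⟨0, 0, 83255764, 0, 0, 0, 0, 0, 0, ⟨0, 0⟩, 0⟩ 0 0)) (.pos 151 .pm ⟨0, 0, 138223497, 0, 0, 0, 0, 0, 0, ⟨0, 0⟩, 0⟩ 0 0)) (.pos 129 .pm ⟨0, 0, 227522590, 0, 0, 0, 0, 0, 0, ⟨0, 0⟩, 0⟩ 0 0)) (.pos 107 .pm ⟨0, 0, 387788047, 0, 0, 0, 0, 0, 0, ⟨0, 0⟩, 0⟩ 0 0)) (.pos 7 .pm ⟨0,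 0, 666033544, 0, 0, 0, 0, 0, 0, ⟨0, 0⟩, 0⟩ 0 0)) (.pos 5 .pm ⟨0, 0, 1551541373, 0, 0, 0, 0, 0, 0, ⟨0, 0⟩, 0⟩ 0 0)) (.pos 3 .pm ⟨0, 0, 401758363, 0, 0, 0, 0, 0, 0, ⟨0, 0⟩, 0⟩ 0 0)) (.cut .v 268435456 (.cut .v 67108864 (.pos 70 .pp ⟨2367521976, 0, 0, 0, 0, 0, 0, 0, 0, ⟨0, 0⟩, 0⟩ 0 0) (.cut .v 134217728 (.cut .d 421582 (.cut .d 210791 (.cut .v 100663296 (.pos 89 .pp ⟨29379301716, 0, 0, 0, 0, 0, 0, 0, 0, ⟨0, 0⟩, 0⟩ 0 0) (.cut .v 117440512 (.pos 112 .pp ⟨41418049602, 0, 0, 0, 0, 0, 0, 0, 0, ⟨0, 0⟩, 0⟩ 0 0) (.cut .v 125829120 (.cut .d 105395 (.void 158 ⟨100000, 0, 0, 0, 0, 0, 0, 0, 0, ⟨0, 0⟩, 0⟩ 0 0) (.cut .d 158093 (.pos 158 .pp ⟨62617558008, 29591494078, 0, 0,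 0, 0, 0, 0, 0, ⟨0, 0⟩, 0⟩ 0 0) (.cut .v 121634816 (.pos 162 .pp ⟨34757787291, 0, 0, 0, 0, 0, 0, 0, 0, ⟨0, 0⟩, 0⟩ 0 0) (.cut .v 123731968 (.pos 164 .pp ⟨46107621671, 20164167442, 0, 0, 0, 0, 0, 0, 0, ⟨0, 0⟩, 0⟩ 0 0) (.pos 165 .pp ⟨81648993222, 86123166778, 0, 0, 0, 0, 0, 0, 0, ⟨0, 0⟩, 0⟩ 0 0))))) (.void 159 ⟨34061, 65939, 0, 0, 0, 0, 0, 0, 0, ⟨0, 0⟩, 0⟩ 0 0)))) (.pos 87 .pp ⟨0, 16748400040, 0, 0, 0, 0, 0, 0, 0, ⟨0, 0⟩, 0⟩ 0 0)) (.pos 87 .pp ⟨0, 0, 0, 0, 0, 0, 0, 0, 0, ⟨0, 0⟩, 0⟩ 0 0)) (.void 88 ⟨90596, 0, 0, 9404, 0, 0, 0, 0, 0, ⟨0, 0⟩, 0⟩ 0 0))) (.void 103 ⟨0, 0, 0, 100000, 0, 0, 0, 0, 0, ⟨0, 0⟩, 0⟩ 0 0)))),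
    by decide +kernel⟩

def covers30 : cell.Covers table row30.1 :=
  ⟨(.cut .d 0 (.cut .v 16777216 (.cut .v 8388608 (.void 2 ⟨0, 0, 100000, 0, 0, 0, 0, 0, 0, ⟨0, 0⟩, 0⟩ 0 0) (.pos 3 .mm ⟨0, 0, 719442287, 0, 0, 95407716174, 0, 0, 0, ⟨0, 0⟩, 0⟩ 0 0)) (.cut .v 4294967296 (.cut .d (-8388608) (.void 102 ⟨100000, 0, 0, 0, 0, 0, 0, 0, 0, ⟨0, 0⟩, 0⟩ 0 0) (.cut .v 268435456 (.cut .v 67108864 (.pos 70 .mp ⟨123818305771, 0, 0, 0, 0, 43953854229, 0, 0, 0, ⟨0, 0⟩, 0⟩ 0 0) (.void 86 ⟨100000, 0, 0, 0, 0, 0, 0, 0, 0, ⟨0, 0⟩, 0⟩ 0 0)) (.void 103 ⟨92889, 0, 0, 7111, 0, 0, 0, 0, 0, ⟨0, 0⟩, 0⟩ 0 0))) (.void 170 ⟨0, 0, 4230, 4451, 0, 85893, 0, 5720, 0, ⟨(-1), 5040276⟩, 0⟩ 0 321)))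 (.cut .v 16777216 (.cut .v 8388608 (.cut .v 4194304 (.cut .v 2097152 (.cut .v 1048576 (.cut .v 524288 (.cut .v 262144 (.cut .v 131072 (.cut .v 65536 (.pos 166 .pm ⟨0, 0, 37836833, 0, 0, 0, 0, 0, 0, ⟨0, 0⟩, 0⟩ 0 0) (.pos 167 .pm ⟨0, 0, 72057097, 0, 0, 0, 0, 0, 0, ⟨0, 0⟩, 0⟩ 0 0)) (.pos 161 .pm ⟨0, 0, 119228576, 0, 0, 0, 0, 0, 0, ⟨0, 0⟩, 0⟩ 0 0)) (.pos 151 .pm ⟨0, 0, 199150273, 0, 0, 0, 0, 0, 0, ⟨0, 0⟩, 0⟩ 0 0)) (.pos 129 .pm ⟨0, 0, 339418702, 0, 0, 0, 0, 0, 0, ⟨0, 0⟩, 0⟩ 0 0)) (.pos 107 .pm ⟨0, 0, 581575358, 0, 0, 0, 0, 0, 0, ⟨0, 0⟩, 0⟩ 0 0)) (.pos 7 .pm ⟨0, 0, 1028730912, 0, 0, 0, 0, 0, 0, ⟨0, 0⟩, 0⟩ 0 0)) (.pos 5 .pm ⟨0, 0, 2466956228, 0, 0, 0, 0, 0, 0, ⟨0,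 0⟩, 0⟩ 0 0)) (.pos 3 .pm ⟨0, 0, 719442287, 0, 0, 0, 0, 0, 0, ⟨0, 0⟩, 0⟩ 0 0)) (.cut .v 4294967296 (.cut .v 268435456 (.cut .v 67108864 (.pos 70 .pp ⟨1793862912, 0, 0, 0, 0, 0, 0, 0, 0, ⟨0, 0⟩, 0⟩ 0 0) (.cut .v 134217728 (.cut .d 332139 (.cut .d 166069 (.cut .v 100663296 (.pos 89 .pp ⟨39442287104, 0, 0, 0, 0, 0, 0, 0, 0, ⟨0, 0⟩, 0⟩ 0 0) (.cut .v 117440512 (.pos 112 .pp ⟨54281858907, 0, 0, 0, 0, 0, 0, 0, 0, ⟨0, 0⟩, 0⟩ 0 0) (.cut .v 125829120 (.cut .d 83034 (.void 158 ⟨100000, 0, 0, 0, 0, 0, 0, 0, 0, ⟨0, 0⟩, 0⟩ 0 0) (.cut .d 124551 (.pos 158 .pp ⟨85751662810, 45281086913, 0, 0, 0, 0, 0, 0, 0, ⟨0, 0⟩, 0⟩ 0 0) (.pos 158 .pp ⟨63077181783, 33735047266, 0, 0, 0, 0,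 0, 0, 0, ⟨0, 0⟩, 0⟩ 0 0))) (.void 159 ⟨33909, 66091, 0, 0, 0, 0, 0, 0, 0, ⟨0, 0⟩, 0⟩ 0 0)))) (.pos 87 .pp ⟨0, 25779206192, 0, 0, 0, 0, 0, 0, 0, ⟨0, 0⟩, 0⟩ 0 0)) (.pos 87 .pp ⟨0, 0, 0, 0, 0, 0, 0, 0, 0, ⟨0, 0⟩, 0⟩ 0 0)) (.void 88 ⟨90572, 0, 0, 9428, 0, 0, 0, 0, 0, ⟨0, 0⟩, 0⟩ 0 0))) (.void 103 ⟨0, 0, 0, 100000, 0, 0, 0, 0, 0, ⟨0, 0⟩, 0⟩ 0 0)) (.void 170 ⟨0, 0, 0, 100000, 0, 0, 0, 0, 0, ⟨0, 0⟩, 0⟩ 0 0)))),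
    by decide +kernel⟩

def covers31 : cell.Covers table row31.1 :=
  ⟨(.cut .d 0 (.cut .v 16777216 (.cut .v 8388608 (.void 2 ⟨0, 0, 100000, 0, 0, 0, 0, 0, 0, ⟨0, 0⟩, 0⟩ 0 0) (.pos 3 .mm ⟨0, 0, 1234514987, 0, 0, 124119910845, 0, 0, 0, ⟨0, 0⟩, 0⟩ 0 0)) (.cut .v 4294967296 (.cut .v 268435456 (.cut .v 67108864 (.cut .d (-8388608) (.void 70 ⟨100000, 0, 0, 0, 0, 0, 0, 0, 0, ⟨0, 0⟩, 0⟩ 0 0) (.cut .d (-4194304) (.void 70 ⟨100000, 0, 0, 0, 0, 0, 0, 0, 0, ⟨0, 0⟩, 0⟩ 0 0) (.pos 70 .mp ⟨28388863395, 0, 0, 0, 0, 139383296605, 0, 0, 0, ⟨0, 0⟩, 0⟩ 0 0))) (.void 86 ⟨100000, 0, 0, 0, 0, 0, 0, 0, 0, ⟨0, 0⟩, 0⟩ 0 0)) (.void 103 ⟨145399, 0, 0, 6880, 0, 95962, 0, 0, 0, ⟨0, 0⟩,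 0⟩ 0 0)) (.void 170 ⟨95116, 0, 0, 4884, 0, 0, 0, 0, 0, ⟨0, 0⟩, 0⟩ 0 0))) (.cut .v 16777216 (.cut .v 8388608 (.cut .v 4194304 (.cut .v 2097152 (.cut .v 1048576 (.cut .v 524288 (.cut .v 262144 (.cut .v 131072 (.cut .v 65536 (.cut .v 32768 (.pos 171 .pm ⟨0, 0, 32698546, 0, 0, 0, 0, 0, 0, ⟨0, 0⟩, 0⟩ 0 0) (.pos 172 .pm ⟨0, 0, 59507851, 0, 0, 0, 0, 0, 0, ⟨0, 0⟩, 0⟩ 0 0)) (.pos 167 .pm ⟨0, 0, 96761171, 0, 0, 0, 0, 0, 0, ⟨0, 0⟩, 0⟩ 0 0)) (.pos 161 .pm ⟨0, 0, 161260686, 0, 0, 0, 0, 0, 0, ⟨0, 0⟩, 0⟩ 0 0)) (.pos 151 .pm ⟨0, 0, 273741619, 0, 0, 0, 0, 0, 0, ⟨0, 0⟩, 0⟩ 0 0)) (.pos 129 .pm ⟨0, 0, 461849250, 0, 0, 0, 0, 0, 0, ⟨0, 0⟩, 0⟩ 0 0)) (.pos 107 .pm ⟨0, 0, 791449426,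 0, 0, 0, 0, 0, 0, ⟨0, 0⟩, 0⟩ 0 0)) (.pos 7 .pm ⟨0, 0, 1491535491, 0, 0, 0, 0, 0, 0, ⟨0, 0⟩, 0⟩ 0 0)) (.pos 5 .pm ⟨0, 0, 3832894383, 0, 0, 0, 0, 0, 0, ⟨0, 0⟩, 0⟩ 0 0)) (.pos 3 .pm ⟨0, 0, 1234514987, 0, 0, 0, 0, 0, 0, ⟨0, 0⟩, 0⟩ 0 0)) (.cut .v 4294967296 (.cut .v 268435456 (.cut .v 67108864 (.pos 70 .pp ⟨0, 0, 0, 0, 0, 0, 0, 0, 0, ⟨0, 0⟩, 0⟩ 0 0) (.cut .v 134217728 (.cut .d 261881 (.cut .d 130940 (.cut .v 100663296 (.pos 89 .pp ⟨48932841909, 0, 0, 0, 0, 0, 0, 0, 0, ⟨0, 0⟩, 0⟩ 0 0) (.cut .d 65470 (.void 90 ⟨100000, 0, 0, 0, 0, 0, 0, 0, 0, ⟨0, 0⟩, 0⟩ 0 0) (.cut .v 117440512 (.pos 112 .pp ⟨57460194378, 0, 0, 0, 0, 0, 0, 0, 0, ⟨0, 0⟩, 0⟩ 0 0) (.cut .v 125829120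 (.pos 158 .pp ⟨87911199247, 49049049484, 0, 0, 0, 0, 0, 0, 0, ⟨0, 0⟩, 0⟩ 0 0) (.void 159 ⟨33754, 66246, 0, 0, 0, 0, 0, 0, 0, ⟨0, 0⟩, 0⟩ 0 0))))) (.pos 87 .pp ⟨0, 39705631578, 0, 0, 0, 0, 0, 0, 0, ⟨0, 0⟩, 0⟩ 0 0)) (.pos 87 .pp ⟨0, 0, 0, 0, 0, 0, 0, 0, 0, ⟨0, 0⟩, 0⟩ 0 0)) (.void 88 ⟨90555, 0, 0, 9445, 0, 0, 0, 0, 0, ⟨0, 0⟩, 0⟩ 0 0))) (.void 103 ⟨0, 0, 0, 100000, 0, 0, 0, 0, 0, ⟨0, 0⟩, 0⟩ 0 0)) (.void 170 ⟨0, 0, 0, 100000, 0, 0, 0, 0, 0, ⟨0, 0⟩, 0⟩ 0 0)))),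
    by decide +kernel⟩

def covers32 : cell.Covers table row32.1 :=
  ⟨(.cut .d 0 (.cut .v 16777216 (.cut .v 8388608 (.pos 2 .mm ⟨0, 0, 167772160000, 0, 0, 0, 0, 0, 0, ⟨0, 0⟩, 0⟩ 0 0) (.pos 3 .mm ⟨0, 0, 2580097702, 0, 0, 161850405201, 0, 0, 0, ⟨0, 0⟩, 0⟩ 0 0)) (.cut .v 4294967296 (.cut .v 268435456 (.cut .v 67108864 (.cut .d (-8388608) (.void 70 ⟨100000, 0, 0, 0, 0, 0, 0, 0, 0, ⟨0, 0⟩, 0⟩ 0 0) (.cut .d (-4194304) (.void 70 ⟨100000, 0, 0, 0, 0, 0, 0, 0, 0, ⟨0, 0⟩, 0⟩ 0 0) (.pos 70 .mp ⟨114354001395, 0, 0, 0, 0, 53418158605, 0, 0, 0, ⟨0, 0⟩, 0⟩ 0 0))) (.void 86 ⟨100000, 0, 0, 0, 0, 0, 0, 0, 0, ⟨0, 0⟩, 0⟩ 0 0)) (.void 103 ⟨95093, 0, 0, 4907, 0, 0, 0, 0, 0, ⟨0,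 0⟩, 0⟩ 0 0)) (.void 170 ⟨95093, 0, 0, 4907, 0, 0, 0, 0, 0, ⟨0, 0⟩, 0⟩ 0 0))) (.cut .v 16777216 (.cut .v 8388608 (.cut .v 4194304 (.cut .v 2097152 (.cut .v 1048576 (.cut .v 524288 (.cut .v 262144 (.cut .v 131072 (.cut .v 65536 (.cut .v 32768 (.pos 171 .pm ⟨0, 0, 40199518, 0, 0, 0, 0, 0, 0, ⟨0, 0⟩, 0⟩ 0 0) (.pos 172 .pm ⟨0, 0, 80204244, 0, 0, 0, 0, 0, 0, ⟨0, 0⟩, 0⟩ 0 0)) (.pos 167 .pm ⟨0, 0, 136126604, 0, 0, 0, 0, 0, 0, ⟨0, 0⟩, 0⟩ 0 0)) (.pos 161 .pm ⟨0, 0, 234128550, 0, 0, 0, 0, 0, 0, ⟨0, 0⟩, 0⟩ 0 0)) (.pos 151 .pm ⟨0, 0, 409327083, 0, 0, 0, 0, 0, 0, ⟨0, 0⟩, 0⟩ 0 0)) (.pos 129 .pm ⟨0, 0, 727725489, 0, 0, 0, 0, 0, 0, ⟨0, 0⟩, 0⟩ 0 0)) (.pos 107 .pm ⟨0, 0, 1285419587,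 0, 0, 0, 0, 0, 0, ⟨0, 0⟩, 0⟩ 0 0)) (.pos 7 .pm ⟨0, 0, 2400477777, 0, 0, 0, 0, 0, 0, ⟨0, 0⟩, 0⟩ 0 0)) (.pos 5 .pm ⟨0, 0, 5435559912, 0, 0, 0, 0, 0, 0, ⟨0, 0⟩, 0⟩ 0 0)) (.pos 3 .pm ⟨0, 0, 2251605614, 0, 0, 0, 0, 0, 0, ⟨0, 0⟩, 0⟩ 0 0)) (.cut .v 4294967296 (.cut .v 268435456 (.cut .v 67108864 (.pos 70 .pp ⟨0, 0, 0, 0, 0, 0, 0, 0, 0, ⟨0, 0⟩, 0⟩ 0 0) (.cut .v 134217728 (.cut .d 209926 (.cut .d 104963 (.cut .v 100663296 (.pos 89 .pp ⟨78635611526, 0, 0, 0, 0, 0, 0, 0, 0, ⟨0, 0⟩, 0⟩ 0 0) (.cut .d 52481 (.void 90 ⟨100000, 0, 0, 0, 0, 0, 0, 0, 0, ⟨0, 0⟩, 0⟩ 0 0) (.cut .v 117440512 (.pos 112 .pp ⟨98604702148, 0, 0, 0, 0, 0, 0, 0, 0, ⟨0, 0⟩, 0⟩ 0 0) (.cut .v 125829120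 (.cut .d 78722 (.cut .d 65601 (.void 158 ⟨100000, 0, 0, 0, 0, 0, 0, 0, 0, ⟨0, 0⟩, 0⟩ 0 0) (.cut .d 72161 (.cut .d 68881 (.pos 158 .pp ⟨167772160000, 0, 0, 0, 0, 0, 0, 0, 0, ⟨0, 0⟩, 0⟩ 0 0) (.cut .d 70521 (.cut .v 121634816 (.pos 162 .pp ⟨109133808229, 0, 0, 0, 0, 0, 0, 0, 0, ⟨0, 0⟩, 0⟩ 0 0) (.cut .s 16408576 (.void 163 ⟨100000, 0, 0, 0, 0, 0, 0, 0, 0, ⟨0, 0⟩, 0⟩ 0 0) (.cut .s 16429056 (.void 163 ⟨100000, 0, 0, 0, 0, 0, 0, 0, 0, ⟨0, 0⟩, 0⟩ 0 0) (.cut .s 16439296 (.pos 163 .pp ⟨167772160000, 0, 0, 0, 0, 0, 0, 0, 0, ⟨0, 0⟩, 0⟩ 0 0) (.cut .s 16444416 (.pos 163 .pp ⟨167772160000, 0, 0, 0, 0, 0, 0, 0, 0, ⟨0, 0⟩, 0⟩ 0 0) (.cut .s 16446976 (.pos 163 .pp ⟨167772160000,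 0, 0, 0, 0, 0, 0, 0, 0, ⟨0, 0⟩, 0⟩ 0 0) (.cut .v 123731968 (.pos 164 .pp ⟨111322957187, 0, 0, 0, 0, 0, 0, 0, 0, ⟨0, 0⟩, 0⟩ 0 0) (.cut .l 708371 (.cut .l 456712 (.cut .d 69701 (.void 165 ⟨100000, 0, 0, 0, 0, 0, 0, 0, 0, ⟨0, 0⟩, 0⟩ 0 0) (.cut .v 124780544 (.pos 173 .pp ⟨112393284551, 0, 0, 0, 0, 0, 0, 0, 0, ⟨0, 0⟩, 0⟩ 0 0) (.cut .v 125304832 (.pos 175 .pp ⟨131409647914, 36362512086, 0, 0, 0, 0, 0, 0, 0, ⟨0, 0⟩, 0⟩ 0 0) (.void 176 ⟨33680, 66320, 0, 0, 0, 0, 0, 0, 0, ⟨0, 0⟩, 0⟩ 0 0)))) (.pos 165 .pp ⟨131794036335, 35978123665, 0, 0, 0, 0, 0, 0, 0, ⟨0, 0⟩, 0⟩ 0 0)) (.pos 165 .pp ⟨131794036335, 35978123665, 0, 0, 0, 0, 0, 0, 0, ⟨0, 0⟩, 0⟩ 0 0))))))))) (.pos 158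 .pp ⟨87779221970, 79992938030, 0, 0, 0, 0, 0, 0, 0, ⟨0, 0⟩, 0⟩ 0 0))) (.pos 158 .pp ⟨90160503573, 77611656427, 0, 0, 0, 0, 0, 0, 0, ⟨0, 0⟩, 0⟩ 0 0))) (.pos 158 .pp ⟨99633238998, 68138921002, 0, 0, 0, 0, 0, 0, 0, ⟨0, 0⟩, 0⟩ 0 0)) (.void 159 ⟨33668, 66332, 0, 0, 0, 0, 0, 0, 0, ⟨0, 0⟩, 0⟩ 0 0))))) (.pos 87 .pp ⟨0, 54452032504, 0, 0, 0, 0, 0, 0, 0, ⟨0, 0⟩, 0⟩ 0 0)) (.pos 87 .pp ⟨0, 0, 0, 0, 0, 0, 0, 0, 0, ⟨0, 0⟩, 0⟩ 0 0)) (.void 88 ⟨90539, 0, 0, 9461, 0, 0, 0, 0, 0, ⟨0, 0⟩, 0⟩ 0 0))) (.void 103 ⟨0, 0, 0, 100000, 0, 0, 0, 0, 0, ⟨0, 0⟩, 0⟩ 0 0)) (.void 170 ⟨0, 0, 0, 100000, 0, 0, 0, 0, 0, ⟨0, 0⟩, 0⟩ 0 0)))),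
    by decide +kernel⟩

def covers33 : cell.Covers table row33.1 :=
  ⟨(.cut .d 0 (.cut .v 16777216 (.cut .d (-8388608) (.void 1 ⟨0, 0, 0, 0, 0, 36460, 0, 63488, 0, ⟨(-1), 9698084⟩, 0⟩ 0 126) (.cut .v 8388608 (.pos 2 .mm ⟨0, 0, 167772160000, 0, 0, 0, 0, 0, 0, ⟨0, 0⟩, 0⟩ 0 0) (.pos 3 .mm ⟨0, 0, 3171125010, 0, 0, 123084953551, 0, 0, 0, ⟨0, 0⟩, 0⟩ 0 0))) (.cut .v 4294967296 (.cut .v 268435456 (.cut .v 67108864 (.cut .d (-8388608) (.void 70 ⟨100000, 0, 0, 0, 0, 0, 0, 0, 0, ⟨0, 0⟩, 0⟩ 0 0) (.cut .v 33554432 (.cut .d (-4194304) (.void 28 ⟨100000, 0, 0, 0, 0, 0, 0, 0, 0, ⟨0, 0⟩, 0⟩ 0 0) (.pos 28 .mp ⟨0, 0, 0, 0, 0, 164352599427, 0, 0, 0, ⟨0, 0⟩, 0⟩ 0 0)) (.void 71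 ⟨100000, 0, 0, 0, 0, 0, 0, 0, 0, ⟨0, 0⟩, 0⟩ 0 0))) (.void 86 ⟨100000, 0, 0, 0, 0, 0, 0, 0, 0, ⟨0, 0⟩, 0⟩ 0 0)) (.void 103 ⟨95074, 0, 0, 4926, 0, 0, 0, 0, 0, ⟨0, 0⟩, 0⟩ 0 0)) (.void 170 ⟨95074, 0, 0, 4926, 0, 0, 0, 0, 0, ⟨0, 0⟩, 0⟩ 0 0))) (.cut .v 16777216 (.cut .v 8388608 (.cut .v 4194304 (.cut .v 2097152 (.cut .v 1048576 (.cut .v 524288 (.cut .v 262144 (.cut .v 131072 (.cut .v 65536 (.cut .v 32768 (.pos 171 .pm ⟨0, 0, 43988968, 0, 0, 0, 0, 0, 0, ⟨0, 0⟩, 0⟩ 0 0) (.pos 172 .pm ⟨0, 0, 86423915, 0, 0, 0, 0, 0, 0, ⟨0, 0⟩, 0⟩ 0 0)) (.pos 167 .pm ⟨0, 0, 146773715, 0, 0, 0, 0, 0, 0, ⟨0, 0⟩, 0⟩ 0 0)) (.pos 161 .pm ⟨0, 0, 257776227, 0, 0, 0, 0, 0, 0, ⟨0, 0⟩, 0⟩ 0 0))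 (.pos 151 .pm ⟨0, 0, 461989051, 0, 0, 0, 0, 0, 0, ⟨0, 0⟩, 0⟩ 0 0)) (.pos 129 .pm ⟨0, 0, 842664594, 0, 0, 0, 0, 0, 0, ⟨0, 0⟩, 0⟩ 0 0)) (.pos 107 .pm ⟨0, 0, 1585227419, 0, 0, 0, 0, 0, 0, ⟨0, 0⟩, 0⟩ 0 0)) (.pos 7 .pm ⟨0, 0, 3228626904, 0, 0, 0, 0, 0, 0, ⟨0, 0⟩, 0⟩ 0 0)) (.pos 5 .pm ⟨0, 0, 8428600764, 0, 0, 0, 0, 0, 0, ⟨0, 0⟩, 0⟩ 0 0)) (.pos 3 .pm ⟨0, 0, 3171125010, 0, 0, 0, 0, 0, 0, ⟨0, 0⟩, 0⟩ 0 0)) (.cut .v 4294967296 (.cut .v 268435456 (.cut .v 67108864 (.pos 70 .pp ⟨0, 0, 0, 0, 0, 0, 0, 0, 0, ⟨0, 0⟩, 0⟩ 0 0) (.cut .v 134217728 (.cut .d 167105 (.cut .d 83552 (.cut .v 100663296 (.pos 89 .pp ⟨89309138159, 0, 0, 0, 0, 0, 0, 0, 0, ⟨0, 0⟩, 0⟩ 0 0) (.cut .d 41776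 (.void 90 ⟨100000, 0, 0, 0, 0, 0, 0, 0, 0, ⟨0, 0⟩, 0⟩ 0 0) (.cut .s 16482304 (.cut .s 16465920 (.cut .s 16457728 (.cut .v 117440512 (.pos 112 .pp ⟨105180875517, 0, 0, 0, 0, 0, 0, 0, 0, ⟨0, 0⟩, 0⟩ 0 0) (.cut .v 125829120 (.cut .d 62664 (.void 158 ⟨100000, 0, 0, 0, 0, 0, 0, 0, 0, ⟨0, 0⟩, 0⟩ 0 0) (.cut .d 73108 (.cut .d 67886 (.pos 158 .pp ⟨167772160000, 0, 0, 0, 0, 0, 0, 0, 0, ⟨0, 0⟩, 0⟩ 0 0) (.cut .d 70497 (.cut .d 69191 (.pos 158 .pp ⟨167772160000, 0, 0, 0, 0, 0, 0, 0, 0, ⟨0, 0⟩, 0⟩ 0 0) (.cut .s 16453632 (.cut .s 16451584 (.cut .s 16450560 (.cut .s 16450048 (.cut .s 16449792 (.cut .v 121634816 (.pos 162 .pp ⟨109061470061, 0, 0, 0, 0, 0, 0, 0, 0, ⟨0, 0⟩, 0⟩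 0 0) (.cut .v 123731968 (.pos 164 .pp ⟨111249369206, 0, 0, 0, 0, 0, 0, 0, 0, ⟨0, 0⟩, 0⟩ 0 0) (.cut .v 124780544 (.pos 173 .pp ⟨112347229816, 0, 0, 0, 0, 0, 0, 0, 0, ⟨0, 0⟩, 0⟩ 0 0) (.cut .v 125304832 (.pos 175 .pp ⟨131379171100, 36392988900, 0, 0, 0, 0, 0, 0, 0, ⟨0, 0⟩, 0⟩ 0 0) (.cut .v 125566976 (.cut .d 69844 (.pos 177 .pp ⟨167772160000, 0, 0, 0, 0, 0, 0, 0, 0, ⟨0, 0⟩, 0⟩ 0 0) (.void 177 ⟨0, 100000, 0, 0, 0, 0, 0, 0, 0, ⟨0, 0⟩, 0⟩ 0 0)) (.void 178 ⟨0, 100000, 0, 0, 0, 0, 0, 0, 0, ⟨0, 0⟩, 0⟩ 0 0)))))) (.pos 158 .pp ⟨131822886657, 35949273343, 0, 0, 0, 0, 0, 0, 0, ⟨0, 0⟩, 0⟩ 0 0)) (.pos 158 .pp ⟨131901733258, 35870426742, 0, 0, 0, 0, 0, 0, 0, ⟨0, 0⟩, 0⟩ 0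 0)) (.pos 158 .pp ⟨132060209711, 35711950289, 0, 0, 0, 0, 0, 0, 0, ⟨0, 0⟩, 0⟩ 0 0)) (.pos 158 .pp ⟨132380295051, 35391864949, 0, 0, 0, 0, 0, 0, 0, ⟨0, 0⟩, 0⟩ 0 0)) (.pos 158 .pp ⟨3464257342, 164307902658, 0, 0, 0, 0, 0, 0, 0, ⟨0, 0⟩, 0⟩ 0 0))) (.pos 158 .pp ⟨0, 167278645928, 0, 0, 0, 0, 0, 0, 0, ⟨0, 0⟩, 0⟩ 0 0))) (.pos 158 .pp ⟨0, 164745775359, 0, 0, 0, 0, 0, 0, 0, ⟨0, 0⟩, 0⟩ 0 0))) (.void 159 ⟨33679, 66321, 0, 0, 0, 0, 0, 0, 0, ⟨0, 0⟩, 0⟩ 0 0))) (.pos 90 .pp ⟨163957833192, 0, 0, 3814326808, 0, 0, 0, 0, 0, ⟨0, 0⟩, 0⟩ 0 0)) (.pos 90 .pp ⟨164398412714, 0, 0, 3373747286, 0, 0, 0, 0, 0, ⟨0, 0⟩, 0⟩ 0 0)) (.pos 90 .pp ⟨165401183089, 0, 0, 2370976911, 0, 0, 0, 0,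 0, ⟨0, 0⟩, 0⟩ 0 0)))) (.pos 87 .pp ⟨0, 89101312061, 0, 0, 0, 0, 0, 0, 0, ⟨0, 0⟩, 0⟩ 0 0)) (.pos 87 .pp ⟨0, 13998778660, 0, 0, 0, 0, 0, 0, 0, ⟨0, 0⟩, 0⟩ 0 0)) (.void 88 ⟨90526, 0, 0, 9474, 0, 0, 0, 0, 0, ⟨0, 0⟩, 0⟩ 0 0))) (.void 103 ⟨0, 0, 0, 100000, 0, 0, 0, 0, 0, ⟨0, 0⟩, 0⟩ 0 0)) (.void 170 ⟨0, 0, 0, 100000, 0, 0, 0, 0, 0, ⟨0, 0⟩, 0⟩ 0 0)))),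
    by decide +kernel⟩

def covers34 : cell.Covers table row34.1 :=
  ⟨(.cut .d 0 (.cut .v 16777216 (.cut .d (-8388608) (.void 1 ⟨0, 0, 0, 0, 0, 41149, 0, 0, 0, ⟨0, 0⟩, 0⟩ 0 0) (.cut .v 8388608 (.pos 2 .mm ⟨0, 0, 167772160000, 0, 0, 0, 0, 0, 0, ⟨0, 0⟩, 0⟩ 0 0) (.pos 3 .mm ⟨0, 0, 11674044340, 0, 0, 151377687132, 0, 0, 0, ⟨0, 0⟩, 0⟩ 0 0))) (.cut .v 4294967296 (.cut .v 268435456 (.cut .d (-8388608) (.void 85 ⟨0, 0, 0, 0, 0, 1000000000, 0, 0, 0, ⟨0, 0⟩, 0⟩ 0 0) (.cut .v 67108864 (.cut .d (-4194304) (.void 70 ⟨1000000000, 0, 0, 0, 0, 0, 0, 0, 0, ⟨0, 0⟩, 0⟩ 0 0) (.cut .d (-2097152) (.void 70 ⟨1000000000, 0, 0, 0, 0, 0, 0, 0, 0, ⟨0, 0⟩, 0⟩ 0 0) (.pos 70 .mp ⟨154917705361,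 0, 0, 0, 0, 12854454639, 0, 0, 0, ⟨0, 0⟩, 0⟩ 0 0))) (.void 86 ⟨923381480, 0, 0, 0, 0, 76618520, 0, 0, 0, ⟨0, 0⟩, 0⟩ 0 0))) (.void 103 ⟨95060, 0, 0, 4940, 0, 0, 0, 0, 0, ⟨0, 0⟩, 0⟩ 0 0)) (.void 170 ⟨94676, 0, 0, 5324, 0, 0, 0, 0, 0, ⟨0, 0⟩, 0⟩ 0 0))) (.cut .v 16777216 (.cut .v 8388608 (.cut .v 4194304 (.cut .v 2097152 (.cut .v 1048576 (.cut .v 524288 (.cut .v 262144 (.cut .v 131072 (.cut .v 65536 (.cut .v 32768 (.pos 171 .pm ⟨0, 0, 45675783, 0, 0, 0, 0, 0, 0, ⟨0, 0⟩, 0⟩ 0 0) (.pos 172 .pm ⟨0, 0, 91492670, 0, 0, 0, 0, 0, 0, ⟨0, 0⟩, 0⟩ 0 0)) (.pos 167 .pm ⟨0, 0, 156112176, 0, 0, 0, 0, 0, 0, ⟨0, 0⟩, 0⟩ 0 0)) (.pos 161 .pm ⟨0, 0, 289046820, 0, 0, 0, 0, 0, 0, ⟨0,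 0⟩, 0⟩ 0 0)) (.pos 151 .pm ⟨0, 0, 561939030, 0, 0, 0, 0, 0, 0, ⟨0, 0⟩, 0⟩ 0 0)) (.pos 129 .pm ⟨0, 0, 1107968297, 0, 0, 0, 0, 0, 0, ⟨0, 0⟩, 0⟩ 0 0)) (.pos 107 .pm ⟨0, 0, 2201006219, 0, 0, 0, 0, 0, 0, ⟨0, 0⟩, 0⟩ 0 0)) (.pos 7 .pm ⟨0, 0, 4390999614, 0, 0, 0, 0, 0, 0, ⟨0, 0⟩, 0⟩ 0 0)) (.pos 5 .pm ⟨0, 0, 8786656608, 0, 0, 0, 0, 0, 0, ⟨0, 0⟩, 0⟩ 0 0)) (.pos 3 .pm ⟨0, 0, 11674044340, 0, 0, 0, 0, 0, 0, ⟨0, 0⟩, 0⟩ 0 0)) (.cut .v 4294967296 (.cut .v 268435456 (.cut .v 67108864 (.pos 70 .pp ⟨0, 0, 0, 0, 0, 0, 0, 0, 0, ⟨0, 0⟩, 0⟩ 0 0) (.cut .v 134217728 (.pos 87 .pp ⟨94654038237, 0, 0, 0, 0, 0, 0, 0, 0, ⟨0, 0⟩, 0⟩ 0 0) (.cut .s 16539648 (.void 88 ⟨90531, 0, 0, 9469, 0,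 0, 0, 0, 0, ⟨0, 0⟩, 0⟩ 0 0) (.void 88 ⟨90518, 0, 0, 9482, 0, 0, 0, 0, 0, ⟨0, 0⟩, 0⟩ 0 0)))) (.void 103 ⟨0, 0, 0, 100000, 0, 0, 0, 0, 0, ⟨0, 0⟩, 0⟩ 0 0)) (.void 170 ⟨0, 0, 0, 100000, 0, 0, 0, 0, 0, ⟨0, 0⟩, 0⟩ 0 0)))),
    by decide +kernel⟩

def covers35 : cell.Covers table row35.1 :=
  ⟨(.cut .d 0 (.cut .v 16777216 (.cut .d (-8388608) (.void 1 ⟨0, 0, 0, 0, 0, 100000, 0, 0, 0, ⟨0, 0⟩, 0⟩ 0 0) (.cut .v 8388608 (.pos 2 .mm ⟨0, 0, 167772160000, 0, 0, 0, 0, 0, 0, ⟨0, 0⟩, 0⟩ 0 0) (.pos 3 .mm ⟨125695166546, 0, 42076993454, 0, 0, 0, 0, 0, 0, ⟨0, 0⟩, 0⟩ 0 0))) (.cut .d (-8388608) (.void 169 ⟨100000, 0, 0, 0, 0, 0, 0, 0, 0, ⟨0, 0⟩, 0⟩ 0 0) (.cut .v 4294967296 (.cut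 .v 268435456 (.cut .v 67108864 (.cut .d (-4194304) (.void 70 ⟨100000, 0, 0, 0, 0, 0, 0, 0, 0, ⟨0, 0⟩, 0⟩ 0 0) (.cut .v 33554432 (.cut .d (-2097152) (.void 28 ⟨100000, 0, 0, 0, 0, 0, 0, 0, 0, ⟨0, 0⟩, 0⟩ 0 0) (.pos 28 .mp ⟨73160676155, 0, 0, 0, 0, 94611483845, 0, 0, 0, ⟨0, 0⟩, 0⟩ 0 0)) (.void 71 ⟨436071611, 0, 0, 0, 0, 563928389, 0, 0, 0, ⟨0, 0⟩, 0⟩ 0 0))) (.void 86 ⟨436071611, 0, 0, 0, 0, 563928389, 0, 0, 0, ⟨0, 0⟩, 0⟩ 0 0)) (.void 103 ⟨436071611, 0, 0, 0, 0, 563928389, 0, 0, 0, ⟨0, 0⟩, 0⟩ 0 0)) (.void 170 ⟨436071611, 0, 0, 0, 0, 563928389, 0, 0, 0, ⟨0, 0⟩, 0⟩ 0 0)))) (.cut .v 16777216 (.cut .v 8388608 (.cut .v 4194304 (.cut .v 2097152 (.cut .v 1048576 (.cut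 .v 524288 (.cut .v 262144 (.cut .v 131072 (.cut .v 65536 (.pos 166 .pm ⟨0, 0, 118211162, 0, 0, 0, 0, 0, 0, ⟨0, 0⟩, 0⟩ 0 0) (.pos 167 .pm ⟨0, 0, 290450040, 0, 0, 0, 0, 0, 0, ⟨0, 0⟩, 0⟩ 0 0)) (.pos 161 .pm ⟨0, 0, 547510375, 0, 0, 0, 0, 0, 0, ⟨0, 0⟩, 0⟩ 0 0)) (.pos 151 .pm ⟨0, 0, 1044386733, 0, 0, 0, 0, 0, 0, ⟨0, 0⟩, 0⟩ 0 0)) (.pos 129 .pm ⟨0, 0, 2010742785, 0, 0, 0, 0, 0, 0, ⟨0, 0⟩, 0⟩ 0 0)) (.pos 107 .pm ⟨0, 0, 3865721568, 0, 0, 0, 0, 0, 0, ⟨0, 0⟩, 0⟩ 0 0)) (.pos 7 .pm ⟨0, 0, 7340417833, 0, 0, 0, 0, 0, 0, ⟨0, 0⟩, 0⟩ 0 0)) (.pos 5 .pm ⟨0, 0, 13564330872, 0, 0, 0, 0, 0, 0, ⟨0, 0⟩, 0⟩ 0 0)) (.pos 3 .pm ⟨0, 0, 25333878702, 0, 0, 0, 0, 0, 0, ⟨0, 0⟩, 0⟩ 0 0)) (.cut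 .v 4294967296 (.cut .v 268435456 (.pos 85 .pp ⟨39206822224, 26925700648, 0, 0, 0, 0, 0, 0, 0, ⟨0, 0⟩, 0⟩ 0 0) (.cut .s 16588800 (.void 103 ⟨0, 0, 0, 100000, 0, 0, 0, 0, 0, ⟨0, 0⟩, 0⟩ 0 0) (.void 103 ⟨0, 0, 0, 100000, 0, 0, 0, 0, 0, ⟨0, 0⟩, 0⟩ 0 0))) (.void 170 ⟨0, 0, 0, 100000, 0, 0, 0, 0, 0, ⟨0, 0⟩, 0⟩ 0 0)))),
    by decide +kernel⟩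

def covers36 : cell.Covers table row36.1 :=
  ⟨(.cut .d 0 (.cut .v 16777216 (.cut .d (-8388608) (.cut .s 16629760 (.void 1 ⟨0, 0, 100000, 0, 0, 0, 0, 0, 0, ⟨0, 0⟩, 0⟩ 0 0) (.void 1 ⟨0, 0, 0, 0, 0, 138105, 0, 0, 0, ⟨0, 0⟩, 0⟩ 0 0)) (.cut .d (-4194304) (.void 1 ⟨0, 0, 100000, 0, 0, 0, 0, 0, 0, ⟨0, 0⟩, 0⟩ 0 0) (.cut .v 8388608 (.void 2 ⟨0, 0, 100000, 0, 0, 0, 0, 0, 0, ⟨0, 0⟩, 0⟩ 0 0) (.pos 3 .mm ⟨60445791761, 0, 43031671363, 0, 0, 64294696877, 0, 0, 0, ⟨0, 0⟩, 0⟩ 0 0)))) (.cut .v 4294967296 (.cut .d (-8388608) (.void 102 ⟨0, 0, 0, 0, 0, 1000000000, 0, 0, 0, ⟨0, 0⟩, 0⟩ 0 0) (.cut .v 268435456 (.cut .v 67108864 (.cut .d (-4194304) (.void 70 ⟨1000000000, 0, 0,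 0, 0, 0, 0, 0, 0, ⟨0, 0⟩, 0⟩ 0 0) (.cut .v 33554432 (.cut .d (-2097152) (.void 28 ⟨1000000000, 0, 0, 0, 0, 0, 0, 0, 0, ⟨0, 0⟩, 0⟩ 0 0) (.cut .d (-1048576) (.void 28 ⟨1000000000, 0, 0, 0, 0, 0, 0, 0, 0, ⟨0, 0⟩, 0⟩ 0 0) (.pos 28 .mp ⟨119118988722, 0, 0, 0, 0, 48653171278, 0, 0, 0, ⟨0, 0⟩, 0⟩ 0 0))) (.void 71 ⟨710004501, 0, 0, 0, 0, 289995499, 0, 0, 0, ⟨0, 0⟩, 0⟩ 0 0))) (.void 86 ⟨710004501, 0, 0, 0, 0, 289995499, 0, 0, 0, ⟨0, 0⟩, 0⟩ 0 0)) (.void 103 ⟨710004501, 0, 0, 0, 0, 289995499, 0, 0, 0, ⟨0, 0⟩, 0⟩ 0 0))) (.void 170 ⟨95037, 0, 0, 4963, 0, 0, 0, 0, 0, ⟨0, 0⟩, 0⟩ 0 0))) (.cut .v 16777216 (.cut .v 8388608 (.cut .v 4194304 (.cut .v 2097152 (.cut .v 1048576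 (.cut .v 524288 (.cut .v 262144 (.cut .v 131072 (.cut .v 65536 (.cut .v 32768 (.cut .v 16384 (.pos 185 .pm ⟨0, 0, 63613291, 0, 0, 0, 0, 0, 0, ⟨0, 0⟩, 0⟩ 0 0) (.pos 186 .pm ⟨0, 0, 144308202, 0, 0, 0, 0, 0, 0, ⟨0, 0⟩, 0⟩ 0 0)) (.pos 172 .pm ⟨0, 0, 257309827, 0, 0, 0, 0, 0, 0, ⟨0, 0⟩, 0⟩ 0 0)) (.pos 167 .pm ⟨0, 0, 473340564, 0, 0, 0, 0, 0, 0, ⟨0, 0⟩, 0⟩ 0 0)) (.pos 161 .pm ⟨0, 0, 913508187, 0, 0, 0, 0, 0, 0, ⟨0, 0⟩, 0⟩ 0 0)) (.pos 151 .pm ⟨0, 0, 1810943503, 0, 0, 0, 0, 0, 0, ⟨0, 0⟩, 0⟩ 0 0)) (.pos 129 .pm ⟨0, 0, 3606067509, 0, 0, 0, 0, 0, 0, ⟨0, 0⟩, 0⟩ 0 0)) (.pos 107 .pm ⟨0, 0, 7197329022, 0, 0, 0, 0, 0, 0, ⟨0, 0⟩, 0⟩ 0 0)) (.pos 7 .pm ⟨0, 0, 14383906045, 0,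 0, 0, 0, 0, 0, ⟨0, 0⟩, 0⟩ 0 0)) (.pos 5 .pm ⟨0, 0, 28773276079, 0, 0, 0, 0, 0, 0, ⟨0, 0⟩, 0⟩ 0 0)) (.pos 3 .pm ⟨0, 0, 32058430404, 0, 0, 0, 0, 0, 0, ⟨0, 0⟩, 0⟩ 0 0)) (.cut .v 4294967296 (.cut .v 268435456 (.cut .v 67108864 (.pos 70 .pp ⟨0, 0, 0, 0, 0, 0, 0, 0, 0, ⟨0, 0⟩, 0⟩ 0 0) (.cut .v 134217728 (.pos 87 .pp ⟨167772160000, 0, 0, 0, 0, 0, 0, 0, 0, ⟨0, 0⟩, 0⟩ 0 0) (.void 88 ⟨90474, 0, 0, 9526, 0, 0, 0, 0, 0, ⟨0, 0⟩, 0⟩ 0 0))) (.void 103 ⟨0, 0, 0, 100000, 0, 0, 0, 0, 0, ⟨0, 0⟩, 0⟩ 0 0)) (.void 170 ⟨0, 0, 0, 100000, 0, 0, 0, 0, 0, ⟨0, 0⟩, 0⟩ 0 0)))),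
    by decide +kernel⟩

def covers37 : cell.Covers table row37.1 :=
  ⟨(.cut .d 0 (.cut .v 16777216 (.cut .d (-8388608) (.void 1 ⟨0, 0, 100000, 0, 0, 0, 0, 0, 0, ⟨0, 0⟩, 0⟩ 0 0) (.cut .d (-4194304) (.void 1 ⟨0, 0, 100000, 0, 0, 0, 0, 0, 0, ⟨0, 0⟩, 0⟩ 0 0) (.cut .v 8388608 (.void 2 ⟨0, 0, 100000, 0, 0, 0, 0, 0, 0, ⟨0, 0⟩, 0⟩ 0 0) (.pos 3 .mm ⟨117451747292, 0, 50320412708, 0, 0, 0, 0, 0, 0, ⟨0, 0⟩, 0⟩ 0 0)))) (.cut .v 4294967296 (.cut .d (-8388608) (.void 102 ⟨0, 0, 0, 0, 0, 1000000000, 0, 0, 0, ⟨0, 0⟩, 0⟩ 0 0) (.cut .v 268435456 (.cut .v 67108864 (.cut .d (-4194304) (.void 70 ⟨1000000000, 0, 0, 0, 0, 0, 0, 0, 0, ⟨0, 0⟩, 0⟩ 0 0) (.cut .v 33554432 (.cut .d (-2097152)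 (.void 28 ⟨1000000000, 0, 0, 0, 0, 0, 0, 0, 0, ⟨0, 0⟩, 0⟩ 0 0) (.cut .v 25165824 (.pos 29 .mp ⟨153128041366, 0, 0, 0, 0, 14644118634, 0, 0, 0, ⟨0, 0⟩, 0⟩ 0 0) (.void 30 ⟨912714251, 0, 0, 0, 0, 87285749, 0, 0, 0, ⟨0, 0⟩, 0⟩ 0 0))) (.void 71 ⟨912714251, 0, 0, 0, 0, 87285749, 0, 0, 0, ⟨0, 0⟩, 0⟩ 0 0))) (.void 86 ⟨912714251, 0, 0, 0, 0, 87285749, 0, 0, 0, ⟨0, 0⟩, 0⟩ 0 0)) (.void 103 ⟨912714251, 0, 0, 0, 0, 87285749, 0, 0, 0, ⟨0, 0⟩, 0⟩ 0 0))) (.void 170 ⟨912714251, 0, 0, 0, 0, 87285749, 0, 0, 0, ⟨0, 0⟩, 0⟩ 0 0))) (.cut .v 16777216 (.cut .v 8388608 (.cut .v 4194304 (.cut .v 2097152 (.cut .v 1048576 (.cut .v 524288 (.cut .v 262144 (.cut .v 131072 (.cut .v 65536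 (.cut .v 32768 (.cut .v 16384 (.cut .v 8192 (.pos 187 .pm ⟨0, 0, 47463085, 0, 0, 0, 0, 0, 0, ⟨0, 0⟩, 0⟩ 0 0) (.pos 188 .pm ⟨0, 0, 101014747, 0, 0, 0, 0, 0, 0, ⟨0, 0⟩, 0⟩ 0 0)) (.pos 186 .pm ⟨0, 0, 173419135, 0, 0, 0, 0, 0, 0, ⟨0, 0⟩, 0⟩ 0 0)) (.pos 172 .pm ⟨0, 0, 302051230, 0, 0, 0, 0, 0, 0, ⟨0, 0⟩, 0⟩ 0 0)) (.pos 167 .pm ⟨0, 0, 545470613, 0, 0, 0, 0, 0, 0, ⟨0, 0⟩, 0⟩ 0 0)) (.pos 161 .pm ⟨0, 0, 1040900443, 0, 0, 0, 0, 0, 0, ⟨0, 0⟩, 0⟩ 0 0)) (.pos 151 .pm ⟨0, 0, 2041290521, 0, 0, 0, 0, 0, 0, ⟨0, 0⟩, 0⟩ 0 0)) (.pos 129 .pm ⟨0, 0, 4016489932, 0, 0, 0, 0, 0, 0, ⟨0, 0⟩, 0⟩ 0 0)) (.pos 107 .pm ⟨0, 0, 7892156930, 0, 0, 0, 0, 0, 0, ⟨0, 0⟩, 0⟩ 0 0)) (.pos 7 .pm ⟨0,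 0, 15406643396, 0, 0, 0, 0, 0, 0, ⟨0, 0⟩, 0⟩ 0 0)) (.pos 5 .pm ⟨0, 0, 29648947421, 0, 0, 0, 0, 0, 0, ⟨0, 0⟩, 0⟩ 0 0)) (.pos 3 .pm ⟨0, 0, 32058714464, 0, 0, 0, 0, 0, 0, ⟨0, 0⟩, 0⟩ 0 0)) (.cut .v 4294967296 (.cut .v 268435456 (.cut .v 67108864 (.pos 70 .pp ⟨0, 0, 0, 0, 0, 0, 0, 0, 0, ⟨0, 0⟩, 0⟩ 0 0) (.cut .v 134217728 (.pos 87 .pp ⟨167772160000, 0, 0, 0, 0, 0, 0, 0, 0, ⟨0, 0⟩, 0⟩ 0 0) (.void 88 ⟨90501, 0, 0, 9499, 0, 0, 0, 0, 0, ⟨0, 0⟩, 0⟩ 0 0))) (.void 103 ⟨0, 0, 0, 100000, 0, 0, 0, 0, 0, ⟨0, 0⟩, 0⟩ 0 0)) (.void 170 ⟨0, 0, 0, 100000, 0, 0, 0, 0, 0, ⟨0, 0⟩, 0⟩ 0 0)))),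
    by decide +kernel⟩

def covers38 : cell.Covers table row38.1 :=
  ⟨(.cut .d 0 (.cut .v 16777216 (.cut .d (-8388608) (.void 1 ⟨0, 0, 2865, 0, 0, 97135, 0, 0, 0, ⟨0, 0⟩, 0⟩ 0 0) (.cut .v 8388608 (.cut .s 16678912 (.void 2 ⟨0, 0, 1000000000, 0, 0, 0, 0, 0, 0, ⟨0, 0⟩, 0⟩ 0 0) (.void 2 ⟨0, 0, 100000, 0, 0, 0, 0, 0, 0, ⟨0, 0⟩, 0⟩ 0 0)) (.cut .d (-4194304) (.void 3 ⟨100000, 0, 0, 0, 0, 0, 0, 0, 0, ⟨0, 0⟩, 0⟩ 0 0) (.cut .d (-2097152) (.void 3 ⟨100000, 0, 0, 0, 0, 0, 0, 0, 0, ⟨0, 0⟩, 0⟩ 0 0) (.cut .d (-1048576) (.void 3 ⟨100000, 0, 0, 0, 0, 0, 0, 0, 0, ⟨0, 0⟩, 0⟩ 0 0) (.pos 3 .mm ⟨130558209415, 0, 37213950585, 0, 0, 0, 0, 0, 0, ⟨0, 0⟩, 0⟩ 0 0)))))) (.cut .d (-8388608)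 (.void 169 ⟨100000, 0, 0, 0, 0, 0, 0, 0, 0, ⟨0, 0⟩, 0⟩ 0 0) (.cut .v 4294967296 (.cut .v 268435456 (.cut .v 67108864 (.cut .d (-4194304) (.void 70 ⟨100000, 0, 0, 0, 0, 0, 0, 0, 0, ⟨0, 0⟩, 0⟩ 0 0) (.cut .d (-2097152) (.void 70 ⟨100000, 0, 0, 0, 0, 0, 0, 0, 0, ⟨0, 0⟩, 0⟩ 0 0) (.cut .v 33554432 (.cut .d (-1048576) (.void 28 ⟨100000, 0, 0, 0, 0, 0, 0, 0, 0, ⟨0, 0⟩, 0⟩ 0 0) (.cut .d (-524288) (.void 28 ⟨100000, 0, 0, 0, 0, 0, 0, 0, 0, ⟨0, 0⟩, 0⟩ 0 0) (.cut .v 25165824 (.cut .v 20971520 (.pos 31 .mp ⟨167772160000, 0, 0, 0, 0, 0, 0, 0, 0, ⟨0, 0⟩, 0⟩ 0 0) (.void 32 ⟨100000, 0, 0, 0, 0, 0, 0, 0, 0, ⟨0, 0⟩, 0⟩ 0 0)) (.void 30 ⟨100000, 0, 0, 0, 0, 0, 0, 0, 0, ⟨0, 0⟩,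 0⟩ 0 0)))) (.void 71 ⟨100000, 0, 0, 0, 0, 0, 0, 0, 0, ⟨0, 0⟩, 0⟩ 0 0)))) (.void 86 ⟨100000, 0, 0, 0, 0, 0, 0, 0, 0, ⟨0, 0⟩, 0⟩ 0 0)) (.void 103 ⟨93036, 0, 0, 7329, 0, 0, 0, 0, 0, ⟨0, 0⟩, 0⟩ 0 0)) (.void 170 ⟨92723, 0, 0, 7277, 0, 0, 0, 0, 0, ⟨0, 0⟩, 0⟩ 0 0)))) (.cut .v 16777216 (.cut .v 8388608 (.cut .v 4194304 (.cut .v 2097152 (.cut .v 1048576 (.cut .v 524288 (.cut .v 262144 (.cut .v 131072 (.cut .v 65536 (.cut .v 32768 (.cut .v 16384 (.cut .v 8192 (.pos 187 .pm ⟨0, 0, 67484019, 0, 0, 0, 0, 0, 0, ⟨0, 0⟩, 0⟩ 0 0) (.pos 188 .pm ⟨0, 0, 152079247, 0, 0, 0, 0, 0, 0, ⟨0, 0⟩, 0⟩ 0 0)) (.pos 186 .pm ⟨0, 0, 262157915, 0, 0, 0, 0, 0, 0, ⟨0, 0⟩, 0⟩ 0 0)) (.pos 172 .pm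 ⟨0, 0, 464219010, 0, 0, 0, 0, 0, 0, ⟨0, 0⟩, 0⟩ 0 0)) (.pos 167 .pm ⟨0, 0, 849773131, 0, 0, 0, 0, 0, 0, ⟨0, 0⟩, 0⟩ 0 0)) (.pos 161 .pm ⟨0, 0, 1627988389, 0, 0, 0, 0, 0, 0, ⟨0, 0⟩, 0⟩ 0 0)) (.pos 151 .pm ⟨0, 0, 3150381465, 0, 0, 0, 0, 0, 0, ⟨0, 0⟩, 0⟩ 0 0)) (.pos 129 .pm ⟨0, 0, 6090765611, 0, 0, 0, 0, 0, 0, ⟨0, 0⟩, 0⟩ 0 0)) (.pos 107 .pm ⟨0, 0, 11671180915, 0, 0, 0, 0, 0, 0, ⟨0, 0⟩, 0⟩ 0 0)) (.pos 7 .pm ⟨0, 0, 21922610123, 0, 0, 0, 0, 0, 0, ⟨0, 0⟩, 0⟩ 0 0)) (.pos 5 .pm ⟨0, 0, 39681845534, 0, 0, 0, 0, 0, 0, ⟨0, 0⟩, 0⟩ 0 0)) (.pos 3 .pm ⟨0, 0, 40367054795, 0, 0, 0, 0, 0, 0, ⟨0, 0⟩, 0⟩ 0 0)) (.cut .v 4294967296 (.cut .v 268435456 (.cut .v 67108864 (.pos 70 .pp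 ⟨0, 0, 0, 0, 0, 0, 0, 0, 0, ⟨0, 0⟩, 0⟩ 0 0) (.cut .v 134217728 (.cut .d 57740 (.cut .d 28870 (.cut .d 14435 (.cut .d 7217 (.void 87 ⟨100000, 0, 0, 0, 0, 0, 0, 0, 0, ⟨0, 0⟩, 0⟩ 0 0) (.pos 87 .pp ⟨167772160000, 0, 0, 0, 0, 0, 0, 0, 0, ⟨0, 0⟩, 0⟩ 0 0)) (.pos 87 .pp ⟨167772160000, 0, 0, 0, 0, 0, 0, 0, 0, ⟨0, 0⟩, 0⟩ 0 0)) (.pos 87 .pp ⟨0, 163683724154, 0, 4088435846, 0, 0, 0, 0, 0, ⟨0, 0⟩, 0⟩ 0 0)) (.pos 87 .pp ⟨0, 0, 0, 0, 0, 0, 0, 0, 0, ⟨0, 0⟩, 0⟩ 0 0)) (.void 88 ⟨90497, 0, 0, 9503, 0, 0, 0, 0, 0, ⟨0, 0⟩, 0⟩ 0 0))) (.cut .s 16678912 (.void 103 ⟨0, 0, 0, 100000, 0, 0, 0, 0, 0, ⟨0, 0⟩, 0⟩ 0 0) (.void 103 ⟨0, 0, 0, 100000, 0, 0, 0, 0, 0, ⟨0, 0⟩, 0⟩ 0 0))) (.void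 170 ⟨0, 0, 0, 100000, 0, 0, 0, 0, 0, ⟨0, 0⟩, 0⟩ 0 0)))),
    by decide +kernel⟩

def covers39 : cell.Covers table row39.1 :=
  ⟨(.cut .d 0 (.cut .v 16777216 (.cut .d (-8388608) (.void 1 ⟨0, 0, 100000, 0, 0, 0, 0, 0, 0, ⟨0, 0⟩, 0⟩ 0 0) (.cut .d (-4194304) (.void 1 ⟨0, 0, 100000, 0, 0, 0, 0, 0, 0, ⟨0, 0⟩, 0⟩ 0 0) (.cut .d (-2097152) (.void 1 ⟨0, 0, 100000, 0, 0, 0, 0, 0, 0, ⟨0, 0⟩, 0⟩ 0 0) (.cut .d (-1048576) (.void 1 ⟨0, 0, 100000, 0, 0, 0, 0, 0, 0, ⟨0, 0⟩, 0⟩ 0 0) (.cut .v 8388608 (.void 2 ⟨0, 0, 100000, 0, 0, 0, 0, 0, 0, ⟨0, 0⟩, 0⟩ 0 0) (.cut .d (-524288) (.void 3 ⟨1000000000, 0, 0, 0, 0, 0, 0, 0, 0, ⟨0, 0⟩, 0⟩ 0 0) (.cut .d (-262144) (.void 3 ⟨1000000000,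 0, 0, 0, 0, 0, 0, 0, 0, ⟨0, 0⟩, 0⟩ 0 0) (.cut .d (-131072) (.void 3 ⟨1000000000, 0, 0, 0, 0, 0, 0, 0, 0, ⟨0, 0⟩, 0⟩ 0 0) (.pos 3 .mm ⟨140976015138, 0, 0, 0, 0, 26796144862, 0, 0, 0, ⟨0, 0⟩, 0⟩ 0 0))))))))) (.cut .v 4294967296 (.cut .d (-8388608) (.void 102 ⟨0, 0, 0, 0, 0, 1000000000, 0, 0, 0, ⟨0, 0⟩, 0⟩ 0 0) (.cut .v 268435456 (.cut .v 67108864 (.cut .d (-4194304) (.void 70 ⟨1000000000, 0, 0, 0, 0, 0, 0, 0, 0, ⟨0, 0⟩, 0⟩ 0 0) (.cut .d (-2097152) (.void 70 ⟨1000000000, 0, 0, 0, 0, 0, 0, 0, 0, ⟨0, 0⟩, 0⟩ 0 0) (.cut .v 33554432 (.cut .d (-1048576) (.void 28 ⟨1000000000, 0, 0, 0, 0, 0, 0, 0, 0, ⟨0, 0⟩, 0⟩ 0 0) (.cut .d (-524288) (.void 28 ⟨1000000000, 0, 0, 0,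 0, 0, 0, 0, 0, ⟨0, 0⟩, 0⟩ 0 0) (.cut .d (-262144) (.void 28 ⟨1000000000, 0, 0, 0, 0, 0, 0, 0, 0, ⟨0, 0⟩, 0⟩ 0 0) (.cut .d (-131072) (.void 28 ⟨1000000000, 0, 0, 0, 0, 0, 0, 0, 0, ⟨0, 0⟩, 0⟩ 0 0) (.cut .d (-65536) (.void 28 ⟨1000000000, 0, 0, 0, 0, 0, 0, 0, 0, ⟨0, 0⟩, 0⟩ 0 0) (.cut .d (-32768) (.void 28 ⟨1000000000, 0, 0, 0, 0, 0, 0, 0, 0, ⟨0, 0⟩, 0⟩ 0 0) (.pos 28 .mp ⟨167772160000, 0, 0, 0, 0, 0, 0, 0, 0, ⟨0, 0⟩, 0⟩ 0 0))))))) (.void 71 ⟨1000000000, 0, 0, 0, 0, 0, 0, 0, 0, ⟨0, 0⟩, 0⟩ 0 0)))) (.void 86 ⟨1000000000, 0, 0, 0, 0, 0, 0, 0, 0, ⟨0, 0⟩, 0⟩ 0 0)) (.void 103 ⟨1000000000, 0, 0, 0, 0, 0, 0, 0, 0, ⟨0, 0⟩, 0⟩ 0 0))) (.cut .v 68719476736 (.void 189 ⟨95019,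 0, 0, 4981, 0, 0, 0, 0, 0, ⟨0, 0⟩, 0⟩ 0 0) (.void 190 ⟨0, 0, 0, 100000, 0, 0, 0, 0, 0, ⟨0, 0⟩, 0⟩ 0 0)))) (.cut .v 16777216 (.cut .v 8388608 (.cut .v 4194304 (.cut .v 2097152 (.cut .v 1048576 (.cut .v 524288 (.cut .v 262144 (.cut .v 131072 (.cut .v 65536 (.cut .v 32768 (.cut .v 16384 (.cut .v 8192 (.cut .v 4096 (.pos 191 .pm ⟨0, 0, 55212877, 0, 0, 0, 0, 0, 0, ⟨0, 0⟩, 0⟩ 0 0) (.pos 192 .pm ⟨0, 0, 124211351, 0, 0, 0, 0, 0, 0, ⟨0, 0⟩, 0⟩ 0 0)) (.pos 188 .pm ⟨0, 0, 216711252, 0, 0, 0, 0, 0, 0, ⟨0, 0⟩, 0⟩ 0 0)) (.pos 186 .pm ⟨0, 0, 386917601, 0, 0, 0, 0, 0, 0, ⟨0, 0⟩, 0⟩ 0 0)) (.pos 172 .pm ⟨0, 0, 700562119, 0, 0, 0, 0, 0, 0, ⟨0, 0⟩, 0⟩ 0 0)) (.pos 167 .pm ⟨0,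 0, 1286755798, 0, 0, 0, 0, 0, 0, ⟨0, 0⟩, 0⟩ 0 0)) (.pos 161 .pm ⟨0, 0, 2472682873, 0, 0, 0, 0, 0, 0, ⟨0, 0⟩, 0⟩ 0 0)) (.pos 151 .pm ⟨0, 0, 4850636973, 0, 0, 0, 0, 0, 0, ⟨0, 0⟩, 0⟩ 0 0)) (.pos 129 .pm ⟨0, 0, 9504976718, 0, 0, 0, 0, 0, 0, ⟨0, 0⟩, 0⟩ 0 0)) (.pos 107 .pm ⟨0, 0, 18515240768, 0, 0, 0, 0, 0, 0, ⟨0, 0⟩, 0⟩ 0 0)) (.pos 7 .pm ⟨0, 0, 35598360994, 0, 0, 0, 0, 0, 0, ⟨0, 0⟩, 0⟩ 0 0)) (.pos 5 .pm ⟨0, 0, 66753688345, 0, 0, 0, 0, 0, 0, ⟨0, 0⟩, 0⟩ 0 0)) (.pos 3 .pm ⟨0, 0, 65449288338, 0, 0, 0, 0, 0, 0, ⟨0, 0⟩, 0⟩ 0 0)) (.cut .v 4294967296 (.cut .v 268435456 (.cut .v 67108864 (.pos 70 .pp ⟨0, 0, 0, 0, 0, 0, 0, 0, 0, ⟨0, 0⟩, 0⟩ 0 0) (.cut .v 134217728 (.cut .v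 100663296 (.pos 89 .pp ⟨167772160000, 0, 0, 0, 0, 0, 0, 0, 0, ⟨0, 0⟩, 0⟩ 0 0) (.cut .d 41162 (.cut .d 20581 (.cut .d 10290 (.void 90 ⟨100000, 0, 0, 0, 0, 0, 0, 0, 0, ⟨0, 0⟩, 0⟩ 0 0) (.pos 90 .pp ⟨167772160000, 0, 0, 0, 0, 0, 0, 0, 0, ⟨0, 0⟩, 0⟩ 0 0)) (.pos 90 .pp ⟨0, 117877155220, 0, 49895004780, 0, 0, 0, 0, 0, ⟨0, 0⟩, 0⟩ 0 0)) (.void 90 ⟨0, 0, 0, 100000, 0, 0, 0, 0, 0, ⟨0, 0⟩, 0⟩ 0 0))) (.void 88 ⟨90423, 0, 0, 9577, 0, 0, 0, 0, 0, ⟨0, 0⟩, 0⟩ 0 0))) (.void 103 ⟨0, 0, 0, 100000, 0, 0, 0, 0, 0, ⟨0, 0⟩, 0⟩ 0 0)) (.void 170 ⟨0, 0, 0, 100000, 0, 0, 0, 0, 0, ⟨0, 0⟩, 0⟩ 0 0)))),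
    by decide +kernel⟩

def covers40 : cell.Covers table row40.1 :=
  ⟨(.cut .d 0 (.cut .v 16777216 (.cut .d (-8388608) (.void 1 ⟨0, 0, 100000, 0, 0, 0, 0, 0, 0, ⟨0, 0⟩, 0⟩ 0 0) (.cut .d (-4194304) (.void 1 ⟨0, 0, 100000, 0, 0, 0, 0, 0, 0, ⟨0, 0⟩, 0⟩ 0 0) (.cut .d (-2097152) (.void 1 ⟨0, 0, 100000, 0, 0, 0, 0, 0, 0, ⟨0, 0⟩, 0⟩ 0 0) (.cut .d (-1048576) (.void 1 ⟨0, 0, 100000, 0, 0, 0, 0, 0, 0, ⟨0, 0⟩, 0⟩ 0 0) (.cut .d (-524288) (.void 1 ⟨0, 0, 100000, 0, 0, 0, 0, 0, 0, ⟨0, 0⟩, 0⟩ 0 0) (.cut .d (-262144) (.void 1 ⟨0, 0, 100000, 0, 0, 0, 0, 0, 0, ⟨0, 0⟩, 0⟩ 0 0) (.cut .d (-131072) (.void 1 ⟨0, 0, 100000, 0, 0, 0, 0, 0, 0, ⟨0, 0⟩, 0⟩ 0 0) (.cut .d (-65536) (.void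 1 ⟨0, 0, 100000, 0, 0, 0, 0, 0, 0, ⟨0, 0⟩, 0⟩ 0 0) (.cut .v 8388608 (.cut .d (-32768) (.void 2 ⟨0, 0, 1000000000, 0, 0, 0, 0, 0, 0, ⟨0, 0⟩, 0⟩ 0 0) (.void 2 ⟨0, 0, 1000000000, 0, 0, 0, 0, 0, 0, ⟨0, 0⟩, 0⟩ 0 0)) (.cut .d (-32768) (.void 3 ⟨1000000000, 0, 0, 0, 0, 0, 0, 0, 0, ⟨0, 0⟩, 0⟩ 0 0) (.pos 3 .mm ⟨129844485322, 0, 0, 0, 0, 37927674678, 0, 0, 0, ⟨0, 0⟩, 0⟩ 0 0))))))))))) (.cut .v 4294967296 (.cut .d (-8388608) (.void 102 ⟨100000, 0, 234, 2098, 0, 0, 0, 0, 0, ⟨0, 0⟩, 0⟩ 0 0) (.cut .v 268435456 (.cut .v 67108864 (.cut .d (-4194304) (.void 70 ⟨1000000000, 0, 0, 0, 0, 0, 0, 0, 0, ⟨0, 0⟩, 0⟩ 0 0) (.cut .d (-2097152) (.void 70 ⟨1000000000, 0, 0, 0, 0, 0, 0,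 0, 0, ⟨0, 0⟩, 0⟩ 0 0) (.cut .v 33554432 (.cut .d (-1048576) (.void 28 ⟨1000000000, 0, 0, 0, 0, 0, 0, 0, 0, ⟨0, 0⟩, 0⟩ 0 0) (.cut .d (-524288) (.void 28 ⟨1000000000, 0, 0, 0, 0, 0, 0, 0, 0, ⟨0, 0⟩, 0⟩ 0 0) (.cut .d (-262144) (.void 28 ⟨1000000000, 0, 0, 0, 0, 0, 0, 0, 0, ⟨0, 0⟩, 0⟩ 0 0) (.cut .d (-131072) (.void 28 ⟨1000000000, 0, 0, 0, 0, 0, 0, 0, 0, ⟨0, 0⟩, 0⟩ 0 0) (.cut .d (-65536) (.void 28 ⟨1000000000, 0, 0, 0, 0, 0, 0, 0, 0, ⟨0, 0⟩, 0⟩ 0 0) (.cut .d (-32768) (.void 28 ⟨1000000000, 0, 0, 0, 0, 0, 0, 0, 0, ⟨0, 0⟩, 0⟩ 0 0) (.cut .d (-16384) (.void 28 ⟨1000000000, 0, 0, 0, 0, 0, 0, 0, 0, ⟨0, 0⟩, 0⟩ 0 0) (.pos 28 .mp ⟨167772160000, 0, 0, 0, 0, 0, 0, 0, 0,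 ⟨0, 0⟩, 0⟩ 0 0)))))))) (.void 71 ⟨1000000000, 0, 0, 0, 0, 0, 0, 0, 0, ⟨0, 0⟩, 0⟩ 0 0)))) (.void 86 ⟨1000000000, 0, 0, 0, 0, 0, 0, 0, 0, ⟨0, 0⟩, 0⟩ 0 0)) (.void 103 ⟨1000000000, 0, 0, 0, 0, 0, 0, 0, 0, ⟨0, 0⟩, 0⟩ 0 0))) (.cut .v 68719476736 (.cut .v 17179869184 (.cut .v 8589934592 (.cut .d (-8388608) (.void 195 ⟨54191, 0, 0, 55, 0, 0, 0, 45809, 0, ⟨(-1), 9570306⟩, 0⟩ 0 128) (.cut .s 16719872 (.void 195 ⟨1000000000, 0, 0, 0, 0, 0, 0, 0, 0, ⟨0, 0⟩, 0⟩ 0 0) (.void 195 ⟨1000000000, 0, 0, 0, 0, 0, 0, 0, 0, ⟨0, 0⟩, 0⟩ 0 0))) (.void 196 ⟨1000000000, 0, 0, 0, 0, 0, 0, 0, 0, ⟨0, 0⟩, 0⟩ 0 0)) (.void 194 ⟨1000000000, 0, 0, 0, 0, 0, 0, 0, 0, ⟨0, 0⟩, 0⟩ 0 0)) (.void 190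 ⟨0, 0, 0, 100000, 0, 0, 0, 0, 0, ⟨0, 0⟩, 0⟩ 0 0)))) (.cut .v 16777216 (.cut .v 8388608 (.cut .v 4194304 (.cut .v 2097152 (.cut .v 1048576 (.cut .v 524288 (.cut .v 262144 (.cut .v 131072 (.cut .v 65536 (.cut .v 32768 (.cut .v 16384 (.cut .v 8192 (.cut .v 4096 (.pos 191 .pm ⟨0, 0, 76284856, 0, 0, 0, 0, 0, 0, ⟨0, 0⟩, 0⟩ 0 0) (.pos 192 .pm ⟨0, 0, 178751361, 0, 0, 0, 0, 0, 0, ⟨0, 0⟩, 0⟩ 0 0)) (.pos 188 .pm ⟨0, 0, 315943608, 0, 0, 0, 0, 0, 0, ⟨0, 0⟩, 0⟩ 0 0)) (.pos 186 .pm ⟨0, 0, 571164202, 0, 0, 0, 0, 0, 0, ⟨0, 0⟩, 0⟩ 0 0)) (.pos 172 .pm ⟨0, 0, 1042211280, 0, 0, 0, 0, 0, 0, ⟨0, 0⟩, 0⟩ 0 0)) (.pos 167 .pm ⟨0, 0, 1941618672, 0, 0, 0, 0, 0, 0, ⟨0, 0⟩, 0⟩ 0 0)) (.pos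 161 .pm ⟨0, 0, 3744356869, 0, 0, 0, 0, 0, 0, ⟨0, 0⟩, 0⟩ 0 0)) (.pos 151 .pm ⟨0, 0, 7326216335, 0, 0, 0, 0, 0, 0, ⟨0, 0⟩, 0⟩ 0 0)) (.pos 129 .pm ⟨0, 0, 14289419988, 0, 0, 0, 0, 0, 0, ⟨0, 0⟩, 0⟩ 0 0)) (.pos 107 .pm ⟨0, 0, 27629418065, 0, 0, 0, 0, 0, 0, ⟨0, 0⟩, 0⟩ 0 0)) (.pos 7 .pm ⟨0, 0, 52493607773, 0, 0, 0, 0, 0, 0, ⟨0, 0⟩, 0⟩ 0 0)) (.pos 5 .pm ⟨0, 0, 96564254442, 0, 0, 0, 0, 0, 0, ⟨0, 0⟩, 0⟩ 0 0)) (.pos 3 .pm ⟨0, 0, 92205708007, 0, 0, 0, 0, 0, 0, ⟨0, 0⟩, 0⟩ 0 0)) (.cut .v 4294967296 (.cut .v 268435456 (.cut .v 67108864 (.pos 70 .pp ⟨0, 0, 0, 0, 0, 0, 0, 0, 0, ⟨0, 0⟩, 0⟩ 0 0) (.cut .d 32898 (.cut .v 134217728 (.cut .d 16449 (.cut .d 8224 (.cut .v 100663296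 (.pos 89 .pp ⟨167772160000, 0, 0, 0, 0, 0, 0, 0, 0, ⟨0, 0⟩, 0⟩ 0 0) (.void 90 ⟨1000000000, 0, 0, 0, 0, 0, 0, 0, 0, ⟨0, 0⟩, 0⟩ 0 0)) (.pos 87 .pp ⟨167772160000, 0, 0, 0, 0, 0, 0, 0, 0, ⟨0, 0⟩, 0⟩ 0 0)) (.pos 87 .pp ⟨0, 0, 0, 42875046413, 0, 0, 0, 0, 0, ⟨0, 0⟩, 0⟩ 0 0)) (.cut .s 16719872 (.void 88 ⟨90497, 0, 0, 9503, 0, 0, 0, 0, 0, ⟨0, 0⟩, 0⟩ 0 0) (.void 88 ⟨90493, 0, 0, 9507, 0, 0, 0, 0, 0, ⟨0, 0⟩, 0⟩ 0 0))) (.pos 86 .pp ⟨0, 0, 0, 167772160000, 0, 0, 0, 0, 0, ⟨0, 0⟩, 0⟩ 0 0))) (.void 103 ⟨0, 0, 0, 100000, 0, 0, 0, 0, 0, ⟨0, 0⟩, 0⟩ 0 0)) (.void 170 ⟨0, 0, 0, 100000, 0, 0, 0, 0, 0, ⟨0, 0⟩, 0⟩ 0 0)))),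
    by decide +kernel⟩

def covers41 : cell.Covers table row41.1 :=
  ⟨(.cut .d 0 (.cut .v 16777216 (.cut .d (-8388608) (.void 1 ⟨0, 0, 100000, 0, 0, 0, 0, 0, 0, ⟨0, 0⟩, 0⟩ 0 0) (.cut .d (-4194304) (.void 1 ⟨0, 0, 0, 0, 0, 1000000000, 0, 0, 0, ⟨0, 0⟩, 0⟩ 0 0) (.cut .d (-2097152) (.void 1 ⟨0, 0, 100000, 0, 0, 0, 0, 0, 0, ⟨0, 0⟩, 0⟩ 0 0) (.cut .d (-1048576) (.void 1 ⟨0, 0, 100000, 0, 0, 0, 0, 0, 0, ⟨0, 0⟩, 0⟩ 0 0) (.cut .d (-524288) (.void 1 ⟨0, 0, 100000, 0, 0, 0, 0, 0, 0, ⟨0, 0⟩, 0⟩ 0 0) (.cut .d (-262144) (.void 1 ⟨0, 0, 100000, 0, 0, 0, 0, 0, 0, ⟨0, 0⟩, 0⟩ 0 0) (.cut .d (-131072) (.void 1 ⟨0, 0, 100000, 0, 0, 0, 0, 0, 0, ⟨0, 0⟩, 0⟩ 0 0) (.cut .d (-65536)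 (.void 1 ⟨0, 0, 100000, 0, 0, 0, 0, 0, 0, ⟨0, 0⟩, 0⟩ 0 0) (.cut .v 8388608 (.cut .s 16736256 (.void 2 ⟨0, 0, 1000000000, 0, 0, 0, 0, 0, 0, ⟨0, 0⟩, 0⟩ 0 0) (.void 2 ⟨0, 0, 1000000000, 0, 0, 0, 0, 0, 0, ⟨0, 0⟩, 0⟩ 0 0)) (.cut .d (-32768) (.void 3 ⟨1000000000, 0, 0, 0, 0, 0, 0, 0, 0, ⟨0, 0⟩, 0⟩ 0 0) (.cut .d (-16384) (.void 3 ⟨1000000000, 0, 0, 0, 0, 0, 0, 0, 0, ⟨0, 0⟩, 0⟩ 0 0) (.pos 3 .mm ⟨167772160000, 0, 0, 0, 0, 0, 0, 0, 0, ⟨0, 0⟩, 0⟩ 0 0)))))))))))) (.cut .v 4294967296 (.cut .d (-8388608) (.void 102 ⟨0, 0, 0, 0, 0, 1000000000, 0, 0, 0, ⟨0, 0⟩, 0⟩ 0 0) (.cut .v 268435456 (.cut .v 67108864 (.cut .d (-4194304) (.void 70 ⟨1000000000, 0, 0, 0, 0, 0, 0, 0, 0,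 ⟨0, 0⟩, 0⟩ 0 0) (.cut .d (-2097152) (.void 70 ⟨1000000000, 0, 0, 0, 0, 0, 0, 0, 0, ⟨0, 0⟩, 0⟩ 0 0) (.cut .d (-1048576) (.void 70 ⟨1000000000, 0, 0, 0, 0, 0, 0, 0, 0, ⟨0, 0⟩, 0⟩ 0 0) (.cut .v 33554432 (.cut .d (-524288) (.void 28 ⟨1000000000, 0, 0, 0, 0, 0, 0, 0, 0, ⟨0, 0⟩, 0⟩ 0 0) (.cut .d (-262144) (.void 28 ⟨1000000000, 0, 0, 0, 0, 0, 0, 0, 0, ⟨0, 0⟩, 0⟩ 0 0) (.cut .d (-131072) (.void 28 ⟨1000000000, 0, 0, 0, 0, 0, 0, 0, 0, ⟨0, 0⟩, 0⟩ 0 0) (.cut .d (-65536) (.void 28 ⟨1000000000, 0, 0, 0, 0, 0, 0, 0, 0, ⟨0, 0⟩, 0⟩ 0 0) (.cut .d (-32768) (.void 28 ⟨1000000000, 0, 0, 0, 0, 0, 0, 0, 0, ⟨0, 0⟩, 0⟩ 0 0) (.cut .d (-16384) (.void 28 ⟨1000000000, 0, 0, 0, 0, 0,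 0, 0, 0, ⟨0, 0⟩, 0⟩ 0 0) (.pos 28 .mp ⟨167772160000, 0, 0, 0, 0, 0, 0, 0, 0, ⟨0, 0⟩, 0⟩ 0 0))))))) (.void 71 ⟨1000000000, 0, 0, 0, 0, 0, 0, 0, 0, ⟨0, 0⟩, 0⟩ 0 0))))) (.void 86 ⟨1000000000, 0, 0, 0, 0, 0, 0, 0, 0, ⟨0, 0⟩, 0⟩ 0 0)) (.void 103 ⟨1000000000, 0, 0, 0, 0, 0, 0, 0, 0, ⟨0, 0⟩, 0⟩ 0 0))) (.void 170 ⟨1000000000, 0, 0, 0, 0, 0, 0, 0, 0, ⟨0, 0⟩, 0⟩ 0 0))) (.cut .v 16777216 (.cut .v 8388608 (.cut .v 4194304 (.cut .v 2097152 (.cut .v 1048576 (.cut .v 524288 (.cut .v 262144 (.cut .v 131072 (.cut .v 65536 (.cut .v 32768 (.cut .v 16384 (.cut .v 8192 (.cut .v 4096 (.cut .v 2048 (.pos 199 .pm ⟨0, 0, 72766653, 0, 0, 0, 0, 0, 0, ⟨0, 0⟩, 0⟩ 0 0) (.pos 200 .pm ⟨0,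 0, 167986130, 0, 0, 0, 0, 0, 0, ⟨0, 0⟩, 0⟩ 0 0)) (.pos 192 .pm ⟨0, 0, 293986957, 0, 0, 0, 0, 0, 0, ⟨0, 0⟩, 0⟩ 0 0)) (.pos 188 .pm ⟨0, 0, 529552991, 0, 0, 0, 0, 0, 0, ⟨0, 0⟩, 0⟩ 0 0)) (.pos 186 .pm ⟨0, 0, 966661015, 0, 0, 0, 0, 0, 0, ⟨0, 0⟩, 0⟩ 0 0)) (.pos 172 .pm ⟨0, 0, 1770799319, 0, 0, 0, 0, 0, 0, ⟨0, 0⟩, 0⟩ 0 0)) (.pos 167 .pm ⟨0, 0, 3360621732, 0, 0, 0, 0, 0, 0, ⟨0, 0⟩, 0⟩ 0 0)) (.pos 161 .pm ⟨0, 0, 6568023511, 0, 0, 0, 0, 0, 0, ⟨0, 0⟩, 0⟩ 0 0)) (.pos 151 .pm ⟨0, 0, 12861106824, 0, 0, 0, 0, 0, 0, ⟨0, 0⟩, 0⟩ 0 0)) (.pos 129 .pm ⟨0, 0, 24841929133, 0, 0, 0, 0, 0, 0, ⟨0, 0⟩, 0⟩ 0 0)) (.pos 107 .pm ⟨0, 0, 47329372293, 0, 0, 0, 0, 0, 0, ⟨0, 0⟩, 0⟩ 0 0)) (.pos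 7 .pm ⟨0, 0, 87875790529, 0, 0, 0, 0, 0, 0, ⟨0, 0⟩, 0⟩ 0 0)) (.pos 5 .pm ⟨0, 0, 155964356959, 0, 0, 0, 0, 0, 0, ⟨0, 0⟩, 0⟩ 0 0)) (.pos 3 .pm ⟨0, 0, 144347440149, 0, 0, 0, 0, 0, 0, ⟨0, 0⟩, 0⟩ 0 0)) (.cut .v 4294967296 (.cut .v 268435456 (.cut .v 67108864 (.pos 70 .pp ⟨0, 0, 0, 0, 0, 0, 0, 0, 0, ⟨0, 0⟩, 0⟩ 0 0) (.cut .v 134217728 (.cut .d 24649 (.cut .d 12324 (.cut .d 6162 (.cut .d 3081 (.void 87 ⟨1000000000, 0, 0, 0, 0, 0, 0, 0, 0, ⟨0, 0⟩, 0⟩ 0 0) (.cut .d 4621 (.void 87 ⟨1000000000, 0, 0, 0, 0, 0, 0, 0, 0, ⟨0, 0⟩, 0⟩ 0 0) (.cut .v 100663296 (.pos 89 .pp ⟨167772160000, 0, 0, 0, 0, 0, 0, 0, 0, ⟨0, 0⟩, 0⟩ 0 0) (.cut .s 16736256 (.void 90 ⟨1000000000, 0, 0, 0,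 0, 0, 0, 0, 0, ⟨0, 0⟩, 0⟩ 0 0) (.pos 90 .pp ⟨167772160000, 0, 0, 0, 0, 0, 0, 0, 0, ⟨0, 0⟩, 0⟩ 0 0))))) (.pos 87 .pp ⟨167772160000, 0, 0, 0, 0, 0, 0, 0, 0, ⟨0, 0⟩, 0⟩ 0 0)) (.pos 87 .pp ⟨0, 0, 0, 72867685748, 0, 0, 0, 0, 0, ⟨0, 0⟩, 0⟩ 0 0)) (.pos 87 .pp ⟨0, 0, 0, 1058115866, 0, 0, 0, 0, 0, ⟨0, 0⟩, 0⟩ 0 0)) (.cut .v 201326592 (.cut .v 167772160 (.cut .s 16736256 (.void 201 ⟨90485, 0, 0, 9515, 0, 0, 0, 0, 0, ⟨0, 0⟩, 0⟩ 0 0) (.cut .s 16740352 (.void 201 ⟨90482, 0, 0, 9518, 0, 0, 0, 0, 0, ⟨0, 0⟩, 0⟩ 0 0) (.void 201 ⟨90480, 0, 0, 9520, 0, 0, 0, 0, 0, ⟨0, 0⟩, 0⟩ 0 0))) (.void 202 ⟨0, 0, 0, 100000, 0, 0, 0, 0, 0, ⟨0, 0⟩, 0⟩ 0 0)) (.void 182 ⟨0, 0, 0, 100000, 0, 0,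 0, 0, 0, ⟨0, 0⟩, 0⟩ 0 0)))) (.void 103 ⟨0, 0, 0, 100000, 0, 0, 0, 0, 0, ⟨0, 0⟩, 0⟩ 0 0)) (.void 170 ⟨0, 0, 0, 100000, 0, 0, 0, 0, 0, ⟨0, 0⟩, 0⟩ 0 0)))),
    by decide +kernel⟩

def covers42 : cell.Covers table row42.1 :=
  ⟨(.cut .d 0 (.cut .v 16777216 (.cut .d (-8388608) (.void 1 ⟨0, 0, 0, 0, 0, 100000, 0, 0, 0, ⟨0, 0⟩, 0⟩ 0 0) (.cut .d (-4194304) (.void 1 ⟨0, 0, 0, 0, 0, 100000, 0, 0, 0, ⟨0, 0⟩, 0⟩ 0 0) (.cut .d (-2097152) (.void 1 ⟨0, 0, 0, 0, 0, 1000000000, 0, 0, 0, ⟨0, 0⟩, 0⟩ 0 0) (.cut .v 8388608 (.cut .s 16750592 (.cut .s 16747520 (.void 2 ⟨0, 0, 100000, 0, 0, 0, 0, 0, 0, ⟨0, 0⟩, 0⟩ 0 0) (.void 2 ⟨0, 0, 100000, 0, 0, 0, 0, 0, 0, ⟨0, 0⟩, 0⟩ 0 0)) (.void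 2 ⟨0, 0, 100000, 0, 0, 0, 0, 0, 0, ⟨0, 0⟩, 0⟩ 0 0)) (.cut .d (-1048576) (.void 3 ⟨1000000000, 0, 0, 0, 0, 0, 0, 0, 0, ⟨0, 0⟩, 0⟩ 0 0) (.cut .d (-524288) (.void 3 ⟨1000000000, 0, 0, 0, 0, 0, 0, 0, 0, ⟨0, 0⟩, 0⟩ 0 0) (.cut .d (-262144) (.void 3 ⟨1000000000, 0, 0, 0, 0, 0, 0, 0, 0, ⟨0, 0⟩, 0⟩ 0 0) (.cut .d (-131072) (.void 3 ⟨1000000000, 0, 0, 0, 0, 0, 0, 0, 0, ⟨0, 0⟩, 0⟩ 0 0) (.cut .d (-65536) (.void 3 ⟨1000000000, 0, 0, 0, 0, 0, 0, 0, 0, ⟨0, 0⟩, 0⟩ 0 0) (.cut .d (-32768) (.void 3 ⟨1000000000, 0, 0, 0, 0, 0, 0, 0, 0, ⟨0, 0⟩, 0⟩ 0 0) (.cut .d (-16384) (.void 3 ⟨1000000000, 0, 0, 0, 0, 0, 0, 0, 0, ⟨0, 0⟩, 0⟩ 0 0) (.pos 3 .mm ⟨167772160000, 0, 0, 0, 0, 0, 0, 0,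 0, ⟨0, 0⟩, 0⟩ 0 0)))))))))))) (.cut .v 4294967296 (.cut .d (-8388608) (.void 102 ⟨0, 0, 0, 0, 0, 1000000000, 0, 0, 0, ⟨0, 0⟩, 0⟩ 0 0) (.cut .v 268435456 (.cut .v 67108864 (.cut .d (-4194304) (.void 70 ⟨1000000000, 0, 0, 0, 0, 0, 0, 0, 0, ⟨0, 0⟩, 0⟩ 0 0) (.cut .d (-2097152) (.void 70 ⟨1000000000, 0, 0, 0, 0, 0, 0, 0, 0, ⟨0, 0⟩, 0⟩ 0 0) (.cut .d (-1048576) (.void 70 ⟨1000000000, 0, 0, 0, 0, 0, 0, 0, 0, ⟨0, 0⟩, 0⟩ 0 0) (.cut .d (-524288) (.void 70 ⟨1000000000, 0, 0, 0, 0, 0, 0, 0, 0, ⟨0, 0⟩, 0⟩ 0 0) (.cut .d (-262144) (.void 70 ⟨1000000000, 0, 0, 0, 0, 0, 0, 0, 0, ⟨0, 0⟩, 0⟩ 0 0) (.cut .d (-131072) (.void 70 ⟨1000000000, 0, 0, 0, 0, 0, 0, 0, 0, ⟨0, 0⟩, 0⟩ 0 0)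 (.cut .d (-65536) (.void 70 ⟨1000000000, 0, 0, 0, 0, 0, 0, 0, 0, ⟨0, 0⟩, 0⟩ 0 0) (.cut .d (-32768) (.void 70 ⟨1000000000, 0, 0, 0, 0, 0, 0, 0, 0, ⟨0, 0⟩, 0⟩ 0 0) (.cut .d (-16384) (.void 70 ⟨1000000000, 0, 0, 0, 0, 0, 0, 0, 0, ⟨0, 0⟩, 0⟩ 0 0) (.cut .d (-8192) (.void 70 ⟨1000000000, 0, 0, 0, 0, 0, 0, 0, 0, ⟨0, 0⟩, 0⟩ 0 0) (.pos 70 .mp ⟨167772160000, 0, 0, 0, 0, 0, 0, 0, 0, ⟨0, 0⟩, 0⟩ 0 0))))))))))) (.void 86 ⟨1000000000, 0, 0, 0, 0, 0, 0, 0, 0, ⟨0, 0⟩, 0⟩ 0 0)) (.void 103 ⟨1000000000, 0, 0, 0, 0, 0, 0, 0, 0, ⟨0, 0⟩, 0⟩ 0 0))) (.cut .d (-8388608) (.void 170 ⟨0, 0, 0, 1319, 0, 95000, 0, 0, 0, ⟨0, 0⟩, 0⟩ 0 0) (.void 170 ⟨0, 0, 0, 1319, 0, 95000, 0, 0, 0, ⟨0, 0⟩,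 0⟩ 0 0)))) (.cut .v 16777216 (.cut .v 8388608 (.cut .v 4194304 (.cut .v 2097152 (.cut .v 1048576 (.cut .v 524288 (.cut .v 262144 (.cut .v 131072 (.cut .v 65536 (.cut .v 32768 (.cut .v 16384 (.cut .v 8192 (.cut .v 4096 (.cut .v 2048 (.pos 199 .pm ⟨0, 0, 75877275, 0, 0, 0, 0, 0, 0, ⟨0, 0⟩, 0⟩ 0 0) (.pos 200 .pm ⟨0, 0, 188002128, 0, 0, 0, 0, 0, 0, ⟨0, 0⟩, 0⟩ 0 0)) (.pos 192 .pm ⟨0, 0, 342865318, 0, 0, 0, 0, 0, 0, ⟨0, 0⟩, 0⟩ 0 0)) (.pos 188 .pm ⟨0, 0, 634147017, 0, 0, 0, 0, 0, 0, ⟨0, 0⟩, 0⟩ 0 0)) (.pos 186 .pm ⟨0, 0, 1178684872, 0, 0, 0, 0, 0, 0, ⟨0, 0⟩, 0⟩ 0 0)) (.pos 172 .pm ⟨0, 0, 2190033699, 0, 0, 0, 0, 0, 0, ⟨0, 0⟩, 0⟩ 0 0)) (.pos 167 .pm ⟨0, 0, 4207261070,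 0, 0, 0, 0, 0, 0, ⟨0, 0⟩, 0⟩ 0 0)) (.pos 161 .pm ⟨0, 0, 8320543502, 0, 0, 0, 0, 0, 0, ⟨0, 0⟩, 0⟩ 0 0)) (.pos 151 .pm ⟨0, 0, 16625195719, 0, 0, 0, 0, 0, 0, ⟨0, 0⟩, 0⟩ 0 0)) (.pos 129 .pm ⟨0, 0, 33234760065, 0, 0, 0, 0, 0, 0, ⟨0, 0⟩, 0⟩ 0 0)) (.pos 107 .pm ⟨0, 0, 66454928408, 0, 0, 0, 0, 0, 0, ⟨0, 0⟩, 0⟩ 0 0)) (.pos 7 .pm ⟨0, 0, 132899423695, 0, 0, 0, 0, 0, 0, ⟨0, 0⟩, 0⟩ 0 0)) (.pos 5 .pm ⟨0, 0, 167772160000, 0, 0, 0, 0, 0, 0, ⟨0, 0⟩, 0⟩ 0 0)) (.pos 3 .pm ⟨0, 0, 167772160000, 0, 0, 0, 0, 0, 0, ⟨0, 0⟩, 0⟩ 0 0)) (.cut .v 4294967296 (.cut .v 268435456 (.cut .v 67108864 (.pos 70 .pp ⟨0, 0, 0, 0, 0, 0, 0, 0, 0, ⟨0, 0⟩, 0⟩ 0 0) (.cut .v 134217728 (.cut .s 16750592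 (.cut .s 16747520 (.cut .s 16745984 (.cut .d 16417 (.cut .d 8208 (.cut .d 4104 (.void 87 ⟨1000000000, 0, 0, 0, 0, 0, 0, 0, 0, ⟨0, 0⟩, 0⟩ 0 0) (.cut .s 16745216 (.cut .s 16744832 (.cut .s 16744640 (.cut .s 16744544 (.cut .s 16744496 (.cut .s 16744472 (.cut .d 6156 (.cut .d 5130 (.cut .d 4617 (.void 87 ⟨1000000000, 0, 0, 0, 0, 0, 0, 0, 0, ⟨0, 0⟩, 0⟩ 0 0) (.pos 87 .pp ⟨167772160000, 0, 0, 0, 0, 0, 0, 0, 0, ⟨0, 0⟩, 0⟩ 0 0)) (.pos 87 .pp ⟨167772160000, 0, 0, 0, 0, 0, 0, 0, 0, ⟨0, 0⟩, 0⟩ 0 0)) (.pos 87 .pp ⟨0, 0, 0, 167772160000, 0, 0, 0, 0, 0, ⟨0, 0⟩, 0⟩ 0 0)) (.pos 87 .pp ⟨167772160000, 0, 0, 0, 0, 0, 0, 0, 0, ⟨0, 0⟩, 0⟩ 0 0)) (.pos 87 .pp ⟨167772160000, 0, 0,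 0, 0, 0, 0, 0, 0, ⟨0, 0⟩, 0⟩ 0 0)) (.pos 87 .pp ⟨167772160000, 0, 0, 0, 0, 0, 0, 0, 0, ⟨0, 0⟩, 0⟩ 0 0)) (.pos 87 .pp ⟨167772160000, 0, 0, 0, 0, 0, 0, 0, 0, ⟨0, 0⟩, 0⟩ 0 0)) (.pos 87 .pp ⟨167772160000, 0, 0, 0, 0, 0, 0, 0, 0, ⟨0, 0⟩, 0⟩ 0 0)) (.pos 87 .pp ⟨167772160000, 0, 0, 0, 0, 0, 0, 0, 0, ⟨0, 0⟩, 0⟩ 0 0))) (.pos 87 .pp ⟨0, 0, 0, 151580967429, 0, 0, 0, 0, 0, ⟨0, 0⟩, 0⟩ 0 0)) (.pos 87 .pp ⟨0, 0, 0, 17402346272, 0, 0, 0, 0, 0, ⟨0, 0⟩, 0⟩ 0 0)) (.pos 87 .pp ⟨167772160000, 0, 0, 0, 0, 0, 0, 0, 0, ⟨0, 0⟩, 0⟩ 0 0)) (.pos 87 .pp ⟨167772160000, 0, 0, 0, 0, 0, 0, 0, 0, ⟨0, 0⟩, 0⟩ 0 0)) (.pos 87 .pp ⟨167772160000, 0, 0, 0, 0, 0, 0, 0, 0, ⟨0, 0⟩, 0⟩ 0 0)) (.void 88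 ⟨90478, 0, 0, 9522, 0, 0, 0, 0, 0, ⟨0, 0⟩, 0⟩ 0 0))) (.void 103 ⟨90478, 0, 0, 9522, 0, 0, 0, 0, 0, ⟨0, 0⟩, 0⟩ 0 0)) (.void 170 ⟨90478, 0, 0, 9522, 0, 0, 0, 0, 0, ⟨0, 0⟩, 0⟩ 0 0)))),
    by decide +kernel⟩

def covers43 : cell.Covers table row43.1 :=
  ⟨(.cut .d 0 (.cut .v 16777216 (.cut .d (-8388608) (.void 1 ⟨0, 0, 99976, 0, 0, 0, 0, 0, 0, ⟨0, 0⟩, 0⟩ 0 0) (.cut .d (-4194304) (.void 1 ⟨0, 0, 0, 0, 0, 100000, 0, 0, 0, ⟨0, 0⟩, 0⟩ 0 0) (.cut .d (-2097152) (.void 1 ⟨0, 0, 0, 0, 0, 100000, 0, 0, 0, ⟨0, 0⟩, 0⟩ 0 0) (.cut .v 8388608 (.void 2 ⟨0, 0, 100000, 0, 0, 0, 0, 0, 0, ⟨0, 0⟩, 0⟩ 0 0) (.cut .d (-1048576) (.void 3 ⟨1000000000, 0, 0, 0, 0, 0, 0, 0, 0, ⟨0, 0⟩,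 0⟩ 0 0) (.cut .d (-524288) (.void 3 ⟨1000000000, 0, 0, 0, 0, 0, 0, 0, 0, ⟨0, 0⟩, 0⟩ 0 0) (.cut .d (-262144) (.void 3 ⟨1000000000, 0, 0, 0, 0, 0, 0, 0, 0, ⟨0, 0⟩, 0⟩ 0 0) (.cut .d (-131072) (.void 3 ⟨1000000000, 0, 0, 0, 0, 0, 0, 0, 0, ⟨0, 0⟩, 0⟩ 0 0) (.cut .d (-65536) (.void 3 ⟨1000000000, 0, 0, 0, 0, 0, 0, 0, 0, ⟨0, 0⟩, 0⟩ 0 0) (.cut .d (-32768) (.void 3 ⟨1000000000, 0, 0, 0, 0, 0, 0, 0, 0, ⟨0, 0⟩, 0⟩ 0 0) (.cut .d (-16384) (.void 3 ⟨1000000000, 0, 0, 0, 0, 0, 0, 0, 0, ⟨0, 0⟩, 0⟩ 0 0) (.pos 3 .mm ⟨167772160000, 0, 0, 0, 0, 0, 0, 0, 0, ⟨0, 0⟩, 0⟩ 0 0)))))))))))) (.cut .v 4294967296 (.cut .d (-8388608) (.void 102 ⟨96419, 0, 943, 2638, 0, 0, 0, 0, 0, ⟨0, 0⟩,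 0⟩ 0 0) (.cut .d (-4194304) (.void 102 ⟨1000000000, 0, 0, 0, 0, 0, 0, 0, 0, ⟨0, 0⟩, 0⟩ 0 0) (.cut .v 268435456 (.cut .v 67108864 (.cut .d (-2097152) (.void 70 ⟨1000000000, 0, 0, 0, 0, 0, 0, 0, 0, ⟨0, 0⟩, 0⟩ 0 0) (.cut .d (-1048576) (.void 70 ⟨1000000000, 0, 0, 0, 0, 0, 0, 0, 0, ⟨0, 0⟩, 0⟩ 0 0) (.cut .d (-524288) (.void 70 ⟨1000000000, 0, 0, 0, 0, 0, 0, 0, 0, ⟨0, 0⟩, 0⟩ 0 0) (.cut .d (-262144) (.void 70 ⟨1000000000, 0, 0, 0, 0, 0, 0, 0, 0, ⟨0, 0⟩, 0⟩ 0 0) (.cut .d (-131072) (.void 70 ⟨1000000000, 0, 0, 0, 0, 0, 0, 0, 0, ⟨0, 0⟩, 0⟩ 0 0) (.cut .d (-65536) (.void 70 ⟨1000000000, 0, 0, 0, 0, 0, 0, 0, 0, ⟨0, 0⟩, 0⟩ 0 0) (.cut .d (-32768) (.void 70 ⟨1000000000, 0,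 0, 0, 0, 0, 0, 0, 0, ⟨0, 0⟩, 0⟩ 0 0) (.cut .d (-16384) (.void 70 ⟨1000000000, 0, 0, 0, 0, 0, 0, 0, 0, ⟨0, 0⟩, 0⟩ 0 0) (.cut .d (-8192) (.void 70 ⟨1000000000, 0, 0, 0, 0, 0, 0, 0, 0, ⟨0, 0⟩, 0⟩ 0 0) (.pos 70 .mp ⟨167772160000, 0, 0, 0, 0, 0, 0, 0, 0, ⟨0, 0⟩, 0⟩ 0 0)))))))))) (.void 86 ⟨1000000000, 0, 0, 0, 0, 0, 0, 0, 0, ⟨0, 0⟩, 0⟩ 0 0)) (.void 103 ⟨1000000000, 0, 0, 0, 0, 0, 0, 0, 0, ⟨0, 0⟩, 0⟩ 0 0)))) (.cut .v 68719476736 (.cut .v 17179869184 (.cut .d (-8388608) (.void 193 ⟨89064, 0, 2414, 2734, 0, 0, 0, 0, 0, ⟨0, 0⟩, 0⟩ 0 0) (.void 193 ⟨89064, 0, 2414, 2734, 0, 0, 0, 0, 0, ⟨0, 0⟩, 0⟩ 0 0)) (.void 194 ⟨95922, 0, 0, 4078, 0, 0, 0, 0, 0, ⟨0, 0⟩, 0⟩ 0 0)) (.void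 190 ⟨95922, 0, 0, 4078, 0, 0, 0, 0, 0, ⟨0, 0⟩, 0⟩ 0 0)))) (.cut .v 16777216 (.cut .v 8388608 (.cut .v 4194304 (.cut .v 2097152 (.cut .v 1048576 (.cut .d 10254 (.void 106 ⟨0, 0, 99828, 0, 0, 0, 0, 0, 0, ⟨0, 0⟩, 0⟩ 0 0) (.cut .v 524288 (.cut .d 15381 (.cut .l 708371 (.cut .v 262144 (.cut .v 131072 (.cut .d 12817 (.cut .d 11535 (.pos 160 .pm ⟨0, 0, 167772160000, 0, 0, 0, 0, 0, 0, ⟨0, 0⟩, 0⟩ 0 0) (.cut .l 456712 (.cut .v 65536 (.cut .v 32768 (.cut .s 16760832 (.void 171 ⟨0, 0, 7114465, 0, 0, 0, 0, 0, 0, ⟨0, 0⟩, 0⟩ 0 0) (.pos 171 .pm ⟨0, 0, 1016742698, 0, 0, 0, 0, 0, 0, ⟨0, 0⟩, 0⟩ 0 0)) (.pos 172 .pm ⟨0, 0, 15134977961, 0, 0, 0, 0, 0, 0, ⟨0, 0⟩, 0⟩ 0 0)) (.pos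 167 .pm ⟨0, 0, 31029675430, 0, 0, 0, 0, 0, 0, ⟨0, 0⟩, 0⟩ 0 0)) (.cut .l 582541 (.cut .d 12176 (.cut .l 519626 (.cut .s 16760832 (.void 160 ⟨0, 0, 100000, 0, 0, 0, 0, 0, 0, ⟨0, 0⟩, 0⟩ 0 0) (.pos 160 .pm ⟨0, 0, 167772160000, 0, 0, 0, 0, 0, 0, ⟨0, 0⟩, 0⟩ 0 0)) (.cut .v 65536 (.void 166 ⟨0, 0, 1000000000, 0, 0, 0, 0, 0, 0, ⟨0, 0⟩, 0⟩ 0 0) (.pos 167 .pm ⟨0, 0, 167772160000, 0, 0, 0, 0, 0, 0, ⟨0, 0⟩, 0⟩ 0 0))) (.cut .v 65536 (.cut .v 32768 (.pos 171 .pm ⟨0, 0, 1021133903, 0, 0, 0, 0, 0, 0, ⟨0, 0⟩, 0⟩ 0 0) (.pos 172 .pm ⟨0, 0, 15262406873, 0, 0, 0, 0, 0, 0, ⟨0, 0⟩, 0⟩ 0 0)) (.pos 167 .pm ⟨0, 0, 31285489274, 0, 0, 0, 0, 0, 0, ⟨0, 0⟩, 0⟩ 0 0))) (.cut .d 12176 (.cut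 .l 645456 (.cut .v 65536 (.void 166 ⟨0, 0, 100000, 0, 0, 0, 0, 0, 0, ⟨0, 0⟩, 0⟩ 0 0) (.pos 167 .pm ⟨0, 0, 167772160000, 0, 0, 0, 0, 0, 0, ⟨0, 0⟩, 0⟩ 0 0)) (.cut .s 16760832 (.void 160 ⟨0, 0, 100000, 0, 0, 0, 0, 0, 0, ⟨0, 0⟩, 0⟩ 0 0) (.pos 160 .pm ⟨0, 0, 167772160000, 0, 0, 0, 0, 0, 0, ⟨0, 0⟩, 0⟩ 0 0))) (.cut .v 65536 (.cut .v 32768 (.pos 171 .pm ⟨0, 0, 928356358, 0, 0, 0, 0, 0, 0, ⟨0, 0⟩, 0⟩ 0 0) (.pos 172 .pm ⟨0, 0, 15326121328, 0, 0, 0, 0, 0, 0, ⟨0, 0⟩, 0⟩ 0 0)) (.pos 167 .pm ⟨0, 0, 31413396196, 0, 0, 0, 0, 0, 0, ⟨0, 0⟩, 0⟩ 0 0)))))) (.cut .v 65536 (.cut .v 32768 (.cut .v 16384 (.cut .v 8192 (.pos 187 .pm ⟨0, 0, 171326484, 0, 0, 0, 0, 0, 0, ⟨0, 0⟩, 0⟩ 0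 0) (.pos 188 .pm ⟨0, 0, 4281285894, 0, 0, 0, 0, 0, 0, ⟨0, 0⟩, 0⟩ 0 0)) (.pos 186 .pm ⟨0, 0, 8748059764, 0, 0, 0, 0, 0, 0, ⟨0, 0⟩, 0⟩ 0 0)) (.pos 172 .pm ⟨0, 0, 17858006202, 0, 0, 0, 0, 0, 0, ⟨0, 0⟩, 0⟩ 0 0)) (.pos 167 .pm ⟨0, 0, 36496036209, 0, 0, 0, 0, 0, 0, ⟨0, 0⟩, 0⟩ 0 0))) (.pos 161 .pm ⟨0, 0, 74853678759, 0, 0, 0, 0, 0, 0, ⟨0, 0⟩, 0⟩ 0 0)) (.pos 151 .pm ⟨0, 0, 154714687842, 0, 0, 0, 0, 0, 0, ⟨0, 0⟩, 0⟩ 0 0)) (.cut .d 12817 (.cut .d 11535 (.void 128 ⟨0, 0, 99279016, 0, 0, 0, 0, 0, 0, ⟨0, 0⟩, 0⟩ 0 0) (.cut .v 262144 (.cut .l 960029 (.cut .d 12176 (.pos 150 .pm ⟨0, 0, 167772160000, 0, 0, 0, 0, 0, 0, ⟨0, 0⟩, 0⟩ 0 0) (.cut .v 131072 (.cut .v 65536 (.cut .v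 32768 (.pos 171 .pm ⟨0, 0, 847181769, 0, 0, 0, 0, 0, 0, ⟨0, 0⟩, 0⟩ 0 0) (.pos 172 .pm ⟨0, 0, 15389836290, 0, 0, 0, 0, 0, 0, ⟨0, 0⟩, 0⟩ 0 0)) (.pos 167 .pm ⟨0, 0, 31541304134, 0, 0, 0, 0, 0, 0, ⟨0, 0⟩, 0⟩ 0 0)) (.pos 161 .pm ⟨0, 0, 64869601474, 0, 0, 0, 0, 0, 0, ⟨0, 0⟩, 0⟩ 0 0))) (.cut .v 131072 (.cut .d 12176 (.cut .v 65536 (.void 166 ⟨0, 0, 1000000000, 0, 0, 0, 0, 0, 0, ⟨0, 0⟩, 0⟩ 0 0) (.pos 167 .pm ⟨0, 0, 167772160000, 0, 0, 0, 0, 0, 0, ⟨0, 0⟩, 0⟩ 0 0)) (.cut .s 16760832 (.void 160 ⟨0, 0, 17722583, 0, 0, 0, 0, 0, 0, ⟨0, 0⟩, 0⟩ 0 0) (.cut .s 16762880 (.void 160 ⟨0, 0, 100000, 0, 0, 0, 0, 0, 0, ⟨0, 0⟩, 0⟩ 0 0) (.pos 160 .pm ⟨0, 0, 15979865, 0, 0, 0, 0, 0,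 0, ⟨0, 0⟩, 0⟩ 0 0)))) (.pos 161 .pm ⟨0, 0, 65385096608, 0, 0, 0, 0, 0, 0, ⟨0, 0⟩, 0⟩ 0 0))) (.pos 151 .pm ⟨0, 0, 134440809730, 0, 0, 0, 0, 0, 0, ⟨0, 0⟩, 0⟩ 0 0))) (.cut .s 16760832 (.pos 128 .pm ⟨0, 0, 167772160000, 0, 0, 0, 0, 0, 0, ⟨0, 0⟩, 0⟩ 0 0) (.cut .v 262144 (.cut .s 16762880 (.cut .s 16761856 (.pos 150 .pm ⟨0, 0, 2726366703, 0, 0, 0, 0, 0, 0, ⟨0, 0⟩, 0⟩ 0 0) (.pos 150 .pm ⟨0, 0, 15991210, 0, 0, 0, 0, 0, 0, ⟨0, 0⟩, 0⟩ 0 0)) (.pos 150 .pm ⟨0, 0, 0, 1984366, 0, 0, 0, 0, 0, ⟨0, 0⟩, 0⟩ 0 0)) (.pos 151 .pm ⟨0, 0, 107987370299, 0, 0, 0, 0, 0, 0, ⟨0, 0⟩, 0⟩ 0 0))))) (.cut .v 262144 (.cut .v 131072 (.cut .v 65536 (.cut .v 32768 (.cut .v 16384 (.cut .v 8192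 (.pos 187 .pm ⟨0, 0, 72553891, 0, 0, 0, 0, 0, 0, ⟨0, 0⟩, 0⟩ 0 0) (.pos 188 .pm ⟨0, 0, 1090105254, 0, 0, 0, 0, 0, 0, ⟨0, 0⟩, 0⟩ 0 0)) (.pos 186 .pm ⟨0, 0, 2164214867, 0, 0, 0, 0, 0, 0, ⟨0, 0⟩, 0⟩ 0 0)) (.pos 172 .pm ⟨0, 0, 4312435110, 0, 0, 0, 0, 0, 0, ⟨0, 0⟩, 0⟩ 0 0)) (.pos 167 .pm ⟨0, 0, 8608879671, 0, 0, 0, 0, 0, 0, ⟨0, 0⟩, 0⟩ 0 0)) (.pos 161 .pm ⟨0, 0, 17201785090, 0, 0, 0, 0, 0, 0, ⟨0, 0⟩, 0⟩ 0 0)) (.pos 151 .pm ⟨0, 0, 34387661111, 0, 0, 0, 0, 0, 0, ⟨0, 0⟩, 0⟩ 0 0))) (.pos 129 .pm ⟨0, 0, 68783506241, 0, 0, 0, 0, 0, 0, ⟨0, 0⟩, 0⟩ 0 0))) (.pos 107 .pm ⟨0, 0, 145517912003, 0, 0, 0, 0, 0, 0, ⟨0, 0⟩, 0⟩ 0 0)) (.pos 7 .pm ⟨0, 0, 167772160000, 0, 0, 0, 0, 0,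 0, ⟨0, 0⟩, 0⟩ 0 0)) (.pos 5 .pm ⟨0, 0, 167772160000, 0, 0, 0, 0, 0, 0, ⟨0, 0⟩, 0⟩ 0 0)) (.pos 3 .pm ⟨0, 0, 167772160000, 0, 0, 0, 0, 0, 0, ⟨0, 0⟩, 0⟩ 0 0)) (.cut .v 4294967296 (.cut .v 268435456 (.cut .d 10254 (.cut .d 5127 (.cut .d 2563 (.cut .v 67108864 (.pos 70 .pp ⟨0, 0, 0, 0, 0, 0, 0, 0, 0, ⟨0, 0⟩, 0⟩ 0 0) (.cut .v 134217728 (.pos 87 .pp ⟨167772160000, 0, 0, 0, 0, 0, 0, 0, 0, ⟨0, 0⟩, 0⟩ 0 0) (.void 88 ⟨1000000000, 0, 0, 0, 0, 0, 0, 0, 0, ⟨0, 0⟩, 0⟩ 0 0))) (.pos 85 .pp ⟨65513325076, 0, 0, 102258834924, 0, 0, 0, 0, 0, ⟨0, 0⟩, 0⟩ 0 0)) (.pos 85 .pp ⟨0, 0, 0, 0, 0, 0, 0, 0, 0, ⟨0, 0⟩, 0⟩ 0 0)) (.pos 85 .pp ⟨0, 0, 0, 0, 0, 0, 0, 0, 0, ⟨0, 0⟩, 0⟩ 0 0)) (.cut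 .s 16760832 (.void 103 ⟨0, 0, 0, 1000000000, 0, 0, 0, 0, 0, ⟨0, 0⟩, 0⟩ 0 0) (.void 103 ⟨0, 0, 0, 100000, 0, 0, 0, 0, 0, ⟨0, 0⟩, 0⟩ 0 0))) (.void 170 ⟨0, 0, 0, 100000, 0, 0, 0, 0, 0, ⟨0, 0⟩, 0⟩ 0 0)))),
    by decide +kernel⟩

def covers44 : cell.Covers table row44.1 :=
  ⟨(.cut .d 0 (.cut .v 16777216 (.cut .d (-8388608) (.void 1 ⟨0, 0, 100000, 0, 0, 0, 0, 0, 0, ⟨0, 0⟩, 0⟩ 0 0) (.cut .d (-4194304) (.void 1 ⟨0, 0, 100000, 0, 0, 0, 0, 0, 0, ⟨0, 0⟩, 0⟩ 0 0) (.cut .d (-2097152) (.void 1 ⟨0, 0, 100000, 0, 0, 0, 0, 0, 0, ⟨0, 0⟩, 0⟩ 0 0) (.cut .d (-1048576) (.void 1 ⟨0, 0, 100000, 0, 0, 0, 0, 0, 0, ⟨0, 0⟩, 0⟩ 0 0) (.cut .d (-524288) (.void 1 ⟨0, 0, 100000, 0, 0, 0,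 0, 0, 0, ⟨0, 0⟩, 0⟩ 0 0) (.cut .d (-262144) (.void 1 ⟨0, 0, 100000, 0, 0, 0, 0, 0, 0, ⟨0, 0⟩, 0⟩ 0 0) (.cut .d (-131072) (.void 1 ⟨0, 0, 100000, 0, 0, 0, 0, 0, 0, ⟨0, 0⟩, 0⟩ 0 0) (.cut .d (-65536) (.void 1 ⟨0, 0, 100000, 0, 0, 0, 0, 0, 0, ⟨0, 0⟩, 0⟩ 0 0) (.cut .d (-32768) (.void 1 ⟨0, 0, 100000, 0, 0, 0, 0, 0, 0, ⟨0, 0⟩, 0⟩ 0 0) (.cut .d (-16384) (.void 1 ⟨0, 0, 100000, 0, 0, 0, 0, 0, 0, ⟨0, 0⟩, 0⟩ 0 0) (.cut .v 8388608 (.void 2 ⟨0, 0, 183168250, 0, 0, 816831750, 0, 0, 0, ⟨0, 0⟩, 0⟩ 0 0) (.cut .d (-8192) (.void 3 ⟨1000000000, 0, 0, 0, 0, 0, 0, 0, 0, ⟨0, 0⟩, 0⟩ 0 0) (.pos 3 .mm ⟨167772160000, 0, 0, 0, 0, 0, 0, 0, 0, ⟨0, 0⟩, 0⟩ 0 0))))))))))))) (.cut .v 4294967296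 (.cut .d (-8388608) (.void 102 ⟨0, 0, 0, 0, 0, 1000000000, 0, 0, 0, ⟨0, 0⟩, 0⟩ 0 0) (.cut .v 268435456 (.cut .v 67108864 (.cut .d (-4194304) (.void 70 ⟨1000000000, 0, 0, 0, 0, 0, 0, 0, 0, ⟨0, 0⟩, 0⟩ 0 0) (.cut .d (-2097152) (.void 70 ⟨1000000000, 0, 0, 0, 0, 0, 0, 0, 0, ⟨0, 0⟩, 0⟩ 0 0) (.cut .d (-1048576) (.void 70 ⟨1000000000, 0, 0, 0, 0, 0, 0, 0, 0, ⟨0, 0⟩, 0⟩ 0 0) (.cut .d (-524288) (.void 70 ⟨1000000000, 0, 0, 0, 0, 0, 0, 0, 0, ⟨0, 0⟩, 0⟩ 0 0) (.cut .d (-262144) (.void 70 ⟨1000000000, 0, 0, 0, 0, 0, 0, 0, 0, ⟨0, 0⟩, 0⟩ 0 0) (.cut .d (-131072) (.void 70 ⟨1000000000, 0, 0, 0, 0, 0, 0, 0, 0, ⟨0, 0⟩, 0⟩ 0 0) (.cut .d (-65536) (.void 70 ⟨1000000000, 0, 0, 0,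 0, 0, 0, 0, 0, ⟨0, 0⟩, 0⟩ 0 0) (.cut .d (-32768) (.void 70 ⟨1000000000, 0, 0, 0, 0, 0, 0, 0, 0, ⟨0, 0⟩, 0⟩ 0 0) (.cut .d (-16384) (.void 70 ⟨1000000000, 0, 0, 0, 0, 0, 0, 0, 0, ⟨0, 0⟩, 0⟩ 0 0) (.cut .d (-8192) (.void 70 ⟨1000000000, 0, 0, 0, 0, 0, 0, 0, 0, ⟨0, 0⟩, 0⟩ 0 0) (.pos 70 .mp ⟨167772160000, 0, 0, 0, 0, 0, 0, 0, 0, ⟨0, 0⟩, 0⟩ 0 0))))))))))) (.void 86 ⟨1000000000, 0, 0, 0, 0, 0, 0, 0, 0, ⟨0, 0⟩, 0⟩ 0 0)) (.void 103 ⟨1000000000, 0, 0, 0, 0, 0, 0, 0, 0, ⟨0, 0⟩, 0⟩ 0 0))) (.void 170 ⟨1000000000, 0, 0, 0, 0, 0, 0, 0, 0, ⟨0, 0⟩, 0⟩ 0 0))) (.cut .v 16777216 (.cut .v 8388608 (.cut .v 4194304 (.cut .v 2097152 (.cut .v 1048576 (.cut .v 524288 (.cut .v 262144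 (.cut .v 131072 (.cut .v 65536 (.cut .v 32768 (.cut .v 16384 (.cut .v 8192 (.cut .v 4096 (.cut .s 16766976 (.cut .s 16765952 (.pos 191 .pm ⟨0, 0, 341473361, 0, 0, 0, 0, 0, 0, ⟨0, 0⟩, 0⟩ 0 0) (.pos 191 .pm ⟨0, 0, 46486729, 0, 0, 0, 0, 0, 0, ⟨0, 0⟩, 0⟩ 0 0)) (.pos 191 .pm ⟨0, 0, 15984284, 0, 0, 0, 0, 0, 0, ⟨0, 0⟩, 0⟩ 0 0)) (.pos 192 .pm ⟨0, 0, 1222985108, 0, 0, 0, 0, 0, 0, ⟨0, 0⟩, 0⟩ 0 0)) (.pos 188 .pm ⟨0, 0, 2430015441, 0, 0, 0, 0, 0, 0, ⟨0, 0⟩, 0⟩ 0 0)) (.pos 186 .pm ⟨0, 0, 4844076362, 0, 0, 0, 0, 0, 0, ⟨0, 0⟩, 0⟩ 0 0)) (.pos 172 .pm ⟨0, 0, 9672199224, 0, 0, 0, 0, 0, 0, ⟨0, 0⟩, 0⟩ 0 0)) (.pos 167 .pm ⟨0, 0, 19328449032, 0, 0, 0, 0, 0, 0, ⟨0, 0⟩, 0⟩ 0 0))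 (.pos 161 .pm ⟨0, 0, 38640964978, 0, 0, 0, 0, 0, 0, ⟨0, 0⟩, 0⟩ 0 0)) (.pos 151 .pm ⟨0, 0, 77266062194, 0, 0, 0, 0, 0, 0, ⟨0, 0⟩, 0⟩ 0 0)) (.pos 129 .pm ⟨0, 0, 154516517914, 0, 0, 0, 0, 0, 0, ⟨0, 0⟩, 0⟩ 0 0)) (.pos 107 .pm ⟨0, 0, 167772160000, 0, 0, 0, 0, 0, 0, ⟨0, 0⟩, 0⟩ 0 0)) (.pos 7 .pm ⟨0, 0, 167772160000, 0, 0, 0, 0, 0, 0, ⟨0, 0⟩, 0⟩ 0 0)) (.pos 5 .pm ⟨0, 0, 167772160000, 0, 0, 0, 0, 0, 0, ⟨0, 0⟩, 0⟩ 0 0)) (.pos 3 .pm ⟨0, 0, 167772160000, 0, 0, 0, 0, 0, 0, ⟨0, 0⟩, 0⟩ 0 0)) (.cut .v 4294967296 (.cut .v 268435456 (.cut .s 16766976 (.cut .s 16765952 (.cut .s 16765440 (.cut .s 16765184 (.cut .d 6150 (.cut .d 3075 (.cut .v 67108864 (.pos 70 .pp ⟨0, 0, 0, 0,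 0, 0, 0, 0, 0, ⟨0, 0⟩, 0⟩ 0 0) (.cut .v 134217728 (.pos 87 .pp ⟨167772160000, 0, 0, 0, 0, 0, 0, 0, 0, ⟨0, 0⟩, 0⟩ 0 0) (.void 88 ⟨90482, 0, 0, 9518, 0, 0, 0, 0, 0, ⟨0, 0⟩, 0⟩ 0 0))) (.pos 85 .pp ⟨0, 0, 0, 54928328475, 0, 0, 0, 0, 0, ⟨0, 0⟩, 0⟩ 0 0)) (.pos 85 .pp ⟨0, 0, 0, 0, 0, 0, 0, 0, 0, ⟨0, 0⟩, 0⟩ 0 0)) (.pos 85 .pp ⟨0, 0, 0, 167772160000, 0, 0, 0, 0, 0, ⟨0, 0⟩, 0⟩ 0 0)) (.pos 85 .pp ⟨0, 0, 0, 0, 0, 0, 0, 0, 0, ⟨0, 0⟩, 0⟩ 0 0)) (.pos 85 .pp ⟨0, 0, 0, 0, 0, 0, 0, 0, 0, ⟨0, 0⟩, 0⟩ 0 0)) (.pos 85 .pp ⟨0, 0, 0, 0, 0, 0, 0, 0, 0, ⟨0, 0⟩, 0⟩ 0 0)) (.void 103 ⟨0, 0, 0, 100000, 0, 0, 0, 0, 0, ⟨0, 0⟩, 0⟩ 0 0)) (.void 170 ⟨0, 0, 0, 100000, 0, 0, 0, 0, 0, ⟨0, 0⟩, 0⟩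 0 0)))),
    by decide +kernel⟩

def covers45 : cell.Covers table row45.1 :=
  ⟨(.cut .d 0 (.cut .v 16777216 (.cut .d (-8388608) (.void 1 ⟨0, 0, 0, 0, 0, 1000000000, 0, 0, 0, ⟨0, 0⟩, 0⟩ 0 0) (.cut .d (-4194304) (.cut .s 16771072 (.void 1 ⟨0, 0, 100000, 0, 0, 0, 0, 0, 0, ⟨0, 0⟩, 0⟩ 0 0) (.void 1 ⟨0, 0, 100000, 0, 0, 0, 0, 0, 0, ⟨0, 0⟩, 0⟩ 0 0)) (.cut .d (-2097152) (.void 1 ⟨0, 0, 0, 0, 0, 1000000000, 0, 0, 0, ⟨0, 0⟩, 0⟩ 0 0) (.cut .d (-1048576) (.cut .s 16771072 (.void 1 ⟨0, 0, 100000, 0, 0, 0, 0, 0, 0, ⟨0, 0⟩, 0⟩ 0 0) (.void 1 ⟨0, 0, 100000, 0, 0, 0, 0, 0, 0, ⟨0, 0⟩, 0⟩ 0 0)) (.cut .d (-524288) (.void 1 ⟨0, 0, 0, 0, 0, 1000000000, 0, 0, 0, ⟨0, 0⟩, 0⟩ 0 0)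 (.cut .d (-262144) (.void 1 ⟨0, 0, 0, 0, 0, 1000000000, 0, 0, 0, ⟨0, 0⟩, 0⟩ 0 0) (.cut .d (-131072) (.void 1 ⟨0, 0, 0, 0, 0, 1000000000, 0, 0, 0, ⟨0, 0⟩, 0⟩ 0 0) (.cut .d (-65536) (.void 1 ⟨0, 0, 0, 0, 0, 1000000000, 0, 0, 0, ⟨0, 0⟩, 0⟩ 0 0) (.cut .d (-32768) (.cut .s 16771072 (.void 1 ⟨0, 0, 0, 0, 0, 1000000000, 0, 0, 0, ⟨0, 0⟩, 0⟩ 0 0) (.void 1 ⟨0, 0, 100000, 0, 0, 0, 0, 0, 0, ⟨0, 0⟩, 0⟩ 0 0)) (.cut .d (-16384) (.cut .s 16771072 (.void 1 ⟨0, 0, 0, 0, 0, 1000000000, 0, 0, 0, ⟨0, 0⟩, 0⟩ 0 0) (.void 1 ⟨0, 0, 100000, 0, 0, 0, 0, 0, 0, ⟨0, 0⟩, 0⟩ 0 0)) (.cut .d (-8192) (.void 1 ⟨0, 0, 1869, 0, 0, 98131, 0, 0, 0, ⟨0, 0⟩, 0⟩ 0 0) (.cut .v 8388608 (.void 2 ⟨0, 0,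 100000, 0, 0, 0, 0, 0, 0, ⟨0, 0⟩, 0⟩ 0 0) (.pos 3 .mm ⟨167772160000, 0, 0, 0, 0, 0, 0, 0, 0, ⟨0, 0⟩, 0⟩ 0 0))))))))))))) (.cut .v 4294967296 (.cut .d (-8388608) (.void 102 ⟨0, 0, 0, 0, 0, 1000000000, 0, 0, 0, ⟨0, 0⟩, 0⟩ 0 0) (.cut .v 268435456 (.cut .v 67108864 (.cut .d (-4194304) (.void 70 ⟨1000000000, 0, 0, 0, 0, 0, 0, 0, 0, ⟨0, 0⟩, 0⟩ 0 0) (.cut .d (-2097152) (.void 70 ⟨1000000000, 0, 0, 0, 0, 0, 0, 0, 0, ⟨0, 0⟩, 0⟩ 0 0) (.cut .d (-1048576) (.void 70 ⟨1000000000, 0, 0, 0, 0, 0, 0, 0, 0, ⟨0, 0⟩, 0⟩ 0 0) (.cut .d (-524288) (.void 70 ⟨1000000000, 0, 0, 0, 0, 0, 0, 0, 0, ⟨0, 0⟩, 0⟩ 0 0) (.cut .d (-262144) (.void 70 ⟨1000000000, 0, 0, 0, 0, 0, 0, 0, 0, ⟨0, 0⟩,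 0⟩ 0 0) (.cut .d (-131072) (.void 70 ⟨1000000000, 0, 0, 0, 0, 0, 0, 0, 0, ⟨0, 0⟩, 0⟩ 0 0) (.cut .d (-65536) (.void 70 ⟨1000000000, 0, 0, 0, 0, 0, 0, 0, 0, ⟨0, 0⟩, 0⟩ 0 0) (.cut .d (-32768) (.void 70 ⟨1000000000, 0, 0, 0, 0, 0, 0, 0, 0, ⟨0, 0⟩, 0⟩ 0 0) (.cut .d (-16384) (.void 70 ⟨1000000000, 0, 0, 0, 0, 0, 0, 0, 0, ⟨0, 0⟩, 0⟩ 0 0) (.cut .d (-8192) (.void 70 ⟨1000000000, 0, 0, 0, 0, 0, 0, 0, 0, ⟨0, 0⟩, 0⟩ 0 0) (.pos 70 .mp ⟨167772160000, 0, 0, 0, 0, 0, 0, 0, 0, ⟨0, 0⟩, 0⟩ 0 0))))))))))) (.void 86 ⟨1000000000, 0, 0, 0, 0, 0, 0, 0, 0, ⟨0, 0⟩, 0⟩ 0 0)) (.void 103 ⟨1000000000, 0, 0, 0, 0, 0, 0, 0, 0, ⟨0, 0⟩, 0⟩ 0 0))) (.void 170 ⟨1000000000, 0, 0, 0, 0, 0, 0, 0,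 0, ⟨0, 0⟩, 0⟩ 0 0))) (.cut .v 16777216 (.pos 1 .pm ⟨0, 0, 15937124, 0, 0, 0, 0, 0, 0, ⟨0, 0⟩, 0⟩ 0 0) (.cut .v 4294967296 (.cut .v 268435456 (.pos 85 .pp ⟨0, 0, 0, 0, 0, 0, 0, 0, 0, ⟨0, 0⟩, 0⟩ 0 0) (.cut .s 16771072 (.void 103 ⟨0, 0, 0, 100000, 0, 0, 0, 0, 0, ⟨0, 0⟩, 0⟩ 0 0) (.void 103 ⟨0, 0, 0, 100000, 0, 0, 0, 0, 0, ⟨0, 0⟩, 0⟩ 0 0))) (.void 170 ⟨0, 0, 0, 100000, 0, 0, 0, 0, 0, ⟨0, 0⟩, 0⟩ 0 0)))),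
    by decide +kernel⟩

end Vale.Agent.P237.Petty.Cor.Grid.N18.Low
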